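import Mathlib

/-! Row 22, stage-1 count (helper294), part 1: filtration lemmas for dimensions of spaces of functions. -/

set_option autoImplicit false

namespace Crest.Agent.R022.Cnt

open Module

variable {F : Type*} [Field F]

section Filt

variable {R S : Type*} [CommRing R] [IsDomain R] [Algebra F R] [AddCommGroup S] [Module F S]

theorem finite_comap_mul (V : Submodule F R) [FiniteDimensional F V] {π : R} (hπ : π ≠ 0) :
    FiniteDimensional F (V.comap (LinearMap.mulLeft F π)) := by
  have hinj : Function.Injective (LinearMap.mulLeft F π) := by
    intro a b h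
    simpa [hπ] using h
  exact Module.Finite.of_injective
    ((LinearMap.mulLeft F π).restrict (p := V.comap (LinearMap.mulLeft F π)) (q := V)
      (fun x hx => hx)) (by
      intro a b h
      apply Subtype.ext
      apply hinj
      have := congrArg Subtype.val h
      simpa using this)

/-- one step of the filtration by powers of `π` -/
theorem finrank_step (V : Submodule F R) [FiniteDimensional F V] {π : R} (hπ : π ≠ 0)
    (ψ : R →ₗ[F] S) (hψ : ∀ y, ψ (π * y) = 0) :
    finrank F (V.map ψ) + finrank F (V.comap (LinearMap.mulLeft F π)) ≤ finrank F V := by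
  have hinj : Function.Injective (LinearMap.mulLeft F π) := by
    intro a b h
    simpa [hπ] using h
  set φ : V →ₗ[F] S := ψ.comp V.subtype with hφ
  have hrk := φ.finrank_range_add_finrank_ker
  have hran : LinearMap.range φ = V.map ψ := by
    rw [hφ, LinearMap.range_comp, Submodule.range_subtype]
  rw [hran] at hrk
  let g : V.comap (LinearMap.mulLeft F π) →ₗ[F] LinearMap.ker φ :=
    LinearMap.codRestrict (LinearMap.ker φ)
      ((LinearMap.mulLeft F π).restrict (p := V.comap (LinearMap.mulLeft F π)) (q := V)
        (fun x hx => hx)) (by
        intro c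
        rw [LinearMap.mem_ker]
        exact hψ _)
  have hg : Function.Injective g := by
    intro a b h
    apply Subtype.ext
    apply hinj
    have h' : ((g a : V) : R) = ((g b : V) : R) := by rw [h]
    exact h'
  have := LinearMap.finrank_le_finrank_of_injective hg
  omega

/-- the chain of the filtration by powers of `π` -/
theorem finrank_chain (V : Submodule F R) [FiniteDimensional F V] {π : R} (hπ : π ≠ 0)
    (ψ : R →ₗ[F] S) (hψ : ∀ y, ψ (π * y) = 0) (E : ℕ) :
    (∑ e ∈ Finset.range E, finrank F ((V.comap (LinearMap.mulLeft F (π ^ e))).map ψ)) +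
      finrank F (V.comap (LinearMap.mulLeft F (π ^ E))) ≤ finrank F V := by
  induction E with
  | zero =>
    have h : V.comap (LinearMap.mulLeft F (π ^ 0)) = V := by
      ext x
      simp
    rw [h]
    simp
  | succ E ih =>
    rw [Finset.sum_range_succ]
    have hfd : FiniteDimensional F (V.comap (LinearMap.mulLeft F (π ^ E))) :=
      finite_comap_mul V (pow_ne_zero E hπ)
    have h1 := finrank_step (V.comap (LinearMap.mulLeft F (π ^ E))) hπ ψ hψ
    have h2 : (V.comap (LinearMap.mulLeft F (π ^ E))).comap (LinearMap.mulLeft F π) =
        V.comap (LinearMap.mulLeft F (π ^ (E + 1))) := by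
      ext x
      simp [pow_succ]
    rw [h2] at h1
    omega

end Filt

end Crest.Agent.R022.Cnt
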