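import Mathlib
import Crest.Agent.R022.CntStep

/-! Row 22, stage-1 count (helper294), part 3: degree filtration `Zup`, base case, lifting of the
dimension bound from `S` to `S[X]`. -/

set_option autoImplicit false

namespace Crest.Agent.R022.Cnt

open Module Finset Polynomial

variable {F : Type*} [Field F] {ι : Type*} [DecidableEq ι]

section Zup

variable {S : Type*} [CommRing S] [Algebra F S]

/-- polynomials `∑ z_c X^c` with `z_c ∈ Z' (m - c)`, `c ≤ m` -/
def Zup (Z' : ℕ → Submodule F S) (m : ℕ) : Submodule F S[X] where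
  carrier := {p | ∀ c, (c ≤ m → p.coeff c ∈ Z' (m - c)) ∧ (m < c → p.coeff c = 0)}
  add_mem' := by
    intro p q hp hq c
    refine ⟨fun h => ?_, fun h => ?_⟩
    · rw [Polynomial.coeff_add]
      exact add_mem ((hp c).1 h) ((hq c).1 h)
    · rw [Polynomial.coeff_add, (hp c).2 h, (hq c).2 h, add_zero]
  zero_mem' := by
    intro c
    refine ⟨fun h => ?_, fun h => ?_⟩
    · rw [Polynomial.coeff_zero]
      exact zero_mem _
    · rw [Polynomial.coeff_zero]
  smul_mem' := by
    intro r p hp c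
    refine ⟨fun h => ?_, fun h => ?_⟩
    · rw [Polynomial.coeff_smul]
      exact Submodule.smul_mem _ _ ((hp c).1 h)
    · rw [Polynomial.coeff_smul, (hp c).2 h, smul_zero]

theorem mem_Zup {Z' : ℕ → Submodule F S} {m : ℕ} {p : S[X]} :
    p ∈ Zup Z' m ↔ ∀ c, (c ≤ m → p.coeff c ∈ Z' (m - c)) ∧ (m < c → p.coeff c = 0) := Iff.rfl

/-- coefficients -/
noncomputable def ZupEquiv (Z' : ℕ → Submodule F S) (m : ℕ) :
    Zup Z' m ≃ₗ[F] ((c : Fin (m + 1)) → Z' (m - c)) where
  toFun p c := ⟨(p : S[X]).coeff c, ((mem_Zup.1 p.2) c).1 (Nat.lt_succ_iff.1 c.2)⟩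
  map_add' p q := by
    funext c
    apply Subtype.ext
    simp
  map_smul' r p := by
    funext c
    apply Subtype.ext
    simp
  invFun g := ⟨∑ c : Fin (m + 1), Polynomial.monomial (c : ℕ) (g c : S), by
    rw [mem_Zup]
    intro c
    refine ⟨fun h => ?_, fun h => ?_⟩
    · rw [Polynomial.finsetSum_coeff]
      rw [Finset.sum_eq_single (⟨c, Nat.lt_succ_iff.2 h⟩ : Fin (m + 1))]
      · simp
      · intro b _ hb
        rw [Polynomial.coeff_monomial, if_neg]
        intro hbc
        exact hb (Fin.ext hbc)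
      · intro h'
        exact absurd (Finset.mem_univ _) h'
    · rw [Polynomial.finsetSum_coeff]
      refine Finset.sum_eq_zero fun b _ => ?_
      rw [Polynomial.coeff_monomial, if_neg]
      intro hbc
      have := b.2
      omega⟩
  left_inv p := by
    apply Subtype.ext
    ext c
    simp only [Polynomial.finsetSum_coeff, Polynomial.coeff_monomial]
    by_cases h : c ≤ m
    · rw [Finset.sum_eq_single (⟨c, Nat.lt_succ_iff.2 h⟩ : Fin (m + 1))]
      · simp
      · intro b _ hb
        rw [if_neg]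
        intro hbc
        exact hb (Fin.ext hbc)
      · intro h'
        exact absurd (Finset.mem_univ _) h'
    · rw [((mem_Zup.1 p.2) c).2 (by omega)]
      refine Finset.sum_eq_zero fun b _ => ?_
      rw [if_neg]
      intro hbc
      have := b.2
      omega
  right_inv g := by
    funext c
    apply Subtype.ext
    simp only [Polynomial.finsetSum_coeff, Polynomial.coeff_monomial]
    rw [Finset.sum_eq_single c]
    · simp
    · intro b _ hb
      rw [if_neg]
      intro hbc
      exact hb (Fin.ext hbc)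
    · intro h'
      exact absurd (Finset.mem_univ _) h'

theorem Zup_finite {Z' : ℕ → Submodule F S} (h : ∀ m, FiniteDimensional F (Z' m)) (m : ℕ) :
    FiniteDimensional F (Zup Z' m) :=
  Module.Finite.equiv (ZupEquiv Z' m).symm

theorem finrank_Zup {Z' : ℕ → Submodule F S} (h : ∀ m, FiniteDimensional F (Z' m)) (m : ℕ) :
    finrank F (Zup Z' m) = ∑ c ∈ range (m + 1), finrank F (Z' (m - c)) := by
  rw [(ZupEquiv Z' m).finrank_eq, Module.finrank_pi_fintype, Finset.sum_range]

theorem C_mem_Zup {Z' : ℕ → Submodule F S} {m : ℕ} {z : S} (hz : z ∈ Z' m) :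
    (C z : S[X]) ∈ Zup Z' m := by
  rw [mem_Zup]
  intro c
  rw [Polynomial.coeff_C]
  split_ifs with h
  · subst h
    exact ⟨fun _ => by simpa using hz, fun h => absurd h (Nat.not_lt_zero _)⟩
  · exact ⟨fun _ => zero_mem _, fun _ => rfl⟩

omit [DecidableEq ι] in
theorem frm_mul_mem_Zup {Z' : ℕ → Submodule F S} {m : ℕ} {u : ι → F} {a : ι → S} {i : ι}
    (ha : ∀ m, ∀ z ∈ Z' m, a i * z ∈ Z' (m + 1)) {z : S[X]}
    (hz : z ∈ Zup Z' m) : frm u a i * z ∈ Zup Z' (m + 1) := by
  have key : (X + C (a i)) * z ∈ Zup Z' (m + 1) := by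
    rw [mem_Zup] at hz ⊢
    intro c
    rw [add_mul, Polynomial.coeff_add, Polynomial.coeff_C_mul]
    rcases c with _ | c
    · refine ⟨fun _ => ?_, fun h => absurd h (Nat.not_lt_zero _)⟩
      rw [Polynomial.coeff_X_mul_zero, zero_add]
      have := ha _ _ ((hz 0).1 (Nat.zero_le _))
      simpa using this
    · rw [Polynomial.coeff_X_mul]
      refine ⟨fun h => ?_, fun h => ?_⟩
      · have h1 : z.coeff c ∈ Z' (m + 1 - (c + 1)) := by
          have := (hz c).1 (by omega)
          rwa [show m + 1 - (c + 1) = m - c by omega]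
        refine add_mem h1 ?_
        by_cases hc : c + 1 ≤ m
        · have := ha _ _ ((hz (c + 1)).1 hc)
          rwa [show m + 1 - (c + 1) = m - (c + 1) + 1 by omega]
        · rw [(hz (c + 1)).2 (by omega), mul_zero]
          exact zero_mem _
      · rw [(hz c).2 (by omega), (hz (c + 1)).2 (by omega), mul_zero, add_zero]
  have h2 : frm u a i * z = (u i) • ((X + C (a i)) * z) := by
    rw [frm, mul_assoc, Algebra.smul_def]
    rfl
  rw [h2]
  exact Submodule.smul_mem _ _ key

end Zup

theorem Wsp_congr {R : Type*} [CommRing R] [Algebra F R] {k : ℕ} {Z : ℕ → Submodule F R}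
    {α α' : ι → R} {I : Finset ι} (h : ∀ i ∈ I, α i = α' i) (j m : ℕ) :
    Wsp k Z α I j m = Wsp k Z α' I j m := by
  unfold Wsp
  refine Finset.sup_congr rfl fun f _ => ?_
  have : ∏ i ∈ I, α i ^ (k * (j - f i)) = ∏ i ∈ I, α' i ^ (k * (j - f i)) :=
    Finset.prod_congr rfl fun i hi => by rw [h i hi]
  rw [this]

theorem Z_le_Wsp {R : Type*} [CommRing R] [Algebra F R] {k : ℕ} {Z : ℕ → Submodule F R}
    {α : ι → R} {i₁ : ι} (j m : ℕ) : Z m ≤ Wsp k Z α {i₁} j m := by
  intro z hz
  have hmem : (Pi.single i₁ j : ι → ℕ) ∈ ({i₁} : Finset ι).piAntidiag j := by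
    rw [Finset.mem_piAntidiag]
    constructor
    · simp
    · intro i hi
      by_contra h
      rw [Finset.mem_singleton] at h
      exact hi (Pi.single_eq_of_ne h _)
  have := mem_Wsp (F := F) (k := k) (α := α) hmem hz
  simpa using this

/-- the recursion for the dimension bound -/
def DR (k : ℕ) (D : ℕ → ℕ → ℕ → ℕ) (z : ℕ → ℕ) (c j m : ℕ) : ℕ :=
  z m + ∑ c' ∈ range c, ∑ l ∈ range j, ∑ s ∈ range (min k (m + 1)), D c' l (m - s)

theorem DR_succ (k : ℕ) (D : ℕ → ℕ → ℕ → ℕ) (z : ℕ → ℕ) (c j m : ℕ) :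
    DR k D z (c + 1) j m = DR k D z c j m +
      ∑ l ∈ range j, ∑ s ∈ range (min k (m + 1)), D c l (m - s) := by
  unfold DR
  rw [Finset.sum_range_succ]
  ring

section lift

variable {S : Type*} [CommRing S] [IsDomain S] [Algebra F S]

/-- lifting the dimension bound from `S` to `S[X]`. `D` is indexed by `#I - 1`. -/
theorem lift_bound {k : ℕ} {Z' : ℕ → Submodule F S} (hfin' : ∀ m, FiniteDimensional F (Z' m))
    {u : ι → F} {a : ι → S} (hu : ∀ i, u i ≠ 0) (T : Finset ι)
    (ha : ∀ i ∈ T, ∀ i' ∈ T, a i = a i' → i = i')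
    (haZ : ∀ i ∈ T, ∀ m, ∀ z ∈ Z' m, a i * z ∈ Z' (m + 1))
    (D : ℕ → ℕ → ℕ → ℕ) (z : ℕ → ℕ) (hz : ∀ m, z m ≤ finrank F (Zup Z' m))
    (hD : ∀ i₀ ∈ T, ∀ I ⊆ T.erase i₀, I.Nonempty → ∀ l m,
      D (I.card - 1) l m ≤ finrank F (Wsp k Z' (frm' u a i₀) I l m)) :
    ∀ I ⊆ T, I.Nonempty → ∀ j m,
      DR k D z (I.card - 1) j m ≤ finrank F (Wsp k (Zup Z') (frm u a) I j m) := by
  have hfinZ := fun m => Zup_finite (F := F) hfin' m
  intro I
  induction I using Finset.induction_on with
  | empty => intro _ h; exact absurd h Finset.not_nonempty_empty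
  | insert i₀ I hi₀ ih =>
    intro hIT _ j m
    have hi₀T : i₀ ∈ T := hIT (Finset.mem_insert_self _ _)
    rcases I.eq_empty_or_nonempty with rfl | hne
    · have h1 : DR k D z ((insert i₀ (∅ : Finset ι)).card - 1) j m = z m := by
        simp [DR]
      rw [h1]
      refine (hz m).trans ?_
      have := hfinZ m
      exact Submodule.finrank_mono (Z_le_Wsp (F := F) (i₁ := i₀) j m)
    · have hcard : (insert i₀ I).card - 1 = (I.card - 1) + 1 := by
        rw [Finset.card_insert_of_notMem hi₀]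
        have := hne.card_pos
        omega
      rw [hcard, DR_succ]
      have hIT' : I ⊆ T := fun i hi => hIT (Finset.mem_insert_of_mem hi)
      have h1 := ih hIT' hne j m
      have h2 := step_bound (F := F) (k := k) (j := j) (m := m) (Z := Zup Z') (Z' := Z')
        (u := u) (a := a) (I := I) (i₀ := i₀) hi₀ hfinZ hfin'
        (fun m z hz => C_mem_Zup hz)
        (fun m z hz => frm_mul_mem_Zup (haZ i₀ hi₀T) hz) hu
        (fun i hi h => hi₀ (by rw [← ha i (hIT' hi) i₀ hi₀T h]; exact hi))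
        (fun l m' => D (I.card - 1) l m')
        (fun l m' => hD i₀ hi₀T I (fun i hi => Finset.mem_erase.2
          ⟨fun h => hi₀ (h ▸ hi), hIT' hi⟩) hne l m')
      exact (Nat.add_le_add_right h1 _).trans h2

end lift

end Crest.Agent.R022.Cnt
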