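import Mathlib
import Crest.Agent.R022.CntLift

/-! Row 22, stage-1 count (helper294), part 5: the dimension bound for plane slices
`α_i = t₂ + θ_i t₁ + a_i` in general position. `F[X][X]`: inner variable `t₁`, outer `t₂`. -/

set_option autoImplicit false

namespace Crest.Agent.R022.Cnt

open Module Finset Polynomial

variable {F : Type*} [Field F] {ι : Type*} [DecidableEq ι]

/-- constants -/
noncomputable def Z0 (F : Type*) [Field F] : ℕ → Submodule F F := fun _ => ⊤
/-- polynomials of degree `≤ m` in one variable -/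
noncomputable def Z1 (F : Type*) [Field F] : ℕ → Submodule F F[X] := Zup (Z0 F)
/-- polynomials of degree `≤ m` in two variables -/
noncomputable def Z2 (F : Type*) [Field F] : ℕ → Submodule F F[X][X] := Zup (Z1 F)

theorem Z0_finite (m : ℕ) : FiniteDimensional F (Z0 F m) := by
  unfold Z0; infer_instance

theorem finrank_Z0 (m : ℕ) : finrank F (Z0 F m) = 1 := by
  unfold Z0
  rw [finrank_top, Module.finrank_self]

theorem Z1_finite (m : ℕ) : FiniteDimensional F (Z1 F m) := Zup_finite Z0_finite m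

theorem finrank_Z1 (m : ℕ) : finrank F (Z1 F m) = m + 1 := by
  unfold Z1
  rw [finrank_Zup Z0_finite]
  simp [finrank_Z0]

theorem Z2_finite (m : ℕ) : FiniteDimensional F (Z2 F m) := Zup_finite Z1_finite m

theorem finrank_Z2 (m : ℕ) : finrank F (Z2 F m) = ∑ c ∈ range (m + 1), (m - c + 1) := by
  unfold Z2
  rw [finrank_Zup Z1_finite]
  simp [finrank_Z1]

/-- dimension bounds, `c = #I - 1` -/
def D1 (k : ℕ) : ℕ → ℕ → ℕ → ℕ := DR k (fun _ _ _ => 1) (fun m => m + 1)
def D2 (k : ℕ) : ℕ → ℕ → ℕ → ℕ := DR k (D1 k) (fun m => ∑ c ∈ range (m + 1), (m - c + 1))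

theorem D1_eq (k c l m : ℕ) : D1 k c l m = m + 1 + c * (l * min k (m + 1)) := by
  simp [D1, DR]

theorem line_bound {k : ℕ} {u a : ι → F} (hu : ∀ i, u i ≠ 0) (T : Finset ι)
    (ha : ∀ i ∈ T, ∀ i' ∈ T, a i = a i' → i = i') :
    ∀ I ⊆ T, I.Nonempty → ∀ j m,
      D1 k (I.card - 1) j m ≤ finrank F (Wsp k (Z1 F) (frm u a) I j m) := by
  refine lift_bound (F := F) (S := F) (Z' := Z0 F) Z0_finite hu T ha
    (fun _ _ _ _ _ => Submodule.mem_top) (fun _ _ _ => 1) (fun m => m + 1)
    (fun m => (finrank_Z1 (F := F) m).ge) ?_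
  intro i₀ hi₀ I hI hne l m
  have hfd := Z0_finite (F := F) m
  obtain ⟨i₁, hi₁⟩ := hne
  have hmem : (Pi.single i₁ l : ι → ℕ) ∈ I.piAntidiag l := by
    rw [Finset.mem_piAntidiag]
    constructor
    · rw [Finset.sum_eq_single i₁]
      · simp
      · intro b _ hb
        exact Pi.single_eq_of_ne hb _
      · intro h
        exact absurd hi₁ h
    · intro i hi
      by_contra h
      have : i ≠ i₁ := fun h' => h (h' ▸ hi₁)
      exact hi (Pi.single_eq_of_ne this _)
  have h1 := mem_Wsp (F := F) (k := k) (Z := Z0 F) (α := frm' u a i₀) (m := m) hmem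
    (z := 1) Submodule.mem_top
  rw [Nat.one_le_iff_ne_zero, Ne, Submodule.finrank_eq_zero]
  intro hbot
  rw [hbot, Submodule.mem_bot, mul_one] at h1
  rw [Finset.prod_eq_zero_iff] at h1
  obtain ⟨i, hi, h2⟩ := h1
  have h4 : frm' (F := F) u a i₀ i = 0 := by
    by_contra hne
    exact pow_ne_zero _ hne h2
  rw [frm'] at h4
  rcases mul_eq_zero.1 h4 with h5 | h5
  · exact hu i (by simpa using h5)
  · have h6 := hI hi
    rw [Finset.mem_erase] at h6
    exact h6.1 (ha i h6.2 i₀ hi₀ (sub_eq_zero.1 h5))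

/-- the affine forms `θ_i t₁ + a_i` -/
noncomputable def Aff (θ a : ι → F) (i : ι) : F[X] := C (θ i) * X + C (a i)

/-- the affine forms `t₂ + θ_i t₁ + a_i` -/
noncomputable def alp (θ a : ι → F) (i : ι) : F[X][X] := X + C (Aff θ a i)

omit [DecidableEq ι] in
theorem alp_eq (θ a : ι → F) : alp θ a = frm (fun _ => (1 : F)) (Aff θ a) := by
  funext i
  simp [alp, frm]

theorem X_mul_mem_Z1 {m : ℕ} {z : F[X]} (hz : z ∈ Z1 F m) : X * z ∈ Z1 F (m + 1) := by
  have := frm_mul_mem_Zup (F := F) (S := F) (ι := Unit) (Z' := Z0 F) (m := m) (u := fun _ => 1)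
    (a := fun _ => 0) (i := ()) (fun _ _ _ => Submodule.mem_top) (z := z) hz
  show X * z ∈ Zup (Z0 F) (m + 1)
  simpa [frm] using this

theorem Z1_mono {m m' : ℕ} (h : m ≤ m') : Z1 F m ≤ Z1 F m' := by
  intro z hz
  rw [Z1, mem_Zup] at hz ⊢
  intro c
  exact ⟨fun _ => Submodule.mem_top, fun hc => (hz c).2 (by omega)⟩

omit [DecidableEq ι] in
theorem Aff_mul_mem {θ a : ι → F} {i : ι} {m : ℕ} {z : F[X]} (hz : z ∈ Z1 F m) :
    Aff θ a i * z ∈ Z1 F (m + 1) := by
  have h1 : Aff θ a i * z = (θ i) • (X * z) + (a i) • z := by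
    rw [Aff, Polynomial.smul_eq_C_mul, Polynomial.smul_eq_C_mul]
    ring
  rw [h1]
  exact add_mem (Submodule.smul_mem _ _ (X_mul_mem_Z1 hz))
    (Submodule.smul_mem _ _ (Z1_mono (Nat.le_succ m) hz))

/-- the dimension bound for a plane slice in general position -/
theorem plane_bound {k : ℕ} {θ a : ι → F} (hθ : Function.Injective θ)
    (hgp : ∀ i₀ i i', i ≠ i₀ → i' ≠ i₀ → i ≠ i' →
      (a i - a i₀) * (θ i' - θ i₀) ≠ (a i' - a i₀) * (θ i - θ i₀)) (T : Finset ι) :
    ∀ I ⊆ T, I.Nonempty → ∀ j m,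
      D2 k (I.card - 1) j m ≤ finrank F (Wsp k (Z2 F) (alp θ a) I j m) := by
  rw [alp_eq]
  refine lift_bound (F := F) (S := F[X]) (Z' := Z1 F) Z1_finite (fun _ => one_ne_zero) T ?_
    (fun i _ m z hz => Aff_mul_mem hz) (D1 k) _
    (fun m => (finrank_Z2 (F := F) m).ge) ?_
  · intro i _ i' _ h
    have h1 := congrArg (fun p => Polynomial.coeff p 1) h
    simp only [Aff, Polynomial.coeff_add, Polynomial.coeff_C_mul, Polynomial.coeff_X_one,
      mul_one] at h1
    rw [Polynomial.coeff_C_succ, Polynomial.coeff_C_succ, add_zero, add_zero] at h1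
    exact hθ h1
  · intro i₀ hi₀ I hI hne l m
    set u' : ι → F := fun i => if i = i₀ then 1 else θ i - θ i₀ with hu'
    set a' : ι → F := fun i => (a i - a i₀) / (θ i - θ i₀) with ha'
    have hsub : ∀ i, i ≠ i₀ → θ i - θ i₀ ≠ 0 := fun i hi h => hi (hθ (sub_eq_zero.1 h))
    have hu'0 : ∀ i, u' i ≠ 0 := by
      intro i
      simp only [hu']
      split_ifs with h
      · exact one_ne_zero
      · exact hsub i h
    have hcongr : Wsp k (Z1 F) (frm' (fun _ => (1 : F)) (Aff θ a) i₀) I l m =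
        Wsp k (Z1 F) (frm u' a') I l m := by
      refine Wsp_congr (fun i hi => ?_) l m
      have hi' : i ≠ i₀ := (Finset.mem_erase.1 (hI hi)).1
      have h1 := hsub i hi'
      rw [frm', frm, map_one, one_mul, Aff, Aff]
      simp only [hu', ha', if_neg hi']
      have h2 : (algebraMap F F[X]) = C := rfl
      rw [Algebra.algebraMap_self_apply]
      have h3 : C (a i - a i₀) = C (θ i - θ i₀) * C ((a i - a i₀) / (θ i - θ i₀)) := by
        rw [← C_mul]
        congr 1
        field_simp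
      rw [mul_add, ← h3, C_sub, C_sub]
      ring
    rw [hcongr]
    refine line_bound (F := F) hu'0 (T.erase i₀) ?_ I hI hne l m
    intro i hi i' hi' h
    by_contra hne'
    have hi1 := (Finset.mem_erase.1 hi).1
    have hi2 := (Finset.mem_erase.1 hi').1
    refine hgp i₀ i i' hi1 hi2 hne' ?_
    simp only [ha'] at h
    rwa [div_eq_div_iff (hsub i hi1) (hsub i' hi2)] at h

end Crest.Agent.R022.Cnt
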