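import Mathlib

/-! Row 22, stage-1 count (helper294), part 4: greedy choice of a linearly independent subfamily with
small total weight. -/

set_option autoImplicit false

namespace Crest.Agent.R022.Cnt

open Module Finset

variable {F : Type*} [Field F] {V : Type*} [AddCommGroup V] [Module F V] {Ω : Type*}
  [DecidableEq Ω]

theorem exists_insert {x : Ω → V} {s T : Finset Ω} (hs : LinearIndepOn F x (s : Set Ω))
    (hlt : s.card < finrank F (Submodule.span F (x '' (T : Set Ω)))) :
    ∃ ω ∈ T, ω ∉ s ∧ LinearIndepOn F x ((insert ω s : Finset Ω) : Set Ω) := by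
  classical
  by_contra hcon
  push Not at hcon
  have hle : Submodule.span F (x '' (T : Set Ω)) ≤ Submodule.span F (x '' (s : Set Ω)) := by
    rw [Submodule.span_le]
    rintro _ ⟨ω, hω, rfl⟩
    by_cases hωs : ω ∈ s
    · exact Submodule.subset_span ⟨ω, hωs, rfl⟩
    · have h1 := hcon ω hω hωs
      by_contra h2
      apply h1
      rw [Finset.coe_insert]
      exact (linearIndepOn_insert (by simpa using hωs)).2 ⟨hs, h2⟩
  have hfin : FiniteDimensional F (Submodule.span F (x '' (s : Set Ω))) :=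
    FiniteDimensional.span_of_finite F (s.finite_toSet.image x)
  have h1 := Submodule.finrank_mono hle
  have h2 : finrank F (Submodule.span F (x '' (s : Set Ω))) ≤ s.card := by
    have h3 := finrank_span_finset_le_card (R := F) (s.image x)
    have h4 : ((s.image x : Finset V) : Set V) = x '' (s : Set Ω) := by simp
    rw [Set.finrank, h4] at h3
    exact h3.trans Finset.card_image_le
  omega

theorem exists_extend {x : Ω → V} {s T : Finset Ω} (hs : LinearIndepOn F x (s : Set Ω)) (n : ℕ)
    (hle : s.card + n ≤ finrank F (Submodule.span F (x '' (T : Set Ω)))) :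
    ∃ s' : Finset Ω, s ⊆ s' ∧ (∀ ω ∈ s', ω ∉ s → ω ∈ T) ∧ s'.card = s.card + n ∧
      LinearIndepOn F x (s' : Set Ω) := by
  induction n with
  | zero => exact ⟨s, Subset.refl _, fun ω h h' => absurd h h', rfl, hs⟩
  | succ n ih =>
    obtain ⟨s', h1, h2, h3, h4⟩ := ih (by omega)
    obtain ⟨ω, hωT, hωs, hli⟩ := exists_insert (T := T) h4 (by omega)
    refine ⟨insert ω s', h1.trans (Finset.subset_insert _ _), ?_, ?_, hli⟩
    · intro ω' hω' hn
      rw [Finset.mem_insert] at hω'
      rcases hω' with rfl | h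
      · exact hωT
      · exact h2 ω' h hn
    · rw [Finset.card_insert_of_notMem hωs, h3]
      ring

/-- greedy choice: from lower bounds `H y` for the dimension of the span of the vectors of weight
`≤ y` one gets an independent subfamily with `H Y` elements and small total weight -/
theorem exists_greedy {x : Ω → V} (w : Ω → ℝ) (T : ℕ → Finset Ω)
    (hT : ∀ y, ∀ ω ∈ T y, w ω ≤ y) (H : ℕ → ℕ) (hH : Monotone H) (Y : ℕ)
    (hdim : ∀ y ≤ Y, H y ≤ finrank F (Submodule.span F (x '' (T y : Set Ω)))) :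
    ∃ s : Finset Ω, (∀ ω ∈ s, ∃ y ≤ Y, ω ∈ T y) ∧ s.card = H Y ∧ LinearIndepOn F x (s : Set Ω) ∧
      ∑ ω ∈ s, w ω ≤ (Y : ℝ) * H Y - ∑ y ∈ range Y, (H y : ℝ) := by
  induction Y with
  | zero =>
    obtain ⟨s, h1, h2, h3, h4⟩ := exists_extend (F := F) (x := x) (s := ∅) (T := T 0)
      (by simp) (H 0) (by simpa using hdim 0 le_rfl)
    refine ⟨s, fun ω hω => ⟨0, le_rfl, h2 ω hω (Finset.notMem_empty _)⟩, by simpa using h3, h4, ?_⟩
    have : ∑ ω ∈ s, w ω ≤ ∑ ω ∈ s, (0 : ℝ) := Finset.sum_le_sum fun ω hω => by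
      have := hT 0 ω (h2 ω hω (Finset.notMem_empty _))
      simpa using this
    simpa using this
  | succ Y ih =>
    obtain ⟨s, h1, h2, h3, h4⟩ := ih fun y hy => hdim y (by omega)
    have hmon := hH (Nat.le_succ Y)
    obtain ⟨s', g1, g2, g3, g4⟩ := exists_extend (F := F) (T := T (Y + 1)) h3 (H (Y + 1) - H Y)
      (by
        have := hdim (Y + 1) le_rfl
        rw [h2]
        simp only [Nat.succ_eq_add_one] at hmon
        omega)
    refine ⟨s', ?_, ?_, g4, ?_⟩
    · intro ω hω
      by_cases h : ω ∈ s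
      · obtain ⟨y, hy, hyT⟩ := h1 ω h
        exact ⟨y, by omega, hyT⟩
      · exact ⟨Y + 1, le_rfl, g2 ω hω h⟩
    · rw [g3, h2]
      simp only [Nat.succ_eq_add_one] at hmon
      omega
    · have hsplit : ∑ ω ∈ s', w ω = ∑ ω ∈ s, w ω + ∑ ω ∈ s' \ s, w ω := by
        rw [add_comm]
        exact (Finset.sum_sdiff g1).symm
      have hcard : (s' \ s).card = H (Y + 1) - H Y := by
        rw [Finset.card_sdiff_of_subset g1, g3]
        omega
      have hb : ∑ ω ∈ s' \ s, w ω ≤ ∑ ω ∈ s' \ s, ((Y + 1 : ℕ) : ℝ) :=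
        Finset.sum_le_sum fun ω hω => by
          rw [Finset.mem_sdiff] at hω
          exact hT _ _ (g2 ω hω.1 hω.2)
      rw [Finset.sum_const, hcard, nsmul_eq_mul] at hb
      have hsub : ((H (Y + 1) - H Y : ℕ) : ℝ) = (H (Y + 1) : ℝ) - H Y := by
        rw [Nat.cast_sub hmon]
      rw [hsub] at hb
      rw [hsplit, Finset.sum_range_succ]
      push_cast at hb ⊢
      nlinarith [h4, hb]

end Crest.Agent.R022.Cnt
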