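import Mathlib
import Crest.Agent.R022.CntPlane
import Crest.Agent.R022.CntSelect

/-! Row 22, stage-1 count (helper294), part 6: the monomials `t^e b^f` as polynomials in `n` over
the ring `R` of functions of `t`, and the lower bound for the dimension of their span. -/

set_option autoImplicit false

namespace Crest.Agent.R022.Cnt

open Module Finset Polynomial

variable {F : Type*} [Field F] {ι : Type*} [DecidableEq ι] [Fintype ι]
  {κ : Type*} [DecidableEq κ] [Fintype κ] {E : Type*} [DecidableEq E]
  {R : Type*} [CommRing R] [IsDomain R] [Algebra F R]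

/-- generic splitting -/
theorem finrank_split {A S : Type*} [AddCommGroup A] [Module F A] [AddCommGroup S] [Module F S]
    (V V' : Submodule F A) [FiniteDimensional F V] (h : V' ≤ V) (K : A →ₗ[F] S)
    (hK : ∀ y ∈ V', K y = 0) :
    finrank F (V.map K) + finrank F V' ≤ finrank F V := by
  set φ : V →ₗ[F] S := K.comp V.subtype with hφ
  have hrk := φ.finrank_range_add_finrank_ker
  have hran : LinearMap.range φ = V.map K := by
    rw [hφ, LinearMap.range_comp, Submodule.range_subtype]
  rw [hran] at hrk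
  let g : V' →ₗ[F] LinearMap.ker φ :=
    LinearMap.codRestrict (LinearMap.ker φ) (Submodule.inclusion h) (by
      intro c
      rw [LinearMap.mem_ker]
      exact hK _ c.2)
  have hg : Function.Injective g := by
    intro a b hab
    apply Subtype.ext
    have h' : ((g a : V) : A) = ((g b : V) : A) := by rw [hab]
    exact h'
  have := LinearMap.finrank_le_finrank_of_injective hg
  omega

omit [Fintype ι] in
theorem coeff_prod_pow {R : Type*} [CommRing R] (c : ι → R[X]) (hc : ∀ i, (c i).natDegree ≤ 1)
    (f : ι → ℕ) (s : Finset ι) :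
    (∏ i ∈ s, c i ^ f i).natDegree ≤ ∑ i ∈ s, f i ∧
      (∏ i ∈ s, c i ^ f i).coeff (∑ i ∈ s, f i) = ∏ i ∈ s, (c i).coeff 1 ^ f i := by
  induction s using Finset.induction_on with
  | empty => simp
  | insert i s hi ih =>
    rw [Finset.prod_insert hi, Finset.sum_insert hi, Finset.prod_insert hi]
    have h1 : (c i ^ f i).natDegree ≤ f i := by
      have := Polynomial.natDegree_pow_le_of_le (f i) (hc i)
      simpa using this
    have h2 : (c i ^ f i).coeff (f i) = (c i).coeff 1 ^ f i := by
      have := Polynomial.coeff_pow_of_natDegree_le (m := f i) (hc i)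
      simpa using this
    refine ⟨Polynomial.natDegree_mul_le_of_le h1 ih.1, ?_⟩
    rw [Polynomial.coeff_mul_add_eq_of_natDegree_le h1 ih.1, h2, ih.2]

/-- the monomial function `t^e b^f N^(k (J - |f|))` -/
noncomputable def mon (k J : ℕ) (α : ι → R) (mo : E → R) (B : κ → R[X]) (ω : E × (κ → ℕ)) : R[X] :=
  C (mo ω.1) * (∏ l, B l ^ ω.2 l) * C ((∏ i, α i) ^ (k * (J - ∑ l, ω.2 l)))

/-- the index set of monomials with `|f| = j`, `e ∈ Ex m` -/
def idx (κ : Type*) [DecidableEq κ] [Fintype κ] (Ex : ℕ → Finset E) (j m : ℕ) :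
    Finset (E × (κ → ℕ)) :=
  (Ex m) ×ˢ (univ : Finset κ).piAntidiag j

omit [DecidableEq E] in
theorem mem_idx {Ex : ℕ → Finset E} {j m : ℕ} {ω : E × (κ → ℕ)} :
    ω ∈ idx κ Ex j m ↔ ω.1 ∈ Ex m ∧ ∑ l, ω.2 l = j := by
  unfold idx
  rw [Finset.mem_product, Finset.mem_piAntidiag]
  constructor
  · rintro ⟨h, h', _⟩
    exact ⟨h, h'⟩
  · rintro ⟨h, h'⟩
    exact ⟨h, h', fun _ _ => Finset.mem_univ _⟩

/-- the span of degree `j` monomials in the `B l` -/
noncomputable def Qsp (F : Type*) [Field F] {R : Type*} [CommRing R] [Algebra F R]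
    (B : κ → R[X]) (j : ℕ) : Submodule F R[X] :=
  Submodule.span F ((fun f : κ → ℕ => ∏ l, B l ^ f l) '' {f | ∑ l, f l = j})

omit [IsDomain R] in
theorem mul_mem_Qsp {B : κ → R[X]} {j : ℕ} {c q : R[X]}
    (hc : c ∈ Submodule.span F (Set.range B)) (hq : q ∈ Qsp F B j) : c * q ∈ Qsp F B (j + 1) := by
  unfold Qsp at *
  induction hc, hq using Submodule.span_induction₂ with
  | mem_mem x y hx hy =>
    obtain ⟨l, rfl⟩ := hx
    obtain ⟨f, hf, rfl⟩ := hy
    refine Submodule.subset_span ⟨(f + Pi.single l 1 : κ → ℕ), ?_, ?_⟩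
    · show ∑ l', (f + Pi.single l 1 : κ → ℕ) l' = j + 1
      simp only [Pi.add_apply, Finset.sum_add_distrib]
      rw [show ∑ l, f l = j from hf]
      simp
    · show ∏ l', B l' ^ ((f + Pi.single l 1 : κ → ℕ) l') = B l * ∏ l', B l' ^ f l'
      simp only [Pi.add_apply, pow_add, Finset.prod_mul_distrib]
      have h1 : ∏ x, B x ^ (Pi.single l 1 : κ → ℕ) x = B l := by
        rw [Finset.prod_eq_single l]
        · simp
        · intro b _ hb
          rw [Pi.single_eq_of_ne hb, pow_zero]
        · intro h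
          exact absurd (Finset.mem_univ _) h
      rw [h1, mul_comm]
  | zero_left y hy => rw [zero_mul]; exact zero_mem _
  | zero_right x hx => rw [mul_zero]; exact zero_mem _
  | add_left x y z hx hy hz h1 h2 => rw [add_mul]; exact add_mem h1 h2
  | add_right x y z hx hy hz h1 h2 => rw [mul_add]; exact add_mem h1 h2
  | smul_left r x y hx hy h => rw [smul_mul_assoc]; exact Submodule.smul_mem _ _ h
  | smul_right r x y hx hy h => rw [mul_smul_comm]; exact Submodule.smul_mem _ _ h

omit [Fintype ι] [IsDomain R] in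
theorem prod_mem_Qsp {B : κ → R[X]} {c : ι → R[X]}
    (hc : ∀ i, c i ∈ Submodule.span F (Set.range B)) (f : ι → ℕ) (s : Finset ι) :
    ∏ i ∈ s, c i ^ f i ∈ Qsp F B (∑ i ∈ s, f i) := by
  induction s using Finset.induction_on with
  | empty =>
    refine Submodule.subset_span ⟨0, ?_, ?_⟩
    · simp
    · simp
  | insert i s hi ih =>
    rw [Finset.prod_insert hi, Finset.sum_insert hi]
    have key : ∀ n : ℕ, c i ^ n * ∏ i ∈ s, c i ^ f i ∈ Qsp F B (n + ∑ i ∈ s, f i) := by
      intro n
      induction n with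
      | zero => simpa using ih
      | succ n ihn =>
        have := mul_mem_Qsp (hc i) ihn
        rw [pow_succ', mul_assoc, show n + 1 + ∑ i ∈ s, f i = n + ∑ i ∈ s, f i + 1 by ring]
        exact this
    exact key (f i)

omit [DecidableEq ι] [IsDomain R] [DecidableEq E] in
theorem mul_mem_span_mon {k J j m : ℕ} {α : ι → R} {mo : E → R} {Z : ℕ → Submodule F R}
    {Ex : ℕ → Finset E} (hEx : ∀ m, Z m ≤ Submodule.span F (mo '' (Ex m : Set E)))
    {B : κ → R[X]} {z : R}
    {q : R[X]} (hz : z ∈ Z m) (hq : q ∈ Qsp F B j) :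
    C z * q * C ((∏ i, α i) ^ (k * (J - j))) ∈
      Submodule.span F (mon k J α mo B '' (idx κ Ex j m : Set _)) := by
  have hz' := hEx m hz
  clear hz
  unfold Qsp at hq
  induction hz', hq using Submodule.span_induction₂ with
  | mem_mem x y hx hy =>
    obtain ⟨e, he, rfl⟩ := hx
    obtain ⟨f, hf, rfl⟩ := hy
    refine Submodule.subset_span ⟨(e, f), ?_, ?_⟩
    · rw [Finset.mem_coe, mem_idx]
      exact ⟨he, hf⟩
    · show mon k J α mo B (e, f) = _
      unfold mon
      simp only
      rw [show ∑ l, f l = j from hf]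
  | zero_left y hy => simp
  | zero_right x hx => simp
  | add_left x y z hx hy hz h1 h2 =>
    rw [C_add, add_mul, add_mul]; exact add_mem h1 h2
  | add_right x y z hx hy hz h1 h2 => rw [mul_add, add_mul]; exact add_mem h1 h2
  | smul_left r x y hx hy h =>
    have : C (r • x) = r • (C x : R[X]) := by
      rw [Polynomial.smul_C]
    rw [this, smul_mul_assoc, smul_mul_assoc]
    exact Submodule.smul_mem _ _ h
  | smul_right r x y hx hy h =>
    rw [mul_smul_comm, smul_mul_assoc]; exact Submodule.smul_mem _ _ h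

/-- the index set with budgets `m j`, `j < J'` -/
def idxs (κ : Type*) [DecidableEq κ] [Fintype κ] (Ex : ℕ → Finset E) (m : ℕ → ℕ) (J' : ℕ) :
    Finset (E × (κ → ℕ)) := (range J').biUnion fun j => idx κ Ex j (m j)

theorem mem_idxs {Ex : ℕ → Finset E} {m : ℕ → ℕ} {J' : ℕ} {ω : E × (κ → ℕ)} :
    ω ∈ idxs κ Ex m J' ↔ ∑ l, ω.2 l < J' ∧ ω.1 ∈ Ex (m (∑ l, ω.2 l)) := by
  unfold idxs
  rw [Finset.mem_biUnion]
  constructor
  · rintro ⟨j, hj, h⟩
    rw [mem_idx] at h
    rw [h.2]
    exact ⟨Finset.mem_range.1 hj, h.1⟩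
  · rintro ⟨h1, h2⟩
    exact ⟨_, Finset.mem_range.2 h1, mem_idx.2 ⟨h2, rfl⟩⟩

omit [IsDomain R] in
theorem prod_swap {α : ι → R} {k j : ℕ} {f : ι → ℕ} (hf : ∑ i, f i = j) :
    ∏ i, ∏ i' ∈ univ.erase i, α i' ^ (k * f i) = ∏ i, α i ^ (k * (j - f i)) := by
  have h8 : ∀ i, ∏ i' ∈ univ.erase i, α i' ^ (k * f i) =
      ∏ i', α i' ^ (if i' = i then 0 else k * f i) := by
    intro i
    rw [← Finset.mul_prod_erase univ _ (Finset.mem_univ i), if_pos rfl, pow_zero, one_mul]
    refine Finset.prod_congr rfl fun i' hi' => ?_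
    rw [if_neg (Finset.ne_of_mem_erase hi')]
  simp_rw [h8]
  rw [Finset.prod_comm]
  refine Finset.prod_congr rfl fun i' _ => ?_
  rw [Finset.prod_pow_eq_pow_sum]
  congr 1
  rw [← Finset.add_sum_erase univ _ (Finset.mem_univ i'), if_pos rfl, zero_add]
  have h9 : ∑ x ∈ univ.erase i', (if i' = x then 0 else k * f x) =
      ∑ x ∈ univ.erase i', k * f x := by
    refine Finset.sum_congr rfl fun x hx => ?_
    rw [if_neg (Finset.ne_of_mem_erase hx).symm]
  rw [h9, ← Finset.mul_sum]
  congr 1
  have h10 := Finset.add_sum_erase univ f (Finset.mem_univ i')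
  omega

/-- **the dimension bound**: the functions `t^e b^f` with `|f| = j < J'`, `e ∈ Ex (m j)` span a
space of dimension `≥ ∑_{j < J'} dim W_j(m j)`. Here `c i` stands for `N^k β_i`, i.e.
`μ (n - θ'_i) ∏_{i' ≠ i} α_{i'}^k`. -/
theorem fam_dim {k J : ℕ} {α : ι → R} (hα : ∀ i, α i ≠ 0) {mo : E → R} {Z : ℕ → Submodule F R}
    (hfinZ : ∀ m, FiniteDimensional F (Z m))
    {Ex : ℕ → Finset E} (hEx : ∀ m, Z m ≤ Submodule.span F (mo '' (Ex m : Set E)))
    {D : ℕ → ℕ → ℕ} (hW : ∀ j m, D j m ≤ finrank F (Wsp k Z α univ j m))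
    {B : κ → R[X]} {c : ι → R[X]} {μ : F} (hμ : μ ≠ 0)
    (hB : ∀ l, (B l).natDegree ≤ 1) (hc : ∀ i, (c i).natDegree ≤ 1)
    (hc1 : ∀ i, (c i).coeff 1 = algebraMap F R μ * ∏ i' ∈ univ.erase i, α i' ^ k)
    (hcB : ∀ i, c i ∈ Submodule.span F (Set.range B)) (m : ℕ → ℕ) (J' : ℕ) :
    ∑ j ∈ range J', D j (m j) ≤
      finrank F (Submodule.span F (mon k J α mo B '' (idxs κ Ex m J' : Set _))) := by
  induction J' with
  | zero => simp
  | succ j ih =>
    rw [Finset.sum_range_succ]
    set V : Submodule F R[X] := Submodule.span F (mon k J α mo B '' (idxs κ Ex m (j + 1) : Set _))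
      with hV
    set V' : Submodule F R[X] := Submodule.span F (mon k J α mo B '' (idxs κ Ex m j : Set _))
      with hV'
    have hfd : FiniteDimensional F V :=
      FiniteDimensional.span_of_finite F ((idxs κ Ex m (j + 1)).finite_toSet.image _)
    have hle : V' ≤ V := by
      refine Submodule.span_mono (Set.image_mono ?_)
      intro ω hω
      rw [Finset.mem_coe, mem_idxs] at *
      exact ⟨by omega, hω.2⟩
    have hdeg : ∀ ω, (mon k J α mo B ω).natDegree ≤ ∑ l, ω.2 l := by
      intro ω
      unfold mon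
      refine Polynomial.natDegree_mul_C_le _ _ |>.trans ?_
      refine Polynomial.natDegree_C_mul_le _ _ |>.trans ?_
      exact (coeff_prod_pow B hB ω.2 univ).1
    set K : R[X] →ₗ[F] R := (Polynomial.lcoeff R j).restrictScalars F with hK
    have hKV' : ∀ y ∈ V', K y = 0 := by
      intro y hy
      have : V' ≤ LinearMap.ker K := by
        rw [hV', Submodule.span_le]
        rintro _ ⟨ω, hω, rfl⟩
        rw [Finset.mem_coe, mem_idxs] at hω
        rw [SetLike.mem_coe, LinearMap.mem_ker]
        show (mon k J α mo B ω).coeff j = 0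
        exact Polynomial.coeff_eq_zero_of_natDegree_lt (lt_of_le_of_lt (hdeg ω) hω.1)
      exact this hy
    have h1 := finrank_split V V' hle K hKV'
    have hα0 : (∏ i, α i) ^ (k * (J - j)) ≠ 0 :=
      pow_ne_zero _ (Finset.prod_ne_zero_iff.2 fun i _ => hα i)
    have h2 : finrank F (Wsp k Z α univ j (m j)) ≤ finrank F (V.map K) := by
      have hfZ := hfinZ (m j)
      -- multiplication by `μ^j N^(k (J - j))`
      set g : R := (algebraMap F R (μ ^ j)) * (∏ i, α i) ^ (k * (J - j)) with hg
      have hg0 : g ≠ 0 := by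
        refine mul_ne_zero ?_ hα0
        intro h
        have := (algebraMap F R).injective (h.trans (map_zero _).symm)
        exact pow_ne_zero _ hμ this
      have hinj : Function.Injective (LinearMap.mulLeft F g) := by
        intro x y h
        simpa [hg0] using h
      have hsub : Wsp k Z α univ j (m j) ≤ (V.map K).comap (LinearMap.mulLeft F g) := by
        refine Wsp_le ?_
        intro f hf z hz
        rw [Submodule.mem_comap, LinearMap.mulLeft_apply, Submodule.mem_map]
        rw [Finset.mem_piAntidiag] at hf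
        refine ⟨C z * (∏ i, c i ^ f i) * C ((∏ i, α i) ^ (k * (J - j))), ?_, ?_⟩
        · have h3 := prod_mem_Qsp (F := F) hcB f univ
          rw [hf.1] at h3
          have h4 := mul_mem_span_mon (k := k) (J := J) (α := α) hEx hz h3
          refine Submodule.span_mono (Set.image_mono ?_) h4
          intro ω hω
          rw [Finset.mem_coe, mem_idx] at hω
          rw [Finset.mem_coe, mem_idxs, hω.2]
          exact ⟨Nat.lt_succ_self _, hω.1⟩
        · show (C z * (∏ i, c i ^ f i) * C ((∏ i, α i) ^ (k * (J - j)))).coeff j = _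
          rw [Polynomial.coeff_mul_C, Polynomial.coeff_C_mul]
          have h5 := (coeff_prod_pow c hc f univ).2
          rw [hf.1] at h5
          rw [h5]
          have h6 : ∏ i, (c i).coeff 1 ^ f i =
              algebraMap F R (μ ^ j) * ∏ i, α i ^ (k * (j - f i)) := by
            have h7 : ∀ i, (c i).coeff 1 ^ f i = algebraMap F R (μ ^ f i) *
                ∏ i' ∈ univ.erase i, α i' ^ (k * f i) := by
              intro i
              rw [hc1 i, mul_pow, map_pow, ← Finset.prod_pow]
              congr 1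
              refine Finset.prod_congr rfl fun i' _ => ?_
              rw [pow_mul]
            simp_rw [h7]
            rw [Finset.prod_mul_distrib, ← map_prod, Finset.prod_pow_eq_pow_sum, hf.1,
              prod_swap hf.1]
          rw [h6, hg]
          ring
      have := LinearMap.finrank_le_finrank_of_injective
        (f := (LinearMap.mulLeft F g).restrict (p := Wsp k Z α univ j (m j))
          (q := V.map K) (fun x hx => hsub hx)) (by
          intro x y h
          apply Subtype.ext
          apply hinj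
          have := congrArg Subtype.val h
          simpa using this)
      exact this
    have h3 := hW j (m j)
    omega

end Crest.Agent.R022.Cnt
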