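import Mathlib
import Crest.Agent.R022.CntFam
import Crest.Agent.R022.CntPlane

/-! Row 22, stage-1 count (helper294), part 7: explicit lower bound for `D2`, generators of `Z2`. -/

set_option autoImplicit false

namespace Crest.Agent.R022.Cnt

open Module Finset Polynomial

/-- the sum of `min`-free type: explicit lower bound for `D2` when `m ≥ 2k` -/
theorem D2_lower {k c j m : ℕ} (hm : 2 * k ≤ m) :
    ((m : ℝ) ^ 2 / 2 + (c : ℝ) * k * j * ((m : ℝ) - k) +
      (k : ℝ) ^ 2 * (c * (c - 1) / 2) * (j * (j - 1) / 2)) ≤ (D2 k c j m : ℝ) := by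
  have h1 : (D2 k c j m : ℕ) = (∑ e ∈ range (m + 1), (m - e + 1)) +
      ∑ c' ∈ range c, ∑ l ∈ range j, ∑ s ∈ range k, ((m - s) + 1 + c' * (l * k)) := by
    unfold D2
    rw [DR]
    have hmin : min k (m + 1) = k := by omega
    rw [hmin]
    congr 1
    refine Finset.sum_congr rfl fun c' _ => Finset.sum_congr rfl fun l _ =>
      Finset.sum_congr rfl fun s hs => ?_
    rw [D1_eq]
    have hs' := Finset.mem_range.1 hs
    have : min k (m - s + 1) = k := by omega
    rw [this]
  have h2 : ((∑ e ∈ range (m + 1), (m - e + 1) : ℕ) : ℝ) ≥ (m : ℝ) ^ 2 / 2 := by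
    have h3 : ∑ e ∈ range (m + 1), (m - e + 1) = ∑ e ∈ range (m + 1), (e + 1) := by
      have := Finset.sum_range_reflect (fun e => e + 1) (m + 1)
      rw [← this]
      refine Finset.sum_congr rfl fun e he => ?_
      have := Finset.mem_range.1 he
      omega
    rw [h3]
    have h4 : ∀ n : ℕ, ((∑ e ∈ range (n + 1), (e + 1) : ℕ) : ℝ) = ((n : ℝ) + 1) * (n + 2) / 2 := by
      intro n
      induction n with
      | zero => norm_num
      | succ n ih =>
        rw [Finset.sum_range_succ, Nat.cast_add, ih]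
        push_cast
        ring
    rw [h4]
    have : (0 : ℝ) ≤ m := Nat.cast_nonneg m
    nlinarith
  have h5 : ∀ c' l s : ℕ, s ∈ range k →
      ((m : ℝ) - k) + c' * (l * k) ≤ (((m - s) + 1 + c' * (l * k) : ℕ) : ℝ) := by
    intro c' l s hs
    have hs' := Finset.mem_range.1 hs
    have hsm : s ≤ m := by omega
    push_cast [Nat.cast_sub hsm]
    have : (s : ℝ) ≤ k := by exact_mod_cast hs'.le
    linarith
  have h6 : ((∑ c' ∈ range c, ∑ l ∈ range j, ∑ s ∈ range k, ((m - s) + 1 + c' * (l * k)) : ℕ) : ℝ) ≥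
      ∑ c' ∈ range c, ∑ l ∈ range j, ∑ s ∈ range k, (((m : ℝ) - k) + c' * (l * k)) := by
    push_cast
    refine Finset.sum_le_sum fun c' _ => Finset.sum_le_sum fun l _ => Finset.sum_le_sum fun s hs => ?_
    have := h5 c' l s hs
    push_cast at this
    exact this
  have hg : ∀ n : ℕ, ∑ l ∈ range n, (l : ℝ) = (n : ℝ) * (n - 1) / 2 := by
    intro n
    induction n with
    | zero => simp
    | succ n ih =>
      rw [Finset.sum_range_succ, ih]
      push_cast
      ring
  have h7 : ∑ c' ∈ range c, ∑ l ∈ range j, ∑ s ∈ range k, (((m : ℝ) - k) + c' * (l * k)) =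
      (c : ℝ) * k * j * ((m : ℝ) - k) + (k : ℝ) ^ 2 * (c * (c - 1) / 2) * (j * (j - 1) / 2) := by
    simp only [Finset.sum_const, Finset.card_range, nsmul_eq_mul, mul_add, Finset.sum_add_distrib]
    have h8 : ∀ c' : ℕ, ∑ x ∈ range j, (k : ℝ) * ((c' : ℝ) * (x * k)) =
        (k : ℝ) ^ 2 * (j * (j - 1) / 2) * c' := by
      intro c'
      rw [← hg j, Finset.mul_sum, Finset.sum_mul]
      refine Finset.sum_congr rfl fun x _ => ?_
      ring
    simp_rw [h8]
    rw [← Finset.mul_sum, hg c]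
    ring
  rw [h1, Nat.cast_add]
  linarith [h2, h6, h7.ge, h7.le]

variable {F : Type*} [Field F]

/-- exponents of the monomials of degree `≤ m` in `t` -/
def Ex2 (m : ℕ) : Finset (ℕ × ℕ) := ((range (m + 1)) ×ˢ (range (m + 1))).filter fun e => e.1 + e.2 ≤ m

theorem mem_Ex2 {m : ℕ} {e : ℕ × ℕ} : e ∈ Ex2 m ↔ e.1 + e.2 ≤ m := by
  unfold Ex2
  rw [Finset.mem_filter, Finset.mem_product, Finset.mem_range, Finset.mem_range]
  constructor
  · exact fun h => h.2
  · intro h
    exact ⟨⟨by omega, by omega⟩, h⟩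

/-- the monomials: `e.1` = exponent of the outer variable, `e.2` of the inner one -/
noncomputable def mo2 (F : Type*) [Field F] (e : ℕ × ℕ) : F[X][X] := X ^ e.1 * C (X ^ e.2)

theorem Z1_le_span (m : ℕ) : Z1 F m ≤ Submodule.span F ((fun e : ℕ => (X : F[X]) ^ e) '' {e | e ≤ m}) := by
  intro p hp
  rw [Z1, mem_Zup] at hp
  rw [p.as_sum_support_C_mul_X_pow]
  refine Submodule.sum_mem _ fun e he => ?_
  rw [← Polynomial.smul_eq_C_mul]
  refine Submodule.smul_mem _ _ (Submodule.subset_span ⟨e, ?_, rfl⟩)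
  by_contra h
  exact (Polynomial.mem_support_iff.1 he) ((hp e).2 (by simpa using h))

theorem Z2_le_span (m : ℕ) : Z2 F m ≤ Submodule.span F (mo2 F '' (Ex2 m : Set (ℕ × ℕ))) := by
  intro p hp
  rw [Z2, mem_Zup] at hp
  rw [p.as_sum_support_C_mul_X_pow]
  refine Submodule.sum_mem _ fun e he => ?_
  have hem : e ≤ m := by
    by_contra h
    exact (Polynomial.mem_support_iff.1 he) ((hp e).2 (by omega))
  have h1 := Z1_le_span (m - e) ((hp e).1 hem)
  generalize p.coeff e = q at h1 ⊢
  induction h1 using Submodule.span_induction with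
  | mem x hx =>
    obtain ⟨e', he', rfl⟩ := hx
    refine Submodule.subset_span ⟨(e, e'), ?_, ?_⟩
    · rw [Finset.mem_coe, mem_Ex2]
      have : e' ≤ m - e := he'
      show e + e' ≤ m
      omega
    · rw [mo2, mul_comm]
  | zero => simp
  | add x y _ _ hx hy =>
    rw [C_add, add_mul]
    exact add_mem hx hy
  | smul r x _ hx =>
    have : C (r • x) * (X : F[X][X]) ^ e = r • (C x * X ^ e) := by
      rw [← Polynomial.smul_C, smul_mul_assoc]
    rw [this]
    exact Submodule.smul_mem _ _ hx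

end Crest.Agent.R022.Cnt
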