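import Mathlib
import Crest.Agent.R022.CntNum

/-! Row 22, stage-1 count (helper294), part 8: the asymptotic count and the choice of parameters. -/

set_option autoImplicit false

namespace Crest.Agent.R022.Cnt

open Module Finset Filter Topology

/-- the constant of the count: `∑_j dim ~ C3 y^3` -/
noncomputable def C3 (ρ : ℝ) (k c : ℕ) : ℝ :=
  1 / (6 * ρ) + (c : ℝ) * k / (6 * ρ ^ 2) + (k : ℝ) ^ 2 * (c * (c - 1)) / (12 * ρ ^ 3)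

theorem sum_id (n : ℕ) : ∑ j ∈ range (n + 1), (j : ℝ) = (n : ℝ) * (n + 1) / 2 := by
  induction n with
  | zero => simp
  | succ n ih => rw [Finset.sum_range_succ, ih]; push_cast; ring

theorem sum_sq (n : ℕ) : ∑ j ∈ range (n + 1), (j : ℝ) ^ 2 = (n : ℝ) * (n + 1) * (2 * n + 1) / 6 := by
  induction n with
  | zero => simp
  | succ n ih => rw [Finset.sum_range_succ, ih]; push_cast; ring

/-- normalised count -/
noncomputable def Pcount (ρ : ℝ) (k c : ℕ) (ν x : ℝ) : ℝ :=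
  (ν + x) * (1 - x) ^ 2 / 2 - ρ * (1 - x) * (ν * (ν + x) / 2) +
    ρ ^ 2 / 2 * (ν * (ν + x) * (2 * ν + x) / 6) +
    c * k * (1 - (1 + k) * x) * (ν * (ν + x) / 2) - c * k * ρ * (ν * (ν + x) * (2 * ν + x) / 6) +
    (k : ℝ) ^ 2 * (c * (c - 1) / 2) / 2 *
      (ν * (ν + x) * (2 * ν + x) / 6 - x * (ν * (ν + x) / 2))

theorem Pcount_zero {ρ : ℝ} (hρ : 0 < ρ) (k c : ℕ) : Pcount ρ k c (1 / ρ) 0 = C3 ρ k c := by
  unfold Pcount C3
  field_simp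
  ring

theorem count_lower {ρ : ℝ} (hρ : 0 < ρ) (k c : ℕ) (y : ℕ) (hy : 0 < y) (n : ℕ)
    (hn : ρ * n ≤ (y : ℝ) - (2 * k + 1)) :
    (y : ℝ) ^ 3 * Pcount ρ k c ((n : ℝ) / y) (1 / y) ≤
      ((∑ j ∈ range (n + 1), D2 k c j ⌊(y : ℝ) - ρ * j⌋₊ : ℕ) : ℝ) := by
  have hy' : (0 : ℝ) < y := by exact_mod_cast hy
  have h1 : ∀ j ∈ range (n + 1),
      ((y : ℝ) - 1 - ρ * j) ^ 2 / 2 + (c : ℝ) * k * j * ((y : ℝ) - 1 - k - ρ * j) +
        (k : ℝ) ^ 2 * (c * (c - 1) / 2) * (((j : ℝ) ^ 2 - j) / 2) ≤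
      (D2 k c j ⌊(y : ℝ) - ρ * j⌋₊ : ℝ) := by
    intro j hj
    have hjn : (j : ℝ) ≤ n := by
      have := Finset.mem_range.1 hj
      exact_mod_cast Nat.lt_succ_iff.1 this
    have hpos : (2 * k + 1 : ℝ) ≤ (y : ℝ) - ρ * j := by nlinarith
    set m : ℕ := ⌊(y : ℝ) - ρ * j⌋₊ with hm
    have hm1 : 2 * k ≤ m := by
      apply Nat.le_floor
      push_cast
      linarith
    have hm2 : (y : ℝ) - ρ * j - 1 < m := Nat.sub_one_lt_floor _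
    have hk0 : (0 : ℝ) ≤ k := Nat.cast_nonneg k
    have hb : (0 : ℝ) ≤ (y : ℝ) - ρ * j - 1 := by nlinarith
    refine le_trans ?_ (D2_lower hm1)
    have e1 : ((y : ℝ) - 1 - ρ * j) ^ 2 ≤ (m : ℝ) ^ 2 := by
      apply pow_le_pow_left₀ <;> linarith
    have e2 : (c : ℝ) * k * j * ((y : ℝ) - 1 - k - ρ * j) ≤ (c : ℝ) * k * j * ((m : ℝ) - k) := by
      apply mul_le_mul_of_nonneg_left (by linarith) (by positivity)
    have e3 : (k : ℝ) ^ 2 * (c * (c - 1) / 2) * (((j : ℝ) ^ 2 - j) / 2) =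
        (k : ℝ) ^ 2 * (c * (c - 1) / 2) * ((j : ℝ) * (j - 1) / 2) := by ring
    rw [e3]
    linarith
  have h2 : ∑ j ∈ range (n + 1), (((y : ℝ) - 1 - ρ * j) ^ 2 / 2 +
      (c : ℝ) * k * j * ((y : ℝ) - 1 - k - ρ * j) +
        (k : ℝ) ^ 2 * (c * (c - 1) / 2) * (((j : ℝ) ^ 2 - j) / 2)) =
      (y : ℝ) ^ 3 * Pcount ρ k c ((n : ℝ) / y) (1 / y) := by
    have h3 : ∀ j : ℕ, ((y : ℝ) - 1 - ρ * j) ^ 2 / 2 +
      (c : ℝ) * k * j * ((y : ℝ) - 1 - k - ρ * j) +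
        (k : ℝ) ^ 2 * (c * (c - 1) / 2) * (((j : ℝ) ^ 2 - j) / 2) =
        ((y : ℝ) - 1) ^ 2 / 2 + (-(ρ * ((y : ℝ) - 1)) + c * k * ((y : ℝ) - 1 - k) -
          (k : ℝ) ^ 2 * (c * (c - 1) / 2) / 2) * j +
        (ρ ^ 2 / 2 - c * k * ρ + (k : ℝ) ^ 2 * (c * (c - 1) / 2) / 2) * (j : ℝ) ^ 2 := by
      intro j; ring
    rw [Finset.sum_congr rfl fun j _ => h3 j, Finset.sum_add_distrib, Finset.sum_add_distrib,
      ← Finset.mul_sum, ← Finset.mul_sum, sum_id, sum_sq, Finset.sum_const, Finset.card_range,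
      nsmul_eq_mul]
    unfold Pcount
    push_cast
    field_simp
    ring
  rw [← h2]
  push_cast
  refine Finset.sum_le_sum fun j hj => ?_
  exact_mod_cast h1 j hj

/-- the asymptotic count -/
theorem count_asym {ρ : ℝ} (hρ : 0 < ρ) (k c : ℕ) {c0 : ℝ} (hc0 : c0 < C3 ρ k c) :
    ∃ y0 : ℕ, ∀ y : ℕ, y0 ≤ y → ∃ n : ℕ, ρ * n ≤ y ∧
      c0 * (y : ℝ) ^ 3 ≤ ((∑ j ∈ range (n + 1), D2 k c j ⌊(y : ℝ) - ρ * j⌋₊ : ℕ) : ℝ) := by
  have hcont : Continuous fun p : ℝ × ℝ => Pcount ρ k c p.1 p.2 := by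
    unfold Pcount
    fun_prop
  have hlim1 : Tendsto (fun y : ℕ => (1 : ℝ) / y) atTop (𝓝 0) :=
    tendsto_one_div_atTop_nhds_zero_nat
  set n : ℕ → ℕ := fun y => ⌊((y : ℝ) - (2 * k + 1)) / ρ⌋₊ with hn
  have hev : ∀ᶠ y : ℕ in atTop, (2 * k + 1 : ℝ) ≤ y := by
    filter_upwards [eventually_ge_atTop (2 * k + 1)] with y hy
    exact_mod_cast hy
  have hup : ∀ᶠ y : ℕ in atTop, (n y : ℝ) / y ≤ (1 / ρ) * (1 - (2 * k + 1) * (1 / y)) := by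
    filter_upwards [hev, eventually_gt_atTop 0] with y hy hy0
    have hy' : (0 : ℝ) < y := by exact_mod_cast hy0
    have h1 : (n y : ℝ) ≤ ((y : ℝ) - (2 * k + 1)) / ρ :=
      Nat.floor_le (div_nonneg (by linarith) hρ.le)
    rw [div_le_iff₀ hy']
    calc (n y : ℝ) ≤ ((y : ℝ) - (2 * k + 1)) / ρ := h1
      _ = _ := by field_simp
  have hlo : ∀ᶠ y : ℕ in atTop, (1 / ρ) * (1 - (2 * k + 1) * (1 / y)) - 1 / y ≤ (n y : ℝ) / y := by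
    filter_upwards [hev, eventually_gt_atTop 0] with y hy hy0
    have hy' : (0 : ℝ) < y := by exact_mod_cast hy0
    have h1 : ((y : ℝ) - (2 * k + 1)) / ρ - 1 ≤ n y := (Nat.sub_one_lt_floor _).le
    rw [le_div_iff₀ hy']
    calc _ = ((y : ℝ) - (2 * k + 1)) / ρ - 1 := by field_simp
      _ ≤ _ := h1
  have hlimn : Tendsto (fun y : ℕ => (n y : ℝ) / y) atTop (𝓝 (1 / ρ)) := by
    refine tendsto_of_tendsto_of_tendsto_of_le_of_le' ?_ ?_ hlo hup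
    · have := ((hlim1.const_mul (2 * k + 1 : ℝ)).const_sub 1).const_mul (1 / ρ)
      have h2 := this.sub hlim1
      simpa using h2
    · have := ((hlim1.const_mul (2 * k + 1 : ℝ)).const_sub 1).const_mul (1 / ρ)
      simpa using this
  have hlim : Tendsto (fun y : ℕ => Pcount ρ k c ((n y : ℝ) / y) (1 / y)) atTop
      (𝓝 (C3 ρ k c)) := by
    have hpair : Tendsto (fun y : ℕ => (((n y : ℝ) / y, (1 : ℝ) / y) : ℝ × ℝ)) atTop
        (𝓝 ((1 / ρ, 0) : ℝ × ℝ)) := hlimn.prodMk_nhds hlim1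
    have h9 : Tendsto (fun p : ℝ × ℝ => Pcount ρ k c p.1 p.2) (𝓝 ((1 / ρ, 0) : ℝ × ℝ))
        (𝓝 (C3 ρ k c)) := by
      rw [← Pcount_zero hρ]
      exact hcont.tendsto ((1 / ρ, 0) : ℝ × ℝ)
    have h10 := h9.comp hpair
    rw [Function.comp_def] at h10
    exact h10
  have hev2 := hlim.eventually (lt_mem_nhds hc0)
  obtain ⟨y0, hy0⟩ := eventually_atTop.1 (hev2.and (hev.and (eventually_gt_atTop 0)))
  refine ⟨y0, fun y hy => ⟨n y, ?_, ?_⟩⟩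
  · obtain ⟨-, h2, h3⟩ := hy0 y hy
    have h1 : (n y : ℝ) ≤ ((y : ℝ) - (2 * k + 1)) / ρ :=
      Nat.floor_le (div_nonneg (by linarith) hρ.le)
    rw [le_div_iff₀ hρ] at h1
    have hk0 : (0 : ℝ) ≤ k := Nat.cast_nonneg k
    linarith
  · obtain ⟨h1, h2, h3⟩ := hy0 y hy
    have h4 : (n y : ℝ) ≤ ((y : ℝ) - (2 * k + 1)) / ρ :=
      Nat.floor_le (div_nonneg (by linarith) hρ.le)
    rw [le_div_iff₀ hρ] at h4
    refine le_trans ?_ (count_lower hρ k c y h3 (n y) (by linarith))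
    have hy' : (0 : ℝ) < y := by exact_mod_cast h3
    nlinarith [pow_pos hy' 3]

/-- the count function used in the greedy choice -/
noncomputable def Hf (c0 : ℝ) (y0 y : ℕ) : ℕ := if y < y0 then 0 else ⌊c0 * (y : ℝ) ^ 3⌋₊

theorem Hf_mono {c0 : ℝ} (hc0 : 0 < c0) (y0 : ℕ) : Monotone (Hf c0 y0) := by
  intro a b hab
  unfold Hf
  split_ifs with h1 h2 h2
  · exact le_rfl
  · exact Nat.zero_le _
  · omega
  · apply Nat.floor_le_floor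
    have : (a : ℝ) ≤ b := by exact_mod_cast hab
    gcongr

theorem sum_cube (Y : ℕ) : ∑ y ∈ range Y, (y : ℝ) ^ 3 = ((Y : ℝ) * (Y - 1) / 2) ^ 2 := by
  induction Y with
  | zero => simp
  | succ n ih => rw [Finset.sum_range_succ, ih]; push_cast; ring

theorem sum_Hf_lower {c0 : ℝ} (hc0 : 0 < c0) (y0 Y : ℕ) :
    c0 * ((Y : ℝ) ^ 4 / 4 - (Y : ℝ) ^ 3 / 2) - Y - c0 * (y0 : ℝ) ^ 4 ≤
      ∑ y ∈ range Y, (Hf c0 y0 y : ℝ) := by
  have h1 : ∀ y ∈ range Y, c0 * (y : ℝ) ^ 3 - 1 - (if y < y0 then c0 * (y0 : ℝ) ^ 3 else 0) ≤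
      (Hf c0 y0 y : ℝ) := by
    intro y _
    unfold Hf
    split_ifs with h
    · have : (y : ℝ) ≤ y0 := by exact_mod_cast h.le
      have : (y : ℝ) ^ 3 ≤ (y0 : ℝ) ^ 3 := by gcongr
      push_cast
      nlinarith
    · have := (Nat.sub_one_lt_floor (c0 * (y : ℝ) ^ 3)).le
      linarith
  refine le_trans ?_ (Finset.sum_le_sum h1)
  rw [Finset.sum_sub_distrib, Finset.sum_sub_distrib, ← Finset.mul_sum, sum_cube, Finset.sum_const,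
    Finset.card_range, Finset.sum_ite, Finset.sum_const_zero, add_zero, Finset.sum_const,
    nsmul_eq_mul, nsmul_eq_mul, mul_one]
  have h2 : (((range Y).filter fun y => y < y0).card : ℝ) ≤ y0 := by
    have : ((range Y).filter fun y => y < y0) ⊆ range y0 := by
      intro y hy
      rw [Finset.mem_filter] at hy
      exact Finset.mem_range.2 hy.2
    have h3 := Finset.card_le_card this
    rw [Finset.card_range] at h3
    exact_mod_cast h3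
  have h3 : (((range Y).filter fun y => y < y0).card : ℝ) * (c0 * (y0 : ℝ) ^ 3) ≤
      y0 * (c0 * (y0 : ℝ) ^ 3) := by
    apply mul_le_mul_of_nonneg_right h2
    positivity
  nlinarith [sq_nonneg (Y : ℝ)]

/-- choice of the parameters of the determinant -/
theorem exists_params {ρ κ c0 : ℝ} (hρ : 0 < ρ) (hκ : 0 < κ) (hc0 : 0 < c0)
    (hthr : (9 / 8 : ℝ) ^ 2 < κ ^ 2 * (2 * c0 * ρ)) (y0 Y0 : ℕ) :
    ∃ Y m J w : ℕ, Y0 ≤ Y ∧ y0 ≤ Y ∧ (Y : ℝ) < ρ * (J + 1) ∧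
      w + (J + 1) * (m + 2).choose 3 ≤ m * Hf c0 y0 Y ∧
      (Y : ℝ) * Hf c0 y0 Y - ∑ y ∈ range Y, (Hf c0 y0 y : ℝ) < κ * w := by
  set μ : ℝ := Real.sqrt (2 * c0 * ρ) with hμ
  have hμ2 : μ ^ 2 = 2 * c0 * ρ := Real.sq_sqrt (by positivity)
  have hμ0 : 0 < μ := Real.sqrt_pos.2 (by positivity)
  have hκμ : 9 / 8 < κ * μ := by
    have h1 : (9 / 8 : ℝ) ^ 2 < (κ * μ) ^ 2 := by rw [mul_pow, hμ2]; exact hthr
    exact lt_of_pow_lt_pow_left₀ 2 (by positivity) h1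
  set g : ℝ → ℝ := fun x => κ * ((μ - x) * (c0 - x ^ 3) - (1 / ρ + x) * (μ + 2 * x) ^ 3 / 6) -
    (3 / 4 * c0 + c0 / 2 * x + x ^ 3 + c0 * (y0 : ℝ) ^ 4 * x ^ 4) with hg
  have hgc : Continuous g := by
    rw [hg]; fun_prop
  have hg0 : 0 < g 0 := by
    have h1 : g 0 = 2 / 3 * c0 * (κ * μ) - 3 / 4 * c0 := by
      rw [hg]
      have h2 : μ ^ 3 = 2 * c0 * ρ * μ := by rw [pow_succ, hμ2]
      simp only [sub_zero, add_zero, mul_zero, ne_eq, OfNat.ofNat_ne_zero, not_false_eq_true,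
        zero_pow]
      rw [h2]
      field_simp
      ring
    rw [h1]
    nlinarith
  have hlim1 : Tendsto (fun y : ℕ => (1 : ℝ) / y) atTop (𝓝 0) :=
    tendsto_one_div_atTop_nhds_zero_nat
  have hlim2 : Tendsto (fun y : ℕ => g ((1 : ℝ) / y)) atTop (𝓝 (g 0)) :=
    (hgc.tendsto 0).comp hlim1
  have hlim3 : Tendsto (fun y : ℕ => (μ - (1 : ℝ) / y) * (c0 - ((1 : ℝ) / y) ^ 3) -
      (1 / ρ + (1 : ℝ) / y) * (μ + 2 * ((1 : ℝ) / y)) ^ 3 / 6) atTop (𝓝 (2 / 3 * c0 * μ)) := by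
    have hc : Continuous fun x : ℝ => (μ - x) * (c0 - x ^ 3) - (1 / ρ + x) * (μ + 2 * x) ^ 3 / 6 := by
      fun_prop
    have h3 := (hc.tendsto 0).comp hlim1
    have h4 : (μ - 0) * (c0 - 0 ^ 3) - (1 / ρ + 0) * (μ + 2 * 0) ^ 3 / 6 = 2 / 3 * c0 * μ := by
      have h2 : μ ^ 3 = 2 * c0 * ρ * μ := by rw [pow_succ, hμ2]
      simp only [sub_zero, add_zero, mul_zero, ne_eq, OfNat.ofNat_ne_zero, not_false_eq_true,
        zero_pow]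
      rw [h2]
      field_simp
      ring
    rw [h4] at h3
    rw [Function.comp_def] at h3
    exact h3
  have hev1 := hlim2.eventually (lt_mem_nhds hg0)
  have hev2 := hlim3.eventually (lt_mem_nhds (show (0 : ℝ) < 2 / 3 * c0 * μ by positivity))
  have hev3 : ∀ᶠ y : ℕ in atTop, (1 : ℝ) / y < μ := hlim1.eventually (gt_mem_nhds hμ0)
  have hev4 : ∀ᶠ y : ℕ in atTop, (1 : ℝ) / y < c0 := hlim1.eventually (gt_mem_nhds hc0)
  obtain ⟨Y, ⟨⟨⟨hY1, hY2⟩, hY3⟩, hY4⟩, hY5⟩ := (((hev1.and hev2).and hev3).and hev4 |>.and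
    (eventually_ge_atTop (max (max y0 Y0) 1))).exists
  have hYy0 : y0 ≤ Y := by omega
  have hYY0 : Y0 ≤ Y := by omega
  have hYpos : (0 : ℝ) < Y := by
    have : 0 < Y := by omega
    exact_mod_cast this
  have hY1' : (1 : ℝ) ≤ Y := by
    have : 1 ≤ Y := by omega
    exact_mod_cast this
  have hH : Hf c0 y0 Y = ⌊c0 * (Y : ℝ) ^ 3⌋₊ := by
    unfold Hf
    rw [if_neg (by omega)]
  have hHlo : c0 * (Y : ℝ) ^ 3 - 1 ≤ Hf c0 y0 Y := by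
    rw [hH]; exact (Nat.sub_one_lt_floor _).le
  have hHup : (Hf c0 y0 Y : ℝ) ≤ c0 * (Y : ℝ) ^ 3 := by
    rw [hH]; exact Nat.floor_le (by positivity)
  set m : ℕ := ⌊μ * Y⌋₊ with hm
  have hmlo : μ * Y - 1 ≤ m := (Nat.sub_one_lt_floor _).le
  have hmup : (m : ℝ) ≤ μ * Y := Nat.floor_le (by positivity)
  set J : ℕ := ⌊(Y : ℝ) / ρ⌋₊ with hJ
  have hJup : (J : ℝ) ≤ Y / ρ := Nat.floor_le (by positivity)
  have hJlo : (Y : ℝ) / ρ < J + 1 := Nat.lt_floor_add_one _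
  have hch : (((m + 2).choose 3 : ℕ) : ℝ) ≤ (μ * Y + 2) ^ 3 / 6 := by
    have h1 := Nat.choose_le_pow_div (α := ℝ) 3 (m + 2)
    have h2 : ((Nat.factorial 3 : ℕ) : ℝ) = 6 := by norm_num [Nat.factorial]
    rw [h2] at h1
    refine h1.trans ?_
    push_cast
    gcongr
  have hneg1 : 0 ≤ μ * Y - 1 := by
    rw [div_lt_iff₀ hYpos] at hY3
    linarith
  have hneg2 : 0 ≤ c0 * (Y : ℝ) ^ 3 - 1 := by
    rw [div_lt_iff₀ hYpos] at hY4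
    have : c0 * (Y : ℝ) ≤ c0 * (Y : ℝ) ^ 3 := by
      apply mul_le_mul_of_nonneg_left _ hc0.le
      calc (Y : ℝ) = Y ^ 1 := (pow_one _).symm
        _ ≤ Y ^ 3 := pow_le_pow_right₀ hY1' (by norm_num)
    linarith
  have hprod : (μ * Y - 1) * (c0 * (Y : ℝ) ^ 3 - 1) ≤ (m : ℝ) * Hf c0 y0 Y :=
    mul_le_mul hmlo hHlo hneg2 (Nat.cast_nonneg m)
  have hsub : ((J : ℝ) + 1) * ((m + 2).choose 3 : ℕ) ≤ (Y / ρ + 1) * ((μ * Y + 2) ^ 3 / 6) := by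
    apply mul_le_mul (by linarith) hch (by positivity) (by positivity)
  have hW : (μ * Y - 1) * (c0 * (Y : ℝ) ^ 3 - 1) - (Y / ρ + 1) * ((μ * Y + 2) ^ 3 / 6) =
      (Y : ℝ) ^ 4 * ((μ - (1 : ℝ) / Y) * (c0 - ((1 : ℝ) / Y) ^ 3) -
      (1 / ρ + (1 : ℝ) / Y) * (μ + 2 * ((1 : ℝ) / Y)) ^ 3 / 6) := by
    field_simp
  have hWpos : 0 < (μ * Y - 1) * (c0 * (Y : ℝ) ^ 3 - 1) - (Y / ρ + 1) * ((μ * Y + 2) ^ 3 / 6) := by
    rw [hW]
    positivity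
  have hle : (J + 1) * (m + 2).choose 3 ≤ m * Hf c0 y0 Y := by
    have : (((J + 1) * (m + 2).choose 3 : ℕ) : ℝ) ≤ ((m * Hf c0 y0 Y : ℕ) : ℝ) := by
      push_cast
      push_cast at hsub
      linarith
    exact_mod_cast this
  refine ⟨Y, m, J, m * Hf c0 y0 Y - (J + 1) * (m + 2).choose 3, hYY0, hYy0, ?_, ?_, ?_⟩
  · rw [div_lt_iff₀ hρ] at hJlo
    linarith
  · omega
  · rw [Nat.cast_sub hle]
    push_cast
    push_cast at hsub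
    have hs := sum_Hf_lower hc0 y0 Y
    have h1 : (Y : ℝ) * Hf c0 y0 Y ≤ Y * (c0 * (Y : ℝ) ^ 3) :=
      mul_le_mul_of_nonneg_left hHup hYpos.le
    have h2 : κ * ((μ * Y - 1) * (c0 * (Y : ℝ) ^ 3 - 1) - (Y / ρ + 1) * ((μ * Y + 2) ^ 3 / 6)) ≤
        κ * ((m : ℝ) * Hf c0 y0 Y - ((J : ℝ) + 1) * ((m + 2).choose 3 : ℕ)) := by
      apply mul_le_mul_of_nonneg_left _ hκ.le
      push_cast
      linarith
    have h3 : (Y : ℝ) ^ 4 * g ((1 : ℝ) / Y) =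
        κ * ((μ * Y - 1) * (c0 * (Y : ℝ) ^ 3 - 1) - (Y / ρ + 1) * ((μ * Y + 2) ^ 3 / 6)) -
        (3 / 4 * c0 * (Y : ℝ) ^ 4 + c0 / 2 * (Y : ℝ) ^ 3 + Y + c0 * (y0 : ℝ) ^ 4) := by
      rw [hW, hg]
      field_simp
    have h4 : 0 < (Y : ℝ) ^ 4 * g ((1 : ℝ) / Y) := by positivity
    rw [h3] at h4
    have h5 : (Y : ℝ) * (c0 * (Y : ℝ) ^ 3) = c0 * (Y : ℝ) ^ 4 := by ring
    have h6 : c0 * ((Y : ℝ) ^ 4 / 4 - (Y : ℝ) ^ 3 / 2) =
      c0 * (Y : ℝ) ^ 4 / 4 - c0 / 2 * (Y : ℝ) ^ 3 := by ring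
    rw [h5] at h1
    rw [h6] at hs
    have h7 : (Y : ℝ) * Hf c0 y0 Y - ∑ y ∈ range Y, (Hf c0 y0 y : ℝ) ≤
      3 / 4 * c0 * (Y : ℝ) ^ 4 + c0 / 2 * (Y : ℝ) ^ 3 + Y + c0 * (y0 : ℝ) ^ 4 := by linarith
    calc _ ≤ _ := h7
      _ < κ * ((μ * Y - 1) * (c0 * (Y : ℝ) ^ 3 - 1) - (Y / ρ + 1) * ((μ * Y + 2) ^ 3 / 6)) := by
        linarith
      _ ≤ _ := h2

end Crest.Agent.R022.Cnt
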