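import Mathlib
import Crest.Agent.R022.CntAsym
import Crest.Agent.R022.CntSelect

/-! Row 22, stage-1 count (helper294), part 9: the family of monomials used in the stage-1 determinant. -/

set_option autoImplicit false

namespace Crest.Agent.R022.Cnt

open Module Finset Filter Topology Polynomial

/-- weight of the monomial `t^e b^f` -/
noncomputable def wt {κ' : Type*} [Fintype κ'] (ρ : ℝ) (ω : (ℕ × ℕ) × (κ' → ℕ)) : ℝ :=
  ((ω.1.1 + ω.1.2 : ℕ) : ℝ) + ρ * ((∑ l, ω.2 l : ℕ) : ℝ)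

theorem exists_family {d k : ℕ} {ρ κ : ℝ} (hρ : 0 < ρ) (hκ : 0 < κ)
    (hthr : (9 / 8 : ℝ) ^ 2 < κ ^ 2 * (2 * C3 ρ k d * ρ)) :
    ∃ Y m J w s : ℕ, (Y : ℝ) < ρ * (J + 1) ∧ w + (J + 1) * (m + 2).choose 3 ≤ m * s ∧
      ∃ W : ℝ, W < κ * w ∧
      ∀ (F : Type) [Field F] (ι : Type) [Fintype ι] [DecidableEq ι], Fintype.card ι = d + 1 →
        ∀ (θ a : ι → F), Function.Injective θ →
        (∀ i₀ i i', i ≠ i₀ → i' ≠ i₀ → i ≠ i' →
          (a i - a i₀) * (θ i' - θ i₀) ≠ (a i' - a i₀) * (θ i - θ i₀)) →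
        ∀ (κ' : Type) [Fintype κ'] [DecidableEq κ'] (B : κ' → F[X][X][X])
          (c : ι → F[X][X][X]) (μ : F), μ ≠ 0 → (∀ l, (B l).natDegree ≤ 1) →
          (∀ i, (c i).natDegree ≤ 1) →
          (∀ i, (c i).coeff 1 = algebraMap F F[X][X] μ * ∏ i' ∈ univ.erase i, alp θ a i' ^ k) →
          (∀ i, c i ∈ Submodule.span F (Set.range B)) →
          ∃ T : Finset ((ℕ × ℕ) × (κ' → ℕ)), T.card = s ∧
            (∀ ω ∈ T, wt ρ ω ≤ Y ∧ ∑ l, ω.2 l ≤ J) ∧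
            LinearIndepOn F (mon k J (alp θ a) (mo2 F) B) (T : Set ((ℕ × ℕ) × (κ' → ℕ))) ∧
            ∑ ω ∈ T, wt ρ ω ≤ W := by
  -- the constant c0
  set cmin : ℝ := (9 / 8 : ℝ) ^ 2 / (κ ^ 2 * (2 * ρ)) with hcmin
  have hcm0 : 0 < cmin := by positivity
  have hden : 0 < κ ^ 2 * (2 * ρ) := by positivity
  have hcm : cmin < C3 ρ k d := by
    rw [hcmin, div_lt_iff₀ hden]
    nlinarith
  obtain ⟨c0, hc1, hc2⟩ := exists_between hcm
  have hc0 : 0 < c0 := hcm0.trans hc1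
  have hthr' : (9 / 8 : ℝ) ^ 2 < κ ^ 2 * (2 * c0 * ρ) := by
    rw [hcmin, div_lt_iff₀ hden] at hc1
    nlinarith
  obtain ⟨y0, hy0⟩ := count_asym hρ k d hc2
  obtain ⟨Y, m, J, w, -, hYy0, hJ, hw, hW⟩ := exists_params hρ hκ hc0 hthr' y0 0
  refine ⟨Y, m, J, w, Hf c0 y0 Y, hJ, hw, _, hW, ?_⟩
  intro F _ ι _ _ hι θ a hθ hgp κ' _ _ B c μ hμ hB hc hc1' hcB
  have hne : (univ : Finset ι).Nonempty := by
    rw [← Finset.card_pos, Finset.card_univ, hι]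
    omega
  choose! n hn1 hn2 using hy0
  set T : ℕ → Finset ((ℕ × ℕ) × (κ' → ℕ)) := fun y =>
    if y < y0 then ∅ else idxs κ' Ex2 (fun j => ⌊(y : ℝ) - ρ * j⌋₊) (n y + 1) with hT
  have hTw : ∀ y, ∀ ω ∈ T y, wt ρ ω ≤ y := by
    intro y ω hω
    simp only [hT] at hω
    split_ifs at hω with h
    · exact absurd hω (Finset.notMem_empty _)
    · rw [mem_idxs, mem_Ex2] at hω
      obtain ⟨h1, h2⟩ := hω
      have h3 := hn1 y (not_lt.1 h)
      have h4 : ((∑ l, ω.2 l : ℕ) : ℝ) ≤ n y := by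
        exact_mod_cast Nat.lt_succ_iff.1 h1
      have h5 : (0 : ℝ) ≤ (y : ℝ) - ρ * ((∑ l, ω.2 l : ℕ) : ℝ) := by nlinarith
      have h6 := Nat.floor_le h5
      have h7 : ((ω.1.1 + ω.1.2 : ℕ) : ℝ) ≤ ⌊(y : ℝ) - ρ * ((∑ l, ω.2 l : ℕ) : ℝ)⌋₊ := by
        exact_mod_cast h2
      unfold wt
      linarith
  have hα : ∀ i, alp θ a i ≠ 0 := by
    intro i h
    have h1 := congrArg (fun p => Polynomial.coeff p 1) h
    simp [alp, Polynomial.coeff_X] at h1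
  have hdim : ∀ y ≤ Y, Hf c0 y0 y ≤
      finrank F (Submodule.span F (mon k J (alp θ a) (mo2 F) B '' (T y : Set _))) := by
    intro y _
    by_cases h : y < y0
    · unfold Hf
      rw [if_pos h]
      exact Nat.zero_le _
    · have h1 := fam_dim (F := F) (k := k) (J := J) (α := alp θ a) hα (mo := mo2 F) (Z := Z2 F)
        Z2_finite (Ex := Ex2) Z2_le_span (D := D2 k d)
        (fun j m => by
          have := plane_bound (k := k) hθ hgp univ univ (Finset.Subset.refl _)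
            hne j m
          simpa [hι] using this)
        hμ hB hc hc1' hcB (fun j => ⌊(y : ℝ) - ρ * j⌋₊) (n y + 1)
      have hTy : T y = idxs κ' Ex2 (fun j => ⌊(y : ℝ) - ρ * j⌋₊) (n y + 1) := by
        simp only [hT, if_neg h]
      rw [hTy]
      refine le_trans ?_ h1
      have h2 := hn2 y (not_lt.1 h)
      unfold Hf
      rw [if_neg h]
      exact Nat.floor_le_of_le h2
  obtain ⟨s, h1, h2, h3, h4⟩ := exists_greedy (F := F) (x := mon k J (alp θ a) (mo2 F) B)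
    (wt ρ) T hTw (Hf c0 y0) (Hf_mono hc0 y0) Y hdim
  refine ⟨s, h2, ?_, h3, h4⟩
  intro ω hω
  obtain ⟨y, hyY, hy⟩ := h1 ω hω
  have h5 := hTw y ω hy
  have h6 : (y : ℝ) ≤ Y := by exact_mod_cast hyY
  refine ⟨h5.trans h6, ?_⟩
  by_contra hlt
  push Not at hlt
  have h7 : ((J : ℝ) + 1) ≤ ((∑ l, ω.2 l : ℕ) : ℝ) := by exact_mod_cast hlt
  have h8 : ρ * ((∑ l, ω.2 l : ℕ) : ℝ) ≤ wt ρ ω := by
    unfold wt
    have : (0 : ℝ) ≤ ((ω.1.1 + ω.1.2 : ℕ) : ℝ) := Nat.cast_nonneg _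
    linarith
  nlinarith

end Crest.Agent.R022.Cnt
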