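import Crest.Agent.R022.TorsorForm

/-! Row 22: definitions for one slice (helper250). The remaining project inside a slice is
`SliceBoundAt`. -/

set_option autoImplicit false

open Matrix

namespace Crest.Agent.R022

open Crest.Agent.R022.Torsor

/-- constant term of `α_i(t) = t_0 + z_i t_1 + cst i`. -/
noncomputable def cst {d : ℕ} (z : Fin d → ℂ) (a0 : Fin d → ℤ) (i : Fin d) : ℂ :=
  ∑ j : Fin d, if (j : ℕ) < 2 then 0 else (a0 j : ℂ) * z i ^ (j : ℕ)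

/-- no three of the lines `α_i = 0` are concurrent. -/
def GenPos {d : ℕ} (z : Fin d → ℂ) (a0 : Fin d → ℤ) : Prop :=
  ∀ i j l : Fin d, i ≠ j → i ≠ l → j ≠ l →
    (cst z a0 i - cst z a0 l) * (z j - z l) ≠ (cst z a0 j - cst z a0 l) * (z i - z l)

/-- The data of an `S`-point on the slice `a0`. -/
structure IsSPt {F : Polynomial ℤ} (hF : F.Monic) (k C M : ℕ) (A ρ : ℝ)
    (a0 : Fin F.natDegree → ℤ) (t : Fin 2 → ℤ) (m : ℤ) (b : Fin F.natDegree → ℤ) : Prop where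
  t_le : ∀ i, |(t i : ℝ)| ≤ 2 * A
  m_le : |(m : ℝ)| ≤ C * A ^ ((k : ℝ) + ρ)
  b_le : ∀ l, |(b l : ℝ)| ≤ C * A ^ ρ
  eqn : (M : AdjoinRoot F) * ((m : AdjoinRoot F) - AdjoinRoot.root F) =
    el F (emb 2 a0 t) ^ k * el F b
  norm : ∃ (p : ℕ) (c : ℤ), p.Prime ∧ C < p ∧ A ^ F.natDegree ≤ p ∧
    (p : ℝ) ≤ 2 * A ^ F.natDegree ∧ nm hF (el F (emb 2 a0 t)) = p * c ∧ c ≠ 0 ∧ |c| ≤ C ∧
    (p : ℤ) ^ k ∣ F.eval m

/-- The bound for the number of `S`-points on a slice in general position. -/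
def SliceBoundAt {F : Polynomial ℤ} (hF : F.Monic) (z : Fin F.natDegree → ℂ) (k : ℕ) (ρ : ℝ) :
    Prop :=
  ∀ C M : ℕ, 0 < C → 0 < M → ∃ K : ℝ, 0 < K ∧ ∀ A : ℝ, 1 ≤ A → ∀ a0 : Fin F.natDegree → ℤ,
    (∀ i, |(a0 i : ℝ)| ≤ 2 * A) → GenPos z a0 →
    ∀ (T : Finset (Fin 2 → ℤ)) (m : (Fin 2 → ℤ) → ℤ) (b : (Fin 2 → ℤ) → Fin F.natDegree → ℤ),
      (∀ t ∈ T, IsSPt hF k C M A ρ a0 t (m t) (b t)) →
      (T.card : ℝ) ≤ K * A ^ (999 / 1000 * ρ)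

/-- `α_i` on a slice with two free coordinates. -/
theorem aP_two {d : ℕ} (z : Fin d → ℂ) (hd : 2 ≤ d) (a0 : Fin d → ℤ) (i : Fin d) :
    aP z 2 a0 i = MvPolynomial.X 0 + MvPolynomial.C (z i) * MvPolynomial.X 1 +
      MvPolynomial.C (cst z a0 i) := by
  rw [aP_eq z 2 hd a0 i, Fin.sum_univ_two]
  simp [cst]

end Crest.Agent.R022
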