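import Mathlib
import Crest.Agent.R022.CntLink

/-! Row 22, stage-1 count (helper294), part 11: the family in the form used by `Stage107`. -/

set_option autoImplicit false

namespace Crest.Agent.R022.Cnt

open Finset Polynomial Crest.Agent.R022.Torsor

section
variable {F : Polynomial ℤ} (hF : F.Monic)

/-- cleared coordinate of `β` -/
noncomputable def Bi (k : ℕ) (M : ℤ) (a0 : Fin F.natDegree → ℤ) (l : Fin F.natDegree) :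
    Polynomial (MvPolynomial (Fin 2) ℤ) :=
  C (MvPolynomial.C M * Sf hF 2 a0 k 1 l) * X -
    C (MvPolynomial.C M * Sf hF 2 a0 k (AdjoinRoot.root F) l)

/-- cleared monomial `t^e b^f N^(kJ)` -/
noncomputable def Imon (k J : ℕ) (M : ℤ) (a0 : Fin F.natDegree → ℤ)
    (w : (ℕ × ℕ) × (Fin F.natDegree → ℕ)) : Polynomial (MvPolynomial (Fin 2) ℤ) :=
  C (MvPolynomial.X 0 ^ w.1.1 * MvPolynomial.X 1 ^ w.1.2) * (∏ l, Bi hF k M a0 l ^ w.2 l) *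
    C (Nf hF 2 a0 ^ (k * (J - ∑ l, w.2 l)))

theorem Bi_eq_Bt (k : ℕ) (M : ℤ) (a0 : Fin F.natDegree → ℤ) (l : Fin F.natDegree) :
    Bi hF k M a0 l = Bt hF k M a0 l := by
  unfold Bi Bt
  rw [C_mul, C_mul]
  ring

theorem Imon_eq_monZ (k J : ℕ) (M : ℤ) (a0 : Fin F.natDegree → ℤ)
    (w : (ℕ × ℕ) × (Fin F.natDegree → ℕ)) : Imon hF k J M a0 w = monZ hF k M J a0 w := by
  unfold Imon monZ
  simp only [Bi_eq_Bt]

end

theorem exists_family_int {F : Polynomial ℤ} (hF : F.Monic) (hd : 2 ≤ F.natDegree)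
    (z : Fin F.natDegree → ℂ) (hinj : Function.Injective z)
    (hz : ∀ i, F.eval₂ (Int.castRingHom ℂ) (z i) = 0) (k : ℕ) {ρ κ : ℝ} (hρ : 0 < ρ) (hκ : 0 < κ)
    (hthr : (9 / 8 : ℝ) ^ 2 < κ ^ 2 * (2 * C3 ρ k (F.natDegree - 1) * ρ)) :
    ∃ Y m J w s : ℕ, (Y : ℝ) < ρ * (J + 1) ∧ w + (J + 1) * (m + 2).choose 3 ≤ m * s ∧
      ∃ W : ℝ, W < κ * w ∧
      ∀ a0 : Fin F.natDegree → ℤ, GenPos z a0 → ∀ M : ℤ, M ≠ 0 →
        ∃ T : Finset ((ℕ × ℕ) × (Fin F.natDegree → ℕ)), T.card = s ∧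
          (∀ ω ∈ T, wt ρ ω ≤ Y ∧ ∑ l, ω.2 l ≤ J) ∧
          (∀ a : (ℕ × ℕ) × (Fin F.natDegree → ℕ) → ℤ,
            ∑ ω ∈ T, C (MvPolynomial.C (a ω)) * Imon hF k J M a0 ω = 0 → ∀ ω ∈ T, a ω = 0) ∧
          ∑ ω ∈ T, wt ρ ω ≤ W := by
  obtain ⟨Y, m, J, w, s, h1, h2, W, h3, h4⟩ := slice_family (d := F.natDegree - 1) (k := k)
    (by omega) hρ hκ hthr
  refine ⟨Y, m, J, w, s, h1, h2, W, h3, ?_⟩
  intro a0 hgp M hM
  obtain ⟨T, hT1, hT2, hT3, hT4⟩ := h4 hF (by omega) z hinj hz M hM a0 hgp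
  refine ⟨T, hT1, hT2, ?_, hT3⟩
  intro a h0 ω hω
  by_contra hne
  refine hT4 a ⟨ω, hω, hne⟩ ?_
  rw [← h0]
  exact Finset.sum_congr rfl fun ω _ => by rw [Imon_eq_monZ]

end Crest.Agent.R022.Cnt
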