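import Mathlib

/-!
# R022: integer points on conics, part A: classes of primitive solutions of `y² - D x² = n`
-/

set_option autoImplicit false

namespace Crest.Agent.R022.Conic

/-! ### factor pairs -/

theorem fac {α : Type*} (T : Finset α) (f : α → ℤ) (hf : Set.InjOn f T) (m : ℤ) (hm : m ≠ 0)
    (hd : ∀ x ∈ T, f x ∣ m) : T.card ≤ 2 * m.natAbs.divisors.card := by
  classical
  have h1 : T.card ≤ ((m.natAbs.divisors.image (fun k : ℕ => (k : ℤ))) ∪
      (m.natAbs.divisors.image (fun k : ℕ => -(k : ℤ)))).card := by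
    apply Finset.card_le_card_of_injOn f _ hf
    intro x hx
    have hx' := hd x hx
    have h2 : (f x).natAbs ∈ m.natAbs.divisors := by
      rw [Nat.mem_divisors]
      exact ⟨Int.natAbs_dvd_natAbs.mpr hx', by simpa using hm⟩
    rw [Finset.mem_coe, Finset.mem_union, Finset.mem_image, Finset.mem_image]
    rcases Int.natAbs_eq (f x) with h | h
    · exact Or.inl ⟨_, h2, h.symm⟩
    · exact Or.inr ⟨_, h2, h.symm⟩
  refine h1.trans ((Finset.card_union_le _ _).trans ?_)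
  have h3 := Finset.card_image_le (s := m.natAbs.divisors) (f := fun k : ℕ => (k : ℤ))
  have h4 := Finset.card_image_le (s := m.natAbs.divisors) (f := fun k : ℕ => -(k : ℤ))
  omega

/-! ### one class, definite case -/

theorem quad_neg (E n : ℤ) (hE : 1 ≤ E) (hn : 0 < n) (S : Finset (ℤ × ℤ))
    (h : ∀ z ∈ S, 0 ≤ z.1 ∧ 0 ≤ z.2 ∧ z.2 ^ 2 + E * z.1 ^ 2 = n)
    (hc : ∀ z ∈ S, ∀ w ∈ S, n ∣ 2 * (z.2 * w.1 - z.1 * w.2)) : S.card ≤ 5 := by
  rcases S.eq_empty_or_nonempty with rfl | ⟨z0, hz0⟩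
  · simp
  obtain ⟨hx0, hy0, e0⟩ := h z0 hz0
  have key : ∀ w ∈ S, (z0.2 * w.2 + E * z0.1 * w.1) ^ 2 + E * (z0.2 * w.1 - z0.1 * w.2) ^ 2
      = n ^ 2 := by
    intro w hw
    obtain ⟨_, _, e⟩ := h w hw
    rw [sq n]; nth_rewrite 1 [← e0]; rw [← e]; ring
  have hcard : (Finset.Icc (-2 : ℤ) 2).card = 5 := by simp
  rw [← hcard]
  apply Finset.card_le_card_of_injOn (fun w => 2 * (z0.2 * w.1 - z0.1 * w.2) / n)
  · intro w hw
    obtain ⟨j, hj⟩ := hc z0 hz0 w hw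
    have hw' := key w hw
    rw [Finset.mem_coe, Finset.mem_Icc]
    simp only [hj, Int.mul_ediv_cancel_left _ hn.ne']
    have h1 : E * (2 * (z0.2 * w.1 - z0.1 * w.2)) ^ 2 ≤ 4 * n ^ 2 := by
      nlinarith [sq_nonneg (z0.2 * w.2 + E * z0.1 * w.1)]
    rw [hj] at h1
    have h2 : E * j ^ 2 ≤ 4 := by
      have h3 : n ^ 2 * (E * j ^ 2) ≤ n ^ 2 * 4 := by nlinarith
      exact le_of_mul_le_mul_left h3 (by positivity)
    have h3 : j ^ 2 ≤ 4 := by nlinarith [sq_nonneg j]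
    constructor <;> nlinarith
  · intro w hw w' hw' heq
    have hw := Finset.mem_coe.mp hw
    have hw' := Finset.mem_coe.mp hw'
    obtain ⟨j, hj⟩ := hc z0 hz0 w hw
    obtain ⟨j', hj'⟩ := hc z0 hz0 w' hw'
    simp only [hj, hj', Int.mul_ediv_cancel_left _ hn.ne'] at heq
    subst heq
    have hV : z0.2 * w.1 - z0.1 * w.2 = z0.2 * w'.1 - z0.1 * w'.2 := by linarith
    obtain ⟨hx, hy, e⟩ := h w hw
    obtain ⟨hx', hy', e'⟩ := h w' hw'
    have k1 := key w hw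
    have k2 := key w' hw'
    have hU0 : 0 ≤ z0.2 * w.2 + E * z0.1 * w.1 := by positivity
    have hU0' : 0 ≤ z0.2 * w'.2 + E * z0.1 * w'.1 := by positivity
    have hU : z0.2 * w.2 + E * z0.1 * w.1 = z0.2 * w'.2 + E * z0.1 * w'.1 := by
      have : (z0.2 * w.2 + E * z0.1 * w.1) ^ 2 = (z0.2 * w'.2 + E * z0.1 * w'.1) ^ 2 := by
        rw [hV] at k1; linarith
      exact (pow_left_inj₀ hU0 hU0' two_ne_zero).mp this
    have e1 : n * w.1 = n * w'.1 := by
      rw [← e0]; linear_combination z0.2 * hV + z0.1 * hU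
    have e2 : n * w.2 = n * w'.2 := by
      rw [← e0]; linear_combination z0.2 * hU - E * z0.1 * hV
    exact Prod.ext (mul_left_cancel₀ hn.ne' e1) (mul_left_cancel₀ hn.ne' e2)

/-! ### one class, indefinite case -/

/-- the gap principle -/
theorem gap (D n : ℤ) (hD : 2 ≤ D) (hn : n ≠ 0) (x y x' y' : ℤ) (hx : 0 ≤ x) (hy : 0 ≤ y)
    (hx' : 0 ≤ x') (hy' : 0 ≤ y') (e : y ^ 2 - D * x ^ 2 = n) (e' : y' ^ 2 - D * x' ^ 2 = n)
    (hc : n ∣ 2 * (y * x' - x * y')) (hle : (y : ℝ) + x * √(D : ℝ) ≤ y' + x' * √(D : ℝ))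
    (hlt : (y' : ℝ) + x' * √(D : ℝ) < 3 / 2 * (y + x * √(D : ℝ))) : x = x' ∧ y = y' := by
  set s := √(D : ℝ) with hs
  have hDr : (2 : ℝ) ≤ D := by exact_mod_cast hD
  have hs2 : s ^ 2 = D := Real.sq_sqrt (by linarith)
  have hs0 : 0 ≤ s := Real.sqrt_nonneg _
  have hs1 : (14 / 10 : ℝ) ≤ s := by
    rw [hs]; apply Real.le_sqrt_of_sq_le; norm_num; linarith
  have hxr : (0 : ℝ) ≤ x := by exact_mod_cast hx
  have hyr : (0 : ℝ) ≤ y := by exact_mod_cast hy
  have hxr' : (0 : ℝ) ≤ x' := by exact_mod_cast hx'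
  have hyr' : (0 : ℝ) ≤ y' := by exact_mod_cast hy'
  have er : (y : ℝ) ^ 2 - s ^ 2 * x ^ 2 = n := by rw [hs2]; exact_mod_cast e
  have er' : (y' : ℝ) ^ 2 - s ^ 2 * x' ^ 2 = n := by rw [hs2]; exact_mod_cast e'
  have hnr : (n : ℝ) ≠ 0 := by exact_mod_cast hn
  set Z : ℝ := y + x * s with hZ
  set W : ℝ := y' + x' * s with hW
  have hZ0 : 0 ≤ Z := by positivity
  have hZpos : 0 < Z := by
    rcases hZ0.lt_or_eq with h | h
    · exact h
    · exfalso; apply hnr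
      rw [← er]
      have : (y : ℝ) ^ 2 - s ^ 2 * x ^ 2 = Z * (y - x * s) := by rw [hZ]; ring
      rw [this, ← h]; ring
  have hWpos : 0 < W := lt_of_lt_of_le hZpos hle
  -- the identity
  have hid : (n : ℝ) * (W ^ 2 - Z ^ 2) = 2 * s * (y * x' - x * y') * Z * W := by
    have h1 : W * (y - x * s) - (y' - x' * s) * Z = 2 * s * (y * x' - x * y') := by
      rw [hW, hZ]; ring
    have h2 : Z * (y - x * s) = n := by rw [hZ, ← er]; ring
    have h3 : W * (y' - x' * s) = n := by rw [hW, ← er']; ring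
    calc (n : ℝ) * (W ^ 2 - Z ^ 2) = W ^ 2 * n - Z ^ 2 * n := by ring
      _ = W ^ 2 * (Z * (y - x * s)) - Z ^ 2 * (W * (y' - x' * s)) := by rw [h2, h3]
      _ = (W * (y - x * s) - (y' - x' * s) * Z) * Z * W := by ring
      _ = _ := by rw [h1]
  by_cases hV : y * x' - x * y' = 0
  · have hVr : (y : ℝ) * x' - x * y' = 0 := by exact_mod_cast hV
    rw [hVr] at hid
    have h1 : W ^ 2 = Z ^ 2 := by
      have h2 : (n : ℝ) * (W ^ 2 - Z ^ 2) = 0 := by rw [hid]; ring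
      have := (mul_eq_zero.mp h2).resolve_left hnr
      linarith
    have h2 : W = Z := (pow_left_inj₀ hWpos.le hZ0 two_ne_zero).mp h1
    have h4 : y' - x' * s = y - x * s := by
      have h5 : W * (y' - x' * s) = Z * (y - x * s) := by
        rw [hW, hZ]; linarith [er, er']
      rw [h2] at h5
      exact mul_left_cancel₀ hZpos.ne' h5
    have h6 : (y' : ℝ) = y := by
      have : W + (y' - x' * s) = Z + (y - x * s) := by rw [h2, h4]
      rw [hW, hZ] at this; linarith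
    have h7 : (x' : ℝ) = x := by
      have h8 : x' * s = x * s := by rw [h6] at h4; linarith
      exact mul_right_cancel₀ (by linarith) h8
    exact ⟨by exact_mod_cast h7.symm, by exact_mod_cast h6.symm⟩
  · exfalso
    have h1 : |n| ≤ |2 * (y * x' - x * y')| :=
      Int.le_of_dvd (abs_pos.mpr (by simpa using hV)) ((abs_dvd_abs _ _).mpr hc)
    have h2 : |(n : ℝ)| ≤ 2 * |(y : ℝ) * x' - x * y'| := by
      have : |(n : ℝ)| ≤ |2 * ((y : ℝ) * x' - x * y')| := by exact_mod_cast h1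
      rwa [abs_mul, abs_of_pos (by norm_num : (0 : ℝ) < 2)] at this
    have h3 : |(n : ℝ)| * (W ^ 2 - Z ^ 2) = 2 * s * |(y : ℝ) * x' - x * y'| * Z * W := by
      have h4 : 0 ≤ W ^ 2 - Z ^ 2 := by nlinarith
      rw [← abs_of_nonneg h4, ← abs_mul, hid, abs_mul, abs_mul, abs_mul, abs_mul,
        abs_of_pos hZpos, abs_of_pos hWpos, abs_of_nonneg hs0]
      norm_num
    have hnpos : 0 < |(n : ℝ)| := abs_pos.mpr hnr
    have h5 : |(n : ℝ)| * (s * Z * W) ≤ |(n : ℝ)| * (W ^ 2 - Z ^ 2) := by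
      rw [h3]
      have h6 : 0 ≤ s * Z * W := by positivity
      nlinarith
    have h6 : s * Z * W ≤ W ^ 2 - Z ^ 2 := le_of_mul_le_mul_left h5 hnpos
    have h7 : 14 / 10 * (Z * W) ≤ s * (Z * W) :=
      mul_le_mul_of_nonneg_right hs1 (by positivity)
    nlinarith

theorem quad_pos (D n : ℤ) (hD : 2 ≤ D) (hn : n ≠ 0) (B : ℝ) (hB : 1 ≤ B) (S : Finset (ℤ × ℤ))
    (h : ∀ z ∈ S, 0 ≤ z.1 ∧ 0 ≤ z.2 ∧ z.2 ^ 2 - D * z.1 ^ 2 = n)
    (hb : ∀ z ∈ S, (z.2 : ℝ) + z.1 * √(D : ℝ) ≤ B)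
    (hc : ∀ z ∈ S, ∀ w ∈ S, n ∣ 2 * (z.2 * w.1 - z.1 * w.2)) :
    (S.card : ℝ) ≤ Real.log B / Real.log (3 / 2) + 1 := by
  have hl : 0 < Real.log (3 / 2) := Real.log_pos (by norm_num)
  have hlB := Real.log_nonneg hB
  have hDr : (2 : ℝ) ≤ D := by exact_mod_cast hD
  have hs1 : (1 : ℝ) ≤ √(D : ℝ) := by
    apply Real.le_sqrt_of_sq_le; norm_num; linarith
  -- `z ≥ 1`
  have hz1 : ∀ z ∈ S, (1 : ℝ) ≤ (z.2 : ℝ) + z.1 * √(D : ℝ) := by
    intro z hz
    obtain ⟨hx, hy, e⟩ := h z hz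
    have hne : z.1 ≠ 0 ∨ z.2 ≠ 0 := by
      by_contra hcon
      push Not at hcon
      rw [hcon.1, hcon.2] at e
      apply hn; rw [← e]; ring
    have hxr : (0 : ℝ) ≤ z.1 := by exact_mod_cast hx
    have hyr : (0 : ℝ) ≤ z.2 := by exact_mod_cast hy
    rcases hne with h1 | h1
    · have h2 : (1 : ℝ) ≤ z.1 := by exact_mod_cast (lt_of_le_of_ne hx (Ne.symm h1))
      nlinarith
    · have h2 : (1 : ℝ) ≤ z.2 := by exact_mod_cast (lt_of_le_of_ne hy (Ne.symm h1))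
      have : 0 ≤ z.1 * √(D : ℝ) := by positivity
      linarith
  set f : ℤ × ℤ → ℕ := fun z => ⌊Real.log ((z.2 : ℝ) + z.1 * √(D : ℝ)) / Real.log (3 / 2)⌋₊
    with hf
  have hcard : S.card ≤ (Finset.range (⌊Real.log B / Real.log (3 / 2)⌋₊ + 1)).card := by
    apply Finset.card_le_card_of_injOn f
    · intro z hz
      rw [Finset.mem_coe, Finset.mem_range, Nat.lt_add_one_iff, hf]
      apply Nat.floor_le_floor
      have hz := Finset.mem_coe.mp hz
      have h1 := hz1 z hz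
      gcongr
      exact hb z hz
    · -- injectivity
      have main : ∀ z ∈ S, ∀ w ∈ S, f z = f w →
          (z.2 : ℝ) + z.1 * √(D : ℝ) ≤ w.2 + w.1 * √(D : ℝ) → z = w := by
        intro z hz w hw hfe hle
        obtain ⟨hx, hy, e⟩ := h z hz
        obtain ⟨hx', hy', e'⟩ := h w hw
        have h1 := hz1 z hz
        have h2 := hz1 w hw
        have hlt : (w.2 : ℝ) + w.1 * √(D : ℝ) < 3 / 2 * (z.2 + z.1 * √(D : ℝ)) := by
          have h3 : Real.log ((w.2 : ℝ) + w.1 * √(D : ℝ)) / Real.log (3 / 2) <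
              Real.log ((z.2 : ℝ) + z.1 * √(D : ℝ)) / Real.log (3 / 2) + 1 := by
            have h4 := Nat.lt_floor_add_one
              (Real.log ((w.2 : ℝ) + w.1 * √(D : ℝ)) / Real.log (3 / 2))
            have h5 := Nat.floor_le (a := Real.log ((z.2 : ℝ) + z.1 * √(D : ℝ)) / Real.log (3 / 2))
              (div_nonneg (Real.log_nonneg h1) hl.le)
            have h6 : (⌊Real.log ((z.2 : ℝ) + z.1 * √(D : ℝ)) / Real.log (3 / 2)⌋₊ : ℝ)
              = (⌊Real.log ((w.2 : ℝ) + w.1 * √(D : ℝ)) / Real.log (3 / 2)⌋₊ : ℝ) := by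
              exact_mod_cast hfe
            linarith
          rw [div_add_one hl.ne', div_lt_div_iff_of_pos_right hl,
            ← Real.log_mul (by linarith) (by norm_num)] at h3
          have h7 := (Real.log_lt_log_iff (by linarith) (by linarith)).mp h3
          linarith
        obtain ⟨a1, a2⟩ := gap D n hD hn z.1 z.2 w.1 w.2 hx hy hx' hy' e e' (hc z hz w hw) hle hlt
        exact Prod.ext a1 a2
      intro z hz w hw hfe
      rcases le_total ((z.2 : ℝ) + z.1 * √(D : ℝ)) (w.2 + w.1 * √(D : ℝ)) with hle | hle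
      · exact main z hz w hw hfe hle
      · exact (main w hw z hz hfe.symm hle).symm
  rw [Finset.card_range] at hcard
  calc (S.card : ℝ) ≤ ((⌊Real.log B / Real.log (3 / 2)⌋₊ + 1 : ℕ) : ℝ) := by exact_mod_cast hcard
    _ = (⌊Real.log B / Real.log (3 / 2)⌋₊ : ℝ) + 1 := by push_cast; ring
    _ ≤ _ := by
      have := Nat.floor_le (a := Real.log B / Real.log (3 / 2)) (div_nonneg hlB hl.le)
      linarith

end Crest.Agent.R022.Conic
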