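import Mathlib

/-!
# R022: integer points on conics, part B: the number of classes of primitive solutions
-/

set_option autoImplicit false

namespace Crest.Agent.R022.Conic

theorem transfer {q n A A' : ℤ} (hq : q ∣ n) (g : Int.gcd n A = Int.gcd n A') (h : q ∣ A) :
    q ∣ A' := by
  have h1 : q ∣ (Int.gcd n A : ℤ) := Int.dvd_coe_gcd hq h
  rw [g] at h1
  exact h1.trans (Int.gcd_dvd_right _ _)

theorem nd {D n x y p : ℤ} (hp : Prime p) (hpn : p ∣ n) (hc : IsCoprime x y)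
    (e : y ^ 2 - D * x ^ 2 = n) : ¬ p ∣ x := by
  intro hx
  have h1 : p ∣ y ^ 2 := by
    have : y ^ 2 = n + D * x ^ 2 := by linarith
    rw [this]
    exact dvd_add hpn (Dvd.dvd.mul_left (dvd_pow hx two_ne_zero) _)
  have h2 : p ∣ y := hp.dvd_of_dvd_pow h1
  exact hp.not_unit (hc.isUnit_of_dvd' hx h2)

theorem class_dvd (D n : ℤ) (hD : Squarefree D) (hn : n ≠ 0) (x0 y0 x y x' y' : ℤ)
    (c0 : IsCoprime x0 y0) (c : IsCoprime x y) (c' : IsCoprime x' y')
    (e0 : y0 ^ 2 - D * x0 ^ 2 = n) (e : y ^ 2 - D * x ^ 2 = n) (e' : y' ^ 2 - D * x' ^ 2 = n)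
    (g1 : Int.gcd n (y * x0 - x * y0) = Int.gcd n (y' * x0 - x' * y0))
    (g2 : Int.gcd n (y * x0 + x * y0) = Int.gcd n (y' * x0 + x' * y0)) :
    n ∣ 2 * (y * x' - x * y') := by
  rw [← Int.natAbs_dvd_natAbs, Nat.dvd_iff_prime_pow_dvd_dvd]
  intro p k hp hk
  have hpZ : Prime (p : ℤ) := Nat.prime_iff_prime_int.mp hp
  have hkZ : (p : ℤ) ^ k ∣ n := by
    have := Int.natCast_dvd_natCast.mpr hk
    rw [Int.dvd_natAbs] at this
    exact_mod_cast this
  suffices hs : (p : ℤ) ^ k ∣ 2 * (y * x' - x * y') by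
    rw [← Int.natCast_dvd_natCast, Int.dvd_natAbs]
    exact_mod_cast hs
  rcases Nat.eq_zero_or_pos k with rfl | hkpos
  · simp
  have hpn : (p : ℤ) ∣ n := (dvd_pow_self _ hkpos.ne').trans hkZ
  have n0 := nd hpZ hpn c0 e0
  have nx := nd hpZ hpn c e
  have nx' := nd hpZ hpn c' e'
  set A := y * x0 - x * y0 with hA
  set B := y * x0 + x * y0 with hB
  set A' := y' * x0 - x' * y0 with hA'
  set B' := y' * x0 + x' * y0 with hB'
  have idA : x' * A - x * A' = x0 * (y * x' - x * y') := by rw [hA, hA']; ring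
  have idB : x' * B - x * B' = x0 * (y * x' - x * y') := by rw [hB, hB']; ring
  have idAB : A * B = n * (x0 ^ 2 - x ^ 2) := by
    have h1 : A * B = y ^ 2 * x0 ^ 2 - x ^ 2 * y0 ^ 2 := by rw [hA, hB]; ring
    have h2 : y ^ 2 = n + D * x ^ 2 := by linarith
    have h3 : y0 ^ 2 = n + D * x0 ^ 2 := by linarith
    rw [h1, h2, h3]; ring
  have hAB : (p : ℤ) ^ k ∣ A * B := by rw [idAB]; exact hkZ.mul_right _
  -- conclusion from `p^j ∣ A, A'` or `p^j ∣ B, B'`
  have conc : ∀ j : ℕ, ((p : ℤ) ^ j ∣ A ∧ (p : ℤ) ^ j ∣ n) ∨ ((p : ℤ) ^ j ∣ B ∧ (p : ℤ) ^ j ∣ n) →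
      (p : ℤ) ^ j ∣ y * x' - x * y' := by
    intro j hj
    have h1 : (p : ℤ) ^ j ∣ x0 * (y * x' - x * y') := by
      rcases hj with ⟨h, hn'⟩ | ⟨h, hn'⟩
      · have h' := transfer hn' g1 h
        rw [← idA]
        exact dvd_sub (h.mul_left _) (h'.mul_left _)
      · have h' := transfer hn' g2 h
        rw [← idB]
        exact dvd_sub (h.mul_left _) (h'.mul_left _)
    exact hpZ.pow_dvd_of_dvd_mul_left j n0 h1
  by_cases hpA : (p : ℤ) ∣ A
  swap
  · have hB1 : (p : ℤ) ^ k ∣ B := hpZ.pow_dvd_of_dvd_mul_left k hpA hAB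
    exact (conc k (Or.inr ⟨hB1, hkZ⟩)).mul_left _
  by_cases hpB : (p : ℤ) ∣ B
  swap
  · have hA1 : (p : ℤ) ^ k ∣ A := hpZ.pow_dvd_of_dvd_mul_right k hpB hAB
    exact (conc k (Or.inl ⟨hA1, hkZ⟩)).mul_left _
  -- both divisible
  have hsum : A + B = 2 * (y * x0) := by rw [hA, hB]; ring
  have hp2y : (p : ℤ) ∣ 2 * (y * x0) := by rw [← hsum]; exact dvd_add hpA hpB
  by_cases hp2 : p = 2
  · subst hp2
    rcases Nat.lt_or_ge k 2 with hk2 | hk2
    · have : k = 1 := by omega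
      subst this
      simp
    · obtain ⟨m, rfl⟩ : ∃ m, k = m + 1 := ⟨k - 1, by omega⟩
      have h4 : (4 : ℤ) ∣ n := by
        have : ((2 : ℕ) : ℤ) ^ 2 ∣ n := (pow_dvd_pow _ hk2).trans hkZ
        simpa using! this
      have hodd : ∀ a b : ℤ, IsCoprime a b → b ^ 2 - D * a ^ 2 = n → ¬ ((2 : ℕ) : ℤ) ∣ b := by
        intro a b hab hb hdb
        have hna := nd hpZ hpn hab hb
        have h5 : (4 : ℤ) ∣ D * a ^ 2 := by
          have h6 : (4 : ℤ) ∣ b ^ 2 := by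
            obtain ⟨u, hu⟩ := hdb
            rw [hu]; push_cast; exact ⟨u ^ 2, by ring⟩
          have : D * a ^ 2 = b ^ 2 - n := by linarith
          rw [this]; exact dvd_sub h6 h4
        have h7 : ((2 : ℕ) : ℤ) ^ 2 ∣ a ^ 2 * D := by
          rw [mul_comm]; simpa using! h5
        have h8 : ¬ ((2 : ℕ) : ℤ) ∣ a ^ 2 := fun h => hna (hpZ.dvd_of_dvd_pow h)
        have h9 : ((2 : ℕ) : ℤ) ^ 2 ∣ D := hpZ.pow_dvd_of_dvd_mul_left 2 h8 h7
        have h10 := hD ((2 : ℕ) : ℤ) (by rw [← sq]; exact h9)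
        exact hpZ.not_unit h10
      have hy := hodd x y c e
      -- not both divisible by 4
      have hnot : ¬ ((4 : ℤ) ∣ A ∧ (4 : ℤ) ∣ B) := by
        rintro ⟨h5, h6⟩
        have h7 : (4 : ℤ) ∣ 2 * (y * x0) := by rw [← hsum]; exact dvd_add h5 h6
        have h8 : ((2 : ℕ) : ℤ) ∣ y * x0 := by
          push_cast; omega
        rcases hpZ.dvd_or_dvd h8 with h9 | h9
        · exact hy h9
        · exact n0 h9
      have hmn : ((2 : ℕ) : ℤ) ^ m ∣ n := (pow_dvd_pow _ (by omega)).trans hkZ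
      have hfin : ((2 : ℕ) : ℤ) ^ m ∣ y * x' - x * y' := by
        by_cases h4A : (4 : ℤ) ∣ A
        · -- then `4 ∤ B`
          have h4B : ¬ (4 : ℤ) ∣ B := fun h => hnot ⟨h4A, h⟩
          obtain ⟨B1, hB1⟩ := hpB
          have hB1o : ¬ ((2 : ℕ) : ℤ) ∣ B1 := by
            intro h; apply h4B; obtain ⟨v, hv⟩ := h; rw [hB1, hv]; push_cast
            exact ⟨v, by ring⟩
          have h5 : ((2 : ℕ) : ℤ) ^ m ∣ A * B1 := by
            rw [hB1, pow_succ, show A * (((2 : ℕ) : ℤ) * B1) = (A * B1) * ((2 : ℕ) : ℤ) by ring]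
              at hAB
            exact (mul_dvd_mul_iff_right (by norm_num)).mp hAB
          exact conc m (Or.inl ⟨hpZ.pow_dvd_of_dvd_mul_right m hB1o h5, hmn⟩)
        · obtain ⟨A1, hA1⟩ := hpA
          have hA1o : ¬ ((2 : ℕ) : ℤ) ∣ A1 := by
            intro h; apply h4A; obtain ⟨v, hv⟩ := h; rw [hA1, hv]; push_cast
            exact ⟨v, by ring⟩
          have h5 : ((2 : ℕ) : ℤ) ^ m ∣ A1 * B := by
            rw [hA1, pow_succ, show (((2 : ℕ) : ℤ) * A1) * B = (A1 * B) * ((2 : ℕ) : ℤ) by ring]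
              at hAB
            exact (mul_dvd_mul_iff_right (by norm_num)).mp hAB
          exact conc m (Or.inr ⟨hpZ.pow_dvd_of_dvd_mul_left m hA1o h5, hmn⟩)
      rw [pow_succ, mul_comm]
      push_cast at hfin ⊢
      exact mul_dvd_mul_left 2 hfin
  · -- odd prime dividing `y`
    have hpy : (p : ℤ) ∣ y := by
      rcases hpZ.dvd_or_dvd hp2y with h | h
      · exfalso
        have h1 : p ∣ 2 := by exact_mod_cast h
        exact hp2 ((Nat.prime_dvd_prime_iff_eq hp Nat.prime_two).mp h1)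
      · rcases hpZ.dvd_or_dvd h with h | h
        · exact h
        · exact absurd h n0
    have hpD : (p : ℤ) ∣ D := by
      have h1 : (p : ℤ) ∣ D * x ^ 2 := by
        have : D * x ^ 2 = y ^ 2 - n := by linarith
        rw [this]; exact dvd_sub (dvd_pow hpy two_ne_zero) hpn
      rcases hpZ.dvd_or_dvd h1 with h | h
      · exact h
      · exact absurd (hpZ.dvd_of_dvd_pow h) nx
    have hk1 : k = 1 := by
      by_contra hk1
      have hk2 : 2 ≤ k := by omega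
      have h1 : (p : ℤ) ^ 2 ∣ n := (pow_dvd_pow _ hk2).trans hkZ
      have h2 : (p : ℤ) ^ 2 ∣ x ^ 2 * D := by
        have : x ^ 2 * D = y ^ 2 - n := by linarith
        rw [this]; exact dvd_sub (pow_dvd_pow_of_dvd hpy 2) h1
      have h3 : ¬ (p : ℤ) ∣ x ^ 2 := fun h => nx (hpZ.dvd_of_dvd_pow h)
      have h4 : (p : ℤ) ^ 2 ∣ D := hpZ.pow_dvd_of_dvd_mul_left 2 h3 h2
      exact hpZ.not_unit (hD _ (by rw [← sq]; exact h4))
    subst hk1
    rw [pow_one]
    have hpy' : (p : ℤ) ∣ y' := by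
      apply hpZ.dvd_of_dvd_pow (n := 2)
      have : y' ^ 2 = n + D * x' ^ 2 := by linarith
      rw [this]; exact dvd_add hpn (hpD.mul_right _)
    exact (dvd_sub (hpy.mul_right _) (hpy'.mul_left _)).mul_left _

/-- primitive solutions: at most `τ(n)²` classes -/
theorem prim_bound (D n : ℤ) (hD : Squarefree D) (hn : n ≠ 0) (K : ℕ) (S : Finset (ℤ × ℤ))
    (h : ∀ z ∈ S, IsCoprime z.1 z.2 ∧ z.2 ^ 2 - D * z.1 ^ 2 = n)
    (hK : ∀ S' ⊆ S, (∀ z ∈ S', ∀ w ∈ S', n ∣ 2 * (z.2 * w.1 - z.1 * w.2)) → S'.card ≤ K) :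
    S.card ≤ K * n.natAbs.divisors.card ^ 2 := by
  classical
  rcases S.eq_empty_or_nonempty with rfl | ⟨z0, hz0⟩
  · simp
  obtain ⟨c0, e0⟩ := h z0 hz0
  set f : ℤ × ℤ → ℕ × ℕ := fun w =>
    (Int.gcd n (w.2 * z0.1 - w.1 * z0.2), Int.gcd n (w.2 * z0.1 + w.1 * z0.2)) with hf
  have h1 : S.card ≤ K * (S.image f).card := by
    apply Finset.card_le_mul_card_image
    intro a _
    apply hK _ (Finset.filter_subset _ _)
    intro z hz w hw
    rw [Finset.mem_filter] at hz hw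
    obtain ⟨hz1, hz2⟩ := hz
    obtain ⟨hw1, hw2⟩ := hw
    obtain ⟨c, e⟩ := h z hz1
    obtain ⟨c', e'⟩ := h w hw1
    have hfe : f z = f w := hz2.trans hw2.symm
    rw [hf, Prod.mk.injEq] at hfe
    exact class_dvd D n hD hn z0.1 z0.2 z.1 z.2 w.1 w.2 c0 c c' e0 e e' hfe.1 hfe.2
  refine h1.trans (Nat.mul_le_mul_left _ ?_)
  have h2 : S.image f ⊆ n.natAbs.divisors ×ˢ n.natAbs.divisors := by
    intro a ha
    rw [Finset.mem_image] at ha
    obtain ⟨w, _, rfl⟩ := ha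
    have hn' : n.natAbs ≠ 0 := by simpa using hn
    have hg : ∀ b : ℤ, Int.gcd n b ∈ n.natAbs.divisors := fun b =>
      Nat.mem_divisors.mpr ⟨Nat.gcd_dvd_left _ _, hn'⟩
    exact Finset.mem_product.mpr ⟨hg _, hg _⟩
  calc (S.image f).card ≤ _ := Finset.card_le_card h2
    _ = n.natAbs.divisors.card ^ 2 := by rw [Finset.card_product, sq]

end Crest.Agent.R022.Conic
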