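import Mathlib

/-!
# R022: the divisor bound `τ(n) ≤ C_ε n^ε`
-/

set_option autoImplicit false

namespace Crest.Agent.R022.DivBd

open Real

/-- number of small prime factors -/
noncomputable def sm (B n : ℕ) : ℕ := (n.primeFactors.filter (· ≤ B)).card

theorem sm_le (B n : ℕ) : sm B n ≤ B + 1 := by
  unfold sm
  calc (n.primeFactors.filter (· ≤ B)).card ≤ (Finset.range (B + 1)).card := by
        apply Finset.card_le_card
        intro p hp
        rw [Finset.mem_filter] at hp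
        rw [Finset.mem_range]; omega
    _ = B + 1 := by simp

theorem sm_mul (B a b : ℕ) (h : a.Coprime b) : sm B (a * b) = sm B a + sm B b := by
  unfold sm
  rw [h.primeFactors_mul, Finset.filter_union, Finset.card_union_of_disjoint]
  exact Finset.disjoint_filter_filter h.disjoint_primeFactors

theorem main_aux (ε : ℝ) (hε : 0 < ε) (B : ℕ) (hB : (2 : ℝ) ≤ (B : ℝ) ^ ε) (C : ℝ) (hC : 1 ≤ C)
    (hCa : ∀ a : ℕ, (a : ℝ) + 1 ≤ C * (2 : ℝ) ^ (a * ε)) (n : ℕ) (hn : n ≠ 0) :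
    (n.divisors.card : ℝ) ≤ C ^ sm B n * (n : ℝ) ^ ε := by
  induction n using Nat.recOnPosPrimePosCoprime with
  | zero => exact absurd rfl hn
  | one => simp [sm]
  | prime_pow p k hp hk =>
    rw [Nat.divisors_prime_pow hp, Finset.card_map, Finset.card_range]
    have hpf : (p ^ k).primeFactors = {p} := Nat.primeFactors_prime_pow hk.ne' hp
    have hp2 : (2 : ℝ) ≤ p := by exact_mod_cast hp.two_le
    have hp0 : (0 : ℝ) < p := by linarith
    have hpow : ((p ^ k : ℕ) : ℝ) ^ ε = (p : ℝ) ^ (k * ε) := by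
      push_cast
      rw [← Real.rpow_natCast, ← Real.rpow_mul hp0.le]
    rw [hpow]
    by_cases hpB : p ≤ B
    · have hs : sm B (p ^ k) = 1 := by
        unfold sm; rw [hpf, Finset.filter_singleton, if_pos hpB]; simp
      rw [hs, pow_one]
      calc ((k + 1 : ℕ) : ℝ) = (k : ℝ) + 1 := by push_cast; ring
        _ ≤ C * (2 : ℝ) ^ (k * ε) := hCa k
        _ ≤ C * (p : ℝ) ^ (k * ε) := by
            apply mul_le_mul_of_nonneg_left _ (by linarith)
            exact Real.rpow_le_rpow (by norm_num) hp2 (by positivity)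
    · have hs : sm B (p ^ k) = 0 := by
        unfold sm; rw [hpf, Finset.filter_singleton, if_neg hpB]; simp
      rw [hs, pow_zero, one_mul]
      have h1 : (2 : ℝ) ≤ (p : ℝ) ^ ε := by
        refine hB.trans (Real.rpow_le_rpow (by positivity) ?_ hε.le)
        exact_mod_cast (not_le.mp hpB).le
      have h2 : (2 : ℝ) ^ k ≤ (p : ℝ) ^ (k * ε) := by
        rw [mul_comm, Real.rpow_mul hp0.le, Real.rpow_natCast]
        exact pow_le_pow_left₀ (by norm_num) h1 k
      refine le_trans ?_ h2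
      have h3 : k + 1 ≤ 2 ^ k := Nat.lt_two_pow_self
      exact_mod_cast h3
  | coprime a b ha hb hab iha ihb =>
    have ha0 : a ≠ 0 := by omega
    have hb0 : b ≠ 0 := by omega
    rw [Nat.Coprime.card_divisors_mul hab, sm_mul B a b hab, pow_add]
    push_cast
    rw [Real.mul_rpow (by positivity) (by positivity)]
    calc ((a.divisors.card : ℝ) * (b.divisors.card : ℝ))
        ≤ (C ^ sm B a * (a : ℝ) ^ ε) * (C ^ sm B b * (b : ℝ) ^ ε) :=
          mul_le_mul (iha ha0) (ihb hb0) (by positivity) (by positivity)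
      _ = _ := by ring

/-- the divisor bound -/
theorem main (ε : ℝ) (hε : 0 < ε) : ∃ C : ℝ, 1 ≤ C ∧ ∀ n : ℕ, n ≠ 0 →
    (n.divisors.card : ℝ) ≤ C * (n : ℝ) ^ ε := by
  -- the threshold
  obtain ⟨B, hB⟩ : ∃ B : ℕ, (2 : ℝ) ≤ (B : ℝ) ^ ε := by
    obtain ⟨B, hB⟩ := exists_nat_ge ((2 : ℝ) ^ (1 / ε))
    refine ⟨B, ?_⟩
    calc (2 : ℝ) = ((2 : ℝ) ^ (1 / ε)) ^ ε := by
          rw [← Real.rpow_mul (by norm_num), one_div, inv_mul_cancel₀ hε.ne', Real.rpow_one]
      _ ≤ (B : ℝ) ^ ε := Real.rpow_le_rpow (by positivity) hB hε.le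
  set c0 : ℝ := ε * Real.log 2 with hc0
  have hl2 : 0 < Real.log 2 := Real.log_pos (by norm_num)
  have hc0p : 0 < c0 := mul_pos hε hl2
  set C : ℝ := 1 + 1 / c0 with hCdef
  have hC1 : 1 ≤ C := by rw [hCdef]; have := one_div_pos.mpr hc0p; linarith
  have hCa : ∀ a : ℕ, (a : ℝ) + 1 ≤ C * (2 : ℝ) ^ (a * ε) := by
    intro a
    have h1 : (2 : ℝ) ^ (a * ε) = Real.exp (a * c0) := by
      rw [Real.rpow_def_of_pos (by norm_num)]; congr 1; rw [hc0]; ring
    have h2 : a * c0 + 1 ≤ Real.exp (a * c0) := Real.add_one_le_exp _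
    rw [h1]
    have h3 : (a : ℝ) + 1 ≤ C * (a * c0 + 1) := by
      rw [hCdef]
      have h4 : (1 + 1 / c0) * (a * c0 + 1) = a * c0 + 1 + a + 1 / c0 := by field_simp; ring
      rw [h4]
      have : 0 ≤ a * c0 := by positivity
      have := (one_div_pos.mpr hc0p).le
      linarith
    exact h3.trans (mul_le_mul_of_nonneg_left h2 (by linarith))
  refine ⟨C ^ (B + 1), one_le_pow₀ hC1, fun n hn => ?_⟩
  refine (main_aux ε hε B hB C hC1 hCa n hn).trans ?_
  apply mul_le_mul_of_nonneg_right _ (by positivity)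
  exact pow_le_pow_right₀ hC1 (sm_le B n)

/-- the divisor bound for integers -/
theorem mainInt (ε : ℝ) (hε : 0 < ε) : ∃ C : ℝ, 1 ≤ C ∧ ∀ n : ℤ, n ≠ 0 → ∀ M : ℝ, |(n : ℝ)| ≤ M →
    (n.natAbs.divisors.card : ℝ) ≤ C * M ^ ε := by
  obtain ⟨C, hC, h⟩ := main ε hε
  refine ⟨C, hC, fun n hn M hM => (h n.natAbs (by simpa using hn)).trans ?_⟩
  apply mul_le_mul_of_nonneg_left _ (by linarith)
  apply Real.rpow_le_rpow (by positivity) _ hε.le
  rw [Nat.cast_natAbs, Int.cast_abs]; exact hM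

end Crest.Agent.R022.DivBd
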