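import Mathlib
import Crest.Agent.R022.DivBd
import Crest.Agent.R022.ConicA
import Crest.Agent.R022.ConicB

/-!
# R022: integer points on conics, part C: the equation `y² - Δ x² = m` in a box
-/

set_option autoImplicit false

namespace Crest.Agent.R022.Conic

/-- all sign classes together -/
theorem class_card (D n : ℤ) (hD0 : D ≠ 0) (hD1 : D ≠ 1) (hn : n ≠ 0) (M : ℕ) (hM : 1 ≤ M)
    (hDM : |D| ≤ M) (S : Finset (ℤ × ℤ))
    (h : ∀ z ∈ S, |z.1| ≤ (M : ℤ) ^ 2 ∧ |z.2| ≤ M ∧ z.2 ^ 2 - D * z.1 ^ 2 = n)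
    (hc : ∀ z ∈ S, ∀ w ∈ S, n ∣ 2 * (z.2 * w.1 - z.1 * w.2)) :
    S.card ≤ (5 + ⌊Real.log (2 * (M : ℝ) ^ 3) / Real.log (3 / 2) + 1⌋₊) * 4 := by
  classical
  set K0 := 5 + ⌊Real.log (2 * (M : ℝ) ^ 3) / Real.log (3 / 2) + 1⌋₊ with hK0
  set f : ℤ × ℤ → Bool × Bool := fun z => (decide (0 ≤ z.1), decide (0 ≤ z.2)) with hf
  have h1 : S.card ≤ K0 * (S.image f).card := by
    apply Finset.card_le_mul_card_image
    intro a _
    set F := S.filter (fun z => f z = a) with hF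
    set F' := F.image (fun z : ℤ × ℤ => (|z.1|, |z.2|)) with hF'
    have hinj : Set.InjOn (fun z : ℤ × ℤ => (|z.1|, |z.2|)) F := by
      intro z hz w hw hzw
      rw [Finset.mem_coe, hF, Finset.mem_filter] at hz hw
      have hfe : f z = f w := hz.2.trans hw.2.symm
      rw [hf, Prod.mk.injEq, decide_eq_decide, decide_eq_decide] at hfe
      rw [Prod.mk.injEq] at hzw
      obtain ⟨e1, e2⟩ := hfe
      obtain ⟨k1, k2⟩ := hzw
      apply Prod.ext
      · by_cases hs : 0 ≤ z.1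
        · rwa [abs_of_nonneg hs, abs_of_nonneg (e1.mp hs)] at k1
        · have hs' : ¬ 0 ≤ w.1 := fun h => hs (e1.mpr h)
          rw [abs_of_neg (not_le.mp hs), abs_of_neg (not_le.mp hs')] at k1
          exact neg_injective k1
      · by_cases hs : 0 ≤ z.2
        · rwa [abs_of_nonneg hs, abs_of_nonneg (e2.mp hs)] at k2
        · have hs' : ¬ 0 ≤ w.2 := fun h => hs (e2.mpr h)
          rw [abs_of_neg (not_le.mp hs), abs_of_neg (not_le.mp hs')] at k2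
          exact neg_injective k2
    have hcardF : F.card = F'.card := (Finset.card_image_of_injOn hinj).symm
    rw [hcardF]
    have hcF : ∀ z ∈ F', ∀ w ∈ F', n ∣ 2 * (z.2 * w.1 - z.1 * w.2) := by
      intro z' hz' w' hw'
      rw [hF', Finset.mem_image] at hz' hw'
      obtain ⟨z, hz, rfl⟩ := hz'
      obtain ⟨w, hw, rfl⟩ := hw'
      rw [hF, Finset.mem_filter] at hz hw
      have hfe : f z = f w := hz.2.trans hw.2.symm
      rw [hf, Prod.mk.injEq, decide_eq_decide, decide_eq_decide] at hfe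
      obtain ⟨e1, e2⟩ := hfe
      have hd := hc z hz.1 w hw.1
      simp only
      by_cases hs1 : 0 ≤ z.1
      · have hs1' := e1.mp hs1
        rw [abs_of_nonneg hs1, abs_of_nonneg hs1']
        by_cases hs2 : 0 ≤ z.2
        · rw [abs_of_nonneg hs2, abs_of_nonneg (e2.mp hs2)]; exact hd
        · have hs2' : ¬ 0 ≤ w.2 := fun h => hs2 (e2.mpr h)
          rw [abs_of_neg (not_le.mp hs2), abs_of_neg (not_le.mp hs2')]
          have : 2 * (-z.2 * w.1 - z.1 * -w.2) = -(2 * (z.2 * w.1 - z.1 * w.2)) := by ring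
          rw [this, dvd_neg]; exact hd
      · have hs1' : ¬ 0 ≤ w.1 := fun h => hs1 (e1.mpr h)
        rw [abs_of_neg (not_le.mp hs1), abs_of_neg (not_le.mp hs1')]
        by_cases hs2 : 0 ≤ z.2
        · rw [abs_of_nonneg hs2, abs_of_nonneg (e2.mp hs2)]
          have : 2 * (z.2 * -w.1 - -z.1 * w.2) = -(2 * (z.2 * w.1 - z.1 * w.2)) := by ring
          rw [this, dvd_neg]; exact hd
        · have hs2' : ¬ 0 ≤ w.2 := fun h => hs2 (e2.mpr h)
          rw [abs_of_neg (not_le.mp hs2), abs_of_neg (not_le.mp hs2')]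
          have : 2 * (-z.2 * -w.1 - -z.1 * -w.2) = 2 * (z.2 * w.1 - z.1 * w.2) := by ring
          rw [this]; exact hd
    have hF'mem : ∀ z ∈ F', 0 ≤ z.1 ∧ 0 ≤ z.2 ∧ z.1 ≤ (M : ℤ) ^ 2 ∧ z.2 ≤ M ∧
        z.2 ^ 2 - D * z.1 ^ 2 = n := by
      intro z' hz'
      rw [hF', Finset.mem_image] at hz'
      obtain ⟨z, hz, rfl⟩ := hz'
      rw [hF, Finset.mem_filter] at hz
      obtain ⟨b1, b2, e⟩ := h z hz.1
      exact ⟨abs_nonneg _, abs_nonneg _, b1, b2, by simpa only [sq_abs] using e⟩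
    rcases lt_or_ge D 0 with hDneg | hDpos
    · -- definite
      rcases F'.eq_empty_or_nonempty with hE | ⟨z0, hz0⟩
      · rw [hE]; simp
      have hnpos : 0 < n := by
        obtain ⟨_, _, _, _, e⟩ := hF'mem z0 hz0
        have : 0 ≤ n := by rw [← e]; nlinarith [sq_nonneg z0.1, sq_nonneg z0.2]
        exact lt_of_le_of_ne this (Ne.symm hn)
      have := quad_neg (-D) n (by omega) hnpos F' (fun z hz => by
        obtain ⟨a1, a2, _, _, e⟩ := hF'mem z hz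
        exact ⟨a1, a2, by linarith⟩) hcF
      omega
    · have hD2 : 2 ≤ D := by omega
      have hDr : (2 : ℝ) ≤ D := by exact_mod_cast hD2
      have hMr : (1 : ℝ) ≤ M := by exact_mod_cast hM
      have hDM' : (D : ℝ) ≤ M := by
        rw [abs_of_nonneg hDpos] at hDM; exact_mod_cast hDM
      have hsq : √(D : ℝ) ≤ M := by
        rw [Real.sqrt_le_left (by linarith)]; nlinarith
      have hM3 : (1 : ℝ) ≤ (M : ℝ) ^ 3 := one_le_pow₀ hMr
      have := quad_pos D n hD2 hn (2 * (M : ℝ) ^ 3) (by linarith) F' (fun z hz => by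
        obtain ⟨a1, a2, _, _, e⟩ := hF'mem z hz
        exact ⟨a1, a2, e⟩) (fun z hz => by
          obtain ⟨a1, a2, b1, b2, _⟩ := hF'mem z hz
          have b1' : (z.1 : ℝ) ≤ (M : ℝ) ^ 2 := by exact_mod_cast b1
          have b2' : (z.2 : ℝ) ≤ M := by exact_mod_cast b2
          have a1' : (0 : ℝ) ≤ z.1 := by exact_mod_cast a1
          have h3 : (z.1 : ℝ) * √(D : ℝ) ≤ (M : ℝ) ^ 2 * M :=
            mul_le_mul b1' hsq (Real.sqrt_nonneg _) (by positivity)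
          have h4 : (M : ℝ) ≤ (M : ℝ) ^ 3 := by
            calc (M : ℝ) = (M : ℝ) ^ 1 := (pow_one _).symm
              _ ≤ (M : ℝ) ^ 3 := pow_le_pow_right₀ hMr (by norm_num)
          have h5 : (M : ℝ) ^ 2 * M = (M : ℝ) ^ 3 := by ring
          linarith) hcF
      have h6 : F'.card ≤ ⌊Real.log (2 * (M : ℝ) ^ 3) / Real.log (3 / 2) + 1⌋₊ :=
        Nat.le_floor this
      omega
  refine h1.trans (Nat.mul_le_mul_left _ ?_)
  calc (S.image f).card ≤ (Finset.univ : Finset (Bool × Bool)).card :=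
        Finset.card_le_card (Finset.subset_univ _)
    _ = 4 := by decide

/-- `y² - D x² = m`, `D ≠ 0, 1` squarefree -/
theorem box_bound (D m : ℤ) (hD : Squarefree D) (hD0 : D ≠ 0) (hD1 : D ≠ 1) (hm : m ≠ 0) (M : ℕ)
    (hM : 1 ≤ M) (hDM : |D| ≤ M) (S : Finset (ℤ × ℤ))
    (h : ∀ z ∈ S, |z.1| ≤ (M : ℤ) ^ 2 ∧ |z.2| ≤ M ∧ z.2 ^ 2 - D * z.1 ^ 2 = m) :
    S.card ≤ (5 + ⌊Real.log (2 * (M : ℝ) ^ 3) / Real.log (3 / 2) + 1⌋₊) * 4 *
      m.natAbs.divisors.card ^ 3 := by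
  classical
  set K := (5 + ⌊Real.log (2 * (M : ℝ) ^ 3) / Real.log (3 / 2) + 1⌋₊) * 4 with hK
  set τ := m.natAbs.divisors.card with hτ
  have hm' : m.natAbs ≠ 0 := by simpa using hm
  set f : ℤ × ℤ → ℕ := fun z => Int.gcd z.1 z.2 with hf
  have hfd : ∀ z ∈ S, ((f z : ℤ)) ^ 2 ∣ m := by
    intro z hz
    obtain ⟨_, _, e⟩ := h z hz
    rw [← e]
    have h1 : (f z : ℤ) ∣ z.1 := Int.gcd_dvd_left _ _
    have h2 : (f z : ℤ) ∣ z.2 := Int.gcd_dvd_right _ _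
    exact dvd_sub (pow_dvd_pow_of_dvd h2 2) ((pow_dvd_pow_of_dvd h1 2).mul_left _)
  have h1 : S.card ≤ (K * τ ^ 2) * (S.image f).card := by
    apply Finset.card_le_mul_card_image
    intro g hg
    rw [Finset.mem_image] at hg
    obtain ⟨z0, hz0, hg0⟩ := hg
    have hgm : (g : ℤ) ^ 2 ∣ m := by rw [← hg0]; exact hfd z0 hz0
    obtain ⟨n, hn⟩ := hgm
    have hg1 : (g : ℤ) ≠ 0 := by
      rintro h0; rw [h0] at hn; apply hm; rw [hn]; ring
    have hn0 : n ≠ 0 := by rintro rfl; apply hm; rw [hn]; ring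
    have hgpos : (1 : ℤ) ≤ g := by omega
    set F := S.filter (fun z => f z = g) with hF
    set F' := F.image (fun z : ℤ × ℤ => (z.1 / (g : ℤ), z.2 / (g : ℤ))) with hF'
    have hdiv : ∀ z ∈ F, ∃ a b : ℤ, z.1 = g * a ∧ z.2 = g * b ∧ z.1 / (g : ℤ) = a ∧
        z.2 / (g : ℤ) = b := by
      intro z hz
      rw [hF, Finset.mem_filter] at hz
      have h1 : (g : ℤ) ∣ z.1 := by rw [← hz.2]; exact Int.gcd_dvd_left _ _
      have h2 : (g : ℤ) ∣ z.2 := by rw [← hz.2]; exact Int.gcd_dvd_right _ _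
      obtain ⟨a, ha⟩ := h1
      obtain ⟨b, hb⟩ := h2
      exact ⟨a, b, ha, hb, by rw [ha, Int.mul_ediv_cancel_left _ hg1],
        by rw [hb, Int.mul_ediv_cancel_left _ hg1]⟩
    have hinj : Set.InjOn (fun z : ℤ × ℤ => (z.1 / (g : ℤ), z.2 / (g : ℤ))) F := by
      intro z hz w hw hzw
      obtain ⟨a, b, ha, hb, ha', hb'⟩ := hdiv z hz
      obtain ⟨a2, b2, ha2, hb2, ha2', hb2'⟩ := hdiv w hw
      simp only [Prod.mk.injEq] at hzw
      rw [ha', hb', ha2', hb2'] at hzw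
      exact Prod.ext (by rw [ha, ha2, hzw.1]) (by rw [hb, hb2, hzw.2])
    have hcardF : F.card = F'.card := (Finset.card_image_of_injOn hinj).symm
    rw [hcardF]
    have hF'mem : ∀ z ∈ F', |z.1| ≤ (M : ℤ) ^ 2 ∧ |z.2| ≤ M ∧ IsCoprime z.1 z.2 ∧
        z.2 ^ 2 - D * z.1 ^ 2 = n := by
      intro z' hz'
      rw [hF', Finset.mem_image] at hz'
      obtain ⟨z, hz, rfl⟩ := hz'
      obtain ⟨a, b, ha, hb, ha', hb'⟩ := hdiv z hz
      simp only [ha', hb']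
      rw [hF, Finset.mem_filter] at hz
      obtain ⟨b1, b2, e⟩ := h z hz.1
      have hle : ∀ a : ℤ, |a| ≤ |(g : ℤ) * a| := by
        intro a
        rw [abs_mul, abs_of_pos (by omega : (0 : ℤ) < g)]
        nlinarith [abs_nonneg a]
      refine ⟨(hle a).trans (by rw [← ha]; exact b1), (hle b).trans (by rw [← hb]; exact b2),
        ?_, ?_⟩
      · have hgg : Int.gcd z.1 z.2 = g := hz.2
        rw [Int.isCoprime_iff_gcd_eq_one]
        rw [ha, hb, Int.gcd_mul_left] at hgg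
        have hgn : (g : ℤ).natAbs = g := Int.natAbs_natCast g
        rw [hgn] at hgg
        have hgpos' : 0 < g := by omega
        exact Nat.eq_of_mul_eq_mul_left hgpos' (by rw [hgg, mul_one])
      · have h3 : (g : ℤ) ^ 2 * (b ^ 2 - D * a ^ 2) = (g : ℤ) ^ 2 * n := by
          rw [← hn, ← e, ha, hb]; ring
        exact mul_left_cancel₀ (pow_ne_zero 2 hg1) h3
    have hpb := prim_bound D n hD hn0 K F' (fun z hz => ⟨(hF'mem z hz).2.2.1, (hF'mem z hz).2.2.2⟩)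
      (fun S' hS' hc => class_card D n hD0 hD1 hn0 M hM hDM S' (fun z hz => by
        obtain ⟨a1, a2, _, a4⟩ := hF'mem z (hS' hz)
        exact ⟨a1, a2, a4⟩) hc)
    refine hpb.trans (Nat.mul_le_mul_left _ (Nat.pow_le_pow_left ?_ 2))
    apply Finset.card_le_card
    apply Nat.divisors_subset_of_dvd hm'
    rw [Int.natAbs_dvd_natAbs, hn]
    exact Dvd.intro_left _ rfl
  have h2 : (S.image f).card ≤ τ := by
    apply Finset.card_le_card
    intro g hg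
    rw [Finset.mem_image] at hg
    obtain ⟨z, hz, rfl⟩ := hg
    rw [Nat.mem_divisors]
    refine ⟨?_, hm'⟩
    rw [← Int.natCast_dvd_natCast, Int.dvd_natAbs]
    exact (dvd_pow_self _ two_ne_zero).trans (hfd z hz)
  calc S.card ≤ (K * τ ^ 2) * (S.image f).card := h1
    _ ≤ (K * τ ^ 2) * τ := Nat.mul_le_mul_left _ h2
    _ = K * τ ^ 3 := by ring

/-- `y² - Δ x² = m` with arbitrary `Δ ≠ 0` -/
theorem gen_bound (Δ m : ℤ) (hΔ : Δ ≠ 0) (hm : m ≠ 0) (M : ℕ)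
    (hM : 1 ≤ M) (hΔM : |Δ| ≤ M) (S : Finset (ℤ × ℤ))
    (h : ∀ z ∈ S, |z.1| ≤ (M : ℤ) ∧ |z.2| ≤ M ∧ z.2 ^ 2 - Δ * z.1 ^ 2 = m) :
    S.card ≤ (5 + ⌊Real.log (2 * (M : ℝ) ^ 3) / Real.log (3 / 2) + 1⌋₊) * 4 *
      m.natAbs.divisors.card ^ 3 := by
  classical
  obtain ⟨a, b, hab, ha⟩ := Nat.sq_mul_squarefree Δ.natAbs
  obtain ⟨D, hD, hDsq, hb0⟩ : ∃ D : ℤ, Δ = D * (b : ℤ) ^ 2 ∧ Squarefree D ∧ b ≠ 0 := by
    have hb0 : b ≠ 0 := by
      rintro rfl
      apply hΔ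
      have : Δ.natAbs = 0 := by rw [← hab]; ring
      simpa using this
    rcases Int.natAbs_eq Δ with h1 | h1
    · refine ⟨a, ?_, ?_, hb0⟩
      · rw [h1, ← hab]; push_cast; ring
      · rw [Int.squarefree_natCast]; exact ha
    · refine ⟨-a, ?_, ?_, hb0⟩
      · rw [h1, ← hab]; push_cast; ring
      · rw [← Int.squarefree_natAbs, Int.natAbs_neg, Int.natAbs_natCast]; exact ha
  have hbZ : (b : ℤ) ≠ 0 := by exact_mod_cast hb0
  have hb1 : (1 : ℤ) ≤ b := by omega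
  have hD0 : D ≠ 0 := by rintro rfl; apply hΔ; rw [hD]; ring
  have hDabs : |D| * (b : ℤ) ^ 2 ≤ M := by
    rw [hD, abs_mul, abs_pow, Nat.abs_cast] at hΔM; exact hΔM
  have hD1' : 1 ≤ |D| := Int.one_le_abs hD0
  have hbsq : (1 : ℤ) ≤ (b : ℤ) ^ 2 := one_le_pow₀ hb1
  have hDM : |D| ≤ M := by nlinarith
  have hbM : (b : ℤ) ≤ M := by nlinarith
  set S1 := S.image (fun z : ℤ × ℤ => ((b : ℤ) * z.1, z.2)) with hS1
  have hinj : Set.InjOn (fun z : ℤ × ℤ => ((b : ℤ) * z.1, z.2)) S := by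
    intro z _ w _ hzw
    simp only [Prod.mk.injEq] at hzw
    exact Prod.ext (mul_left_cancel₀ hbZ hzw.1) hzw.2
  have hcard : S.card = S1.card := (Finset.card_image_of_injOn hinj).symm
  have hmem : ∀ z ∈ S1, |z.1| ≤ (M : ℤ) ^ 2 ∧ |z.2| ≤ M ∧ z.2 ^ 2 - D * z.1 ^ 2 = m := by
    intro z' hz'
    rw [hS1, Finset.mem_image] at hz'
    obtain ⟨z, hz, rfl⟩ := hz'
    obtain ⟨a1, a2, e⟩ := h z hz
    refine ⟨?_, a2, ?_⟩
    · simp only
      rw [abs_mul, Nat.abs_cast, sq]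
      exact mul_le_mul hbM a1 (abs_nonneg _) (by omega)
    · simp only
      rw [← e, hD]; ring
  rw [hcard]
  by_cases hD1 : D = 1
  · -- factor pairs
    subst hD1
    have h1 := fac S1 (fun z => z.2 - z.1) (by
      intro z hz w hw hzw
      obtain ⟨_, _, e⟩ := hmem z hz
      obtain ⟨_, _, e'⟩ := hmem w hw
      simp only at hzw
      have h2 : (z.2 - z.1) * (z.2 + z.1) = m := by rw [← e]; ring
      have h3 : (w.2 - w.1) * (w.2 + w.1) = m := by rw [← e']; ring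
      have h4 : z.2 - z.1 ≠ 0 := by
        intro h0; apply hm; rw [← h2, h0]; ring
      have h5 : z.2 + z.1 = w.2 + w.1 := by
        apply mul_left_cancel₀ h4
        rw [h2, ← h3, hzw]
      exact Prod.ext (by linarith) (by linarith)) m hm (by
      intro z hz
      obtain ⟨_, _, e⟩ := hmem z hz
      exact ⟨z.2 + z.1, by rw [← e]; ring⟩)
    refine h1.trans ?_
    have hτ1 : 1 ≤ m.natAbs.divisors.card := by
      apply Finset.card_pos.mpr
      exact ⟨1, Nat.one_mem_divisors.mpr (by simpa using hm)⟩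
    have h6 : m.natAbs.divisors.card ≤ m.natAbs.divisors.card ^ 3 := Nat.le_self_pow (by norm_num) _
    calc 2 * m.natAbs.divisors.card ≤ 2 * m.natAbs.divisors.card ^ 3 := Nat.mul_le_mul_left _ h6
      _ ≤ _ := Nat.mul_le_mul_right _ (by omega)
  · exact box_bound D m hDsq hD0 hD1 hm M hM hDM S1 hmem

/-- the core estimate -/
theorem core (ε : ℝ) (hε : 0 < ε) : ∃ C : ℝ, 1 ≤ C ∧ ∀ M : ℕ, 1 ≤ M → ∀ Δ m : ℤ, Δ ≠ 0 → m ≠ 0 →
    |Δ| ≤ M → |m| ≤ M → ∀ S : Finset (ℤ × ℤ),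
    (∀ z ∈ S, |z.1| ≤ (M : ℤ) ∧ |z.2| ≤ M ∧ z.2 ^ 2 - Δ * z.1 ^ 2 = m) →
    (S.card : ℝ) ≤ C * (M : ℝ) ^ ε ∧ 2 * (m.natAbs.divisors.card : ℝ) ≤ C * (M : ℝ) ^ ε := by
  set δ := ε / 4 with hδ
  have hδ0 : 0 < δ := by positivity
  obtain ⟨C1, hC1, hdiv⟩ := DivBd.mainInt δ hδ0
  have hl : 0 < Real.log (3 / 2) := Real.log_pos (by norm_num)
  set L := Real.log (3 / 2) with hL
  set C2 : ℝ := 4 * (6 + (Real.log 2 + 3 / δ) / L) with hC2
  have hlog2 : 0 < Real.log 2 := Real.log_pos (by norm_num)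
  have hC2pos : 24 ≤ C2 := by
    rw [hC2]
    have : 0 ≤ (Real.log 2 + 3 / δ) / L := by positivity
    linarith
  refine ⟨C2 * C1 ^ 3, ?_, fun M hM Δ m hΔ hm hΔM hmM S h => ?_⟩
  · have : 1 ≤ C1 ^ 3 := one_le_pow₀ hC1
    nlinarith
  have hMr : (1 : ℝ) ≤ M := by exact_mod_cast hM
  have hMpos : (0 : ℝ) < M := by linarith
  have hMδ : 1 ≤ (M : ℝ) ^ δ := Real.one_le_rpow hMr hδ0.le
  have hmr : |(m : ℝ)| ≤ M := by exact_mod_cast hmM
  have hτ := hdiv m hm M hmr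
  set τ : ℝ := (m.natAbs.divisors.card : ℝ) with hτdef
  have hτ0 : 0 ≤ τ := by positivity
  have hpow : ((M : ℝ) ^ δ) ^ 4 = (M : ℝ) ^ ε := by
    rw [← Real.rpow_natCast, ← Real.rpow_mul hMpos.le]
    congr 1
    rw [hδ]; push_cast; ring
  have hC13 : 1 ≤ C1 ^ 3 := one_le_pow₀ hC1
  constructor
  · have h1 := gen_bound Δ m hΔ hm M hM hΔM S h
    have h2 : (S.card : ℝ) ≤ ((5 + ⌊Real.log (2 * (M : ℝ) ^ 3) / L + 1⌋₊ : ℕ) : ℝ) * 4 * τ ^ 3 := by
      have := (Nat.cast_le (α := ℝ)).mpr h1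
      push_cast at this ⊢
      exact this
    have hlogM : Real.log M ≤ (M : ℝ) ^ δ / δ := Real.log_le_rpow_div hMpos.le hδ0
    have h3 : Real.log (2 * (M : ℝ) ^ 3) = Real.log 2 + 3 * Real.log M := by
      rw [Real.log_mul (by norm_num) (by positivity), Real.log_pow]; norm_num
    have h4 : ((5 + ⌊Real.log (2 * (M : ℝ) ^ 3) / L + 1⌋₊ : ℕ) : ℝ) * 4 ≤ C2 * (M : ℝ) ^ δ := by
      have h5 : (⌊Real.log (2 * (M : ℝ) ^ 3) / L + 1⌋₊ : ℝ) ≤ Real.log (2 * (M : ℝ) ^ 3) / L + 1 := by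
        apply Nat.floor_le
        have : 0 ≤ Real.log (2 * (M : ℝ) ^ 3) := by
          rw [h3]; have := Real.log_nonneg hMr; positivity
        positivity
      have h6 : Real.log (2 * (M : ℝ) ^ 3) / L ≤ (Real.log 2 + 3 / δ) / L * (M : ℝ) ^ δ := by
        rw [h3, div_mul_eq_mul_div]
        apply div_le_div_of_nonneg_right _ hl.le
        have : (3 / δ) * (M : ℝ) ^ δ = 3 * ((M : ℝ) ^ δ / δ) := by ring
        nlinarith
      push_cast
      rw [hC2]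
      nlinarith
    have h7 : τ ^ 3 ≤ (C1 * (M : ℝ) ^ δ) ^ 3 := pow_le_pow_left₀ hτ0 hτ 3
    calc (S.card : ℝ) ≤ _ := h2
      _ ≤ (C2 * (M : ℝ) ^ δ) * (C1 * (M : ℝ) ^ δ) ^ 3 :=
          mul_le_mul h4 h7 (by positivity) (by positivity)
      _ = C2 * C1 ^ 3 * ((M : ℝ) ^ δ) ^ 4 := by ring
      _ = _ := by rw [hpow]
  · have h8 : (M : ℝ) ^ δ ≤ (M : ℝ) ^ ε := by
      rw [← hpow]; exact le_self_pow₀ hMδ (by norm_num)
    have h9 : C1 ≤ C1 ^ 3 := le_self_pow₀ hC1 (by norm_num)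
    calc 2 * τ ≤ 2 * (C1 * (M : ℝ) ^ δ) := by linarith
      _ ≤ 24 * (C1 ^ 3 * (M : ℝ) ^ ε) := by
          have : C1 * (M : ℝ) ^ δ ≤ C1 ^ 3 * (M : ℝ) ^ ε := by gcongr
          have : 0 ≤ C1 ^ 3 * (M : ℝ) ^ ε := by positivity
          linarith
      _ ≤ C2 * (C1 ^ 3 * (M : ℝ) ^ ε) := mul_le_mul_of_nonneg_right hC2pos (by positivity)
      _ = _ := by ring

end Crest.Agent.R022.Conic
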