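import Mathlib

/-!
# R022 (statement S0029): common definitions

See `Crest/Agent/R022/Blueprint.lean` (comment only) for the mathematical blueprint.
-/

set_option autoImplicit false

namespace Crest.Agent.R022

open Polynomial

/-- algebraic closure of `ℚ` -/
abbrev Qb : Type := AlgebraicClosure ℚ
/-- integer polynomials in `t = (t₀, t₁)` -/
abbrev R2 : Type := MvPolynomial (Fin 2) ℤ
/-- polynomials in `t` over `Qb` -/
abbrev P2 : Type := MvPolynomial (Fin 2) Qb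

/-- the base change `R2 → P2` -/
noncomputable abbrev toP2 : R2 →+* P2 := MvPolynomial.map (algebraMap ℤ Qb)

/-- value of `G(t,n)` -/
noncomputable def ev3 (G : R2[X]) (t : Fin 2 → ℤ) (n : ℤ) : ℤ :=
  (G.map (MvPolynomial.eval t)).eval n

/-- value of `G(s,n)` for `G ∈ ℤ[s][n]` -/
noncomputable def ev2 (G : ℤ[X][X]) (s n : ℤ) : ℤ :=
  (G.map (Polynomial.evalRingHom s)).eval n

/-- `ℓ¹` norms (sum of absolute values of the coefficients) -/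
noncomputable def l1 (H : R2) : ℕ := ∑ m ∈ H.support, (H.coeff m).natAbs
noncomputable def l1n (G : R2[X]) : ℕ := ∑ i ∈ G.support, l1 (G.coeff i)
noncomputable def l1p (G : ℤ[X]) : ℕ := ∑ i ∈ G.support, (G.coeff i).natAbs
noncomputable def l1pp (G : ℤ[X][X]) : ℕ := ∑ i ∈ G.support, l1p (G.coeff i)

/-- complexity `≤ (c, A)`: degree `≤ c`, `ℓ¹`-height `≤ c * A ^ c` -/
structure Cx2 (c A : ℕ) (H : R2) : Prop where
  deg : H.totalDegree ≤ c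
  ht : l1 H ≤ c * A ^ c
structure Cx3 (c A : ℕ) (G : R2[X]) : Prop where
  degn : G.natDegree ≤ c
  degt : ∀ i, (G.coeff i).totalDegree ≤ c
  ht : l1n G ≤ c * A ^ c
structure Cx1 (c A : ℕ) (G : ℤ[X]) : Prop where
  deg : G.natDegree ≤ c
  ht : l1p G ≤ c * A ^ c
structure Cx11 (c A : ℕ) (G : ℤ[X][X]) : Prop where
  degn : G.natDegree ≤ c
  degs : ∀ i, (G.coeff i).natDegree ≤ c
  ht : l1pp G ≤ c * A ^ c

/-- Data of a slice: `α_i(t) = θ_i t₀ + t₁ + a_i`, `N(t) = ∏ α_i(t)`,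
`∑_j u_j θ_i^j = (N/α_i)^k`, `∑_j w_j θ_i^j = - θ_i (N/α_i)^k`. -/
structure SliceData (d k : ℕ) where
  θ : Fin d → Qb
  a : Fin d → Qb
  N : R2
  u : Fin d → R2
  w : Fin d → R2

namespace SliceData

variable {d k : ℕ} (S : SliceData d k)

/-- the linear form `α_i = θ_i t₀ + t₁ + a_i` -/
noncomputable def al (i : Fin d) : P2 :=
  MvPolynomial.C (S.θ i) * MvPolynomial.X 0 + MvPolynomial.X 1 + MvPolynomial.C (S.a i)

/-- all the algebraic hypotheses on a slice -/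
structure Good : Prop where
  inj : Function.Injective S.θ
  gal : ∀ σ : Qb ≃ₐ[ℚ] Qb, ∃ π : Equiv.Perm (Fin d), ∀ i,
    σ (S.θ i) = S.θ (π i) ∧ σ (S.a i) = S.a (π i)
  trans : ∀ i j, ∃ σ : Qb ≃ₐ[ℚ] Qb, σ (S.θ i) = S.θ j ∧ σ (S.a i) = S.a j
  /-- general position: no three of the lines `α_i = 0` are concurrent -/
  gp : ∀ i l m, i ≠ l → i ≠ m → l ≠ m →
    (S.a l - S.a i) * (S.θ m - S.θ i) ≠ (S.a m - S.a i) * (S.θ l - S.θ i)
  /-- no rational point on a line `α_i = 0` -/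
  nz : ∀ (x y : ℚ) i, (algebraMap ℚ Qb x) * S.θ i + algebraMap ℚ Qb y + S.a i ≠ 0
  hN : toP2 S.N = ∏ i, S.al i
  hu : ∀ i, S.al i ^ k * ∑ j : Fin d, MvPolynomial.C (S.θ i ^ (j : ℕ)) * toP2 (S.u j) = toP2 S.N ^ k
  hw : ∀ i, S.al i ^ k * ∑ j : Fin d, MvPolynomial.C (S.θ i ^ (j : ℕ)) * toP2 (S.w j)
    = - MvPolynomial.C (S.θ i) * toP2 S.N ^ k

/-- height/degree bounds of a slice -/
structure Bd (C A : ℕ) : Prop where
  N : Cx2 C A S.N
  u : ∀ j, Cx2 C A (S.u j)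
  w : ∀ j, Cx2 C A (S.w j)

end SliceData

/-- a point `(t, n, b)`; `b` = coordinates of `β = M^k (n - θ) / α(t)^k` in `ℤ[θ]` -/
@[ext] structure Pt (d : ℕ) where
  t : Fin 2 → ℤ
  n : ℤ
  b : Fin d → ℤ

noncomputable instance {d : ℕ} : DecidableEq (Pt d) := Classical.decEq _

/-- the algebraic relation between `t, n, b` -/
def Rel {d k : ℕ} (S : SliceData d k) (M : ℕ) (P : Pt d) : Prop :=
  ∀ j, (MvPolynomial.eval P.t S.N) ^ k * P.b j
    = (M : ℤ) ^ k * (P.n * MvPolynomial.eval P.t (S.u j) + MvPolynomial.eval P.t (S.w j))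

/-- the points we count in a slice -/
structure IsPt {d k : ℕ} (S : SliceData d k) (M C A : ℕ) (ρ : ℝ) (P : Pt d) : Prop where
  ht : ∀ i, |P.t i| ≤ (A : ℤ)
  hn : |P.n| ≤ (A : ℤ) ^ 9
  hb : ∀ j, |(P.b j : ℝ)| ≤ (C : ℝ) * (A : ℝ) ^ ρ
  rel : Rel S M P
  hp : ∃ p : ℕ, p.Prime ∧ A < p ∧ ∃ m : ℤ, m ≠ 0 ∧ |m| ≤ (C : ℤ) ∧
    MvPolynomial.eval P.t S.N = (p : ℤ) * m

/-- all points of `T` have the same `t` modulo all `q ∈ Q` -/
def EqMod {d : ℕ} (Q : Finset ℕ) (T : Finset (Pt d)) : Prop :=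
  ∀ q ∈ Q, ∀ P ∈ T, ∀ P' ∈ T, ∀ i, (q : ℤ) ∣ P.t i - P'.t i

/-- linear form in the `b`-coordinates -/
def lb {d : ℕ} (v : Fin d → ℤ) (P : Pt d) : ℤ := ∑ j, v j * P.b j

/-- linear form in the `b`- and `t`-coordinates -/
def lbt {d : ℕ} (v : Fin d → ℤ) (μ : Fin 2 → ℤ) (P : Pt d) : ℤ :=
  ∑ j, v j * P.b j + ∑ i, μ i * P.t i

/-- `s(t) = λ₀ t₀ + λ₁ t₁` -/
def sOf (lam : Fin 2 → ℤ) (t : Fin 2 → ℤ) : ℤ := ∑ i, lam i * t i

/-- A polynomially parametrised plane curve `H = 0` (line or parabola):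
`h t_i = τ_i(s)` with `s = λ₀ t₀ + λ₁ t₁` on integer points of `H = 0`, and the image of the
parametrisation lies on `H = 0`. -/
structure RatCurve (H : R2) where
  lam : Fin 2 → ℤ
  τ : Fin 2 → ℤ[X]
  h : ℤ
  hh : h ≠ 0
  deg : ∀ i, (τ i).natDegree ≤ 2
  param : ∑ i, Polynomial.C (lam i) * τ i = Polynomial.C h * Polynomial.X
  sol : ∀ t : Fin 2 → ℤ, MvPolynomial.eval t H = 0 → ∀ i, h * t i = (τ i).eval (sOf lam t)
  on : MvPolynomial.aeval (fun i => (Polynomial.C ((h : ℚ)⁻¹) * (τ i).map (Int.castRingHom ℚ) : ℚ[X])) H = 0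

namespace RatCurve

variable {H : R2} (Z : RatCurve H)

/-- `Q_i(s) = h α_i(τ(s)/h) = θ_i τ₀(s) + τ₁(s) + h a_i` -/
noncomputable def q {d k : ℕ} (S : SliceData d k) (i : Fin d) : Qb[X] :=
  Polynomial.C (S.θ i) * (Z.τ 0).map (algebraMap ℤ Qb) + (Z.τ 1).map (algebraMap ℤ Qb)
    + Polynomial.C ((Z.h : Qb) * S.a i)

/-- the curve is generic w.r.t. the slice: every line `α_i = 0` meets it in a point not on the
other lines -/
def Generic {d k : ℕ} (S : SliceData d k) : Prop :=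
  ∀ i, ∃ x : Qb, (Z.q S i).eval x = 0 ∧ ∀ l, l ≠ i → (Z.q S l).eval x ≠ 0

structure Bd (c A : ℕ) : Prop where
  h : Z.h.natAbs ≤ c * A ^ c
  lam : ∀ i, (Z.lam i).natAbs ≤ c * A ^ c
  τ : ∀ i, Cx1 c A (Z.τ i)

/-- restriction of polynomials in `t` to the parametrised curve `Z` -/
noncomputable def res : P2 →ₐ[Qb] Qb[X] :=
  MvPolynomial.aeval (fun i => Polynomial.C ((Z.h : Qb)⁻¹) * (Z.τ i).map (algebraMap ℤ Qb))

end RatCurve

/-- the guaranteed dimension (exact formula for lines in general position) -/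
def Dfull (d k j L : ℕ) : ℕ := (L + 2).choose 2 +
  ∑ m ∈ Finset.range (d - 1), ∑ j' ∈ Finset.range j, ∑ r ∈ Finset.range k,
    (k * j' * m + (L - r) + 1)

/-- the lower bound used (sharp for `d = 4`) -/
def Dst (j L : ℕ) : ℕ := (L + 2).choose 2 + 6 * j * j + 6 * j * L - 3 * j

/-- monomials `t^e u^f` -/
noncomputable def mono {d k : ℕ} (S : SliceData d k) (e : Fin 2 → ℕ) (f : Fin d → ℕ) : R2 :=
  MvPolynomial.X 0 ^ e 0 * MvPolynomial.X 1 ^ e 1 * ∏ l, S.u l ^ f l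

open Classical in
/-- monomials `((e₀,e₁),f)` of weight `≤ Y` not divisible by `(e0, g)` -/
noncomputable def MB (ρ : ℝ) (Y : ℕ) (e0 : ℕ × ℕ) (g : ℕ) : Finset ((ℕ × ℕ) × ℕ) :=
  ((Finset.range (Y + 1) ×ˢ Finset.range (Y + 1)) ×ˢ
    Finset.range (⌊(Y : ℝ) / ρ⌋₊ + 1)).filter fun m =>
      ((m.1.1 : ℝ) + m.1.2 + ρ * m.2 ≤ Y ∧ (m.2 < g ∨ ¬ (e0.1 ≤ m.1.1 ∧ e0.2 ≤ m.1.2)))

/-- monomials `(e₀,e₁)` of degree `≤ Y` not divisible by `e0` -/
def MC (Y : ℕ) (e0 : ℕ × ℕ) : Finset (ℕ × ℕ) :=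
  (Finset.range (Y + 1) ×ˢ Finset.range (Y + 1)).filter fun m =>
    (m.1 + m.2 ≤ Y ∧ ¬ (e0.1 ≤ m.1 ∧ e0.2 ≤ m.2))

/-- chart of an irreducible surface `G(t,n) = 0`: the `b`-polynomial `Gh(t,b) = 0` of
`b = ∑ v_j b_j` -/
structure SurfChart {d k : ℕ} (S : SliceData d k) (M c A : ℕ) (G : R2[X]) (v : Fin d → ℤ)
    (Gh : R2[X]) : Prop where
  hv : ∀ j, |v j| ≤ (c : ℤ)
  irr : Irreducible Gh
  pos : 1 ≤ Gh.natDegree
  cx : Cx3 c A Gh
  lc : 6 ≤ Gh.leadingCoeff.totalDegree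
  van : ∀ P : Pt d, Rel S M P → MvPolynomial.eval P.t S.N ≠ 0 → ev3 G P.t P.n = 0 →
    ev3 Gh P.t (lb v P) = 0

/-- admissible auxiliary primes -/
def QOk (C A : ℕ) (Q : Finset ℕ) : Prop := ∀ q ∈ Q, q.Prime ∧ C < q ∧ q ≤ A

/-- discriminant of the quadratic part of `H` -/
noncomputable def discQ (H : R2) : ℤ :=
  (H.coeff (Finsupp.single 0 1 + Finsupp.single 1 1)) ^ 2
    - 4 * H.coeff (Finsupp.single 0 2) * H.coeff (Finsupp.single 1 2)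

end Crest.Agent.R022
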