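import Mathlib
import Crest.Agent.R022.Defs
import Crest.Agent.R022.ConicC

/-!
# R022, block B13: integer points on conics
-/

set_option autoImplicit false

namespace Crest.Agent.R022.Conic

open MvPolynomial

/-! ### counting for an explicit quadratic polynomial -/

/-- the property proved in `core` -/
def CoreBd (ε C : ℝ) : Prop := ∀ M : ℕ, 1 ≤ M → ∀ Δ m : ℤ, Δ ≠ 0 → m ≠ 0 →
    |Δ| ≤ M → |m| ≤ M → ∀ S : Finset (ℤ × ℤ),
    (∀ z ∈ S, |z.1| ≤ (M : ℤ) ∧ |z.2| ≤ M ∧ z.2 ^ 2 - Δ * z.1 ^ 2 = m) →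
    (S.card : ℝ) ≤ C * (M : ℝ) ^ ε ∧ 2 * (m.natAbs.divisors.card : ℝ) ≤ C * (M : ℝ) ^ ε

/-- the quadratic function -/
def qf (a b c d e f s t : ℤ) : ℤ := a * s ^ 2 + b * s * t + c * t ^ 2 + d * s + e * t + f

/-- elementary inequalities about the sizes -/
theorem sizes (h A : ℕ) (hh : 1 ≤ h) (hA : 1 ≤ A) :
    (h : ℤ) ≤ (h : ℤ) ^ 2 ∧ (h : ℤ) ^ 2 ≤ (h : ℤ) ^ 4 ∧ (h : ℤ) ^ 2 ≤ (h : ℤ) ^ 2 * A ∧
      (h : ℤ) ^ 4 ≤ (h : ℤ) ^ 4 * A ∧ (h : ℤ) ^ 2 * A ≤ (h : ℤ) ^ 4 * A ∧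
      (h : ℤ) * A ≤ (h : ℤ) ^ 2 * A ∧ (h : ℤ) ≤ h * A := by
  have hhZ : (1 : ℤ) ≤ h := by exact_mod_cast hh
  have hAZ : (1 : ℤ) ≤ A := by exact_mod_cast hA
  have h2 : (h : ℤ) ≤ (h : ℤ) ^ 2 := by
    calc (h : ℤ) = (h : ℤ) ^ 1 := (pow_one _).symm
      _ ≤ _ := pow_le_pow_right₀ hhZ (by norm_num)
  have h24 : (h : ℤ) ^ 2 ≤ (h : ℤ) ^ 4 := pow_le_pow_right₀ hhZ (by norm_num)
  have hA0 : (0 : ℤ) ≤ A := by omega
  exact ⟨h2, h24, le_mul_of_one_le_right (by positivity) hAZ,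
    le_mul_of_one_le_right (by positivity) hAZ, mul_le_mul_of_nonneg_right h24 hA0,
    mul_le_mul_of_nonneg_right h2 hA0, le_mul_of_one_le_right (by positivity) hAZ⟩

set_option maxHeartbeats 1000000 in
theorem count1 (ε C : ℝ) (hε : 0 < ε) (hC : 1 ≤ C) (hcore : CoreBd ε C) (a b c d e f : ℤ)
    (h A : ℕ) (hh : 1 ≤ h) (hA : 1 ≤ A)
    (ha : |a| ≤ h) (hb : |b| ≤ h) (hc : |c| ≤ h) (hd : |d| ≤ h) (he : |e| ≤ h) (hf : |f| ≤ h)
    (ha0 : a ≠ 0) (hΔ : b ^ 2 - 4 * a * c ≠ 0)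
    (hnf : ∀ k : ℤ, k ≠ 0 → ∀ p q r p' q' r' : ℤ, ¬ ∀ s t : ℤ,
      k * qf a b c d e f s t = (p * s + q * t + r) * (p' * s + q' * t + r'))
    (P : Finset (ℤ × ℤ)) (hP : ∀ z ∈ P, |z.1| ≤ A ∧ |z.2| ≤ A ∧ qf a b c d e f z.1 z.2 = 0) :
    (P.card : ℝ) ≤ C * ((40 * h ^ 4 * A : ℕ) : ℝ) ^ ε := by
  classical
  set M : ℕ := 40 * h ^ 4 * A with hM
  have hM1 : 1 ≤ M := by
    rw [hM]; have := Nat.one_le_pow 4 h hh
    exact Nat.one_le_iff_ne_zero.mpr (by positivity)
  have hMr : (1 : ℝ) ≤ M := by exact_mod_cast hM1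
  have hone : (1 : ℝ) ≤ C * (M : ℝ) ^ ε := by
    have := Real.one_le_rpow hMr hε.le
    nlinarith
  set Δ := b ^ 2 - 4 * a * c with hΔd
  set E := b * d - 2 * a * e with hE
  set F := d ^ 2 - 4 * a * f with hF
  have hZ : ((M : ℕ) : ℤ) = 40 * (h : ℤ) ^ 4 * A := by rw [hM]; push_cast; ring
  have hhZ : (1 : ℤ) ≤ h := by exact_mod_cast hh
  have hAZ : (1 : ℤ) ≤ A := by exact_mod_cast hA
  obtain ⟨h2, h24, h2A, h4A, h24A, h5, h7⟩ := sizes h A hh hA
  have mulb : ∀ x y : ℤ, |x| ≤ h → |y| ≤ h → |x * y| ≤ (h : ℤ) ^ 2 := by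
    intro x y hx hy
    rw [abs_mul, sq]; exact mul_le_mul hx hy (abs_nonneg _) (by omega)
  have bΔ : |Δ| ≤ 5 * (h : ℤ) ^ 2 := by
    have h1 := mulb b b hb hb
    have h3 := mulb a c ha hc
    rw [abs_le] at h1 h3 ⊢
    constructor <;> nlinarith
  have bE : |E| ≤ 3 * (h : ℤ) ^ 2 := by
    have h1 := mulb b d hb hd
    have h3 := mulb a e ha he
    rw [abs_le] at h1 h3 ⊢
    constructor <;> nlinarith
  have bF : |F| ≤ 5 * (h : ℤ) ^ 2 := by
    have h1 := mulb d d hd hd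
    have h3 := mulb a f ha hf
    rw [abs_le] at h1 h3 ⊢
    constructor <;> nlinarith
  have bm : |E ^ 2 - Δ * F| ≤ 34 * (h : ℤ) ^ 4 := by
    have h1 : |E ^ 2| ≤ 9 * (h : ℤ) ^ 4 := by
      rw [abs_pow]
      calc |E| ^ 2 ≤ (3 * (h : ℤ) ^ 2) ^ 2 := pow_le_pow_left₀ (abs_nonneg _) bE 2
        _ = _ := by ring
    have h3 : |Δ * F| ≤ 25 * (h : ℤ) ^ 4 := by
      rw [abs_mul]
      calc |Δ| * |F| ≤ (5 * (h : ℤ) ^ 2) * (5 * (h : ℤ) ^ 2) :=
            mul_le_mul bΔ bF (abs_nonneg _) (by positivity)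
        _ = _ := by ring
    calc |E ^ 2 - Δ * F| ≤ |E ^ 2| + |Δ * F| := abs_sub _ _
      _ ≤ _ := by linarith
  set m := E ^ 2 - Δ * F with hm
  have hΔM : |Δ| ≤ M := by rw [hZ]; linarith
  have hmM : |m| ≤ M := by rw [hZ]; linarith
  have hid : ∀ s t : ℤ, 4 * a * Δ * qf a b c d e f s t =
      Δ * (2 * a * s + b * t + d) ^ 2 - (Δ * t + E) ^ 2 + m := by
    intro s t; rw [hm, hΔd, hE, hF, qf]; ring
  set S := P.image (fun z : ℤ × ℤ => (2 * a * z.1 + b * z.2 + d, Δ * z.2 + E)) with hS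
  have hinj : Set.InjOn (fun z : ℤ × ℤ => (2 * a * z.1 + b * z.2 + d, Δ * z.2 + E)) P := by
    intro z _ w _ hzw
    simp only [Prod.mk.injEq] at hzw
    have e2 : z.2 = w.2 := mul_left_cancel₀ hΔ (by linarith [hzw.2])
    have e1 : z.1 = w.1 := by
      apply mul_left_cancel₀ (mul_ne_zero two_ne_zero ha0)
      have := hzw.1
      rw [e2] at this
      linarith
    exact Prod.ext e1 e2
  have hcard : P.card = S.card := (Finset.card_image_of_injOn hinj).symm
  have hmem : ∀ z ∈ S, |z.1| ≤ (M : ℤ) ∧ |z.2| ≤ M ∧ z.2 ^ 2 - Δ * z.1 ^ 2 = m := by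
    intro z' hz'
    rw [hS, Finset.mem_image] at hz'
    obtain ⟨z, hz, rfl⟩ := hz'
    obtain ⟨a1, a2, hq⟩ := hP z hz
    have b1 : |2 * a * z.1| ≤ 2 * (h * A) := by
      rw [mul_assoc, abs_mul, abs_mul, abs_of_pos (by norm_num : (0 : ℤ) < 2)]
      exact mul_le_mul_of_nonneg_left (mul_le_mul ha a1 (abs_nonneg _) (by omega)) (by norm_num)
    have b2 : |b * z.2| ≤ h * A := by
      rw [abs_mul]; exact mul_le_mul hb a2 (abs_nonneg _) (by omega)
    have b3 : |Δ * z.2| ≤ 5 * (h : ℤ) ^ 2 * A := by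
      rw [abs_mul]; exact mul_le_mul bΔ a2 (abs_nonneg _) (by positivity)
    refine ⟨?_, ?_, ?_⟩
    · simp only
      rw [hZ]
      have h6 : |2 * a * z.1 + b * z.2 + d| ≤ 2 * (h * A) + h * A + h := by
        calc |2 * a * z.1 + b * z.2 + d| ≤ |2 * a * z.1 + b * z.2| + |d| := abs_add_le _ _
          _ ≤ |2 * a * z.1| + |b * z.2| + |d| := by
              have := abs_add_le (2 * a * z.1) (b * z.2); linarith
          _ ≤ _ := by linarith
      linarith
    · simp only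
      rw [hZ]
      have h6 : |Δ * z.2 + E| ≤ 5 * (h : ℤ) ^ 2 * A + 3 * (h : ℤ) ^ 2 :=
        (abs_add_le _ _).trans (by linarith)
      linarith
    · simp only
      have h8 := hid z.1 z.2
      rw [hq] at h8
      linarith
  by_cases hm0 : m = 0
  · -- degenerate: at most one point
    have hnsq : ¬ IsSquare Δ := by
      rintro ⟨g, hg⟩
      apply hnf (4 * a * Δ) (mul_ne_zero (mul_ne_zero (by norm_num) ha0) hΔ)
        (2 * a * g) (g * b - Δ) (g * d - E) (2 * a * g) (g * b + Δ) (g * d + E)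
      intro s t
      rw [hid s t, hm0, add_zero]
      have : Δ * (2 * a * s + b * t + d) ^ 2 = (g * (2 * a * s + b * t + d)) ^ 2 := by
        rw [hg]; ring
      rw [this]; ring
    have hz : ∀ z ∈ S, z = (0, 0) := by
      intro z hz
      obtain ⟨_, _, e⟩ := hmem z hz
      rw [hm0] at e
      have e' : z.2 ^ 2 = Δ * z.1 ^ 2 := by linarith
      have hx : z.1 = 0 := by
        by_contra hx
        apply hnsq
        have h1 : z.1 ^ 2 ∣ z.2 ^ 2 := ⟨Δ, by rw [e']; ring⟩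
        have h3 : z.1 ∣ z.2 := (Int.pow_dvd_pow_iff two_ne_zero).mp h1
        obtain ⟨g, hg⟩ := h3
        refine ⟨g, ?_⟩
        rw [hg] at e'
        apply mul_left_cancel₀ (pow_ne_zero 2 hx)
        linarith
      have hy : z.2 = 0 := by
        rw [hx] at e'
        have : z.2 ^ 2 = 0 := by rw [e']; ring
        exact pow_eq_zero_iff two_ne_zero |>.mp this
      exact Prod.ext hx hy
    have h1 : S.card ≤ 1 := by
      rw [Finset.card_le_one]
      intro z hz1 w hw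
      rw [hz z hz1, hz w hw]
    rw [hcard]
    have : (S.card : ℝ) ≤ 1 := by exact_mod_cast h1
    linarith
  · rw [hcard]
    exact (hcore M hM1 Δ m hΔ hm0 hΔM hmM S hmem).1

theorem count2 (ε C : ℝ) (hε : 0 < ε) (hC : 1 ≤ C) (hcore : CoreBd ε C) (a b c d e f : ℤ)
    (h A : ℕ) (hh : 1 ≤ h) (hA : 1 ≤ A)
    (ha : |a| ≤ h) (hb : |b| ≤ h) (hc : |c| ≤ h) (hd : |d| ≤ h) (he : |e| ≤ h) (hf : |f| ≤ h)
    (hΔ : b ^ 2 - 4 * a * c ≠ 0)
    (hnf : ∀ k : ℤ, k ≠ 0 → ∀ p q r p' q' r' : ℤ, ¬ ∀ s t : ℤ,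
      k * qf a b c d e f s t = (p * s + q * t + r) * (p' * s + q' * t + r'))
    (P : Finset (ℤ × ℤ)) (hP : ∀ z ∈ P, |z.1| ≤ A ∧ |z.2| ≤ A ∧ qf a b c d e f z.1 z.2 = 0) :
    (P.card : ℝ) ≤ C * ((40 * h ^ 4 * A : ℕ) : ℝ) ^ ε := by
  classical
  by_cases ha0 : a = 0
  swap
  · exact count1 ε C hε hC hcore a b c d e f h A hh hA ha hb hc hd he hf ha0 hΔ hnf P hP
  by_cases hc0 : c = 0
  swap
  · -- swap the variables
    have hcard : P.card = (P.image Prod.swap).card :=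
      (Finset.card_image_of_injective P Prod.swap_injective).symm
    rw [hcard]
    apply count1 ε C hε hC hcore c b a e d f h A hh hA hc hb ha he hd hf hc0
      (by intro h0; apply hΔ; linarith) _ (P.image Prod.swap)
    · intro z' hz'
      rw [Finset.mem_image] at hz'
      obtain ⟨z, hz, rfl⟩ := hz'
      obtain ⟨a1, a2, hq⟩ := hP z hz
      refine ⟨a2, a1, ?_⟩
      rw [Prod.fst_swap, Prod.snd_swap, ← hq]; simp only [qf]; ring
    · intro k hk p q r p' q' r' hcon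
      apply hnf k hk q p r q' p' r'
      intro s t
      have := hcon t s
      simp only [qf] at this ⊢
      linarith
  · subst ha0
    subst hc0
    have hb0 : b ≠ 0 := by rintro rfl; apply hΔ; ring
    have hid : ∀ s t : ℤ, b * qf 0 b 0 d e f s t = (b * s + e) * (b * t + d) - (d * e - b * f) := by
      intro s t; simp only [qf]; ring
    have hm0 : d * e - b * f ≠ 0 := by
      intro h0
      apply hnf b hb0 b 0 e 0 b d
      intro s t
      rw [hid, h0]; ring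
    have hfac := fac P (fun z => b * z.1 + e) (by
      intro z hz w hw hzw
      simp only at hzw
      obtain ⟨_, _, q1⟩ := hP z hz
      obtain ⟨_, _, q2⟩ := hP w hw
      have h1 := hid z.1 z.2
      have h2 := hid w.1 w.2
      rw [q1] at h1
      rw [q2] at h2
      have hne : b * z.1 + e ≠ 0 := by
        intro h0; rw [h0] at h1; apply hm0; linarith
      have e1 : z.1 = w.1 := mul_left_cancel₀ hb0 (by linarith)
      have e2 : z.2 = w.2 := by
        have h3 : (b * z.1 + e) * (b * z.2 + d) = (b * z.1 + e) * (b * w.2 + d) := by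
          rw [e1] at h1 ⊢; linarith
        have h4 := mul_left_cancel₀ hne h3
        exact mul_left_cancel₀ hb0 (by linarith)
      exact Prod.ext e1 e2) (d * e - b * f) hm0 (by
      intro z hz
      obtain ⟨_, _, q1⟩ := hP z hz
      have h1 := hid z.1 z.2
      rw [q1] at h1
      exact ⟨b * z.2 + d, by linarith⟩)
    set M : ℕ := 40 * h ^ 4 * A with hM
    have hM1 : 1 ≤ M := by
      rw [hM]; have := Nat.one_le_pow 4 h hh
      exact Nat.one_le_iff_ne_zero.mpr (by positivity)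
    have hhZ : (1 : ℤ) ≤ h := by exact_mod_cast hh
    have hAZ : (1 : ℤ) ≤ A := by exact_mod_cast hA
    have hZ : ((M : ℕ) : ℤ) = 40 * (h : ℤ) ^ 4 * A := by rw [hM]; push_cast; ring
    obtain ⟨h2', h24, h2A, h4A, h24A, h5, h7⟩ := sizes h A hh hA
    have hbd : |d * e - b * f| ≤ (M : ℤ) := by
      have h1 : |d * e| ≤ (h : ℤ) ^ 2 := by
        rw [abs_mul, sq]; exact mul_le_mul hd he (abs_nonneg _) (by omega)
      have h2 : |b * f| ≤ (h : ℤ) ^ 2 := by
        rw [abs_mul, sq]; exact mul_le_mul hb hf (abs_nonneg _) (by omega)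
      calc |d * e - b * f| ≤ |d * e| + |b * f| := abs_sub _ _
        _ ≤ _ := by rw [hZ]; linarith
    have h3 := (hcore M hM1 1 (d * e - b * f) one_ne_zero hm0 (by
      rw [abs_one]; exact_mod_cast hM1) hbd ∅ (by simp)).2
    have h4 : (P.card : ℝ) ≤ 2 * ((d * e - b * f).natAbs.divisors.card : ℝ) := by
      exact_mod_cast hfac
    linarith

/-! ### from polynomials to functions -/

theorem eval_eq (H : R2) (hH : H.totalDegree ≤ 2) (t : Fin 2 → ℤ) : MvPolynomial.eval t H =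
    qf (H.coeff (Finsupp.single 0 2)) (H.coeff (Finsupp.single 0 1 + Finsupp.single 1 1))
      (H.coeff (Finsupp.single 1 2)) (H.coeff (Finsupp.single 0 1))
      (H.coeff (Finsupp.single 1 1)) (H.coeff 0) (t 0) (t 1) := by
  classical
  set φ : ℕ × ℕ → (Fin 2 →₀ ℕ) := fun ij => Finsupp.single 0 ij.1 + Finsupp.single 1 ij.2 with hφ
  have hφ0 : ∀ ij, φ ij 0 = ij.1 := by intro ij; simp [hφ]
  have hφ1 : ∀ ij, φ ij 1 = ij.2 := by intro ij; simp [hφ]
  have hφinj : Function.Injective φ := by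
    intro x y hxy
    exact Prod.ext (by rw [← hφ0 x, hxy, hφ0]) (by rw [← hφ1 x, hxy, hφ1])
  have hdecomp : ∀ d : Fin 2 →₀ ℕ, d = φ (d 0, d 1) := by
    intro d; ext i; fin_cases i <;> simp [hφ]
  have hdeg : ∀ d : Fin 2 →₀ ℕ, (d.sum fun _ e => e) = d 0 + d 1 := by
    intro d
    rw [Finsupp.sum_fintype _ _ (by simp)]
    simp [Fin.sum_univ_two]
  have hzero : ∀ i j : ℕ, 2 < i + j → H.coeff (φ (i, j)) = 0 := by
    intro i j hij
    apply MvPolynomial.coeff_eq_zero_of_totalDegree_lt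
    refine lt_of_le_of_lt hH ?_
    have := hdeg (φ (i, j))
    rw [hφ0, hφ1] at this
    change 2 < (φ (i, j)).sum fun _ e => e
    rw [this]; exact hij
  rw [MvPolynomial.eval_eq']
  have hsub : H.support ⊆ (Finset.range 3 ×ˢ Finset.range 3).image φ := by
    intro d hd
    rw [Finset.mem_image]
    refine ⟨(d 0, d 1), ?_, (hdecomp d).symm⟩
    have h1 : d 0 + d 1 ≤ 2 := by
      by_contra hcon
      rw [MvPolynomial.mem_support_iff] at hd
      apply hd
      rw [hdecomp d]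
      exact hzero _ _ (by omega)
    rw [Finset.mem_product, Finset.mem_range, Finset.mem_range]
    constructor <;> simp only <;> omega
  rw [Finset.sum_subset hsub (by
    intro x _ hx
    rw [MvPolynomial.notMem_support_iff] at hx
    rw [hx, zero_mul]), Finset.sum_image (fun x _ y _ h => hφinj h), Finset.sum_product]
  simp only [Finset.sum_range_succ, Finset.sum_range_zero, Fin.prod_univ_two, hφ0, hφ1]
  rw [hzero 1 2 (by norm_num), hzero 2 1 (by norm_num), hzero 2 2 (by norm_num)]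
  simp only [hφ, qf]
  simp only [Finsupp.single_zero, zero_add, add_zero]
  ring

theorem coeff_le_l1 (H : R2) (m : Fin 2 →₀ ℕ) : |H.coeff m| ≤ (l1 H : ℤ) := by
  rw [Int.abs_eq_natAbs]
  have : (H.coeff m).natAbs ≤ l1 H := by
    by_cases hm : m ∈ H.support
    · exact Finset.single_le_sum (f := fun m => (H.coeff m).natAbs) (fun _ _ => Nat.zero_le _) hm
    · rw [MvPolynomial.notMem_support_iff] at hm
      rw [hm]; simp
  exact_mod_cast this

theorem nf (H : R2) (hirr : Irreducible H) (hdeg : H.totalDegree = 2) (k : ℤ) (hk : k ≠ 0)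
    (p q r p' q' r' : ℤ) : ¬ ∀ s t : ℤ,
      k * MvPolynomial.eval ![s, t] H = (p * s + q * t + r) * (p' * s + q' * t + r') := by
  intro hcon
  set L : R2 := C p * X 0 + C q * X 1 + C r with hL
  set L' : R2 := C p' * X 0 + C q' * X 1 + C r' with hL'
  have hmul : C k * H = L * L' := by
    apply MvPolynomial.funext
    intro t
    have ht : t = ![t 0, t 1] := by ext i; fin_cases i <;> rfl
    have h1 := hcon (t 0) (t 1)
    rw [← ht] at h1
    simp only [hL, hL', map_mul, map_add, eval_C, eval_X]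
    exact h1
  have hne : C k * H ≠ 0 := mul_ne_zero (by simpa using hk) hirr.ne_zero
  have hLdeg : ∀ a b c : ℤ, (C a * X 0 + C b * X 1 + C c : R2).totalDegree ≤ 1 := by
    intro a b c
    refine (totalDegree_add _ _).trans (max_le ((totalDegree_add _ _).trans (max_le ?_ ?_)) ?_)
    · refine (totalDegree_mul _ _).trans ?_
      rw [totalDegree_C, totalDegree_X]
    · refine (totalDegree_mul _ _).trans ?_
      rw [totalDegree_C, totalDegree_X]
    · rw [totalDegree_C]; exact Nat.zero_le _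
  have hcontra : ∀ G : R2, G ≠ 0 → G.totalDegree ≤ 1 → ¬ H ∣ G := by
    intro G hG0 hG1 ⟨K, hK⟩
    have hK0 : K ≠ 0 := by rintro rfl; apply hG0; rw [hK, mul_zero]
    rw [hK, totalDegree_mul_of_isDomain hirr.ne_zero hK0, hdeg] at hG1
    omega
  have hdvd : H ∣ L * L' := ⟨C k, by rw [← hmul]; ring⟩
  rw [hmul] at hne
  rcases (hirr.prime).dvd_or_dvd hdvd with h | h
  · exact hcontra L (left_ne_zero_of_mul hne) (hLdeg _ _ _) h
  · exact hcontra L' (right_ne_zero_of_mul hne) (hLdeg _ _ _) h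

/-- integer points on irreducible conics with nonzero discriminant: `O(A^ε)` -/
theorem main (c : ℕ) (ε : ℝ) (hε : 0 < ε) : ∃ C : ℕ, ∀ A : ℕ, 1 ≤ A → ∀ H : R2,
    Irreducible H → H.totalDegree = 2 → discQ H ≠ 0 → Cx2 c A H →
    ∀ T : Finset (Fin 2 → ℤ), (∀ t ∈ T, (∀ i, |t i| ≤ (A : ℤ)) ∧ MvPolynomial.eval t H = 0) →
      (T.card : ℝ) ≤ C * (A : ℝ) ^ ε := by
  classical
  set δ : ℝ := ε / (4 * c + 1) with hδ
  have hδ0 : 0 < δ := by positivity
  obtain ⟨C0, hC0, hcore⟩ := core δ hδ0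
  refine ⟨⌈C0 * ((40 * c ^ 4 : ℕ) : ℝ) ^ δ⌉₊, ?_⟩
  intro A hA H hirr hdeg hdisc hcx T hT
  have hc1 : 1 ≤ c := by have := hcx.deg; omega
  set h : ℕ := c * A ^ c with hh
  have hh1 : 1 ≤ h := Nat.one_le_iff_ne_zero.mpr (by positivity)
  have hco : ∀ m, |H.coeff m| ≤ (h : ℤ) := fun m =>
    (coeff_le_l1 H m).trans (by exact_mod_cast hcx.ht)
  set P := T.image (fun t : Fin 2 → ℤ => (t 0, t 1)) with hP
  have hinj : Set.InjOn (fun t : Fin 2 → ℤ => (t 0, t 1)) T := by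
    intro t _ t' _ htt
    simp only [Prod.mk.injEq] at htt
    ext i; fin_cases i
    · exact htt.1
    · exact htt.2
  have hcard : T.card = P.card := (Finset.card_image_of_injOn hinj).symm
  have hcount := count2 δ C0 hδ0 hC0 hcore (H.coeff (Finsupp.single 0 2))
    (H.coeff (Finsupp.single 0 1 + Finsupp.single 1 1))
    (H.coeff (Finsupp.single 1 2)) (H.coeff (Finsupp.single 0 1))
    (H.coeff (Finsupp.single 1 1)) (H.coeff 0) h A hh1 hA (hco _) (hco _) (hco _) (hco _) (hco _)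
    (hco _) hdisc (by
      intro k hk p q r p' q' r' hcon
      apply nf H hirr hdeg k hk p q r p' q' r'
      intro s t
      rw [eval_eq H hdeg.le]
      exact hcon s t) P (by
      intro z hz
      rw [hP, Finset.mem_image] at hz
      obtain ⟨t, ht, rfl⟩ := hz
      obtain ⟨hb, hev⟩ := hT t ht
      refine ⟨hb 0, hb 1, ?_⟩
      rw [eval_eq H hdeg.le] at hev
      exact hev)
  rw [hcard]
  refine hcount.trans ?_
  have hAr : (1 : ℝ) ≤ A := by exact_mod_cast hA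
  have hAp : (0 : ℝ) < A := by linarith
  have hM : ((40 * h ^ 4 * A : ℕ) : ℝ) = ((40 * c ^ 4 : ℕ) : ℝ) * (A : ℝ) ^ (4 * c + 1) := by
    rw [hh]; push_cast; ring
  rw [hM, Real.mul_rpow (by positivity) (by positivity), ← mul_assoc]
  have hpow : ((A : ℝ) ^ (4 * c + 1)) ^ δ = (A : ℝ) ^ ε := by
    rw [← Real.rpow_natCast, ← Real.rpow_mul hAp.le]
    congr 1
    rw [hδ]; push_cast
    field_simp
  rw [hpow]
  exact mul_le_mul_of_nonneg_right (Nat.le_ceil _) (by positivity)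

end Crest.Agent.R022.Conic
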