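import Mathlib

/-! Row 22, stage 4 (helper354): algebra of the curve stage. -/

set_option autoImplicit false

open Polynomial Finset

namespace Crest.Agent.R022.Curve354

/-- A polynomial of degree `< #S` vanishing at the (distinct) points `x p`, `p ∈ S`, is zero. -/
theorem eq_zero_of_many {k P : Type*} [Field k] (Q : k[X]) (S : Finset P) (x : P → k)
    (hx : Set.InjOn x S) (hcard : Q.natDegree < S.card) (h : ∀ p ∈ S, Q.eval (x p) = 0) :
    Q = 0 := by
  classical
  refine Polynomial.eq_zero_of_natDegree_lt_card_of_eval_eq_zero' Q (S.image x) ?_ ?_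
  · intro i hi
    obtain ⟨p, hp, rfl⟩ := Finset.mem_image.mp hi
    exact h p hp
  · rwa [Finset.card_image_of_injOn hx]

/-- Points where a nonzero polynomial does not vanish: at most `natDegree` points are lost. -/
theorem card_filter_ne {k P : Type*} [Field k] [DecidableEq k] (Q : k[X]) (hQ : Q ≠ 0)
    (S : Finset P) (x : P → k) (hx : Set.InjOn x S) :
    S.card ≤ (S.filter fun p => Q.eval (x p) ≠ 0).card + Q.natDegree := by
  have h1 : (S.filter fun p => Q.eval (x p) = 0).card ≤ Q.natDegree := by
    by_contra hcon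
    push Not at hcon
    refine hQ (eq_zero_of_many Q (S.filter fun p => Q.eval (x p) = 0) x ?_ hcon ?_)
    · exact hx.mono (by
        intro p hp
        exact (Finset.mem_filter.mp (Finset.mem_coe.mp hp)).1)
    · intro p hp
      exact (Finset.mem_filter.mp hp).2
  have h2 := Finset.card_filter_add_card_filter_not (s := S) (fun p => Q.eval (x p) = 0)
  have h3 : (S.filter fun p => Q.eval (x p) ≠ 0).card =
      (S.filter fun p => ¬ Q.eval (x p) = 0).card := rfl
  omega

/-- The Wronskian `X' R - k X R'` of a torsor parametrisation is divisible by `N ^ (k - 1)`. -/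
theorem dvd_wronskian {K : Type*} [Field K] (k : ℕ) (hk : 1 ≤ k) (N β R Xh : K[X]) (c : K)
    (hX : Xh = N ^ k * β + C c * R ^ k) :
    N ^ (k - 1) ∣ derivative Xh * R - C (k : K) * Xh * derivative R := by
  obtain ⟨j, rfl⟩ : ∃ j, k = j + 1 := ⟨k - 1, by omega⟩
  subst hX
  refine ⟨C ((j + 1 : ℕ) : K) * derivative N * β * R + N * derivative β * R -
    C ((j + 1 : ℕ) : K) * N * β * derivative R, ?_⟩
  simp only [derivative_add, derivative_mul, derivative_pow, derivative_C, Nat.add_sub_cancel]
  ring

theorem wronskian_eq_zero {ι : Type*} [Fintype ι] {K : Type*} [Field K] (k D : ℕ)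
    (N β : ι → K[X]) (R Xh : K[X]) (c : ι → K)
    (hX : ∀ i, Xh = N i ^ k * β i + C (c i) * R ^ k)
    (hβ : ∀ i, (β i).natDegree ≤ 1) (hN : ∀ i, (N i).natDegree = D) (hR : R.natDegree ≤ D)
    (hN0 : ∀ i, N i ≠ 0) (hco : Pairwise (fun i j => IsCoprime (N i) (N j)))
    (hD : 1 ≤ D) (hk : 1 ≤ k) (hdk : k + 1 < Fintype.card ι * (k - 1)) :
    derivative Xh * R - C (k : K) * Xh * derivative R = 0 := by
  classical
  by_contra hW
  have hdvd : ∏ i, N i ^ (k - 1) ∣ derivative Xh * R - C (k : K) * Xh * derivative R := by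
    refine Finset.prod_dvd_of_coprime ?_ fun i _ => dvd_wronskian k hk _ _ _ _ _ (hX i)
    intro i _ j _ hij
    exact (hco hij).pow
  have h1 := Polynomial.natDegree_le_of_dvd hdvd hW
  have h2 : (∏ i, N i ^ (k - 1)).natDegree = Fintype.card ι * ((k - 1) * D) := by
    rw [Polynomial.natDegree_prod _ _ fun i _ => pow_ne_zero _ (hN0 i)]
    simp [hN]
  -- degree of the Wronskian
  have hpos : 0 < Fintype.card ι := by
    rcases Nat.eq_zero_or_pos (Fintype.card ι) with h | h
    · rw [h] at hdk; omega
    · exact h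
  obtain ⟨i0⟩ := Fintype.card_pos_iff.mp hpos
  have hXd : Xh.natDegree ≤ k * D + 1 := by
    rw [hX i0]
    refine (natDegree_add_le _ _).trans (max_le ?_ ?_)
    · refine natDegree_mul_le.trans (add_le_add ?_ (hβ i0))
      rw [natDegree_pow, hN]
    · refine (natDegree_C_mul_le _ _).trans ?_
      rw [natDegree_pow]
      have := Nat.mul_le_mul_left k hR
      omega
  have h3 : (derivative Xh * R).natDegree ≤ (k + 1) * D := by
    refine natDegree_mul_le.trans ?_
    have := natDegree_derivative_le Xh
    have e : (k + 1) * D = k * D + D := by ring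
    omega
  have h4 : (C (k : K) * Xh * derivative R).natDegree ≤ (k + 1) * D := by
    refine natDegree_mul_le.trans ?_
    have h5 : (C (k : K) * Xh).natDegree ≤ k * D + 1 := (natDegree_C_mul_le _ _).trans hXd
    have h6 := natDegree_derivative_le R
    have e : (k + 1) * D = k * D + D := by ring
    omega
  have h7 := (natDegree_sub_le (derivative Xh * R) (C (k : K) * Xh * derivative R)).trans
    (max_le h3 h4)
  rw [h2] at h1
  have h8 : Fintype.card ι * (k - 1) * D ≤ (k + 1) * D := by
    rw [mul_assoc]; exact h1.trans h7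
  have h9 := Nat.le_of_mul_le_mul_right h8 hD
  omega

/-- `Y` is an affine function of `X` on a large subset, from three polynomial relations. -/
theorem affine_of_relations {P : Type*} (S : Finset P) (X Y : P → ℚ) (f : ℕ)
    (hX : Set.InjOn X S) (x1 y1 x2 y2 x3 y3 : ℚ[X])
    (h1 : ¬ (x1 = 0 ∧ y1 = 0)) (h2 : ¬ (x2 = 0 ∧ y2 = 0)) (h3 : ¬ (x3 = 0 ∧ y3 = 0))
    (h30 : y3.coeff 0 = 0)
    (dx1 : x1.natDegree ≤ f) (dy1 : y1.natDegree ≤ f) (dx2 : x2.natDegree ≤ f)
    (dy2 : y2.natDegree ≤ f) (dx3 : x3.natDegree ≤ f) (dy3 : y3.natDegree ≤ f)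
    (r1 : ∀ p ∈ S, x1.eval (X p) + y1.eval (X p) * Y p = 0)
    (r2 : ∀ p ∈ S, x2.eval (Y p) + y2.eval (Y p) * X p = 0)
    (r3 : ∀ p ∈ S, x3.eval (X p) + y3.eval (Y p) = 0)
    (hcard : f * f + 2 * f + 1 < S.card) :
    ∃ S' ⊆ S, S.card ≤ S'.card + f ∧ ∃ a c : ℚ, ∀ p ∈ S', Y p = a * X p + c := by
  classical
  -- y1 ≠ 0
  have hy1 : y1 ≠ 0 := by
    intro h
    refine h1 ⟨eq_zero_of_many x1 S X hX (by nlinarith) fun p hp => ?_, h⟩
    have := r1 p hp
    rw [h] at this
    simpa using this
  -- divide by the gcd
  obtain ⟨u, v, g, hg0, hxu, hyv, huv⟩ : ∃ u v g : ℚ[X], g ≠ 0 ∧ x1 = g * u ∧ y1 = g * v ∧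
      IsCoprime u v := by
    have hgcd : EuclideanDomain.gcd x1 y1 ≠ 0 := by
      intro h
      exact hy1 ((EuclideanDomain.gcd_eq_zero_iff.mp h).2)
    obtain ⟨u, hu⟩ := EuclideanDomain.gcd_dvd_left x1 y1
    obtain ⟨v, hv⟩ := EuclideanDomain.gcd_dvd_right x1 y1
    refine ⟨u, v, EuclideanDomain.gcd x1 y1, hgcd, hu, hv, ?_⟩
    have hb := EuclideanDomain.gcd_eq_gcd_ab x1 y1
    refine ⟨EuclideanDomain.gcdA x1 y1, EuclideanDomain.gcdB x1 y1, ?_⟩
    apply mul_left_cancel₀ hgcd
    calc EuclideanDomain.gcd x1 y1 * (EuclideanDomain.gcdA x1 y1 * u +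
          EuclideanDomain.gcdB x1 y1 * v)
        = (EuclideanDomain.gcd x1 y1 * u) * EuclideanDomain.gcdA x1 y1 +
          (EuclideanDomain.gcd x1 y1 * v) * EuclideanDomain.gcdB x1 y1 := by ring
      _ = x1 * EuclideanDomain.gcdA x1 y1 + y1 * EuclideanDomain.gcdB x1 y1 := by
          rw [← hu, ← hv]
      _ = EuclideanDomain.gcd x1 y1 * 1 := by rw [mul_one]; exact hb.symm
  have hv0 : v ≠ 0 := by
    rintro rfl
    exact hy1 (by rw [hyv, mul_zero])
  have hgd : g.natDegree ≤ f := by
    have := natDegree_le_of_dvd (Dvd.intro _ hyv.symm) hy1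
    omega
  have hvd : v.natDegree ≤ f := by
    have := natDegree_le_of_dvd (Dvd.intro_left _ hyv.symm) hy1
    omega
  have hud : u.natDegree ≤ f := by
    rcases eq_or_ne x1 0 with h | h
    · have : u = 0 := by
        rw [h] at hxu
        rcases mul_eq_zero.mp hxu.symm with h' | h'
        · exact absurd h' hg0
        · exact h'
      rw [this]; simp
    · have := natDegree_le_of_dvd (Dvd.intro_left _ hxu.symm) h
      omega
  set S' := S.filter fun p => g.eval (X p) ≠ 0 with hS'
  have hS'S : S' ⊆ S := Finset.filter_subset _ _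
  have hX' : Set.InjOn X S' := hX.mono (by exact_mod_cast hS'S)
  have hc' : S.card ≤ S'.card + f := by
    have h := card_filter_ne g hg0 S X hX
    rw [← hS'] at h
    omega
  have r1' : ∀ p ∈ S', u.eval (X p) + v.eval (X p) * Y p = 0 := by
    intro p hp
    have h4 := r1 p (hS'S hp)
    have h5 : g.eval (X p) ≠ 0 := (Finset.mem_filter.mp hp).2
    rw [hxu, hyv, eval_mul, eval_mul] at h4
    apply mul_left_cancel₀ h5
    linear_combination h4
  -- v is a unit
  have hvunit : IsUnit v := by
    set e := y3.natDegree with he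
    -- the identity
    have hid : x3 * v ^ e + ∑ i ∈ range (e + 1), C (y3.coeff i) * (-u) ^ i * v ^ (e - i) = 0 := by
      refine eq_zero_of_many _ S' X hX' ?_ fun p hp => ?_
      · have hdeg : (x3 * v ^ e + ∑ i ∈ range (e + 1),
            C (y3.coeff i) * (-u) ^ i * v ^ (e - i)).natDegree ≤ f + f * f := by
          refine (natDegree_add_le _ _).trans (max_le ?_ ?_)
          · refine natDegree_mul_le.trans (add_le_add dx3 ?_)
            rw [natDegree_pow]
            exact Nat.mul_le_mul dy3 hvd
          · refine natDegree_sum_le_of_forall_le _ _ fun i hi => ?_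
            have hi' := mem_range.mp hi
            refine natDegree_mul_le.trans ?_
            have h6 : (C (y3.coeff i) * (-u) ^ i).natDegree ≤ i * f := by
              refine (natDegree_C_mul_le _ _).trans ?_
              rw [natDegree_pow, natDegree_neg]
              exact Nat.mul_le_mul_left _ hud
            have h7 : (v ^ (e - i)).natDegree ≤ (e - i) * f := by
              rw [natDegree_pow]
              exact Nat.mul_le_mul_left _ hvd
            have h8 : i * f + (e - i) * f = e * f := by
              rw [← add_mul]; congr 1; omega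
            have h9 : e * f ≤ f * f := Nat.mul_le_mul_right _ dy3
            omega
        have : S.card ≤ S'.card + f := hc'
        omega
      · have h4 := r1' p hp
        have h5 := r3 p (hS'S hp)
        rw [eval_add, eval_mul, eval_pow, Polynomial.eval_finsetSum]
        have h6 : ∀ i ∈ range (e + 1), (C (y3.coeff i) * (-u) ^ i * v ^ (e - i)).eval (X p) =
            y3.coeff i * Y p ^ i * (v.eval (X p)) ^ e := by
          intro i hi
          have hi' := mem_range.mp hi
          simp only [eval_mul, eval_pow, eval_neg, eval_C]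
          have h7 : -u.eval (X p) = v.eval (X p) * Y p := by linear_combination -h4
          rw [h7, mul_pow]
          have h8 : (v.eval (X p)) ^ e = (v.eval (X p)) ^ i * (v.eval (X p)) ^ (e - i) := by
            rw [← pow_add]; congr 1; omega
          rw [h8]; ring
        rw [Finset.sum_congr rfl h6, ← Finset.sum_mul, ← Polynomial.eval_eq_sum_range, ← add_mul,
          h5, zero_mul]
    -- e ≥ 1
    have he1 : 1 ≤ e := by
      by_contra hcon
      have he0 : e = 0 := by omega
      have hy3 : y3 = 0 := by
        have h7 : y3 = C (y3.coeff 0) := Polynomial.eq_C_of_natDegree_eq_zero (by omega)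
        rw [h7, h30, C_0]
      refine h3 ⟨?_, hy3⟩
      refine eq_zero_of_many x3 S X hX (by nlinarith) fun p hp => ?_
      have := r3 p hp
      rw [hy3] at this
      simpa using this
    have hlead : y3.coeff e ≠ 0 := by
      rw [he]
      intro h
      have : y3 = 0 := by
        rwa [Polynomial.coeff_natDegree, leadingCoeff_eq_zero] at h
      rw [this] at he
      simp at he
      omega
    have hdvd : v ∣ C (y3.coeff e) * (-u) ^ e := by
      rw [Finset.sum_range_succ] at hid
      have h6 : C (y3.coeff e) * (-u) ^ e = -(x3 * v ^ e +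
          ∑ i ∈ range e, C (y3.coeff i) * (-u) ^ i * v ^ (e - i)) := by
        have : C (y3.coeff e) * (-u) ^ e * v ^ (e - e) = C (y3.coeff e) * (-u) ^ e := by simp
        rw [this] at hid
        linear_combination hid
      rw [h6]
      refine (dvd_neg.mpr (dvd_add ?_ ?_))
      · exact Dvd.dvd.mul_left (dvd_pow_self v (by omega)) _
      · refine Finset.dvd_sum fun i hi => ?_
        have hi' := mem_range.mp hi
        exact Dvd.dvd.mul_left (dvd_pow_self v (by omega)) _
    have hcop : IsCoprime v (C (y3.coeff e) * (-u) ^ e) := by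
      refine IsCoprime.mul_right ?_ ?_
      · exact (isCoprime_one_right).of_isCoprime_of_dvd_right
          ((Polynomial.isUnit_C.mpr (Ne.isUnit hlead)).dvd)
      · exact (huv.neg_left.symm).pow_right
    exact hcop.isUnit_of_dvd' dvd_rfl hdvd
  obtain ⟨v0, hv0', hvC⟩ : ∃ v0 : ℚ, v0 ≠ 0 ∧ v = C v0 := by
    obtain ⟨c, hc, hcv⟩ := Polynomial.isUnit_iff.mp hvunit
    exact ⟨c, hc.ne_zero, hcv.symm⟩
  -- Y = R(X)
  set R : ℚ[X] := C (-v0⁻¹) * u with hR
  have hYR : ∀ p ∈ S', Y p = R.eval (X p) := by
    intro p hp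
    have h4 := r1' p hp
    rw [hvC, eval_C] at h4
    rw [hR, eval_mul, eval_C]
    field_simp
    linear_combination h4
  have hRd : R.natDegree ≤ f := (natDegree_C_mul_le _ _).trans hud
  have hR1 : R.natDegree ≤ 1 := by
    by_contra hcon
    push Not at hcon
    have hid : x2.comp R + y2.comp R * Polynomial.X = 0 := by
      refine eq_zero_of_many _ S' X hX' ?_ fun p hp => ?_
      · have : (x2.comp R + y2.comp R * Polynomial.X).natDegree ≤ f * f + 1 := by
          refine (natDegree_add_le _ _).trans (max_le ?_ ?_)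
          · refine natDegree_comp_le.trans ?_
            have := Nat.mul_le_mul dx2 hRd
            omega
          · refine natDegree_mul_le.trans (add_le_add ?_ natDegree_X_le)
            refine natDegree_comp_le.trans ?_
            exact Nat.mul_le_mul dy2 hRd
        have h6 := hc'
        have h7 : f * f + f + 1 < S'.card := by omega
        omega
      · have h4 := r2 p (hS'S hp)
        rw [hYR p hp] at h4
        simpa [eval_comp] using h4
    have hy2 : y2 ≠ 0 := by
      intro h
      rw [h] at hid
      simp only [zero_comp, zero_mul, add_zero] at hid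
      refine h2 ⟨?_, h⟩
      rcases Polynomial.comp_eq_zero_iff.mp hid with h' | ⟨_, h'⟩
      · exact h'
      · rw [h'] at hcon
        simp at hcon
    have hcomp0 : y2.comp R ≠ 0 := by
      intro h
      rcases Polynomial.comp_eq_zero_iff.mp h with h' | ⟨_, h'⟩
      · exact hy2 h'
      · rw [h'] at hcon
        simp at hcon
    have h5 : (x2.comp R).natDegree = (y2.comp R * Polynomial.X).natDegree := by
      have : x2.comp R = -(y2.comp R * Polynomial.X) := by linear_combination hid
      rw [this, natDegree_neg]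
    rw [natDegree_comp, natDegree_mul_X hcomp0, natDegree_comp] at h5
    have h6 : R.natDegree ∣ 1 := by
      have h7 : R.natDegree ∣ y2.natDegree * R.natDegree + 1 := by
        rw [← h5]; exact Dvd.intro_left _ rfl
      exact (Nat.dvd_add_right (Dvd.intro_left _ rfl)).mp h7
    have := Nat.le_of_dvd one_pos h6
    omega
  refine ⟨S', hS'S, hc', R.coeff 1, R.coeff 0, fun p hp => ?_⟩
  rw [hYR p hp]
  conv_lhs => rw [Polynomial.eq_X_add_C_of_natDegree_le_one hR1]
  simp

end Crest.Agent.R022.Curve354
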