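import Crest.Agent.R022.Curve354A

/-! Row 22, stage 4 (helper354): the final algebraic contradiction of the curve stage. -/

set_option autoImplicit false

open Polynomial Finset

namespace Crest.Agent.R022.Curve354

/-- reduction of a pair by the gcd -/
theorem exists_gcd2 {k : Type*} [Field k] (b c : k[X]) (hc : c ≠ 0) :
    ∃ g b' c' v w : k[X], g ≠ 0 ∧ b = g * b' ∧ c = g * c' ∧ v * b' + w * c' = 1 := by
  classical
  have hgcd : EuclideanDomain.gcd b c ≠ 0 := by
    intro h
    exact hc ((EuclideanDomain.gcd_eq_zero_iff.mp h).2)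
  obtain ⟨u, hu⟩ := EuclideanDomain.gcd_dvd_left b c
  obtain ⟨v, hv⟩ := EuclideanDomain.gcd_dvd_right b c
  have hb := EuclideanDomain.gcd_eq_gcd_ab b c
  refine ⟨EuclideanDomain.gcd b c, u, v, EuclideanDomain.gcdA b c, EuclideanDomain.gcdB b c,
    hgcd, hu, hv, ?_⟩
  apply mul_left_cancel₀ hgcd
  calc EuclideanDomain.gcd b c * (EuclideanDomain.gcdA b c * u + EuclideanDomain.gcdB b c * v)
      = (EuclideanDomain.gcd b c * u) * EuclideanDomain.gcdA b c +
        (EuclideanDomain.gcd b c * v) * EuclideanDomain.gcdB b c := by ring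
    _ = b * EuclideanDomain.gcdA b c + c * EuclideanDomain.gcdB b c := by rw [← hu, ← hv]
    _ = EuclideanDomain.gcd b c * 1 := by rw [mul_one]; exact hb.symm

/-- reduction of a triple by the gcd -/
theorem exists_gcd3 {k : Type*} [Field k] (a b c : k[X]) (hc : c ≠ 0) :
    ∃ g a' b' c' u v w : k[X], g ≠ 0 ∧ a = g * a' ∧ b = g * b' ∧ c = g * c' ∧
      u * a' + v * b' + w * c' = 1 := by
  obtain ⟨g2, b2, c2, v, w, hg2, hb, hc', h1⟩ := exists_gcd2 b c hc
  obtain ⟨g, a', g', s, t, hg, ha, hg', h2⟩ := exists_gcd2 a g2 hg2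
  refine ⟨g, a', g' * b2, g' * c2, s, t * v, t * w, hg, ha, ?_, ?_, ?_⟩
  · rw [hb, hg']; ring
  · rw [hc', hg']; ring
  · calc s * a' + t * v * (g' * b2) + t * w * (g' * c2)
        = s * a' + t * g' * (v * b2 + w * c2) := by ring
      _ = 1 := by rw [h1, mul_one, h2]

/-- If the Wronskian of `Xh` and `R ^ k` vanishes then `Xh` is a multiple of `R ^ k`. -/
theorem eq_of_wronskian {K : Type*} [Field K] [CharZero K] (k : ℕ) (hk : 1 ≤ k) (Xh R : K[X])
    (hW : derivative Xh * R - C (k : K) * Xh * derivative R = 0) (x0 : K) (hx0 : R.eval x0 ≠ 0) :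
    Xh = C (Xh.eval x0 / R.eval x0 ^ k) * R ^ k := by
  set c := Xh.eval x0 / R.eval x0 ^ k with hc
  by_contra hne
  set Z := Xh - C c * R ^ k with hZ
  have hZ0 : Z ≠ 0 := sub_ne_zero.mpr hne
  have hZr : Z.IsRoot x0 := by
    rw [IsRoot, hZ, eval_sub, eval_mul, eval_C, eval_pow, hc,
      div_mul_cancel₀ _ (pow_ne_zero _ hx0), sub_self]
  have hWZ : derivative Z * R = C (k : K) * Z * derivative R := by
    obtain ⟨j, rfl⟩ : ∃ j, k = j + 1 := ⟨k - 1, by omega⟩
    rw [hZ]
    simp only [derivative_sub, derivative_mul, derivative_pow, derivative_C, Nat.add_sub_cancel]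
    linear_combination hW
  have hm := derivative_rootMultiplicity_of_root hZr
  have hm1 : 1 ≤ Z.rootMultiplicity x0 := (Polynomial.rootMultiplicity_pos hZ0).mpr hZr
  have hdZ : derivative Z ≠ 0 := by
    intro h
    have h1 : Z.natDegree = 0 := Polynomial.derivative_eq_zero.mp h
    rw [Polynomial.eq_C_of_natDegree_eq_zero h1] at hZ0 hZr
    simp only [IsRoot, eval_C] at hZr
    rw [hZr] at hZ0
    simp at hZ0
  have h1 : (Polynomial.X - C x0) ^ Z.rootMultiplicity x0 ∣ derivative Z * R := by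
    rw [hWZ]
    exact Dvd.dvd.mul_right (Dvd.dvd.mul_left (Polynomial.pow_rootMultiplicity_dvd Z x0) _) _
  have h2 : IsCoprime ((Polynomial.X - C x0) ^ Z.rootMultiplicity x0) R := by
    refine IsCoprime.pow_left ?_
    rw [(Polynomial.irreducible_X_sub_C x0).coprime_iff_not_dvd, dvd_iff_isRoot]
    exact hx0
  have h3 := h2.dvd_of_dvd_mul_right h1
  have h4 := (Polynomial.le_rootMultiplicity_iff hdZ).mpr h3
  omega

theorem split_sum {d : ℕ} (hd : 2 ≤ d) (z u v w : ℂ) (a : Fin d → ℂ) :
    ∑ j : Fin d, (if (j : ℕ) = 0 then u else if (j : ℕ) = 1 then v else a j * w) * z ^ (j : ℕ) =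
      u + z * v + (∑ j : Fin d, if 2 ≤ (j : ℕ) then a j * z ^ (j : ℕ) else 0) * w := by
  have h : ∀ j : Fin d, (if (j : ℕ) = 0 then u else if (j : ℕ) = 1 then v else a j * w) *
      z ^ (j : ℕ) = (if j = ⟨0, by omega⟩ then u else 0) + (if j = ⟨1, by omega⟩ then z * v else 0) +
        (if 2 ≤ (j : ℕ) then a j * z ^ (j : ℕ) else 0) * w := by
    intro j
    rcases j with ⟨j, hj⟩
    rcases j with _ | _ | j
    · simp
    · simp; ring
    · simp; ring
  rw [Finset.sum_congr rfl fun j _ => h j, Finset.sum_add_distrib, Finset.sum_add_distrib,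
    Finset.sum_ite_eq' , Finset.sum_ite_eq', Finset.sum_mul]
  simp

/-- The final contradiction of the curve stage. -/
theorem final_contra {P : Type*} {d : ℕ} (hd : 2 ≤ d) (k e : ℕ) (hk : 1 ≤ k)
    (hdk : k + 1 < d * (k - 1)) (z : Fin d → ℂ) (hz : Function.Injective z)
    (hlin : ∀ i, ∀ c : Fin d → ℚ, ∑ j, (c j : ℂ) * z i ^ (j : ℕ) = 0 → c = 0)
    (a0 : Fin d → ℚ) (ha0 : ∃ j : Fin d, 2 ≤ (j : ℕ) ∧ a0 j ≠ 0) (aa : Fin d → ℂ)
    (haa : ∀ i, aa i = ∑ j : Fin d, if 2 ≤ (j : ℕ) then (a0 j : ℂ) * z i ^ (j : ℕ) else 0)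
    (M : ℂ) (hM : M ≠ 0) (S : Finset P) (x t0 t1 n : P → ℚ) (b : P → Fin d → ℚ)
    (hx : Set.InjOn x S) (ht : Set.InjOn (fun p => (t0 p, t1 p)) S)
    (R0 N00 N10 : ℚ[X]) (hR0 : R0 ≠ 0) (dR0 : R0.natDegree ≤ e) (dN00 : N00.natDegree ≤ e)
    (dN10 : N10.natDegree ≤ e)
    (h0 : ∀ p ∈ S, R0.eval (x p) * t0 p = N00.eval (x p))
    (h1 : ∀ p ∈ S, R0.eval (x p) * t1 p = N10.eval (x p))
    (A c : Fin d → ℚ) (hb : ∀ p ∈ S, ∀ j, b p j = A j * x p + c j)
    (htor : ∀ p ∈ S, ∀ i, ((t0 p : ℂ) + z i * t1 p + aa i) ^ k *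
      (∑ j, (b p j : ℂ) * z i ^ (j : ℕ)) = M * ((n p : ℂ) - z i))
    (hcard : k * e + e + 1 < S.card) : False := by
  classical
  obtain ⟨g, N0, N1, R, u, v, w, hg, hN0, hN1, hR, hbez⟩ := exists_gcd3 N00 N10 R0 hR0
  have hRne : R ≠ 0 := by
    rintro rfl
    exact hR0 (by rw [hR, mul_zero])
  have hgd : g.natDegree ≤ e :=
    (natDegree_le_of_dvd (Dvd.intro _ hR.symm) hR0).trans dR0
  have key : ∀ Q Q' : ℚ[X], Q = g * Q' → Q.natDegree ≤ e → Q'.natDegree ≤ e := by
    intro Q Q' hQ hdQ
    rcases eq_or_ne Q' 0 with h | h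
    · rw [h]; simp
    · have hQ0 : Q ≠ 0 := by rw [hQ]; exact mul_ne_zero hg h
      exact (natDegree_le_of_dvd (Dvd.intro_left _ hQ.symm) hQ0).trans hdQ
  have dR := key _ _ hR dR0
  have dN0 := key _ _ hN0 dN00
  have dN1 := key _ _ hN1 dN10
  set S' := S.filter fun p => g.eval (x p) ≠ 0 with hS'
  have hS'S : S' ⊆ S := Finset.filter_subset _ _
  have hx' : Set.InjOn x S' := hx.mono (by exact_mod_cast hS'S)
  have hc' : S.card ≤ S'.card + e := by
    have h := card_filter_ne g hg S x hx
    rw [← hS'] at h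
    omega
  have hcard' : k * e + 1 < S'.card := by omega
  have h0' : ∀ p ∈ S', R.eval (x p) * t0 p = N0.eval (x p) := by
    intro p hp
    have h4 := h0 p (hS'S hp)
    have h5 : g.eval (x p) ≠ 0 := (Finset.mem_filter.mp hp).2
    rw [hR, hN0, eval_mul, eval_mul] at h4
    apply mul_left_cancel₀ h5
    linear_combination h4
  have h1' : ∀ p ∈ S', R.eval (x p) * t1 p = N1.eval (x p) := by
    intro p hp
    have h4 := h1 p (hS'S hp)
    have h5 : g.eval (x p) ≠ 0 := (Finset.mem_filter.mp hp).2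
    rw [hR, hN1, eval_mul, eval_mul] at h4
    apply mul_left_cancel₀ h5
    linear_combination h4
  have hRx : ∀ p ∈ S', R.eval (x p) ≠ 0 := by
    intro p hp h
    have h4 := h0' p hp
    have h5 := h1' p hp
    rw [h, zero_mul] at h4 h5
    have h6 := congrArg (Polynomial.eval (x p)) hbez
    simp only [eval_add, eval_mul, eval_one, h, ← h4, ← h5] at h6
    simp at h6
  -- pass to ℂ
  let φ : ℚ →+* ℂ := algebraMap ℚ ℂ
  have hφ : ∀ q : ℚ, φ q = (q : ℂ) := fun q => by simp [φ]
  set RC := R.map φ with hRC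
  set xC : P → ℂ := fun p => (x p : ℂ) with hxC
  have hxC' : Set.InjOn xC S' := by
    intro p hp q hq h
    have h' : (x p : ℂ) = (x q : ℂ) := h
    exact hx' hp hq (Rat.cast_injective h')
  have evC : ∀ (Q : ℚ[X]) (p : P), (Q.map φ).eval (xC p) = ((Q.eval (x p) : ℚ) : ℂ) := by
    intro Q p
    rw [Polynomial.eval_map, hxC]
    simp only
    rw [← hφ (x p), Polynomial.eval₂_at_apply, hφ]
  let NN : Fin d → ℂ[X] := fun i => N0.map φ + C (z i) * N1.map φ + C (aa i) * RC
  let BB : Fin d → ℂ[X] := fun i => C (∑ j, (A j : ℂ) * z i ^ (j : ℕ)) * Polynomial.X +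
    C (∑ j, (c j : ℂ) * z i ^ (j : ℕ))
  have evN : ∀ i, ∀ p ∈ S', (NN i).eval (xC p) =
      RC.eval (xC p) * ((t0 p : ℂ) + z i * t1 p + aa i) := by
    intro i p hp
    simp only [NN, eval_add, eval_mul, eval_C, evC, hRC]
    rw [← h0' p hp, ← h1' p hp]
    push_cast
    ring
  have evB : ∀ i, ∀ p ∈ S', (BB i).eval (xC p) = ∑ j, (b p j : ℂ) * z i ^ (j : ℕ) := by
    intro i p hp
    simp only [BB, eval_add, eval_mul, eval_C, eval_X]
    rw [Finset.sum_mul, ← Finset.sum_add_distrib]
    refine Finset.sum_congr rfl fun j _ => ?_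
    rw [hb p (hS'S hp) j, hxC]
    push_cast
    ring
  let PP : Fin d → ℂ[X] := fun i => NN i ^ k * BB i + C (M * z i) * RC ^ k
  have evP : ∀ i, ∀ p ∈ S', (PP i).eval (xC p) = M * n p * (RC.eval (xC p)) ^ k := by
    intro i p hp
    simp only [PP, eval_add, eval_mul, eval_pow, eval_C]
    rw [evN i p hp, evB i p hp, mul_pow]
    have := htor p (hS'S hp) i
    linear_combination (RC.eval (xC p)) ^ k * this
  have dRC : RC.natDegree ≤ e := by
    rw [hRC, Polynomial.natDegree_map]; exact dR
  have dNN : ∀ i, (NN i).natDegree ≤ e := by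
    intro i
    refine (natDegree_add_le _ _).trans (max_le ((natDegree_add_le _ _).trans (max_le ?_ ?_)) ?_)
    · rw [Polynomial.natDegree_map]; exact dN0
    · refine (natDegree_C_mul_le _ _).trans ?_
      rw [Polynomial.natDegree_map]; exact dN1
    · exact (natDegree_C_mul_le _ _).trans dRC
  have dBB : ∀ i, (BB i).natDegree ≤ 1 := by
    intro i
    exact natDegree_linear_le
  have dPP : ∀ i, (PP i).natDegree ≤ k * e + 1 := by
    intro i
    refine (natDegree_add_le _ _).trans (max_le ?_ ?_)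
    · refine natDegree_mul_le.trans (add_le_add ?_ (dBB i))
      rw [natDegree_pow]
      exact Nat.mul_le_mul_left _ (dNN i)
    · refine (natDegree_C_mul_le _ _).trans ?_
      rw [natDegree_pow]
      exact (Nat.mul_le_mul_left _ dRC).trans (Nat.le_succ _)
  let i0 : Fin d := ⟨0, by omega⟩
  set Xh := PP i0 with hXh
  have hPX : ∀ i, Xh = PP i := by
    intro i
    have : Xh - PP i = 0 := by
      refine eq_zero_of_many _ S' xC hxC' ?_ fun p hp => ?_
      · refine lt_of_le_of_lt ((natDegree_sub_le _ _).trans (max_le (dPP i0) (dPP i))) hcard'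
      · rw [eval_sub, hXh, evP i0 p hp, evP i p hp, sub_self]
    exact sub_eq_zero.mp this
  -- the common degree
  set D := max (max N0.natDegree N1.natDegree) R.natDegree with hD
  have hcoef : ∀ i, (NN i).coeff D = ∑ j : Fin d, (((if (j : ℕ) = 0 then N0.coeff D else
      if (j : ℕ) = 1 then N1.coeff D else a0 j * R.coeff D) : ℚ) : ℂ) * z i ^ (j : ℕ) := by
    intro i
    simp only [NN, hRC, coeff_add, coeff_C_mul, coeff_map, hφ]
    rw [haa i, ← split_sum hd (z i) _ _ _ (fun j => (a0 j : ℂ))]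
    refine Finset.sum_congr rfl fun j _ => ?_
    split_ifs <;> push_cast <;> rfl
  have hNN : ∀ i, (NN i).coeff D ≠ 0 := by
    intro i h
    rw [hcoef i] at h
    have h5 := hlin i _ h
    have h6 : N0.coeff D = 0 := by
      have := congrFun h5 ⟨0, by omega⟩
      simpa using this
    have h7 : N1.coeff D = 0 := by
      have := congrFun h5 ⟨1, by omega⟩
      simpa using this
    have h8 : R.coeff D = 0 := by
      obtain ⟨j, hj, hj0⟩ := ha0
      have := congrFun h5 j
      have e0 : ¬ (j : ℕ) = 0 := by omega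
      have e1 : ¬ (j : ℕ) = 1 := by omega
      simpa [e0, e1, hj0] using this
    -- contradiction with the definition of D
    have hcase : D = R.natDegree ∨ (D = N0.natDegree ∧ N0.natDegree ≠ 0) ∨
        (D = N1.natDegree ∧ N1.natDegree ≠ 0) := by
      by_cases hR' : D = R.natDegree
      · exact Or.inl hR'
      · right
        have : D ≠ 0 := by
          intro h0D
          have : R.natDegree ≤ D := le_max_right _ _
          omega
        rcases max_choice (max N0.natDegree N1.natDegree) R.natDegree with h9 | h9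
        · rcases max_choice N0.natDegree N1.natDegree with h10 | h10
          · left
            rw [← hD, h10] at h9
            exact ⟨h9, by omega⟩
          · right
            rw [← hD, h10] at h9
            exact ⟨h9, by omega⟩
        · exact absurd h9 hR'
    rcases hcase with h9 | ⟨h9, h10⟩ | ⟨h9, h10⟩
    · rw [h9, Polynomial.coeff_natDegree, leadingCoeff_eq_zero] at h8
      exact hRne h8
    · rw [h9, Polynomial.coeff_natDegree, leadingCoeff_eq_zero] at h6
      rw [h6] at h10
      simp at h10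
    · rw [h9, Polynomial.coeff_natDegree, leadingCoeff_eq_zero] at h7
      rw [h7] at h10
      simp at h10
  have dNN' : ∀ i, (NN i).natDegree = D := by
    intro i
    refine le_antisymm ?_ (le_natDegree_of_ne_zero (hNN i))
    refine (natDegree_add_le _ _).trans (max_le ((natDegree_add_le _ _).trans (max_le ?_ ?_)) ?_)
    · rw [Polynomial.natDegree_map]; exact (le_max_left _ _).trans (le_max_left _ _)
    · refine (natDegree_C_mul_le _ _).trans ?_
      rw [Polynomial.natDegree_map]; exact (le_max_right _ _).trans (le_max_left _ _)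
    · refine (natDegree_C_mul_le _ _).trans ?_
      rw [hRC, Polynomial.natDegree_map]; exact le_max_right _ _
  have hNN0 : ∀ i, NN i ≠ 0 := by
    intro i h
    apply hNN i
    rw [h]; simp
  have hk0 : k ≠ 0 := by omega
  -- coprimality
  have hco : Pairwise (fun i j => IsCoprime (NN i) (NN j)) := by
    intro i j hij
    rw [Polynomial.isCoprime_iff_aeval_ne_zero_of_isAlgClosed ℂ ℂ]
    intro s
    by_contra hcon
    push Not at hcon
    obtain ⟨hi, hj⟩ := hcon
    rw [Polynomial.coe_aeval_eq_eval] at hi hj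
    have e1 : (PP i).eval s = M * z i * (RC.eval s) ^ k := by
      simp only [PP, eval_add, eval_mul, eval_pow, eval_C, hi]
      rw [zero_pow hk0]; ring
    have e2 : (PP j).eval s = M * z j * (RC.eval s) ^ k := by
      simp only [PP, eval_add, eval_mul, eval_pow, eval_C, hj]
      rw [zero_pow hk0]; ring
    rw [← hPX i] at e1
    rw [← hPX j] at e2
    have e3 : M * (z i - z j) * (RC.eval s) ^ k = 0 := by
      linear_combination e2 - e1
    have e4 : RC.eval s = 0 := by
      rcases mul_eq_zero.mp e3 with h | h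
      · rcases mul_eq_zero.mp h with h' | h'
        · exact absurd h' hM
        · exact absurd (hz (sub_eq_zero.mp h')) hij
      · exact pow_eq_zero_iff hk0 |>.mp h
    simp only [NN, eval_add, eval_mul, eval_C, e4, mul_zero, add_zero] at hi hj
    have e5 : (z i - z j) * (N1.map φ).eval s = 0 := by linear_combination hi - hj
    have e6 : (N1.map φ).eval s = 0 := by
      rcases mul_eq_zero.mp e5 with h | h
      · exact absurd (hz (sub_eq_zero.mp h)) hij
      · exact h
    have e7 : (N0.map φ).eval s = 0 := by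
      rw [e6] at hi; simpa using hi
    have e8 := congrArg (fun Q : ℚ[X] => (Q.map φ).eval s) hbez
    simp only [Polynomial.map_add, Polynomial.map_mul, Polynomial.map_one, eval_add, eval_mul,
      eval_one, e6, e7] at e8
    rw [← hRC, e4] at e8
    simp at e8
  obtain ⟨p, hp, q, hq, hpq⟩ : ∃ p ∈ S', ∃ q ∈ S', p ≠ q := by
    have : 1 < S'.card := by omega
    obtain ⟨p, q, hp, hq, hpq⟩ := Finset.one_lt_card_iff.mp this
    exact ⟨p, hp, q, hq, hpq⟩
  have hRCx : ∀ p ∈ S', RC.eval (xC p) ≠ 0 := by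
    intro p hp
    rw [hRC, evC]
    exact_mod_cast hRx p hp
  rcases Nat.eq_zero_or_pos D with hD0 | hD1
  · -- constants
    have cst : ∀ Q : ℚ[X], Q.natDegree ≤ D → ∀ p q : P, Q.eval (x p) = Q.eval (x q) := by
      intro Q hQ p q
      rw [Polynomial.eq_C_of_natDegree_le_zero (hQ.trans hD0.le)]
      simp
    have cR := cst R (le_max_right _ _) p q
    have c0 := cst N0 ((le_max_left _ _).trans (le_max_left _ _)) p q
    have c1 := cst N1 ((le_max_right _ _).trans (le_max_left _ _)) p q
    apply hpq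
    apply ht (hS'S hp) (hS'S hq)
    have a1 := h0' p hp
    have a2 := h0' q hq
    have a3 := h1' p hp
    have a4 := h1' q hq
    have hr := hRx q hq
    simp only [Prod.mk.injEq]
    rw [cR] at a1 a3
    constructor
    · apply mul_left_cancel₀ hr
      rw [a1, a2, c0]
    · apply mul_left_cancel₀ hr
      rw [a3, a4, c1]
  · have hdk' : k + 1 < Fintype.card (Fin d) * (k - 1) := by simpa using hdk
    have hW := wronskian_eq_zero k D NN BB RC Xh (fun i => M * z i) (fun i => hPX i) dBB dNN'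
      (by rw [hRC, Polynomial.natDegree_map]; exact le_max_right _ _) hNN0 hco hD1 hk hdk'
    have hX := eq_of_wronskian k hk Xh RC hW (xC p) (hRCx p hp)
    set cc := Xh.eval (xC p) / RC.eval (xC p) ^ k with hcc
    have hnc : M * (n p : ℂ) = cc := by
      have e1 := evP i0 p hp
      rw [← hXh, hX, eval_mul, eval_C, eval_pow] at e1
      have e2 := pow_ne_zero k (hRCx p hp)
      exact (mul_right_cancel₀ e2 e1).symm
    have hnz : ∀ i, (n p : ℂ) - z i ≠ 0 := by
      intro i h
      have e1 := split_sum hd (z i) (n p : ℂ) (-1) 0 (fun _ => 0)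
      have e2 := hlin i (fun j => if (j : ℕ) = 0 then n p else if (j : ℕ) = 1 then -1 else 0) (by
        have e3 : ∀ j : Fin d, (((if (j : ℕ) = 0 then n p else if (j : ℕ) = 1 then -1 else 0 : ℚ) :
            ℚ) : ℂ) * z i ^ (j : ℕ) = (if (j : ℕ) = 0 then (n p : ℂ) else if (j : ℕ) = 1 then -1
              else (fun _ => (0 : ℂ)) j * 0) * z i ^ (j : ℕ) := by
          intro j
          congr 1
          split_ifs <;> simp
        rw [Finset.sum_congr rfl fun j _ => e3 j, e1]
        simp only [mul_zero, add_zero]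
        linear_combination h)
      have e3 := congrFun e2 ⟨1, by omega⟩
      simp at e3
    have hdv : ∀ i, NN i ^ k ∣ RC ^ k := by
      intro i
      refine ⟨C ((M * ((n p : ℂ) - z i))⁻¹) * BB i, ?_⟩
      have e1 : NN i ^ k * BB i = C (M * ((n p : ℂ) - z i)) * RC ^ k := by
        have e2 : PP i = C cc * RC ^ k := by rw [← hPX i, hX]
        have e3 : NN i ^ k * BB i = PP i - C (M * z i) * RC ^ k := by simp only [PP]; ring
        rw [e3, e2, mul_sub, hnc, C_sub]
        ring
      calc RC ^ k = C ((M * ((n p : ℂ) - z i))⁻¹ * (M * ((n p : ℂ) - z i))) * RC ^ k := by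
            rw [inv_mul_cancel₀ (mul_ne_zero hM (hnz i)), C_1, one_mul]
        _ = C ((M * ((n p : ℂ) - z i))⁻¹) * (C (M * ((n p : ℂ) - z i)) * RC ^ k) := by
            rw [C_mul]; ring
        _ = NN i ^ k * (C ((M * ((n p : ℂ) - z i))⁻¹) * BB i) := by rw [← e1]; ring
    have hRC0 : RC ≠ 0 := by
      intro h
      apply hRCx p hp
      rw [h]; simp
    let i1 : Fin d := ⟨1, by omega⟩
    have hi01 : i0 ≠ i1 := by
      intro h
      have := congrArg Fin.val h
      simp [i0, i1] at this
    have e4 : NN i0 ^ k * NN i1 ^ k ∣ RC ^ k := (hco hi01).pow.mul_dvd (hdv i0) (hdv i1)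
    have e5 := natDegree_le_of_dvd e4 (pow_ne_zero _ hRC0)
    rw [natDegree_mul (pow_ne_zero _ (hNN0 _)) (pow_ne_zero _ (hNN0 _)), natDegree_pow,
      natDegree_pow, natDegree_pow, dNN', dNN'] at e5
    have e6 : RC.natDegree ≤ D := by
      rw [hRC, Polynomial.natDegree_map]; exact le_max_right _ _
    have e7 := Nat.mul_le_mul_left k e6
    have e8 : 0 < k * D := Nat.mul_pos (by omega) hD1
    omega

end Crest.Agent.R022.Curve354
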