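import Crest.Agent.R022.Curve354B
import Crest.Agent.R022.Expand

/-! Row 22, stage 4 (helper354): determinants on the curve stage. -/

set_option autoImplicit false

open Polynomial Finset

namespace Crest.Agent.R022.Curve354

open Crest.Agent.R022.Expand

universe u

/-- `φ` has, at every auxiliary modulus `l ∈ L`, expansions in the one local parameter `s l`. -/
def Good {P : Type u} (S : Set P) (s : ℕ → P → Fin 1 → ℤ) (nn : ℕ → P → ℤ) (L : Finset ℕ)
    (φ : P → ℤ) : Prop :=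
  ∀ l ∈ L, ∀ m, HasExp S (s l) (nn l) l m 0 φ

theorem Good.mono {P : Type u} {S T : Set P} {s : ℕ → P → Fin 1 → ℤ} {nn : ℕ → P → ℤ}
    {L : Finset ℕ} {φ : P → ℤ} (h : Good S s nn L φ) (hT : T ⊆ S) : Good T s nn L φ :=
  fun l hl m => (h l hl m).mono_set hT

/-- The auxiliary moduli: pairwise coprime, product at least `A ^ K`, the local parameters are
divisible by the modulus. -/
structure Aux {P : Type u} (A K : ℝ) (S : Set P) (s : ℕ → P → Fin 1 → ℤ) (L : Finset ℕ) :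
    Prop where
  coprime : (L : Set ℕ).Pairwise Nat.Coprime
  le_prod : A ^ K ≤ ((∏ l ∈ L, l : ℕ) : ℝ)
  dvd : ∀ l ∈ L, ∀ x ∈ S, ∀ i, (l : ℤ) ∣ s l x i

theorem Aux.mono {P : Type u} {A K : ℝ} {S T : Set P} {s : ℕ → P → Fin 1 → ℤ} {L : Finset ℕ}
    (h : Aux A K S s L) (hT : T ⊆ S) : Aux A K T s L :=
  ⟨h.coprime, h.le_prod, fun l hl x hx => h.dvd l hl x (hT hx)⟩

theorem exists_large (c u v : ℝ) (huv : u < v) :
    ∃ A0 : ℝ, 1 ≤ A0 ∧ ∀ A ≥ A0, c * A ^ u < A ^ v := by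
  have h : Filter.Tendsto (fun A : ℝ => A ^ (v - u)) Filter.atTop Filter.atTop :=
    tendsto_rpow_atTop (by linarith)
  obtain ⟨A1, hA1⟩ := Filter.eventually_atTop.mp (h.eventually_gt_atTop c)
  refine ⟨max A1 1, le_max_right _ _, fun A hA => ?_⟩
  have hA' : 1 ≤ A := (le_max_right _ _).trans hA
  have h1 := hA1 A ((le_max_left _ _).trans hA)
  have h2 : A ^ v = A ^ (v - u) * A ^ u := by
    rw [← Real.rpow_add (by linarith)]; congr 1; ring
  rw [h2]
  exact mul_lt_mul_of_pos_right h1 (Real.rpow_pos_of_pos (by linarith) _)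

/-- The determinant step for monomials in two functions, one local parameter. -/
theorem det_monomials (ρ σ K c : ℝ) (hC : 1 ≤ c) {ι : Type} [Fintype ι] (p q : ι → ℕ)
    (h : ρ * ∑ i, (p i : ℝ) + σ * ∑ i, (q i : ℝ) < K * ((Fintype.card ι).choose 2 : ℝ)) :
    ∃ A0 : ℝ, 1 ≤ A0 ∧ ∀ A ≥ A0, ∀ (P : Type u) (S : Set P) (s : ℕ → P → Fin 1 → ℤ)
      (nn : ℕ → P → ℤ) (L : Finset ℕ), Aux A K S s L → ∀ X Y : P → ℤ, Good S s nn L X →
      Good S s nn L Y → (∀ x ∈ S, |(X x : ℝ)| ≤ c * A ^ ρ) → (∀ x ∈ S, |(Y x : ℝ)| ≤ c * A ^ σ) →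
      ∃ a : ι → ℤ, a ≠ 0 ∧ ∀ x ∈ S, ∑ i, a i * (X x ^ p i * Y x ^ q i) = 0 := by
  classical
  obtain ⟨A0, hA01, hA0⟩ := exists_large
    (((Fintype.card ι).factorial : ℝ) * (c ^ (∑ i, p i) * c ^ (∑ i, q i))) _ _ h
  refine ⟨A0, hA01, fun A hA P S s nn L hL X Y hX hY bX bY => ?_⟩
  have hA1 : 1 ≤ A := hA01.trans hA
  have hApos : 0 < A := by linarith
  refine relation_hasExp (r := 1) (J := 0) (m := Fintype.card ι) (w := (Fintype.card ι).choose 2) S
    (fun i x => X x ^ p i * Y x ^ q i) L hL.coprime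
    (fun l hl => ⟨s l, nn l, hL.dvd l hl, fun i => ?_⟩)
    (fun i => (c * A ^ ρ) ^ p i * (c * A ^ σ) ^ q i) ?_ ?_ ?_
  · exact HasExp.mul_zero_left ((hX l hl _).pow_zero _) ((hY l hl _).pow_zero _)
  · intro x hx i
    push_cast
    rw [abs_mul, abs_pow, abs_pow]
    exact mul_le_mul (pow_le_pow_left₀ (abs_nonneg _) (bX x hx) _)
      (pow_le_pow_left₀ (abs_nonneg _) (bY x hx) _) (by positivity) (by positivity)
  · rw [Nat.choose_two_right, zero_add, one_mul, Nat.choose_two_right]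
    set N := Fintype.card ι
    have h1 : N * (N - 1) / 2 * 2 = N * (N - 1) := Nat.div_mul_cancel (by
      rcases Nat.eq_zero_or_pos N with h | h
      · simp [h]
      · have := Nat.even_mul_succ_self (N - 1)
        rw [Nat.sub_add_cancel h] at this
        rw [mul_comm]; exact this.two_dvd)
    have h2 : (N + 1) * (N + 1 - 1) / 2 * 2 = (N + 1) * (N + 1 - 1) := Nat.div_mul_cancel (by
      have := Nat.even_mul_succ_self N
      rw [mul_comm]; exact this.two_dvd)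
    rcases Nat.eq_zero_or_pos N with h | h
    · simp [h]
    · obtain ⟨M, hM⟩ : ∃ M, N = M + 1 := ⟨N - 1, by omega⟩
      rw [hM] at h1 h2 ⊢
      simp only [Nat.add_sub_cancel] at h1 h2 ⊢
      nlinarith
  · have h1 : ∏ i, ((c * A ^ ρ) ^ p i * (c * A ^ σ) ^ q i) =
        c ^ (∑ i, p i) * c ^ (∑ i, q i) * A ^ (ρ * ∑ i, (p i : ℝ) + σ * ∑ i, (q i : ℝ)) := by
      rw [Finset.prod_mul_distrib, Finset.prod_pow_eq_pow_sum, Finset.prod_pow_eq_pow_sum,
        mul_pow, mul_pow, Real.rpow_add hApos, ← Real.rpow_natCast (A ^ ρ),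
        ← Real.rpow_natCast (A ^ σ), ← Real.rpow_mul hApos.le, ← Real.rpow_mul hApos.le]
      push_cast
      ring
    rw [h1, ← mul_assoc]
    refine (hA0 A hA).trans_le ?_
    rw [Real.rpow_mul hApos.le, Real.rpow_natCast]
    exact pow_le_pow_left₀ (by positivity) hL.le_prod _

/-- The family `X ^ i`, `X ^ i * Y` (`i ≤ f`). -/
theorem rel_linear (ρ σ K c : ℝ) (hC : 1 ≤ c) (f : ℕ) (h : ρ * f + σ < K * (2 * f + 1)) :
    ∃ A0 : ℝ, 1 ≤ A0 ∧ ∀ A ≥ A0, ∀ (P : Type u) (S : Set P) (s : ℕ → P → Fin 1 → ℤ)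
      (nn : ℕ → P → ℤ) (L : Finset ℕ), Aux A K S s L → ∀ X Y : P → ℤ, Good S s nn L X →
      Good S s nn L Y → (∀ x ∈ S, |(X x : ℝ)| ≤ c * A ^ ρ) → (∀ x ∈ S, |(Y x : ℝ)| ≤ c * A ^ σ) →
      ∃ x y : ℚ[X], ¬ (x = 0 ∧ y = 0) ∧ x.natDegree ≤ f ∧ y.natDegree ≤ f ∧
        ∀ p ∈ S, x.eval (X p : ℚ) + y.eval (X p : ℚ) * (Y p : ℚ) = 0 := by
  have hsum : (∑ i : Fin (f + 1), ((i : ℕ) : ℝ)) = f * (f + 1) / 2 := by
    rw [Fin.sum_univ_eq_sum_range (fun i => (i : ℝ)) (f + 1), ← Nat.cast_sum,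
      Finset.sum_range_id, Nat.add_sub_cancel, Nat.cast_div (by
        rw [mul_comm]; exact (Nat.even_mul_succ_self f).two_dvd) (by norm_num)]
    push_cast
    ring
  obtain ⟨A0, hA01, hA0⟩ := det_monomials.{u} ρ σ K c hC (ι := Fin (f + 1) ⊕ Fin (f + 1))
    (Sum.elim (fun i => (i : ℕ)) (fun i => (i : ℕ))) (Sum.elim (fun _ => 0) (fun _ => 1)) (by
      simp only [Fintype.sum_sum_type, Sum.elim_inl, Sum.elim_inr, Fintype.card_sum,
        Fintype.card_fin]
      rw [hsum]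
      simp only [Nat.cast_zero, Finset.sum_const_zero, Nat.cast_one, Finset.sum_const,
        Finset.card_univ, Fintype.card_fin, nsmul_eq_mul, mul_one, zero_add]
      rw [Nat.cast_choose_two]
      push_cast
      nlinarith)
  refine ⟨A0, hA01, fun A hA P S s nn L hL X Y hX hY bX bY => ?_⟩
  obtain ⟨a, ha, hrel⟩ := hA0 A hA P S s nn L hL X Y hX hY bX bY
  have hdeg : ∀ g : Fin (f + 1) → ℤ,
      (∑ i : Fin (f + 1), C (g i : ℚ) * Polynomial.X ^ (i : ℕ) : ℚ[X]).natDegree ≤ f := by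
    intro g
    refine natDegree_sum_le_of_forall_le _ _ fun i _ => ?_
    exact (natDegree_C_mul_X_pow_le _ _).trans (by omega)
  have hcoeff : ∀ g : Fin (f + 1) → ℤ, ∀ i : Fin (f + 1),
      (∑ i : Fin (f + 1), C (g i : ℚ) * Polynomial.X ^ (i : ℕ) : ℚ[X]).coeff (i : ℕ) = (g i : ℚ) := by
    intro g i
    rw [Polynomial.finsetSum_coeff, Finset.sum_eq_single i]
    · simp
    · intro j _ hj
      rw [coeff_C_mul, coeff_X_pow, if_neg, mul_zero]
      intro h'
      exact hj (Fin.ext h'.symm)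
    · intro h'; exact absurd (Finset.mem_univ _) h'
  refine ⟨∑ i : Fin (f + 1), C (a (Sum.inl i) : ℚ) * Polynomial.X ^ (i : ℕ),
    ∑ i : Fin (f + 1), C (a (Sum.inr i) : ℚ) * Polynomial.X ^ (i : ℕ), ?_, hdeg _, hdeg _, ?_⟩
  · rintro ⟨h1, h2⟩
    apply ha
    funext i
    rcases i with i | i
    · have := hcoeff (fun i => a (Sum.inl i)) i
      rw [h1] at this
      simpa using this.symm
    · have := hcoeff (fun i => a (Sum.inr i)) i
      rw [h2] at this
      simpa using this.symm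
  · intro p hp
    have := hrel p hp
    simp only [Fintype.sum_sum_type, Sum.elim_inl, Sum.elim_inr] at this
    rw [Polynomial.eval_finsetSum, Polynomial.eval_finsetSum, Finset.sum_mul]
    simp only [eval_mul, eval_C, eval_pow, eval_X]
    have h2 := congrArg (fun t : ℤ => (t : ℚ)) this
    push_cast at h2
    rw [← h2]
    congr 1
    · exact Finset.sum_congr rfl fun i _ => by ring
    · exact Finset.sum_congr rfl fun i _ => by ring

/-- The family `X ^ i` (`i ≤ f`), `Y ^ i` (`1 ≤ i ≤ f`). -/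
theorem rel_sep (ρ K c : ℝ) (hC : 1 ≤ c) (f : ℕ) (hf : 1 ≤ f) (h : ρ * (f + 1) < K * (2 * f + 1)) :
    ∃ A0 : ℝ, 1 ≤ A0 ∧ ∀ A ≥ A0, ∀ (P : Type u) (S : Set P) (s : ℕ → P → Fin 1 → ℤ)
      (nn : ℕ → P → ℤ) (L : Finset ℕ), Aux A K S s L → ∀ X Y : P → ℤ, Good S s nn L X →
      Good S s nn L Y → (∀ x ∈ S, |(X x : ℝ)| ≤ c * A ^ ρ) → (∀ x ∈ S, |(Y x : ℝ)| ≤ c * A ^ ρ) →
      ∃ x y : ℚ[X], ¬ (x = 0 ∧ y = 0) ∧ x.natDegree ≤ f ∧ y.natDegree ≤ f ∧ y.coeff 0 = 0 ∧
        ∀ p ∈ S, x.eval (X p : ℚ) + y.eval (Y p : ℚ) = 0 := by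
  have hsum : (∑ i : Fin (f + 1), ((i : ℕ) : ℝ)) = f * (f + 1) / 2 := by
    rw [Fin.sum_univ_eq_sum_range (fun i => (i : ℝ)) (f + 1), ← Nat.cast_sum,
      Finset.sum_range_id, Nat.add_sub_cancel, Nat.cast_div (by
        rw [mul_comm]; exact (Nat.even_mul_succ_self f).two_dvd) (by norm_num)]
    push_cast
    ring
  have hsum2 : (∑ i : Fin f, (((i : ℕ) + 1 : ℕ) : ℝ)) = f * (f + 1) / 2 := by
    rw [← hsum, Fin.sum_univ_succ (n := f)]
    simp
  obtain ⟨A0, hA01, hA0⟩ := det_monomials.{u} ρ ρ K c hC (ι := Fin (f + 1) ⊕ Fin f)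
    (Sum.elim (fun i => (i : ℕ)) (fun _ => 0)) (Sum.elim (fun _ => 0) (fun i => (i : ℕ) + 1)) (by
      simp only [Fintype.sum_sum_type, Sum.elim_inl, Sum.elim_inr, Fintype.card_sum,
        Fintype.card_fin]
      rw [hsum, hsum2]
      simp only [Nat.cast_zero, Finset.sum_const_zero, zero_add, add_zero]
      rw [Nat.cast_choose_two]
      push_cast
      have hf' : (1 : ℝ) ≤ f := by exact_mod_cast hf
      nlinarith)
  refine ⟨A0, hA01, fun A hA P S s nn L hL X Y hX hY bX bY => ?_⟩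
  obtain ⟨a, ha, hrel⟩ := hA0 A hA P S s nn L hL X Y hX hY bX bY
  refine ⟨∑ i : Fin (f + 1), C (a (Sum.inl i) : ℚ) * Polynomial.X ^ (i : ℕ),
    ∑ i : Fin f, C (a (Sum.inr i) : ℚ) * Polynomial.X ^ ((i : ℕ) + 1), ?_, ?_, ?_, ?_, ?_⟩
  · rintro ⟨h1, h2⟩
    apply ha
    funext i
    rcases i with i | i
    · have h3 := congrArg (fun Q : ℚ[X] => Q.coeff i) h1
      simp only [Polynomial.finsetSum_coeff] at h3
      rw [Finset.sum_eq_single i] at h3
      · simpa using h3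
      · intro j _ hj
        rw [coeff_C_mul, coeff_X_pow, if_neg, mul_zero]
        intro h'
        exact hj (Fin.ext h'.symm)
      · intro h'; exact absurd (Finset.mem_univ _) h'
    · have h3 := congrArg (fun Q : ℚ[X] => Q.coeff ((i : ℕ) + 1)) h2
      simp only [Polynomial.finsetSum_coeff] at h3
      rw [Finset.sum_eq_single i] at h3
      · simpa using h3
      · intro j _ hj
        rw [coeff_C_mul, coeff_X_pow, if_neg, mul_zero]
        intro h'
        exact hj (Fin.ext (by omega))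
      · intro h'; exact absurd (Finset.mem_univ _) h'
  · refine natDegree_sum_le_of_forall_le _ _ fun i _ => ?_
    exact (natDegree_C_mul_X_pow_le _ _).trans (by omega)
  · refine natDegree_sum_le_of_forall_le _ _ fun i _ => ?_
    exact (natDegree_C_mul_X_pow_le _ _).trans (by omega)
  · rw [Polynomial.finsetSum_coeff]
    refine Finset.sum_eq_zero fun i _ => ?_
    rw [coeff_C_mul, coeff_X_pow, if_neg (by omega), mul_zero]
  · intro p hp
    have := hrel p hp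
    simp only [Fintype.sum_sum_type, Sum.elim_inl, Sum.elim_inr] at this
    rw [Polynomial.eval_finsetSum, Polynomial.eval_finsetSum]
    simp only [eval_mul, eval_C, eval_pow, eval_X]
    have h2 := congrArg (fun t : ℤ => (t : ℚ)) this
    push_cast at h2
    rw [← h2]
    congr 1
    · exact Finset.sum_congr rfl fun i _ => by ring
    · exact Finset.sum_congr rfl fun i _ => by ring

end Crest.Agent.R022.Curve354
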