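import Crest.Agent.R22.PolyKit859

/-! Row 22, stage 4 (helper354): points of a slice with fixed `β` are bounded in number. -/

set_option autoImplicit false

open Polynomial Finset

namespace Crest.Agent.R022.Curve354

theorem natDegree_det_le' {K n : Type*} [CommRing K] [DecidableEq n] [Fintype n]
    (M : Matrix n n K[X]) (D : ℕ) (h : ∀ i j, (M i j).natDegree ≤ D) :
    M.det.natDegree ≤ Fintype.card n * D := by
  rw [Matrix.det_apply]
  refine natDegree_sum_le_of_forall_le _ _ fun s _ => ?_
  have h1 : (∏ i, M (s i) i).natDegree ≤ Fintype.card n * D := by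
    refine (natDegree_prod_le _ _).trans ?_
    refine (Finset.sum_le_sum fun i _ => h (s i) i).trans ?_
    simp
  rcases Int.units_eq_one_or (Equiv.Perm.sign s) with h2 | h2
  · rw [h2, one_smul]; exact h1
  · rw [h2, Units.neg_smul, one_smul, natDegree_neg]; exact h1

/-- two curves `y ^ k = A x ^ k + B` and `β₀ x ^ k - β₂ (P x + Q y + r) ^ k = c'` have few common
points. -/
theorem card_fermat_le (k : ℕ) (hk : 2 ≤ k) (A B β0 β2 P Q r c' : ℂ) (hA : A ≠ 0) (hB : B ≠ 0)
    (hβ2 : β2 ≠ 0) (hP : P ≠ 0) (hQ : Q ≠ 0) (S : Finset (ℂ × ℂ))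
    (h1 : ∀ t ∈ S, t.2 ^ k = A * t.1 ^ k + B)
    (h2 : ∀ t ∈ S, β0 * t.1 ^ k - β2 * (P * t.1 + Q * t.2 + r) ^ k = c') :
    S.card ≤ k * (2 * k * k) := by
  classical
  set w : ℂ[X] := C A * X ^ k + C B with hw
  set g : ℂ[X][X] := X ^ k - C w with hg
  set G : ℂ[X][X] := C (C β0 * X ^ k - C c') -
    C (C β2) * (C (C P * X + C r) + C (C Q) * X) ^ k with hG
  have hk0 : k ≠ 0 := by omega
  -- irreducibility
  have hwd : w.degree = k := by
    have e1 : (C B : ℂ[X]).degree < (C A * X ^ k : ℂ[X]).degree := by
      rw [degree_C_mul_X_pow k hA]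
      refine (degree_C_le).trans_lt ?_
      exact_mod_cast Nat.pos_of_ne_zero hk0
    rw [hw, degree_add_eq_left_of_degree_lt e1, degree_C_mul_X_pow k hA]
  obtain ⟨x0, hx0⟩ : ∃ x0, w.IsRoot x0 := IsAlgClosed.exists_root w (by
    rw [hwd]; exact_mod_cast hk0)
  have hgm : g.Monic := monic_X_pow_sub_C w hk0
  have hgd : g.natDegree = k := natDegree_X_pow_sub_C
  have hirr : Irreducible g := by
    have hprime : (Ideal.span {X - C x0} : Ideal ℂ[X]).IsPrime := by
      rw [Ideal.span_singleton_prime (X_sub_C_ne_zero x0)]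
      exact prime_X_sub_C x0
    refine irreducible_of_eisenstein_criterion hprime ?_ ?_ ?_ ?_ hgm.isPrimitive
    · rw [hgm.leadingCoeff]
      exact fun h => hprime.ne_top ((Ideal.eq_top_iff_one _).mpr h)
    · intro n hn
      rw [degree_eq_natDegree hgm.ne_zero, hgd] at hn
      have hn' : n < k := by exact_mod_cast hn
      rw [hg, coeff_sub, coeff_X_pow, if_neg (by omega), zero_sub, coeff_C]
      split_ifs with h0
      · rw [Ideal.neg_mem_iff, Ideal.mem_span_singleton]
        exact dvd_iff_isRoot.mpr hx0
      · simp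
    · rw [degree_eq_natDegree hgm.ne_zero, hgd]
      exact_mod_cast Nat.pos_of_ne_zero hk0
    · rw [hg, coeff_sub, coeff_X_pow, if_neg (by omega), zero_sub, coeff_C_zero,
        Ideal.span_singleton_pow, Ideal.neg_mem_iff, Ideal.mem_span_singleton]
      rintro ⟨q, hq⟩
      have hd := congrArg (fun Q : ℂ[X] => (derivative Q).eval x0) hq
      simp only [hw, derivative_add, derivative_C, derivative_mul,
        derivative_pow, derivative_sub, derivative_X] at hd
      simp at hd
      have hx00 : x0 ≠ 0 := by
        rintro rfl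
        rw [IsRoot, hw] at hx0
        simp [hk0] at hx0
        exact hB hx0
      rcases hd with h | h | h
      · exact hA h
      · exact hk0 h
      · exact hx00 h.1
  have hGc : (derivative G).eval 0 = -(C β2 * ((k : ℂ[X]) * (C P * X + C r) ^ (k - 1) * C Q)) := by
    rw [hG]
    simp only [derivative_sub, derivative_C, derivative_mul, derivative_pow, derivative_add,
      derivative_X]
    simp
  have hGne : (derivative G).eval 0 ≠ 0 := by
    rw [hGc]
    refine neg_ne_zero.mpr (mul_ne_zero (C_ne_zero.mpr hβ2) (mul_ne_zero (mul_ne_zero ?_ ?_)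
      (C_ne_zero.mpr hQ)))
    · exact_mod_cast hk0
    · refine pow_ne_zero _ fun h => ?_
      have := congrArg (fun q : ℂ[X] => q.coeff 1) h
      simp at this
      exact hP this
  have hGdeg : G.natDegree ≤ k := by
    rw [hG]
    refine (natDegree_sub_le _ _).trans (max_le ?_ ?_)
    · rw [natDegree_C]; exact Nat.zero_le _
    · refine (natDegree_C_mul_le _ _).trans ?_
      rw [natDegree_pow]
      have : (C (C P * X + C r) + C (C Q) * X : ℂ[X][X]).natDegree ≤ 1 := by
        rw [add_comm]; exact natDegree_linear_le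
      nlinarith
  have hndvd : ¬ g ∣ G := by
    rintro ⟨h, hh⟩
    have hh0 : h ≠ 0 := by
      rintro rfl
      rw [hh] at hGne
      simp at hGne
    have hhd : h.natDegree = 0 := by
      have := natDegree_mul hgm.ne_zero hh0
      rw [← hh, hgd] at this
      omega
    rw [eq_C_of_natDegree_eq_zero hhd] at hh
    rw [hh, hg] at hGne
    simp only [derivative_sub, derivative_C, derivative_mul, derivative_X_pow, sub_zero, mul_zero,
      add_zero] at hGne
    simp at hGne
    omega
  have hres := Crest.Agent.R22.PolyKit.resultant_ne_zero_of_irreducible hirr (by omega) hndvd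
  have hev : ∀ t ∈ S, (resultant g G).eval t.1 = 0 := by
    intro t ht
    have := Crest.Agent.R22.PolyKit.map_resultant_eq_zero (evalRingHom t.1) g G (by omega) t.2 ?_ ?_
    · simpa using this
    · rw [hg]
      simp only [eval₂_sub, eval₂_pow, eval₂_X, eval₂_C, coe_evalRingHom, hw, eval_add, eval_mul,
        eval_pow, eval_X, eval_C]
      rw [h1 t ht]; ring
    · rw [hG]
      simp only [eval₂_sub, eval₂_pow, eval₂_X, eval₂_C, eval₂_mul, eval₂_add, coe_evalRingHom,
        eval_add, eval_mul, eval_pow, eval_X, eval_C, eval_sub]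
      rw [← h2 t ht]; ring
  have hdegR : (resultant g G).natDegree ≤ 2 * k * k := by
    have hgc : ∀ n, (g.coeff n).natDegree ≤ k := by
      intro n
      rw [hg, coeff_sub, coeff_X_pow, coeff_C]
      refine (natDegree_sub_le _ _).trans (max_le ?_ ?_)
      · split_ifs <;> simp
      · split_ifs
        · exact natDegree_le_of_degree_le hwd.le
        · simp
    have hGc : ∀ n, (G.coeff n).natDegree ≤ k := by
      intro n
      rw [hG, coeff_sub, coeff_C, coeff_C_mul]
      refine (natDegree_sub_le _ _).trans (max_le ?_ ?_)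
      · split_ifs
        · refine (natDegree_sub_le _ _).trans (max_le (natDegree_C_mul_X_pow_le _ _) ?_)
          simp
        · simp
      · refine (natDegree_C_mul_le _ _).trans ?_
        rw [add_pow, finsetSum_coeff]
        refine natDegree_sum_le_of_forall_le _ _ fun m hm => ?_
        have hm' := mem_range.mp hm
        rw [mul_pow, ← C_pow, ← C_pow]
        have e1 : (C ((C P * X + C r) ^ m) * (C (C Q ^ (k - m)) * X ^ (k - m)) *
            ((k.choose m : ℕ) : ℂ[X][X])) =
            C ((C P * X + C r) ^ m * C Q ^ (k - m) * ((k.choose m : ℕ) : ℂ[X])) *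
              X ^ (k - m) := by
          simp only [C_mul, C_pow, map_natCast]
          ring
        rw [e1, coeff_C_mul_X_pow]
        split_ifs
        · refine (natDegree_mul_le).trans ?_
          rw [natDegree_natCast, add_zero]
          refine natDegree_mul_le.trans ?_
          rw [← C_pow, natDegree_C, add_zero, natDegree_pow]
          have : (C P * X + C r : ℂ[X]).natDegree ≤ 1 := natDegree_linear_le
          nlinarith
        · simp
    have h3 := natDegree_det_le' (sylvester g G g.natDegree G.natDegree) k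
      (fun i j => Crest.Agent.R22.PolyKit.sylvester_entry (fun F : ℂ[X] => F.natDegree ≤ k)
        (by simp) g G _ _ hgc hGc i j)
    rw [Fintype.card_fin] at h3
    refine h3.trans ?_
    rw [hgd]
    exact Nat.mul_le_mul_right _ (by omega)
  -- counting
  have hx : (S.image fun t => t.1).card ≤ 2 * k * k := by
    have hsub : S.image (fun t => t.1) ⊆ (resultant g G).roots.toFinset := by
      intro c hc
      obtain ⟨t, ht, rfl⟩ := Finset.mem_image.mp hc
      rw [Multiset.mem_toFinset, mem_roots hres]
      exact hev t ht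
    calc (S.image fun t => t.1).card ≤ (resultant g G).roots.toFinset.card := card_le_card hsub
      _ ≤ Multiset.card (resultant g G).roots := Multiset.toFinset_card_le _
      _ ≤ (resultant g G).natDegree := card_roots' _
      _ ≤ 2 * k * k := hdegR
  refine (Finset.card_le_mul_card_image (f := fun t : ℂ × ℂ => t.1) S k ?_).trans
    (Nat.mul_le_mul_left _ hx)
  intro x _
  set S1 := S.filter fun t => t.1 = x with hS1
  have hinj : Set.InjOn (fun t : ℂ × ℂ => t.2) S1 := by
    intro t ht t' ht' h
    have e1 := (Finset.mem_filter.mp (Finset.mem_coe.mp ht)).2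
    have e2 := (Finset.mem_filter.mp (Finset.mem_coe.mp ht')).2
    exact Prod.ext (e1.trans e2.symm) h
  rw [← Finset.card_image_of_injOn hinj]
  have hq0 : (X ^ k - C (A * x ^ k + B) : ℂ[X]) ≠ 0 := X_pow_sub_C_ne_zero (by omega) _
  have hsub : S1.image (fun t => t.2) ⊆ (X ^ k - C (A * x ^ k + B) : ℂ[X]).roots.toFinset := by
    intro c hc
    obtain ⟨t, ht, rfl⟩ := Finset.mem_image.mp hc
    have e1 := (Finset.mem_filter.mp ht)
    rw [Multiset.mem_toFinset, mem_roots hq0, IsRoot]
    simp only [eval_sub, eval_pow, eval_X, eval_C]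
    rw [h1 t e1.1, e1.2, sub_self]
  calc (S1.image fun t => t.2).card ≤ (X ^ k - C (A * x ^ k + B) : ℂ[X]).roots.toFinset.card :=
        card_le_card hsub
    _ ≤ Multiset.card (X ^ k - C (A * x ^ k + B) : ℂ[X]).roots := Multiset.toFinset_card_le _
    _ ≤ (X ^ k - C (A * x ^ k + B) : ℂ[X]).natDegree := card_roots' _
    _ = k := natDegree_X_pow_sub_C

end Crest.Agent.R022.Curve354
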