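import Crest.Agent.R022.Curve354C
import Crest.Agent.R022.Curve354D

/-! Row 22, stage 4 (helper354): the curve stage. A set of `S`-points of one slice, all of whose
functions have expansions in ONE local parameter modulo moduli of total size `A ^ K`, `K > ρ / 2`,
has a bounded number of elements. -/

set_option autoImplicit false

open Polynomial Finset

namespace Crest.Agent.R022.Curve354

open Crest.Agent.R022.Expand

universe u

/-- points of a slice with a fixed `β`. -/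
theorem card_const_beta {P : Type*} {d : ℕ} (hd : 3 ≤ d) (k : ℕ) (hk : 2 ≤ k) (z : Fin d → ℂ)
    (hz : Function.Injective z) (aa : Fin d → ℂ) (M : ℂ) (hM : M ≠ 0) (S : Finset P)
    (t0 t1 n : P → ℤ) (β : Fin d → ℂ) (hβ : ∀ i, β i ≠ 0)
    (ht : Set.InjOn (fun p => (t0 p, t1 p)) S)
    (htor : ∀ p ∈ S, ∀ i, ((t0 p : ℂ) + z i * t1 p + aa i) ^ k * β i = M * ((n p : ℂ) - z i)) :
    S.card ≤ k * (2 * k * k) := by
  classical
  let i0 : Fin d := ⟨0, by omega⟩
  let i1 : Fin d := ⟨1, by omega⟩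
  let i2 : Fin d := ⟨2, by omega⟩
  have h01 : z i1 - z i0 ≠ 0 := by
    intro h
    have := congrArg Fin.val (hz (sub_eq_zero.mp h))
    simp [i0, i1] at this
  have h02 : z i2 - z i0 ≠ 0 := by
    intro h
    have := congrArg Fin.val (hz (sub_eq_zero.mp h))
    simp [i0, i2] at this
  have h12 : z i1 - z i2 ≠ 0 := by
    intro h
    have := congrArg Fin.val (hz (sub_eq_zero.mp h))
    simp [i1, i2] at this
  set al : Fin d → P → ℂ := fun i p => (t0 p : ℂ) + z i * t1 p + aa i with hal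
  set Φ : P → ℂ × ℂ := fun p => (al i0 p, al i1 p) with hΦ
  have hinj : Set.InjOn Φ S := by
    intro p hp q hq h
    apply ht hp hq
    have e1 : al i0 p = al i0 q := congrArg Prod.fst h
    have e2 : al i1 p = al i1 q := congrArg Prod.snd h
    simp only [hal] at e1 e2
    have e3 : (z i1 - z i0) * ((t1 p : ℂ) - t1 q) = 0 := by linear_combination e2 - e1
    have e4 : (t1 p : ℂ) = t1 q := by
      rcases mul_eq_zero.mp e3 with h' | h'
      · exact absurd h' h01
      · exact sub_eq_zero.mp h'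
    have e5 : (t0 p : ℂ) = t0 q := by
      rw [e4] at e1
      linear_combination e1
    simp only [Prod.mk.injEq]
    exact ⟨by exact_mod_cast e5, by exact_mod_cast e4⟩
  rw [← Finset.card_image_of_injOn hinj]
  set PP := (z i1 - z i2) / (z i1 - z i0) with hPP
  set QQ := (z i2 - z i0) / (z i1 - z i0) with hQQ
  have hal2 : ∀ p, al i2 p = PP * al i0 p + QQ * al i1 p + (aa i2 - PP * aa i0 - QQ * aa i1) := by
    intro p
    simp only [hal, hPP, hQQ]
    field_simp
    ring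
  refine card_fermat_le k hk (β i0 / β i1) (-(M * (z i1 - z i0)) / β i1) (β i0) (β i2) PP QQ
    (aa i2 - PP * aa i0 - QQ * aa i1) (M * (z i2 - z i0)) (div_ne_zero (hβ _) (hβ _))
    (div_ne_zero (neg_ne_zero.mpr (mul_ne_zero hM h01)) (hβ _)) (hβ _) (div_ne_zero h12 h01)
    (div_ne_zero h02 h01) _ ?_ ?_
  · intro t ht'
    obtain ⟨p, hp, rfl⟩ := Finset.mem_image.mp ht'
    have e0 := htor p hp i0
    have e1 := htor p hp i1
    have hb1 := hβ i1
    simp only [hΦ]
    simp only [hal]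
    field_simp
    linear_combination e1 - e0
  · intro t ht'
    obtain ⟨p, hp, rfl⟩ := Finset.mem_image.mp ht'
    have e0 := htor p hp i0
    have e2 := htor p hp i2
    simp only [hΦ]
    rw [← hal2 p]
    simp only [hal]
    linear_combination e0 - e2

theorem exists_f (ρ K : ℝ) (hK : ρ / 2 < K) : ∃ f : ℕ, 1 ≤ f ∧ ρ * f + ρ < K * (2 * f + 1) ∧
    ρ * f + 1 < K * (2 * f + 1) := by
  have h : 0 < 2 * K - ρ := by linarith
  obtain ⟨f, hf⟩ := exists_nat_gt ((|ρ| + |K| + 1) / (2 * K - ρ))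
  rw [div_lt_iff₀ h] at hf
  refine ⟨f + 1, by omega, ?_, ?_⟩
  · push_cast
    have := le_abs_self ρ
    have := neg_abs_le K
    have := abs_nonneg ρ
    nlinarith
  · push_cast
    have := le_abs_self ρ
    have := neg_abs_le K
    have := abs_nonneg ρ
    nlinarith

/-- **The curve stage.** -/
theorem curve_finish (d k : ℕ) (hd : 3 ≤ d) (hk : 2 ≤ k) (hdk : k + 1 < d * (k - 1))
    (ρ K c : ℝ) (hK : ρ / 2 < K) (hc : 1 ≤ c) :
    ∃ (A0 : ℝ) (B : ℕ), 1 ≤ A0 ∧ ∀ A ≥ A0, ∀ (P : Type u) (z : Fin d → ℂ),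
      Function.Injective z →
      (∀ i, ∀ c : Fin d → ℚ, ∑ j, (c j : ℂ) * z i ^ (j : ℕ) = 0 → c = 0) →
      ∀ (a0 : Fin d → ℤ), (∃ j : Fin d, 2 ≤ (j : ℕ) ∧ a0 j ≠ 0) →
      ∀ aa : Fin d → ℂ,
      (∀ i, aa i = ∑ j : Fin d, if 2 ≤ (j : ℕ) then (a0 j : ℂ) * z i ^ (j : ℕ) else 0) →
      ∀ (M : ℂ), M ≠ 0 → ∀ (S : Finset P) (t0 t1 n : P → ℤ) (b : P → Fin d → ℤ),
      Set.InjOn (fun p => (t0 p, t1 p)) S →
      (∀ p ∈ S, ∀ i, ((t0 p : ℂ) + z i * t1 p + aa i) ^ k *
        (∑ j, (b p j : ℂ) * z i ^ (j : ℕ)) = M * ((n p : ℂ) - z i)) →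
      (∀ p ∈ S, |(t0 p : ℝ)| ≤ c * A) → (∀ p ∈ S, |(t1 p : ℝ)| ≤ c * A) →
      (∀ p ∈ S, ∀ j, |(b p j : ℝ)| ≤ c * A ^ ρ) →
      ∀ (s : ℕ → P → Fin 1 → ℤ) (nn : ℕ → P → ℤ) (L : Finset ℕ), Aux A K (S : Set P) s L →
      Good (S : Set P) s nn L t0 → Good (S : Set P) s nn L t1 →
      (∀ j, Good (S : Set P) s nn L fun p => b p j) → S.card ≤ B := by
  classical
  obtain ⟨f, hf1, hf2, hf3⟩ := exists_f ρ K hK
  obtain ⟨A1, hA11, hA1⟩ := rel_linear.{u} ρ ρ K c hc f hf2
  obtain ⟨A2, hA21, hA2⟩ := rel_sep.{u} ρ K c hc f hf1 (by linarith)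
  obtain ⟨A3, hA31, hA3⟩ := rel_linear.{u} ρ 1 K c hc f hf3
  set B1 : ℕ := f * f + 2 * f + 1 + d * f + (k * (2 * f) + 2 * f + 1) with hB1
  refine ⟨max A1 (max A2 A3), k * (2 * k * k) * B1 ^ d, hA11.trans (le_max_left _ _), ?_⟩
  intro A hA P z hz hlin a0 ha0 aa haa M hM S t0 t1 n b ht htor bt0 bt1 bb s nn L hL gt0 gt1 gb
  have hAA1 : A1 ≤ A := (le_max_left _ _).trans hA
  have hAA2 : A2 ≤ A := ((le_max_left _ _).trans (le_max_right _ _)).trans hA
  have hAA3 : A3 ≤ A := ((le_max_right _ _).trans (le_max_right _ _)).trans hA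
  -- `n ≠ z i`
  have hnz : ∀ p, ∀ i, (n p : ℂ) - z i ≠ 0 := by
    intro p i h
    have e1 := split_sum (by omega : 2 ≤ d) (z i) (n p : ℂ) (-1) 0 (fun _ => 0)
    have e2 := hlin i (fun j => if (j : ℕ) = 0 then n p else if (j : ℕ) = 1 then -1 else 0) (by
      have e3 : ∀ j : Fin d, (((if (j : ℕ) = 0 then (n p : ℚ) else if (j : ℕ) = 1 then -1 else 0 :
          ℚ) : ℚ) : ℂ) * z i ^ (j : ℕ) = (if (j : ℕ) = 0 then (n p : ℂ) else if (j : ℕ) = 1 then -1
            else (fun _ => (0 : ℂ)) j * 0) * z i ^ (j : ℕ) := by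
        intro j
        congr 1
        split_ifs <;> simp
      rw [Finset.sum_congr rfl fun j _ => e3 j, e1]
      simp only [mul_zero, add_zero]
      linear_combination h)
    have e3 := congrFun e2 ⟨1, by omega⟩
    simp at e3
  by_contra hcon
  push Not at hcon
  -- many values of `b`
  have hfib : S.card ≤ k * (2 * k * k) * (S.image b).card := by
    refine Finset.card_le_mul_card_image (f := b) S _ fun b0 _ => ?_
    rcases (S.filter fun p => b p = b0).eq_empty_or_nonempty with h | ⟨p0, hp0⟩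
    · rw [h]; simp
    have hp0' := Finset.mem_filter.mp hp0
    refine card_const_beta hd k hk z hz aa M hM _ t0 t1 n
      (fun i => ∑ j, (b0 j : ℂ) * z i ^ (j : ℕ)) ?_ ?_ ?_
    · intro i h
      have e1 := htor p0 hp0'.1 i
      rw [hp0'.2] at e1
      rw [h, mul_zero] at e1
      exact mul_ne_zero hM (hnz p0 i) e1.symm
    · exact ht.mono (by
        intro p hp
        exact (Finset.mem_filter.mp (Finset.mem_coe.mp hp)).1)
    · intro p hp i
      have hp' := Finset.mem_filter.mp hp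
      have e1 := htor p hp'.1 i
      rw [hp'.2] at e1
      exact e1
  obtain ⟨j0, hj0⟩ : ∃ j0, B1 < (S.image fun p => b p j0).card := by
    by_contra hno
    push Not at hno
    have h1 : (S.image b).card ≤ B1 ^ d := by
      have h2 : S.image b ⊆ Fintype.piFinset fun j => S.image fun p => b p j := by
        intro x hx
        obtain ⟨p, hp, rfl⟩ := Finset.mem_image.mp hx
        rw [Fintype.mem_piFinset]
        exact fun j => Finset.mem_image_of_mem _ hp
      refine (Finset.card_le_card h2).trans ?_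
      rw [Fintype.card_piFinset]
      refine (Finset.prod_le_prod (fun _ _ => Nat.zero_le _) fun j _ => hno j).trans ?_
      simp
    have := Nat.mul_le_mul_left (k * (2 * k * k)) h1
    omega
  -- a subset on which the coordinate is injective
  obtain ⟨S2, hS2S, hS2inj, hS2im⟩ := Finset.exists_subset_injOn_image_eq_of_surjOn
    (f := fun p => b p j0) (S : Set P) (S.image fun p => b p j0) (by
      rw [Finset.coe_image]; exact Set.surjOn_image _ _)
  have hS2card : B1 < S2.card := by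
    rw [← Finset.card_image_of_injOn hS2inj, hS2im]; exact hj0
  have hS2S' : ∀ p ∈ S2, p ∈ S := fun p hp => Finset.mem_coe.mp (hS2S (Finset.mem_coe.mpr hp))
  set X : P → ℤ := fun p => b p j0 with hX
  have hXinj : Set.InjOn (fun p => (X p : ℚ)) S2 := by
    intro p hp q hq h
    have h' : (X p : ℚ) = (X q : ℚ) := h
    exact hS2inj hp hq (by exact_mod_cast h')
  have hL2 : Aux A K (S2 : Set P) s L := hL.mono hS2S
  -- affine relations
  have haff : ∀ j, ∃ S' ⊆ S2, S2.card ≤ S'.card + f ∧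
      ∃ a c : ℚ, ∀ p ∈ S', (b p j : ℚ) = a * X p + c := by
    intro j
    have gX : Good (S2 : Set P) s nn L X := (gb j0).mono hS2S
    have gY : Good (S2 : Set P) s nn L fun p => b p j := (gb j).mono hS2S
    have bX : ∀ x ∈ (S2 : Set P), |(X x : ℝ)| ≤ c * A ^ ρ := fun x hx => bb x (hS2S hx) j0
    have bY : ∀ x ∈ (S2 : Set P), |(b x j : ℝ)| ≤ c * A ^ ρ := fun x hx => bb x (hS2S hx) j
    obtain ⟨x1, y1, h1, dx1, dy1, r1⟩ := hA1 A hAA1 P S2 s nn L hL2 X (fun p => b p j) gX gY bX bY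
    obtain ⟨x2, y2, h2, dx2, dy2, r2⟩ := hA1 A hAA1 P S2 s nn L hL2 (fun p => b p j) X gY gX bY bX
    obtain ⟨x3, y3, h3, dx3, dy3, h30, r3⟩ :=
      hA2 A hAA2 P S2 s nn L hL2 X (fun p => b p j) gX gY bX bY
    exact affine_of_relations S2 (fun p => (X p : ℚ)) (fun p => (b p j : ℚ)) f hXinj
      x1 y1 x2 y2 x3 y3 h1 h2 h3 h30 dx1 dy1 dx2 dy2 dx3 dy3 (fun p hp => r1 p hp)
      (fun p hp => r2 p hp) (fun p hp => r3 p hp) (by omega)
  choose S' hS'sub hS'card aff cff haffr using haff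
  set S3 := S2.filter fun p => ∀ j, p ∈ S' j with hS3
  have hS3S2 : S3 ⊆ S2 := Finset.filter_subset _ _
  have hS3card : S2.card ≤ S3.card + d * f := by
    have h1 : S2 \ S3 ⊆ Finset.univ.biUnion fun j => S2 \ S' j := by
      intro p hp
      rw [Finset.mem_sdiff] at hp
      rw [Finset.mem_biUnion]
      by_contra hno
      push Not at hno
      apply hp.2
      rw [hS3, Finset.mem_filter]
      refine ⟨hp.1, fun j => ?_⟩
      by_contra hj
      exact hno j (Finset.mem_univ _) (Finset.mem_sdiff.mpr ⟨hp.1, hj⟩)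
    have h2 : (S2 \ S3).card ≤ d * f := by
      refine (Finset.card_le_card h1).trans (Finset.card_biUnion_le.trans ?_)
      refine (Finset.sum_le_sum (g := fun _ => f) fun j _ => ?_).trans ?_
      · rw [Finset.card_sdiff_of_subset (hS'sub j)]
        have := hS'card j
        omega
      · simp
    have h3 := Finset.card_sdiff_add_card_eq_card hS3S2
    omega
  have hS3S : (S3 : Set P) ⊆ (S : Set P) := fun p hp =>
    hS2S (Finset.mem_coe.mpr (hS3S2 (Finset.mem_coe.mp hp)))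
  have hS3S' : ∀ p ∈ S3, p ∈ S := fun p hp => hS2S' p (hS3S2 hp)
  have hL3 : Aux A K (S3 : Set P) s L := hL.mono hS3S
  have gX : Good (S3 : Set P) s nn L X := (gb j0).mono hS3S
  have bX : ∀ x ∈ (S3 : Set P), |(X x : ℝ)| ≤ c * A ^ ρ := fun x hx => bb x (hS3S hx) j0
  have hXinj3 : Set.InjOn (fun p => (X p : ℚ)) S3 := hXinj.mono (by exact_mod_cast hS3S2)
  obtain ⟨x0, y0, h0, dx0, dy0, r0⟩ := hA3 A hAA3 P S3 s nn L hL3 X t0 gX (gt0.mono hS3S) bX
    (fun x hx => by rw [Real.rpow_one]; exact bt0 x (hS3S hx))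
  obtain ⟨x1, y1, h1, dx1, dy1, r1⟩ := hA3 A hAA3 P S3 s nn L hL3 X t1 gX (gt1.mono hS3S) bX
    (fun x hx => by rw [Real.rpow_one]; exact bt1 x (hS3S hx))
  have hcard3 : k * (2 * f) + 2 * f + 1 < S3.card := by omega
  have hfcard : f < S3.card := by omega
  have key : ∀ (x y : ℚ[X]) (t : P → ℤ), ¬ (x = 0 ∧ y = 0) → x.natDegree ≤ f →
      (∀ p ∈ (S3 : Set P), x.eval (X p : ℚ) + y.eval (X p : ℚ) * (t p : ℚ) = 0) → y ≠ 0 := by
    intro x y t hxy dx hr hy
    refine hxy ⟨eq_zero_of_many x S3 (fun p => (X p : ℚ)) hXinj3 (by omega) fun p hp => ?_, hy⟩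
    have := hr p (Finset.mem_coe.mpr hp)
    rw [hy] at this
    simpa using this
  have hy0 := key x0 y0 t0 h0 dx0 r0
  have hy1 := key x1 y1 t1 h1 dx1 r1
  refine final_contra (by omega : 2 ≤ d) k (2 * f) (by omega) hdk z hz hlin (fun j => (a0 j : ℚ))
    ?_ aa ?_ M hM S3 (fun p => (X p : ℚ)) (fun p => (t0 p : ℚ)) (fun p => (t1 p : ℚ))
    (fun p => (n p : ℚ)) (fun p j => (b p j : ℚ)) hXinj3 ?_ (y0 * y1) (-(x0 * y1)) (-(x1 * y0))
    (mul_ne_zero hy0 hy1) ?_ ?_ ?_ ?_ ?_ aff cff ?_ ?_ hcard3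
  · obtain ⟨j, hj, hj'⟩ := ha0
    exact ⟨j, hj, by exact_mod_cast hj'⟩
  · intro i
    rw [haa i]
    refine Finset.sum_congr rfl fun j _ => ?_
    push_cast
    rfl
  · intro p hp q hq h
    apply ht (hS3S hp) (hS3S hq)
    simp only [Prod.mk.injEq] at h ⊢
    exact ⟨by exact_mod_cast h.1, by exact_mod_cast h.2⟩
  · exact natDegree_mul_le.trans (by omega)
  · rw [natDegree_neg]; exact natDegree_mul_le.trans (by omega)
  · rw [natDegree_neg]; exact natDegree_mul_le.trans (by omega)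
  · intro p hp
    have := r0 p (Finset.mem_coe.mpr hp)
    simp only [eval_mul, eval_neg]
    linear_combination (y1.eval (X p : ℚ)) * this
  · intro p hp
    have := r1 p (Finset.mem_coe.mpr hp)
    simp only [eval_mul, eval_neg]
    linear_combination (y0.eval (X p : ℚ)) * this
  · intro p hp j
    have hpj : p ∈ S' j := (Finset.mem_filter.mp hp).2 j
    exact haffr j p hpj
  · intro p hp i
    have := htor p (hS3S' p hp) i
    push_cast
    exact this

end Crest.Agent.R022.Curve354
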