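import Crest.Agent.R022.Curve354E
import Crest.Agent.R022.SliceDefs

/-! Row 22, stage 4 (helper354): the curve stage in the slice interface. -/

set_option autoImplicit false

open Polynomial Finset

namespace Crest.Agent.R022.Curve354

open Crest.Agent.R022.Expand Crest.Agent.R022.Torsor

/-- `1, z, …, z ^ (d-1)` are linearly independent over `ℚ` for a root `z` of `F`. -/
theorem lin_of_root {F : ℤ[X]} (hF : F.Monic) (hirr : Irreducible F) (w : ℂ)
    (hw : F.eval₂ (Int.castRingHom ℂ) w = 0) (c : Fin F.natDegree → ℚ)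
    (hc : ∑ j, (c j : ℂ) * w ^ (j : ℕ) = 0) : c = 0 := by
  have hQ : Irreducible (F.map (Int.castRingHom ℚ)) :=
    (Polynomial.IsPrimitive.Int.irreducible_iff_irreducible_map_cast hF.isPrimitive).mp hirr
  have hmon : (F.map (Int.castRingHom ℚ)).Monic := hF.map _
  have hroot : aeval w (F.map (Int.castRingHom ℚ)) = 0 := by
    rw [aeval_def, eval₂_map]
    have : (algebraMap ℚ ℂ).comp (Int.castRingHom ℚ) = Int.castRingHom ℂ := RingHom.ext_int _ _
    rw [this, hw]
  have hmin : F.map (Int.castRingHom ℚ) = minpoly ℚ w :=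
    minpoly.eq_of_irreducible_of_monic hQ hroot hmon
  set Q : ℚ[X] := ∑ j : Fin F.natDegree, C (c j) * X ^ (j : ℕ) with hQdef
  have hQ0 : aeval w Q = 0 := by
    rw [hQdef, map_sum]
    simp only [map_mul, aeval_C, map_pow, aeval_X]
    simpa using hc
  have hdvd := minpoly.dvd ℚ w hQ0
  rw [← hmin] at hdvd
  have hQz : Q = 0 := by
    by_contra hne
    have h1 := degree_le_of_dvd hdvd hne
    have h2 : Q.degree < F.natDegree := by
      rw [hQdef]
      refine (degree_sum_le _ _).trans_lt ?_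
      rw [Finset.sup_lt_iff (by exact WithBot.bot_lt_coe _)]
      intro j _
      refine (degree_C_mul_X_pow_le _ _).trans_lt ?_
      exact_mod_cast j.2
    rw [degree_eq_natDegree hmon.ne_zero, hF.natDegree_map] at h1
    exact absurd (h1.trans_lt h2) (lt_irrefl _)
  funext i
  have h3 := congrArg (fun R : ℚ[X] => R.coeff i) hQz
  simp only [hQdef, finsetSum_coeff] at h3
  rw [Finset.sum_eq_single i] at h3
  · simpa using h3
  · intro j _ hj
    rw [coeff_C_mul, coeff_X_pow, if_neg, mul_zero]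
    intro h'
    exact hj (Fin.ext h'.symm)
  · intro h'; exact absurd (Finset.mem_univ _) h'

/-- functions with an expansion in one local parameter are constant modulo `l`. -/
theorem Good.dvd_sub {P : Type*} {A K : ℝ} {S : Set P} {s : ℕ → P → Fin 1 → ℤ} {nn : ℕ → P → ℤ}
    {L : Finset ℕ} {φ : P → ℤ} (h : Good S s nn L φ) (hL : Aux A K S s L) (l : ℕ) (hl : l ∈ L)
    (p q : P) (hp : p ∈ S) (hq : q ∈ S) : (l : ℤ) ∣ φ p - φ q := by
  obtain ⟨G, hG, hφ⟩ := h l hl 1
  have h1 := hφ p hp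
  have h2 := hφ q hq
  rw [Polynomial.eq_C_of_natDegree_le_zero hG, eval₂_C, pow_one] at h1 h2
  have h3 : (l : ℤ) ∣ MvPolynomial.eval (s l p) (G.coeff 0) -
      MvPolynomial.eval (s l q) (G.coeff 0) := by
    refine HasExp.dvd_eval_sub (G.coeff 0) fun i => ?_
    exact _root_.dvd_sub (hL.dvd l hl p hp i) (hL.dvd l hl q hq i)
  have h4 := _root_.dvd_add (_root_.dvd_sub h1 h2) h3
  refine dvd_congr_right h4 ?_
  ring

theorem exists_ne_of_genPos {d : ℕ} (hd : 3 ≤ d) (z : Fin d → ℂ) (a0 : Fin d → ℤ)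
    (h : GenPos z a0) : ∃ j : Fin d, 2 ≤ (j : ℕ) ∧ a0 j ≠ 0 := by
  by_contra hno
  push Not at hno
  have h0 : ∀ i, cst z a0 i = 0 := by
    intro i
    unfold cst
    refine Finset.sum_eq_zero fun j _ => ?_
    split_ifs with hj
    · rfl
    · rw [hno j (by omega)]; simp
  refine h ⟨0, by omega⟩ ⟨1, by omega⟩ ⟨2, by omega⟩ ?_ ?_ ?_ ?_
  · intro h'; have := congrArg Fin.val h'; simp at this
  · intro h'; have := congrArg Fin.val h'; simp at this
  · intro h'; have := congrArg Fin.val h'; simp at this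
  · rw [h0, h0, h0]; ring

/-- **The curve stage, slice interface.** -/
theorem curve_finish_slice {F : ℤ[X]} (hF : F.Monic) (hirr : Irreducible F)
    (z : Fin F.natDegree → ℂ) (hinj : Function.Injective z)
    (hz : ∀ i, F.eval₂ (Int.castRingHom ℂ) (z i) = 0) (hd : 3 ≤ F.natDegree) (k : ℕ) (hk : 2 ≤ k)
    (hdk : k + 1 < F.natDegree * (k - 1)) (ρ K : ℝ) (hK : ρ / 2 < K) (C M : ℕ) (hM : 0 < M) :
    ∃ (A0 : ℝ) (B : ℕ), 1 ≤ A0 ∧ ∀ A ≥ A0, ∀ a0 : Fin F.natDegree → ℤ, GenPos z a0 →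
      ∀ (T : Finset (Fin 2 → ℤ)) (m : (Fin 2 → ℤ) → ℤ) (b : (Fin 2 → ℤ) → Fin F.natDegree → ℤ),
      (∀ t ∈ T, IsSPt hF k C M A ρ a0 t (m t) (b t)) →
      ∀ (s : ℕ → (Fin 2 → ℤ) → Fin 1 → ℤ) (nn : ℕ → (Fin 2 → ℤ) → ℤ) (L : Finset ℕ),
      Aux A K (T : Set (Fin 2 → ℤ)) s L →
      (∀ i, Good (T : Set (Fin 2 → ℤ)) s nn L fun t => t i) → Good (T : Set (Fin 2 → ℤ)) s nn L m →
      (∀ l ∈ L, ∀ t ∈ T, IsCoprime (nm hF (el F (emb 2 a0 t))) (l : ℤ)) →
      T.card ≤ B := by
  obtain ⟨A0, B, hA01, hA0⟩ := curve_finish F.natDegree k hd hk hdk ρ K (C + 2 : ℝ) hK (by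
    have : (0 : ℝ) ≤ C := Nat.cast_nonneg _
    linarith)
  refine ⟨A0, B, hA01, fun A hA a0 hgp T m b hS s nn L hL gt gm hco => ?_⟩
  have hA1 : (1 : ℝ) ≤ A := hA01.trans hA
  have hAC : (2 : ℝ) * A ≤ (C + 2 : ℝ) * A := by
    have : (0 : ℝ) ≤ C := Nat.cast_nonneg _
    nlinarith
  refine hA0 A hA (Fin 2 → ℤ) z hinj (fun i c hc => lin_of_root hF hirr (z i) (hz i) c hc) a0
    (exists_ne_of_genPos hd z a0 hgp) (cst z a0) ?_ (M : ℂ) (by exact_mod_cast hM.ne') T
    (fun t => t 0) (fun t => t 1) m b ?_ ?_ ?_ ?_ ?_ s nn L hL (gt 0) (gt 1) ?_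
  · intro i
    unfold cst
    refine Finset.sum_congr rfl fun j _ => ?_
    by_cases h : (j : ℕ) < 2
    · rw [if_pos h, if_neg (by omega)]
    · rw [if_neg h, if_pos (by omega)]
  · intro t _ t' _ h
    simp only [Prod.mk.injEq] at h
    funext i
    fin_cases i
    · exact h.1
    · exact h.2
  · intro t ht i
    have h1 := cj_mul_of_eq (F := F) z hz M (m t) k (emb 2 a0 t) (b t) (by
      have := (hS t ht).eqn
      simpa using this) i
    have h2 : cj z (emb 2 a0 t) i = (t 0 : ℂ) + z i * t 1 + cst z a0 i := by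
      rw [← eval_aP, aP_two z (by omega)]
      simp
    have h3 : cj z (b t) i = ∑ j, (b t j : ℂ) * z i ^ (j : ℕ) := rfl
    rw [← h2, ← h3, ← h1]
    simp
  · intro t ht
    exact ((hS t ht).t_le 0).trans hAC
  · intro t ht
    exact ((hS t ht).t_le 1).trans hAC
  · intro t ht j
    refine ((hS t ht).b_le j).trans ?_
    have : (0 : ℝ) ≤ A ^ ρ := Real.rpow_nonneg (by linarith) _
    nlinarith
  · intro j
    rcases T.eq_empty_or_nonempty with hT | ⟨t', ht'⟩
    · intro l _ m'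
      rw [hT]
      exact ⟨0, by simp, by simp⟩
    intro l hl m'
    have hlz : IsCoprime ((MvPolynomial.eval t' (Nf hF 2 a0)) ^ k) (l : ℤ) := by
      rw [Nf_eval]
      exact (hco l hl t' ht').pow_left
    obtain ⟨u, v, huv⟩ := hlz
    have hpoly : ∀ Q : MvPolynomial (Fin 2) ℤ, HasExp (T : Set (Fin 2 → ℤ)) (s l) (nn l) l m' 0
        (fun t => MvPolynomial.eval t Q) := fun Q =>
      HasExp.mvPolynomial (fun t => t) (fun i => gt i l hl m') Q
    refine HasExp.div (ψ := fun t => (M : ℤ) * (m t * MvPolynomial.eval t (Sf hF 2 a0 k 1 j) -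
      MvPolynomial.eval t (Sf hF 2 a0 k (AdjoinRoot.root F) j))) ((hpoly (Nf hF 2 a0)).pow_zero k)
      u ?_ ?_ ?_
    · intro t ht
      have h1 : (l : ℤ) ∣ MvPolynomial.eval t (Nf hF 2 a0) - MvPolynomial.eval t' (Nf hF 2 a0) :=
        HasExp.dvd_eval_sub _ fun i =>
          (gt i).dvd_sub hL l hl t t' ht (Finset.mem_coe.mpr ht')
      have h2 := h1.trans (sub_dvd_pow_sub_pow _ _ k)
      exact dvd_congr_right (_root_.dvd_sub (dvd_mul_left (l : ℤ) v) (h2.mul_left u))
        (by linear_combination -huv)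
    · exact HasExp.const_mul _ ((HasExp.mul_zero_left (gm l hl m') (hpoly _)).sub (hpoly _))
    · intro t ht
      have h1 := coord_eq_slice hF 2 a0 t k M (m t) (b t) (by
        have := (hS t (Finset.mem_coe.mp ht)).eqn
        simpa using this) j
      rw [← h1, mul_comm, sub_self]
      exact dvd_zero _

end Crest.Agent.R022.Curve354
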