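import Crest.Agent.R022.Stage107B
import Crest.Agent.R022.CntLink

/-! Row 22, level L0 (helper107): final form of the determinant step with the free variable `n`. -/

set_option autoImplicit false

namespace Crest.Agent.R022.Stage107

open Crest.Agent.R022.Torsor Cnt
open Polynomial (C X)

variable {F : Polynomial ℤ} (hF : F.Monic)

theorem Bi_eq (k : ℕ) (M : ℤ) (a0 : Fin F.natDegree → ℤ) (l : Fin F.natDegree) :
    Bi hF k M a0 l = Bt hF k M a0 l := by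
  unfold Bi Bt
  rw [Polynomial.C_mul, Polynomial.C_mul]
  ring

theorem Imon_eq_monZ (k J : ℕ) (M : ℤ) (a0 : Fin F.natDegree → ℤ)
    (ω : (ℕ × ℕ) × (Fin F.natDegree → ℕ)) : Imon hF k J M a0 ω = monZ hF k M J a0 ω := by
  unfold Imon monZ
  simp only [Bi_eq]

theorem hasFamily (z : Fin F.natDegree → ℂ) (hinj : Function.Injective z)
    (hz : ∀ i, F.eval₂ (Int.castRingHom ℂ) (z i) = 0) {d k : ℕ} (hd : 1 ≤ d)
    (hdF : F.natDegree = d + 1) {ρ κ : ℝ} (hρ : 0 < ρ) (hκ : 0 < κ)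
    (hthr : (9 / 8 : ℝ) ^ 2 < κ ^ 2 * (2 * C3 ρ k d * ρ)) : HasFamily hF z k ρ κ := by
  obtain ⟨Y, m, J, w, s, h1, h2, W, h3, h4⟩ := slice_family hd hρ hκ hthr
  refine ⟨Y, m, J, w, s, h1, h2, W, h3, fun a0 hgp M hM => ?_⟩
  obtain ⟨T, g1, g2, g3, g4⟩ := h4 hF hdF z hinj hz M hM a0 hgp
  refine ⟨T, g1, g2, fun a ha ω hω => ?_, g3⟩
  by_contra hne
  apply g4 a ⟨ω, hω, hne⟩
  rw [← ha]
  exact Finset.sum_congr rfl fun ω _ => by rw [Imon_eq_monZ]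

/-- the threshold is satisfied for `κ = 0.49 ρ`, `ρ ≥ 0.6` -/
theorem thr {k : ℕ} (hk : 2 ≤ k) {ρ : ℝ} (hρ : 3 / 5 ≤ ρ) :
    (9 / 8 : ℝ) ^ 2 < (49 / 100 * ρ) ^ 2 * (2 * C3 ρ k (k + 1) * ρ) := by
  have hρ0 : 0 < ρ := by linarith
  have hk' : (2 : ℝ) ≤ k := by exact_mod_cast hk
  have h1 : (49 / 100 * ρ) ^ 2 * (2 * C3 ρ k (k + 1) * ρ) =
      (49 / 100) ^ 2 * (ρ ^ 2 / 3 + (k + 1) * k * ρ / 3 + (k : ℝ) ^ 3 * (k + 1) / 6) := by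
    unfold C3
    push_cast
    field_simp
    ring
  rw [h1]
  have h2 : (6 : ℝ) ≤ (k + 1) * k := by nlinarith
  have h3 : (8 : ℝ) ≤ (k : ℝ) ^ 3 := by
    calc (8 : ℝ) = 2 ^ 3 := by norm_num
      _ ≤ (k : ℝ) ^ 3 := pow_le_pow_left₀ (by norm_num) hk' 3
  have h4 : (24 : ℝ) ≤ (k : ℝ) ^ 3 * (k + 1) := by nlinarith
  have h5 : (6 : ℝ) * (3 / 5) ≤ (k + 1) * k * ρ :=
    mul_le_mul h2 hρ (by norm_num) (by positivity)
  nlinarith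

/-- **Level L0**, general threshold. -/
theorem level0_gen (z : Fin F.natDegree → ℂ) (hinj : Function.Injective z)
    (hz : ∀ i, F.eval₂ (Int.castRingHom ℂ) (z i) = 0) {d k : ℕ} (hd : 1 ≤ d)
    (hdF : F.natDegree = d + 1) {ρ κ : ℝ} (hρ : 0 < ρ) (hκ : 0 < κ)
    (hthr : (9 / 8 : ℝ) ^ 2 < κ ^ 2 * (2 * C3 ρ k d * ρ)) (Cc M : ℕ) (hC : 0 < Cc) (hM : 0 < M) :
    ∃ D0 : ℕ, ∀ A : ℝ, 1 ≤ A → ∀ a0 : Fin F.natDegree → ℤ, GenPos z a0 →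
      ∀ (P : Type) (S : Set P) (t : P → Fin 2 → ℤ) (n : P → ℤ) (b : P → Fin F.natDegree → ℤ),
      (∀ p ∈ S, (∀ i, |(t p i : ℝ)| ≤ 2 * A) ∧ (∀ l, |(b p l : ℝ)| ≤ Cc * A ^ ρ) ∧
        (M : AdjoinRoot F) * ((n p : AdjoinRoot F) - AdjoinRoot.root F) =
          el F (emb 2 a0 (t p)) ^ k * el F (b p)) →
      ∀ L : Finset ℕ, (L : Set ℕ).Pairwise Nat.Coprime → A ^ κ ≤ ((∏ l ∈ L, l : ℕ) : ℝ) →
      (∀ l ∈ L, ∀ p ∈ S, IsCoprime (nm hF (el F (emb 2 a0 (t p)))) (l : ℤ)) →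
      (∀ l ∈ L, ∀ p ∈ S, ∀ p' ∈ S, ∀ i, (l : ℤ) ∣ t p i - t p' i) →
      ∃ G : Polynomial (MvPolynomial (Fin 2) ℤ), G ≠ 0 ∧ G.natDegree ≤ D0 ∧ CD G D0 ∧
        ∀ p ∈ S, ev3 G (t p) (n p) = 0 :=
  level0_of_family hF z k ρ κ hρ hκ (hasFamily hF z hinj hz hd hdF hρ hκ hthr) Cc M hC hM

/-- a prime `l` with `C < l < A ^ d` is prime to the norm of an `S`-point. -/
theorem coprime_of_prime {k Cc M : ℕ} {A ρ : ℝ} {a0 : Fin F.natDegree → ℤ} {t : Fin 2 → ℤ} {n : ℤ}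
    {b : Fin F.natDegree → ℤ} (h : IsSPt hF k Cc M A ρ a0 t n b) {l : ℕ} (hl : l.Prime)
    (hCl : Cc < l) (hlA : (l : ℝ) < A ^ F.natDegree) :
    IsCoprime (nm hF (el F (emb 2 a0 t))) (l : ℤ) := by
  obtain ⟨p, c, hp, hCp, hpA, -, hnm, hc0, hcC, -⟩ := h.norm
  have hlp : l ≠ p := by
    rintro rfl
    linarith
  rw [hnm]
  refine IsCoprime.mul_left ?_ ?_
  · rw [Nat.isCoprime_iff_coprime]
    exact (Nat.coprime_primes hp hl).2 (Ne.symm hlp)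
  · rw [isCoprime_comm, Int.isCoprime_iff_gcd_eq_one]
    have h1 : ¬ (l : ℤ) ∣ c := by
      intro hdvd
      have := Int.le_of_dvd (abs_pos.2 hc0) ((dvd_abs _ _).2 hdvd)
      omega
    exact (Int.isCoprime_iff_gcd_eq_one.mp
      ((Prime.coprime_iff_not_dvd (Nat.prime_iff_prime_int.mp hl)).2 h1))

/-- **Level L0** for `S`-points, `κ = 0.49 ρ`. -/
theorem level0 (z : Fin F.natDegree → ℂ) (hinj : Function.Injective z)
    (hz : ∀ i, F.eval₂ (Int.castRingHom ℂ) (z i) = 0) {k : ℕ} (hk : k + 2 = F.natDegree)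
    (hk2 : 2 ≤ k) {ρ : ℝ} (hρ : 3 / 5 ≤ ρ) (Cc M : ℕ) (hC : 0 < Cc) (hM : 0 < M) :
    ∃ D0 : ℕ, ∀ A : ℝ, 1 ≤ A → ∀ a0 : Fin F.natDegree → ℤ, GenPos z a0 →
      ∀ (P : Type) (S : Set P) (t : P → Fin 2 → ℤ) (n : P → ℤ) (b : P → Fin F.natDegree → ℤ),
      (∀ p ∈ S, IsSPt hF k Cc M A ρ a0 (t p) (n p) (b p)) →
      ∀ L : Finset ℕ, (L : Set ℕ).Pairwise Nat.Coprime →
      A ^ (49 / 100 * ρ) ≤ ((∏ l ∈ L, l : ℕ) : ℝ) →
      (∀ l ∈ L, ∀ p ∈ S, IsCoprime (nm hF (el F (emb 2 a0 (t p)))) (l : ℤ)) →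
      (∀ l ∈ L, ∀ p ∈ S, ∀ p' ∈ S, ∀ i, (l : ℤ) ∣ t p i - t p' i) →
      ∃ G : Polynomial (MvPolynomial (Fin 2) ℤ), G ≠ 0 ∧ G.natDegree ≤ D0 ∧ CD G D0 ∧
        ∀ p ∈ S, ev3 G (t p) (n p) = 0 := by
  obtain ⟨D0, h⟩ := level0_gen hF z hinj hz (d := k + 1) (k := k) (by omega) (by omega)
    (show (0 : ℝ) < ρ by linarith) (show (0 : ℝ) < 49 / 100 * ρ by linarith) (thr hk2 hρ)
    Cc M hC hM
  refine ⟨D0, fun A hA a0 hgp P S t n b hS L hL hLA hcop hcong => ?_⟩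
  exact h A hA a0 hgp P S t n b (fun p hp => ⟨(hS p hp).t_le, (hS p hp).b_le, (hS p hp).eqn⟩)
    L hL hLA hcop hcong

/-- conversion to `MvPolynomial (Fin 3) ℤ`, variable `0` is `n`, variables `1, 2` are `t` -/
theorem exists_mv {D0 : ℕ} (G : Polynomial (MvPolynomial (Fin 2) ℤ)) (hG : G ≠ 0)
    (h1 : G.natDegree ≤ D0) (h2 : CD G D0) : ∃ H : MvPolynomial (Fin 3) ℤ, H ≠ 0 ∧
      H.totalDegree ≤ 2 * D0 ∧ ∀ (t : Fin 2 → ℤ) (n : ℤ),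
        MvPolynomial.eval (Fin.cons n t : Fin 3 → ℤ) H = ev3 G t n := by
  refine ⟨(MvPolynomial.finSuccEquiv ℤ 2).symm G, ?_, ?_, ?_⟩
  · intro h
    apply hG
    have := congrArg (MvPolynomial.finSuccEquiv ℤ 2) h
    simpa using this
  · rw [MvPolynomial.totalDegree, Finset.sup_le_iff]
    intro e he
    rw [MvPolynomial.mem_support_iff] at he
    have h3 := MvPolynomial.finSuccEquiv_coeff_coeff (R := ℤ) (n := 2) e.tail
      ((MvPolynomial.finSuccEquiv ℤ 2).symm G) (e 0)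
    rw [Finsupp.cons_tail, AlgEquiv.apply_symm_apply] at h3
    rw [← h3] at he
    have h4 : e 0 ≤ G.natDegree := by
      refine Polynomial.le_natDegree_of_ne_zero ?_
      intro h0
      rw [h0] at he
      exact he (MvPolynomial.coeff_zero _)
    have h5 : (e.tail.sum fun _ n => n) ≤ (G.coeff (e 0)).totalDegree :=
      MvPolynomial.le_totalDegree (MvPolynomial.mem_support_iff.2 he)
    have h6 := h2 (e 0)
    have h7 : (e.sum fun _ n => n) = e 0 + (e.tail.sum fun _ n => n) := by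
      rw [Finsupp.sum_fintype _ _ (fun _ => rfl), Finsupp.sum_fintype _ _ (fun _ => rfl),
        Fin.sum_univ_succ]
      rfl
    omega
  · intro t n
    rw [MvPolynomial.eval_eq_eval_mv_eval']
    unfold ev3
    simp

end Crest.Agent.R022.Stage107
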