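import Crest.Agent.R022.SliceDefs
import Crest.Agent.R022.Expand
import Crest.Agent.R022.Stage107

/-! Row 22 (helper250): Prop-valued interfaces of the four level theorems inside one slice.
`L0` is proved (`Stage107.level0`). `L1` = surface step (586 + 206), `L2` = free `n` over a plane
curve (712 + 776), `L3` = everything in one parameter (354). -/

set_option autoImplicit false

namespace Crest.Agent.R022

open Crest.Agent.R022.Torsor Crest.Agent.R022.Expand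

/-- All the functions in `φs` are, modulo every power of `l`, polynomials in `r` local parameters which
are divisible by `l` on `S`. -/
def Par {P : Type*} (r : ℕ) (S : Set P) (l : ℤ) (φs : Set (P → ℤ)) : Prop :=
  ∃ s : P → Fin r → ℤ, (∀ p ∈ S, ∀ i, l ∣ s p i) ∧
    ∀ φ ∈ φs, ∀ (n' : P → ℤ) (m : ℕ), HasExp S s n' l m 0 φ

/-- Common data of a level step: `S`-points of one slice in general position, pairwise coprime moduli
`L`, coprime to the norms. -/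
structure LevelData {F : Polynomial ℤ} (hF : F.Monic) (z : Fin F.natDegree → ℂ) (k Cc M : ℕ)
    (A ρ : ℝ) (a0 : Fin F.natDegree → ℤ) (S : Set (Fin 2 → ℤ)) (n : (Fin 2 → ℤ) → ℤ)
    (b : (Fin 2 → ℤ) → Fin F.natDegree → ℤ) (L : Finset ℕ) (κ : ℝ) : Prop where
  a0_le : ∀ i, |(a0 i : ℝ)| ≤ 2 * A
  gp : GenPos z a0
  fin : S.Finite
  pt : ∀ t ∈ S, IsSPt hF k Cc M A ρ a0 t (n t) (b t)
  cop : (L : Set ℕ).Pairwise Nat.Coprime
  big : A ^ κ ≤ ((∏ l ∈ L, l : ℕ) : ℝ)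
  nm : ∀ l ∈ L, ∀ t ∈ S, IsCoprime (nm hF (el F (emb 2 a0 t))) (l : ℤ)

/-- **L1, surface step.** A relation `G(t,n) = 0` holds on `S` and `n` (hence every `b_l`) is a
power series in `t - t_0` at all `l ∈ L` (2 parameters): then `t(S)` lies on a plane curve. -/
def L1At {F : Polynomial ℤ} (hF : F.Monic) (z : Fin F.natDegree → ℂ) (k : ℕ) (ρ κ : ℝ) : Prop :=
  ∀ Cc M : ℕ, 0 < Cc → 0 < M → ∀ D0 : ℕ, ∃ (D1 : ℕ) (A0 : ℝ), ∀ A : ℝ, A0 ≤ A → 1 ≤ A →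
    ∀ a0 S n b L, LevelData hF z k Cc M A ρ a0 S n b L κ →
    (∃ G : MvPolynomial (Fin 3) ℤ, G ≠ 0 ∧ G.totalDegree ≤ D0 ∧
      ∀ t ∈ S, MvPolynomial.eval ![n t, t 0, t 1] G = 0) →
    (∀ l ∈ L, Par 2 S (l : ℤ) {(fun t => t 0), (fun t => t 1), n}) →
    ∃ R : MvPolynomial (Fin 2) ℤ, R ≠ 0 ∧ R.totalDegree ≤ D1 ∧
      ∀ t ∈ S, MvPolynomial.eval t R = 0

/-- **L2, free `n` over a plane curve.** A relation `R(t) = 0` holds on `S` and `t` is given by one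
parameter at all `l ∈ L`: then `n` is algebraic over each `t_j` on `S`. -/
def L2At {F : Polynomial ℤ} (hF : F.Monic) (z : Fin F.natDegree → ℂ) (k : ℕ) (ρ κ : ℝ) : Prop :=
  ∀ Cc M : ℕ, 0 < Cc → 0 < M → ∀ D1 : ℕ, ∃ (D2 : ℕ) (A0 : ℝ), ∀ A : ℝ, A0 ≤ A → 1 ≤ A →
    ∀ a0 S n b L, LevelData hF z k Cc M A ρ a0 S n b L κ →
    (∃ R : MvPolynomial (Fin 2) ℤ, R ≠ 0 ∧ R.totalDegree ≤ D1 ∧
      ∀ t ∈ S, MvPolynomial.eval t R = 0) →
    (∀ l ∈ L, Par 1 S (l : ℤ) {(fun t => t 0), (fun t => t 1)}) →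
    ∀ j : Fin 2, ∃ E : MvPolynomial (Fin 2) ℤ, E ≠ 0 ∧ E.totalDegree ≤ D2 ∧
      ∀ t ∈ S, MvPolynomial.eval ![n t, t j] E = 0

/-- **L3, curve step.** `t` and `n` are given by one parameter at all `l ∈ L`: then `S` has bounded
cardinality. -/
def L3At {F : Polynomial ℤ} (hF : F.Monic) (z : Fin F.natDegree → ℂ) (k : ℕ) (ρ κ : ℝ) : Prop :=
  ∀ Cc M : ℕ, 0 < Cc → 0 < M → ∃ (C3 : ℕ) (A0 : ℝ), ∀ A : ℝ, A0 ≤ A → 1 ≤ A →
    ∀ a0 S n b L, LevelData hF z k Cc M A ρ a0 S n b L κ →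
    (∀ l ∈ L, Par 1 S (l : ℤ) {(fun t => t 0), (fun t => t 1), n}) →
    S.ncard ≤ C3

end Crest.Agent.R022
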