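import Crest.Agent.R022.Curve354F
import Crest.Agent.R022.Ifaces250

/-! Row 22, stage 4 (helper354): the interface `L3At`. -/

set_option autoImplicit false

open Polynomial Finset

namespace Crest.Agent.R022.Curve354

open Crest.Agent.R022.Expand Crest.Agent.R022.Torsor

/-- **L3.** -/
theorem l3At {F : ℤ[X]} (hF : F.Monic) (hirr : Irreducible F)
    (z : Fin F.natDegree → ℂ) (hinj : Function.Injective z)
    (hz : ∀ i, F.eval₂ (Int.castRingHom ℂ) (z i) = 0) (k : ℕ) (hk : 2 ≤ k)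
    (hdeg : k + 2 = F.natDegree) (ρ κ : ℝ) (hκ : ρ / 2 < κ) : L3At hF z k ρ κ := by
  intro Cc M hCc hM
  have hdk : k + 1 < F.natDegree * (k - 1) := by
    rw [← hdeg]
    obtain ⟨j, rfl⟩ : ∃ j, k = j + 2 := ⟨k - 2, by omega⟩
    have : j + 2 - 1 = j + 1 := by omega
    rw [this]
    nlinarith
  obtain ⟨A0, B, hA01, hA0⟩ := curve_finish_slice hF hirr z hinj hz (by omega) k hk hdk ρ κ hκ
    Cc M hM
  refine ⟨B, A0, fun A hA hA1 a0 S n b L hD hpar => ?_⟩
  classical
  choose! s hs using hpar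
  have hST : (hD.fin.toFinset : Set (Fin 2 → ℤ)) = S := hD.fin.coe_toFinset
  rw [Set.ncard_eq_toFinset_card S hD.fin]
  refine hA0 A hA a0 hD.gp hD.fin.toFinset n b ?_ (fun l => s l) (fun _ _ => 0) L ?_ ?_ ?_ ?_
  · intro t ht
    exact hD.pt t (hD.fin.mem_toFinset.mp ht)
  · rw [hST]
    exact ⟨hD.cop, hD.big, fun l hl x hx i => (hs l hl).1 x hx i⟩
  · intro i
    rw [hST]
    intro l hl m
    fin_cases i
    · exact (hs l hl).2 _ (by simp) _ m
    · exact (hs l hl).2 _ (by simp) _ m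
  · rw [hST]
    intro l hl m
    exact (hs l hl).2 _ (by simp) _ m
  · intro l hl t ht
    exact hD.nm l hl t (hD.fin.mem_toFinset.mp ht)

end Crest.Agent.R022.Curve354
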