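import Mathlib
import Crest.Agent.R022.Defs
import Crest.Agent.R022.CntNum

/-!
# R022 block B7 (helper867): dimension lemma for lines in general position

Transport of `Cnt.plane_bound` (helper294) from `E[X][X]` to `MvPolynomial (Fin 2) E`.
-/

set_option autoImplicit false

namespace Crest.Agent.R022

open Module Finset Polynomial

theorem Dim.choose_eq (L : ℕ) : (L + 2).choose 2 = ∑ e ∈ range (L + 1), (L - e + 1) := by
  have h3 : ∑ e ∈ range (L + 1), (L - e + 1) = ∑ e ∈ range (L + 1), (e + 1) := by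
    have := Finset.sum_range_reflect (fun e => e + 1) (L + 1)
    rw [← this]
    refine Finset.sum_congr rfl fun e he => ?_
    have := Finset.mem_range.1 he
    omega
  rw [h3]
  induction L with
  | zero => rfl
  | succ n ih =>
    rw [Finset.sum_range_succ, ← ih (by
      have := Finset.sum_range_reflect (fun e => e + 1) (n + 1)
      rw [← this]
      refine Finset.sum_congr rfl fun e he => ?_
      have := Finset.mem_range.1 he
      omega)]
    have h : n + 1 + 2 = (n + 2) + 1 := by ring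
    rw [h, Nat.choose_succ_succ' (n + 2) 1, Nat.choose_one_right]
    ring

theorem Dim.Dfull_eq (d k j L : ℕ) (hL : 2 * (k - 1) ≤ L) :
    Dfull d k j L = Cnt.D2 k (d - 1) j L := by
  unfold Dfull Cnt.D2
  rw [Cnt.DR, Dim.choose_eq]
  congr 1
  have hmin : min k (L + 1) = k := by omega
  rw [hmin]
  refine Finset.sum_congr rfl fun c' _ => Finset.sum_congr rfl fun l _ =>
    Finset.sum_congr rfl fun s hs => ?_
  rw [Cnt.D1_eq]
  have hs' := Finset.mem_range.1 hs
  have : min k (L - s + 1) = k := by omega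
  rw [this]
  ring

/-- the change of coordinates `X 0 ↦` inner variable, `X 1 ↦` outer variable -/
noncomputable def Dim.psi (E : Type*) [Field E] : MvPolynomial (Fin 2) E →ₐ[E] E[X][X] :=
  MvPolynomial.aeval ![C X, X]

theorem Dim.psi_X0 (E : Type*) [Field E] : Dim.psi E (MvPolynomial.X 0) = C X := by
  simp [Dim.psi]

theorem Dim.psi_X1 (E : Type*) [Field E] : Dim.psi E (MvPolynomial.X 1) = X := by
  simp [Dim.psi]

theorem Dim.psi_lin {E : Type*} [Field E] {d : ℕ} (θ a : Fin d → E) (i : Fin d) :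
    Dim.psi E (MvPolynomial.C (θ i) * MvPolynomial.X 0 + MvPolynomial.X 1
            + MvPolynomial.C (a i)) = Cnt.alp θ a i := by
  have hC : ∀ c : E, Dim.psi E (MvPolynomial.C c) = C (C c) := by
    intro c
    rw [Dim.psi, MvPolynomial.aeval_C]
    rfl
  rw [map_add, map_add, map_mul, hC, hC, Dim.psi_X0, Dim.psi_X1, Cnt.alp, Cnt.Aff]
  rw [C_add, C_mul]
  ring

theorem Dim.lines {E : Type*} [Field E] (d k j L : ℕ) (hd : 1 ≤ d) (_hk : 1 ≤ k) (θ a : Fin d → E)
    (hθ : Function.Injective θ)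
    (hgp : ∀ i l m, i ≠ l → i ≠ m → l ≠ m →
      (a l - a i) * (θ m - θ i) ≠ (a m - a i) * (θ l - θ i)) (hL : 2 * (k - 1) ≤ L) :
    Dfull d k j L ≤ Module.finrank E (Submodule.span E {G : MvPolynomial (Fin 2) E |
      ∃ e : Fin 2 → ℕ, e 0 + e 1 ≤ L ∧ ∃ f : Fin d → ℕ, ∑ i, f i = j ∧
        G = MvPolynomial.X 0 ^ e 0 * MvPolynomial.X 1 ^ e 1 *
          ∏ i, (MvPolynomial.C (θ i) * MvPolynomial.X 0 + MvPolynomial.X 1
            + MvPolynomial.C (a i)) ^ (k * (j - f i))}) := by
  classical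
  set Ssp : Set (MvPolynomial (Fin 2) E) := {G : MvPolynomial (Fin 2) E |
      ∃ e : Fin 2 → ℕ, e 0 + e 1 ≤ L ∧ ∃ f : Fin d → ℕ, ∑ i, f i = j ∧
        G = MvPolynomial.X 0 ^ e 0 * MvPolynomial.X 1 ^ e 1 *
          ∏ i, (MvPolynomial.C (θ i) * MvPolynomial.X 0 + MvPolynomial.X 1
            + MvPolynomial.C (a i)) ^ (k * (j - f i))} with hS
  have hfin : Ssp.Finite := by
    have hsub : Ssp ⊆ (fun p : (Fin 2 → ℕ) × (Fin d → ℕ) =>
        (MvPolynomial.X 0 ^ p.1 0 * MvPolynomial.X 1 ^ p.1 1 *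
          ∏ i, (MvPolynomial.C (θ i) * MvPolynomial.X 0 + MvPolynomial.X 1
            + MvPolynomial.C (a i)) ^ (k * (j - p.2 i)) : MvPolynomial (Fin 2) E)) ''
        ((Set.Iic (fun _ => L)) ×ˢ (Set.Iic (fun _ => j))) := by
      rintro G ⟨e, he, f, hf, rfl⟩
      refine ⟨(e, f), ⟨?_, ?_⟩, rfl⟩
      · rw [Set.mem_Iic, Pi.le_def]
        intro i
        fin_cases i
        · show e 0 ≤ L
          omega
        · show e 1 ≤ L
          omega
      · rw [Set.mem_Iic, Pi.le_def]
        intro i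
        show f i ≤ j
        rw [← hf]
        exact Finset.single_le_sum (f := f) (fun _ _ => Nat.zero_le _) (Finset.mem_univ i)
    exact ((Set.finite_Iic _).prod (Set.finite_Iic _)).image _ |>.subset hsub
  have hfd : FiniteDimensional E (Submodule.span E Ssp) := FiniteDimensional.span_of_finite E hfin
  have hne : (univ : Finset (Fin d)).Nonempty := by
    rw [← Finset.card_pos, Finset.card_univ, Fintype.card_fin]
    omega
  have hpb := Cnt.plane_bound (F := E) (k := k) (θ := θ) (a := a) hθ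
    (fun i₀ i i' h1 h2 h3 => hgp i₀ i i' (Ne.symm h1) (Ne.symm h2) h3) univ univ
    (Finset.Subset.refl _) hne j L
  rw [Finset.card_univ, Fintype.card_fin] at hpb
  rw [Dim.Dfull_eq d k j L hL]
  refine hpb.trans ?_
  refine le_trans ?_ (Submodule.finrank_map_le (Dim.psi E).toLinearMap (Submodule.span E Ssp))
  refine Submodule.finrank_mono (Cnt.Wsp_le ?_)
  intro f hf z hz
  rw [Finset.mem_piAntidiag] at hf
  have hz' := Cnt.Z2_le_span L hz
  clear hz
  induction hz' using Submodule.span_induction with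
  | mem x hx =>
    obtain ⟨e, he, rfl⟩ := hx
    rw [Finset.mem_coe, Cnt.mem_Ex2] at he
    refine ⟨_, Submodule.subset_span ⟨![e.2, e.1], ?_, f, hf.1, rfl⟩, ?_⟩
    · show e.2 + e.1 ≤ L
      omega
    · rw [AlgHom.toLinearMap_apply, map_mul, map_mul, map_pow, map_pow, map_prod]
      simp_rw [map_pow, Dim.psi_lin]
      rw [Dim.psi_X0, Dim.psi_X1, Cnt.mo2]
      simp only [Matrix.cons_val_zero, Matrix.cons_val_one]
      rw [C_pow]
      ring
  | zero => simp
  | add x y _ _ hx hy =>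
    rw [mul_add]
    exact add_mem hx hy
  | smul r x _ hx =>
    rw [mul_smul_comm]
    exact Submodule.smul_mem _ _ hx

theorem Dim.Dst_aux (d k j L : ℕ) (h4 : 4 ≤ d) (h8 : d ≤ 8) (hk : k + 2 = d)
    (hL : 2 * (k - 1) ≤ L) : 6 * j * j + 6 * j * L ≤ 3 * j +
      ∑ m ∈ Finset.range (d - 1), ∑ j' ∈ Finset.range j, ∑ r ∈ Finset.range k,
        (k * j' * m + (L - r) + 1) := by
  have hstep : ∀ j : ℕ, 12 * j + 3 + 6 * L ≤
      ∑ m ∈ Finset.range (d - 1), ∑ r ∈ Finset.range k, (k * j * m + (L - r) + 1) := by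
    intro j
    subst hk
    obtain ⟨L', rfl⟩ := Nat.exists_eq_add_of_le hL
    have hk2 : 2 ≤ k := by omega
    have hk6 : k ≤ 6 := by omega
    interval_cases k <;> simp [Finset.sum_range_succ] <;> omega
  induction j with
  | zero => simp
  | succ j ih =>
    have h := hstep j
    have h2 : ∑ m ∈ Finset.range (d - 1), ∑ j' ∈ Finset.range (j + 1), ∑ r ∈ Finset.range k,
        (k * j' * m + (L - r) + 1) =
        ∑ m ∈ Finset.range (d - 1), ∑ j' ∈ Finset.range j, ∑ r ∈ Finset.range k,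
        (k * j' * m + (L - r) + 1) +
        ∑ m ∈ Finset.range (d - 1), ∑ r ∈ Finset.range k, (k * j * m + (L - r) + 1) := by
      rw [← Finset.sum_add_distrib]
      exact Finset.sum_congr rfl fun m _ => Finset.sum_range_succ _ _
    rw [h2]
    nlinarith [ih, h]

theorem Dst_le_Dfull (d k j L : ℕ) (h4 : 4 ≤ d) (h8 : d ≤ 8) (hk : k + 2 = d)
    (hL : 2 * (k - 1) ≤ L) : Dst j L ≤ Dfull d k j L := by
  have h := Dim.Dst_aux d k j L h4 h8 hk hL
  unfold Dst Dfull
  omega

end Crest.Agent.R022
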