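import Mathlib
import Crest.Prelude.Def_PowerFree

/-!
# R022: the analytic sieve reduction

Everything except the count of `n ≤ N` having `p ^ k ∣ f n` for some prime `p > N`.
-/

set_option autoImplicit false

open Crest.NumberTheoryR Filter Topology Polynomial

namespace Crest.Agent.R022.SieveReduction

/-- Integral Bezout identity for a polynomial irreducible over `ℚ` and its derivative. -/
lemma exists_bezout (f : ℤ[X]) (hirr : Irreducible (f.map (Int.castRingHom ℚ))) :
    ∃ (a b : ℤ[X]) (D : ℤ), D ≠ 0 ∧ a * f + b * derivative f = C D := by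
  have hsep : (f.map (Int.castRingHom ℚ)).Separable := hirr.separable
  obtain ⟨a', b', hab⟩ := hsep
  obtain ⟨u, hum, hu⟩ := IsLocalization.integerNormalization_spec (nonZeroDivisors ℤ) a'
  obtain ⟨v, hvm, hv⟩ := IsLocalization.integerNormalization_spec (nonZeroDivisors ℤ) b'
  refine ⟨C (v : ℤ) * IsLocalization.integerNormalization (nonZeroDivisors ℤ) a',
    C (u : ℤ) * IsLocalization.integerNormalization (nonZeroDivisors ℤ) b', (u : ℤ) * v,
    mul_ne_zero (nonZeroDivisors.ne_zero hum) (nonZeroDivisors.ne_zero hvm), ?_⟩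
  have hinj : Function.Injective (Polynomial.map (Int.castRingHom ℚ)) :=
    Polynomial.map_injective _ (RingHom.injective_int _)
  apply hinj
  have e1 : (IsLocalization.integerNormalization (nonZeroDivisors ℤ) a').map (Int.castRingHom ℚ)
      = C ((u : ℤ) : ℚ) * a' := by
    have := hu
    rw [show (algebraMap ℤ ℚ) = Int.castRingHom ℚ from rfl] at this
    rw [this]
    ext n
    simp
  have e2 : (IsLocalization.integerNormalization (nonZeroDivisors ℤ) b').map (Int.castRingHom ℚ)
      = C ((v : ℤ) : ℚ) * b' := by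
    have := hv
    rw [show (algebraMap ℤ ℚ) = Int.castRingHom ℚ from rfl] at this
    rw [this]
    ext n
    simp
  simp only [Polynomial.map_add, Polynomial.map_mul, Polynomial.map_C, e1, e2,
    Polynomial.derivative_map] at hab ⊢
  have : (C ((Int.castRingHom ℚ) (v : ℤ)) : ℚ[X]) * (C ((u : ℤ) : ℚ) * a')
      * Polynomial.map (Int.castRingHom ℚ) f +
      C ((Int.castRingHom ℚ) (u : ℤ)) * (C ((v : ℤ) : ℚ) * b') *
      Polynomial.map (Int.castRingHom ℚ) (derivative f)
      = C ((u : ℤ) : ℚ) * C ((v : ℤ) : ℚ) * (a' * Polynomial.map (Int.castRingHom ℚ) f +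
        b' * Polynomial.map (Int.castRingHom ℚ) (derivative f)) := by
    simp only [eq_intCast]
    ring
  rw [this, hab]
  simp

/-- Hensel injectivity: two roots modulo `p ^ k` congruent modulo `p` coincide modulo `p ^ k`. -/
lemma dvd_sub_of_roots (f a b : ℤ[X]) (D : ℤ) (hab : a * f + b * derivative f = C D)
    (p k : ℕ) (hp : p.Prime) (hk : 1 ≤ k) (hD : ¬ (p : ℤ) ∣ D) (x y : ℤ)
    (hx : (p : ℤ) ^ k ∣ f.eval x) (hy : (p : ℤ) ^ k ∣ f.eval y) (hxy : (p : ℤ) ∣ x - y) :
    (p : ℤ) ^ k ∣ x - y := by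
  obtain ⟨c, hc⟩ := Polynomial.binomExpansion f y (x - y)
  rw [add_sub_cancel] at hc
  have hpk : (p : ℤ) ∣ (p : ℤ) ^ k := dvd_pow_self _ (by omega)
  have hder : ¬ (p : ℤ) ∣ (derivative f).eval y := by
    intro h
    apply hD
    have h1 := congrArg (Polynomial.eval y) hab
    simp only [Polynomial.eval_add, Polynomial.eval_mul, Polynomial.eval_C] at h1
    rw [← h1]
    exact dvd_add (Dvd.dvd.mul_left (hpk.trans hy) _) (Dvd.dvd.mul_left h _)
  have hcop : IsCoprime ((p : ℤ) ^ k) ((derivative f).eval y + c * (x - y)) := by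
    apply IsCoprime.pow_left
    rw [(Nat.prime_iff_prime_int.mp hp).coprime_iff_not_dvd]
    intro h
    apply hder
    have h2 := dvd_sub h (Dvd.dvd.mul_left hxy c)
    simpa using h2
  have h3 : (p : ℤ) ^ k ∣ ((derivative f).eval y + c * (x - y)) * (x - y) := by
    have : ((derivative f).eval y + c * (x - y)) * (x - y) = f.eval x - f.eval y := by
      rw [hc]; ring
    rw [this]
    exact dvd_sub hx hy
  exact hcop.dvd_of_dvd_mul_left h3

/-- For `p` not dividing the Bezout constant there are at most `deg f` roots modulo `p ^ k`. -/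
lemma rootCount_le (f a b : ℤ[X]) (D : ℤ) (hab : a * f + b * derivative f = C D)
    (p k : ℕ) (hp : p.Prime) (hk : 1 ≤ k) (hD : ¬ (p : ℤ) ∣ D) :
    polyRootCountMod f (p ^ k) ≤ f.natDegree := by
  classical
  have : Fact p.Prime := ⟨hp⟩
  set g : (ZMod p)[X] := f.map (Int.castRingHom (ZMod p)) with hg
  have hg0 : g ≠ 0 := by
    intro h0
    apply hD
    have h1 := congrArg (Polynomial.map (Int.castRingHom (ZMod p))) hab
    rw [Polynomial.map_add, Polynomial.map_mul, Polynomial.map_mul, ← Polynomial.derivative_map,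
      ← hg, h0] at h1
    simp only [mul_zero, Polynomial.derivative_zero, add_zero, Polynomial.map_C] at h1
    have h2 : (Int.castRingHom (ZMod p)) D = 0 := by
      have := h1.symm
      rwa [Polynomial.C_eq_zero] at this
    rw [eq_intCast] at h2
    exact (ZMod.intCast_zmod_eq_zero_iff_dvd D p).mp h2
  have hcard : polyRootCountMod f (p ^ k) ≤ g.roots.toFinset.card := by
    unfold polyRootCountMod
    apply Finset.card_le_card_of_injOn (fun n : ℕ => (n : ZMod p))
    · intro n hn
      simp only [Finset.coe_filter, Finset.mem_range, Set.mem_ofPred_eq] at hn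
      simp only [Finset.mem_coe, Multiset.mem_toFinset, Polynomial.mem_roots hg0,
        Polynomial.IsRoot.def]
      rw [hg, Polynomial.eval_map]
      have h1 : ((n : ZMod p)) = (Int.castRingHom (ZMod p)) (n : ℤ) := by simp
      rw [h1, Polynomial.eval₂_hom, eq_intCast]
      apply (ZMod.intCast_zmod_eq_zero_iff_dvd _ p).mpr
      refine dvd_trans ?_ hn.2
      push_cast
      exact dvd_pow_self _ (by omega)
    · intro n hn m hm hnm
      simp only [Finset.coe_filter, Finset.mem_range, Set.mem_ofPred_eq] at hn hm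
      have h1 : (p : ℤ) ∣ (n : ℤ) - (m : ℤ) := by
        rw [← ZMod.intCast_zmod_eq_zero_iff_dvd]
        push_cast
        exact sub_eq_zero.mpr hnm
      have h2 := dvd_sub_of_roots f a b D hab p k hp hk hD n m
        (by simpa using hn.2) (by simpa using hm.2) h1
      have h3 : (n : ℤ) - m = 0 := by
        apply Int.eq_zero_of_abs_lt_dvd h2
        have hn1 : (n : ℤ) < (p : ℤ) ^ k := by exact_mod_cast hn.1
        have hm1 : (m : ℤ) < (p : ℤ) ^ k := by exact_mod_cast hm.1
        rw [abs_lt]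
        constructor <;> omega
      omega
  refine hcard.trans ((Multiset.toFinset_card_le _).trans ((Polynomial.card_roots' g).trans ?_))
  exact Polynomial.natDegree_map_le

/-- number of integers in `[1, N]` that are roots modulo `q`. -/
lemma count_roots_le (f : ℤ[X]) (q N : ℕ) (hq : 0 < q) :
    (((Finset.Icc 1 N).filter fun n : ℕ => (q : ℤ) ∣ f.eval (n : ℤ)).card : ℝ)
      ≤ polyRootCountMod f q * ((N : ℝ) / q + 1) := by
  classical
  have hper : Function.Periodic (fun n : ℕ => ((q : ℤ) ∣ f.eval (n : ℤ))) q := by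
    intro n
    have h1 : ((n + q : ℕ) : ℤ) - n ∣ f.eval ((n + q : ℕ) : ℤ) - f.eval (n : ℤ) :=
      Polynomial.sub_dvd_eval_sub _ _ f
    have h2 : (q : ℤ) ∣ f.eval ((n + q : ℕ) : ℤ) - f.eval (n : ℤ) := by
      refine dvd_trans ?_ h1
      push_cast
      simp
    simp only [eq_iff_iff]
    constructor
    · intro h
      have := dvd_sub h h2
      simpa using this
    · intro h
      have := dvd_add h h2
      simpa using this
  have hblock : ∀ a : ℕ, ((Finset.Ico a (a + q)).filter
      fun n : ℕ => (q : ℤ) ∣ f.eval (n : ℤ)).card = polyRootCountMod f q := by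
    intro a
    rw [Nat.filter_Ico_card_eq_of_periodic a q _ hper, Nat.count_eq_card_filter_range]
    rfl
  have hmul : ∀ m : ℕ, ((Finset.Ico 1 (1 + m * q)).filter
      fun n : ℕ => (q : ℤ) ∣ f.eval (n : ℤ)).card = m * polyRootCountMod f q := by
    intro m
    induction m with
    | zero => simp
    | succ m ih =>
      have : Finset.Ico 1 (1 + (m + 1) * q) =
          Finset.Ico 1 (1 + m * q) ∪ Finset.Ico (1 + m * q) (1 + m * q + q) := by
        rw [Finset.Ico_union_Ico_eq_Ico (by omega) (by omega)]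
        congr 1; ring
      rw [this, Finset.filter_union, Finset.card_union_of_disjoint, ih, hblock]
      · ring
      · apply Finset.disjoint_filter_filter
        exact Finset.Ico_disjoint_Ico_consecutive _ _ _
  set m : ℕ := N / q + 1 with hm
  have hsub : Finset.Icc 1 N ⊆ Finset.Ico 1 (1 + m * q) := by
    intro n hn
    rw [Finset.mem_Icc] at hn
    rw [Finset.mem_Ico]
    refine ⟨hn.1, ?_⟩
    have : N < m * q := by
      rw [hm, add_mul, one_mul]
      have := Nat.div_add_mod N q
      have h2 := Nat.mod_lt N hq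
      nlinarith
    omega
  have h1 : ((Finset.Icc 1 N).filter fun n : ℕ => (q : ℤ) ∣ f.eval (n : ℤ)).card
      ≤ m * polyRootCountMod f q := by
    rw [← hmul]
    exact Finset.card_le_card (Finset.filter_subset_filter _ hsub)
  calc (((Finset.Icc 1 N).filter fun n : ℕ => (q : ℤ) ∣ f.eval (n : ℤ)).card : ℝ)
      ≤ ((m * polyRootCountMod f q : ℕ) : ℝ) := by exact_mod_cast h1
    _ = polyRootCountMod f q * ((N / q : ℕ) + 1) := by rw [hm]; push_cast; ring
    _ ≤ _ := by
      gcongr
      exact Nat.cast_div_le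

/-- Density of a periodic predicate, with error. -/
lemma periodic_count (P : ℕ → Prop) [DecidablePred P] (Q : ℕ) (hQ : 0 < Q)
    (hper : Function.Periodic P Q) (N : ℕ) :
    |((((Finset.Icc 1 N).filter P).card : ℝ)) - (N : ℝ) * ((Nat.count P Q : ℝ) / Q)| ≤ 2 * Q := by
  classical
  have hmul : ∀ m : ℕ, ((Finset.Ico 1 (1 + m * Q)).filter P).card = m * Nat.count P Q := by
    intro m
    induction m with
    | zero => simp
    | succ m ih =>
      have : Finset.Ico 1 (1 + (m + 1) * Q) =
          Finset.Ico 1 (1 + m * Q) ∪ Finset.Ico (1 + m * Q) (1 + m * Q + Q) := by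
        rw [Finset.Ico_union_Ico_eq_Ico (by omega) (by omega)]
        congr 1; ring
      rw [this, Finset.filter_union, Finset.card_union_of_disjoint, ih,
        Nat.filter_Ico_card_eq_of_periodic _ _ _ hper]
      · ring
      · apply Finset.disjoint_filter_filter
        exact Finset.Ico_disjoint_Ico_consecutive _ _ _
  set m : ℕ := N / Q with hm
  have hcnt : Nat.count P Q ≤ Q := Nat.count_le _
  have hsub1 : Finset.Ico 1 (1 + m * Q) ⊆ Finset.Icc 1 N := by
    intro n hn
    rw [Finset.mem_Ico] at hn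
    rw [Finset.mem_Icc]
    have := Nat.div_mul_le_self N Q
    rw [← hm] at this
    omega
  have hsub2 : Finset.Icc 1 N ⊆ Finset.Ico 1 (1 + (m + 1) * Q) := by
    intro n hn
    rw [Finset.mem_Icc] at hn
    rw [Finset.mem_Ico]
    refine ⟨hn.1, ?_⟩
    have : N < (m + 1) * Q := by
      rw [hm, add_mul, one_mul]
      have := Nat.div_add_mod N Q
      have h2 := Nat.mod_lt N hQ
      nlinarith
    omega
  have h1 : m * Nat.count P Q ≤ ((Finset.Icc 1 N).filter P).card := by
    rw [← hmul]; exact Finset.card_le_card (Finset.filter_subset_filter _ hsub1)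
  have h2 : ((Finset.Icc 1 N).filter P).card ≤ (m + 1) * Nat.count P Q := by
    rw [← hmul]; exact Finset.card_le_card (Finset.filter_subset_filter _ hsub2)
  have hQR : (0 : ℝ) < Q := by exact_mod_cast hQ
  have h1' : (m : ℝ) * Nat.count P Q ≤ (((Finset.Icc 1 N).filter P).card : ℝ) := by
    exact_mod_cast h1
  have h2' : (((Finset.Icc 1 N).filter P).card : ℝ) ≤ ((m : ℝ) + 1) * Nat.count P Q := by
    exact_mod_cast h2
  have hc' : (Nat.count P Q : ℝ) ≤ Q := by exact_mod_cast hcnt
  have hc0 : (0 : ℝ) ≤ Nat.count P Q := by positivity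
  have hN1 : (m : ℝ) ≤ (N : ℝ) / Q := Nat.cast_div_le
  have hN2 : (N : ℝ) / Q < m + 1 := by
    rw [div_lt_iff₀ hQR]
    have := Nat.div_add_mod N Q
    have h2 := Nat.mod_lt N hQ
    have h3 : N < (m + 1) * Q := by
      rw [hm]; nlinarith
    exact_mod_cast h3
  have e : (N : ℝ) * ((Nat.count P Q : ℝ) / Q) = (N : ℝ) / Q * Nat.count P Q := by ring
  rw [e, abs_le]
  constructor
  · nlinarith
  · nlinarith

/-- CRT multiplicativity of counts of periodic predicates. -/
lemma count_mul_of_coprime (P R : ℕ → Prop) [DecidablePred P] [DecidablePred R] (m n : ℕ)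
    (hm : 0 < m) (hn : 0 < n)
    (hP : Function.Periodic P m) (hR : Function.Periodic R n) (hc : Nat.Coprime m n) :
    Nat.count (fun a => P a ∧ R a) (m * n) = Nat.count P m * Nat.count R n := by
  classical
  rw [Nat.count_eq_card_filter_range, Nat.count_eq_card_filter_range,
    Nat.count_eq_card_filter_range, ← Finset.card_product]
  have hPm : ∀ a, P (a % m) ↔ P a := fun a => by
    rw [Function.Periodic.map_mod_nat hP]
  have hRm : ∀ a, R (a % n) ↔ R a := fun a => by
    rw [Function.Periodic.map_mod_nat hR]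
  apply Finset.card_bij (fun a _ => (a % m, a % n))
  · intro a ha
    simp only [Finset.mem_filter, Finset.mem_range, Finset.mem_product] at ha ⊢
    exact ⟨⟨Nat.mod_lt _ hm, (hPm a).2 ha.2.1⟩, ⟨Nat.mod_lt _ hn, (hRm a).2 ha.2.2⟩⟩
  · intro a ha b hb hab
    simp only [Finset.mem_filter, Finset.mem_range, Prod.mk.injEq] at ha hb hab
    have h1 : a ≡ b [MOD m * n] := (Nat.modEq_and_modEq_iff_modEq_mul hc).1 ⟨hab.1, hab.2⟩
    exact Nat.ModEq.eq_of_lt_of_lt h1 ha.1 hb.1
  · rintro ⟨x, y⟩ hxy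
    simp only [Finset.mem_filter, Finset.mem_range, Finset.mem_product] at hxy
    have hlt := Nat.chineseRemainder_lt_mul hc x y hm.ne' hn.ne'
    have hx := (Nat.chineseRemainder hc x y).2.1
    have hy := (Nat.chineseRemainder hc x y).2.2
    refine ⟨(Nat.chineseRemainder hc x y : ℕ), ?_, ?_⟩
    · simp only [Finset.mem_filter, Finset.mem_range]
      refine ⟨hlt, ?_, ?_⟩
      · rw [← hPm, show (Nat.chineseRemainder hc x y : ℕ) % m = x % m from hx, hPm]
        exact hxy.1.2
      · rw [← hRm, show (Nat.chineseRemainder hc x y : ℕ) % n = y % n from hy, hRm]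
        exact hxy.2.2
    · have e1 : (Nat.chineseRemainder hc x y : ℕ) % m = x % m := hx
      have e2 : (Nat.chineseRemainder hc x y : ℕ) % n = y % n := hy
      rw [e1, e2, Nat.mod_eq_of_lt hxy.1.1, Nat.mod_eq_of_lt hxy.2.1]

/-- The property of having `p ^ k ∤ f n` is `p ^ k`-periodic. -/
lemma periodic_not_dvd (f : ℤ[X]) (q : ℕ) :
    Function.Periodic (fun n : ℕ => ¬ ((q : ℤ) ∣ f.eval (n : ℤ))) q := by
  intro n
  have h1 : ((n + q : ℕ) : ℤ) - n ∣ f.eval ((n + q : ℕ) : ℤ) - f.eval (n : ℤ) :=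
    Polynomial.sub_dvd_eval_sub _ _ f
  have h2 : (q : ℤ) ∣ f.eval ((n + q : ℕ) : ℤ) - f.eval (n : ℤ) := by
    refine dvd_trans ?_ h1
    push_cast
    simp
  simp only [eq_iff_iff]
  rw [not_iff_not]
  constructor
  · intro h
    have := dvd_sub h h2
    simpa using this
  · intro h
    have := dvd_add h h2
    simpa using this

lemma count_not_dvd (f : ℤ[X]) (q : ℕ) [DecidablePred fun n : ℕ => ¬ ((q : ℤ) ∣ f.eval (n : ℤ))] :
    (Nat.count (fun n : ℕ => ¬ ((q : ℤ) ∣ f.eval (n : ℤ))) q : ℝ)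
      = (q : ℝ) - polyRootCountMod f q := by
  classical
  rw [Nat.count_eq_card_filter_range]
  have h := Finset.card_filter_add_card_filter_not (s := Finset.range q)
    (fun n : ℕ => (q : ℤ) ∣ f.eval (n : ℤ))
  rw [Finset.card_range] at h
  have h2 : (polyRootCountMod f q : ℝ) +
      (((Finset.range q).filter fun n : ℕ => ¬ ((q : ℤ) ∣ f.eval (n : ℤ))).card : ℝ) = q := by
    unfold polyRootCountMod
    exact_mod_cast h
  rw [← h2]
  simp

/-- Local densities multiply over a finite set of primes. -/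
lemma count_finset (f : ℤ[X]) (k : ℕ) (S : Finset ℕ) (hS : ∀ p ∈ S, p.Prime)
    [DecidablePred fun n : ℕ => ∀ p ∈ S, ¬ (((p ^ k : ℕ) : ℤ) ∣ f.eval (n : ℤ))] :
    Function.Periodic (fun n : ℕ => ∀ p ∈ S, ¬ (((p ^ k : ℕ) : ℤ) ∣ f.eval (n : ℤ)))
      (∏ p ∈ S, p ^ k) ∧
    ((Nat.count (fun n : ℕ => ∀ p ∈ S, ¬ (((p ^ k : ℕ) : ℤ) ∣ f.eval (n : ℤ)))
      (∏ p ∈ S, p ^ k) : ℕ) : ℝ) =
      ∏ p ∈ S, (((p ^ k : ℕ) : ℝ) - polyRootCountMod f (p ^ k)) := by
  classical
  rename_i inst
  revert inst
  induction S using Finset.induction_on with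
  | empty =>
    intro inst
    constructor
    · intro n; simp
    · simp
  | insert p S hpS ih =>
    intro inst
    have hS' : ∀ q ∈ S, q.Prime := fun q hq => hS q (Finset.mem_insert_of_mem hq)
    have hp : p.Prime := hS p (Finset.mem_insert_self p S)
    obtain ⟨ihper, ihc⟩ := ih hS'
    rw [Finset.prod_insert hpS, Finset.prod_insert hpS]
    have hfe : (fun n : ℕ => ∀ q ∈ insert p S, ¬ (((q ^ k : ℕ) : ℤ) ∣ f.eval (n : ℤ))) =
        (fun n : ℕ => (¬ (((p ^ k : ℕ) : ℤ) ∣ f.eval (n : ℤ))) ∧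
          ∀ q ∈ S, ¬ (((q ^ k : ℕ) : ℤ) ∣ f.eval (n : ℤ))) := by
      funext n
      simp only [Finset.mem_insert, forall_eq_or_imp]
    have hcop : Nat.Coprime (p ^ k) (∏ q ∈ S, q ^ k) := by
      apply Nat.Coprime.prod_right
      intro q hq
      apply Nat.Coprime.pow
      rw [Nat.coprime_primes hp (hS' q hq)]
      rintro rfl
      exact hpS hq
    have hpos1 : 0 < p ^ k := pow_pos hp.pos _
    have hpos2 : 0 < ∏ q ∈ S, q ^ k := Finset.prod_pos fun q hq => pow_pos (hS' q hq).pos _
    have hper1 := periodic_not_dvd f (p ^ k)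
    constructor
    · rw [hfe]
      intro n
      have h1 : ((((p ^ k : ℕ) : ℤ) ∣ f.eval ((n + p ^ k * ∏ q ∈ S, q ^ k : ℕ) : ℤ))) ↔
          (((p ^ k : ℕ) : ℤ) ∣ f.eval (n : ℤ)) := by
        have := (hper1.nat_mul (∏ q ∈ S, q ^ k)) n
        simp only [eq_iff_iff, Nat.cast_id] at this
        rw [mul_comm (p ^ k)]
        exact not_iff_not.mp this
      have h2 := (ihper.nat_mul (p ^ k)) n
      simp only [eq_iff_iff, Nat.cast_id] at h2
      simp only [eq_iff_iff]
      rw [h1, h2]
    · have hcm := count_mul_of_coprime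
        (fun n : ℕ => (¬ (((p ^ k : ℕ) : ℤ) ∣ f.eval (n : ℤ))))
        (fun n : ℕ => ∀ q ∈ S, ¬ (((q ^ k : ℕ) : ℤ) ∣ f.eval (n : ℤ)))
        (p ^ k) (∏ q ∈ S, q ^ k) hpos1 hpos2 hper1 ihper hcop
      have h0 : Nat.count (fun n : ℕ => ∀ q ∈ insert p S,
            ¬ (((q ^ k : ℕ) : ℤ) ∣ f.eval (n : ℤ))) (p ^ k * ∏ q ∈ S, q ^ k) =
          Nat.count (fun n : ℕ => (¬ (((p ^ k : ℕ) : ℤ) ∣ f.eval (n : ℤ))) ∧
            ∀ q ∈ S, ¬ (((q ^ k : ℕ) : ℤ) ∣ f.eval (n : ℤ))) (p ^ k * ∏ q ∈ S, q ^ k) := by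
        simp only [Nat.count_eq_card_filter_range]
        congr 1
        ext n
        simp only [Finset.mem_filter, Finset.mem_insert, forall_eq_or_imp]
      rw [h0, hcm, Nat.cast_mul, ihc, count_not_dvd]

/-- Summability of the local densities. -/
lemma summable_density (f : ℤ[X]) (hirr : Irreducible (f.map (Int.castRingHom ℚ))) (k : ℕ)
    (hk : 2 ≤ k) :
    Summable (fun p : Nat.Primes => (polyRootCountMod f ((p : ℕ) ^ k) : ℝ) / ((p : ℕ) : ℝ) ^ k) := by
  obtain ⟨a, b, D, hD, hab⟩ := exists_bezout f hirr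
  have hs : Summable (fun p : Nat.Primes => (f.natDegree : ℝ) * (1 / ((p : ℕ) : ℝ) ^ k)) := by
    apply Summable.mul_left
    exact (Real.summable_one_div_nat_pow.mpr (by omega : 1 < k)).comp_injective
      (Subtype.val_injective)
  refine Summable.of_norm_bounded_eventually hs ?_
  have hfin : {p : Nat.Primes | ((p : ℕ) : ℤ) ∣ D}.Finite := by
    have : {n : ℕ | ((n : ℕ) : ℤ) ∣ D}.Finite := by
      apply Set.Finite.subset (Finset.finite_toSet (Finset.range (D.natAbs + 1)))
      intro n hn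
      simp only [Set.mem_ofPred_eq] at hn
      simp only [Finset.coe_range, Set.mem_Iio]
      have h1 : n ∣ D.natAbs := Int.natCast_dvd.mp hn
      have h2 := Nat.le_of_dvd (Int.natAbs_pos.mpr hD) h1
      omega
    exact Set.Finite.preimage (f := fun p : Nat.Primes => (p : ℕ))
      (Subtype.val_injective.injOn) this
  rw [Filter.eventually_cofinite]
  apply hfin.subset
  intro p hp
  simp only [Set.mem_ofPred_eq] at hp ⊢
  by_contra hpD
  apply hp
  have h1 := rootCount_le f a b D hab p k p.2 (by omega) hpD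
  have h2 : (polyRootCountMod f ((p : ℕ) ^ k) : ℝ) ≤ f.natDegree := by exact_mod_cast h1
  rw [Real.norm_of_nonneg (by positivity), mul_one_div]
  gcongr

/-- Convergence of the Euler product to a positive limit. -/
lemma hasProd_density (f : ℤ[X]) (hirr : Irreducible (f.map (Int.castRingHom ℚ))) (k : ℕ)
    (hk : 2 ≤ k) (hloc : ∀ p : ℕ, p.Prime → polyRootCountMod f (p ^ k) < p ^ k) :
    ∃ c : ℝ, 0 < c ∧ HasProd (fun p : Nat.Primes =>
      1 - (polyRootCountMod f ((p : ℕ) ^ k) : ℝ) / ((p : ℕ) : ℝ) ^ k) c := by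
  have hs := summable_density f hirr k hk
  have hlog := Real.summable_log_one_add_of_summable hs.neg
  refine ⟨_, Real.exp_pos _, Real.hasProd_of_hasSum_log ?_ (?_ : HasSum _ (∑' p : Nat.Primes,
    Real.log (1 + -((polyRootCountMod f ((p : ℕ) ^ k) : ℝ) / ((p : ℕ) : ℝ) ^ k))))⟩
  · intro p
    have hp := hloc p p.2
    have h1 : (polyRootCountMod f ((p : ℕ) ^ k) : ℝ) < ((p : ℕ) : ℝ) ^ k := by exact_mod_cast hp
    have h2 : (0 : ℝ) < ((p : ℕ) : ℝ) ^ k := by
      have := p.2.pos
      positivity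
    rw [sub_pos, div_lt_one h2]
    exact h1
  · have := hlog.hasSum
    simpa [sub_eq_add_neg] using this

/-- `π(N)/N → 0`. -/
lemma primeCounting_div_tendsto :
    Tendsto (fun N : ℕ => (Nat.primeCounting N : ℝ) / N) atTop (𝓝 0) := by
  have h1 : Tendsto (fun x : ℝ => Real.log 4 / Real.log (√x) + 1 / √x) atTop (𝓝 0) := by
    rw [show (0 : ℝ) = 0 + 0 by ring]
    apply Tendsto.add
    · apply Tendsto.div_atTop tendsto_const_nhds
      exact Real.tendsto_log_atTop.comp Real.tendsto_sqrt_atTop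
    · apply Tendsto.div_atTop tendsto_const_nhds
      exact Real.tendsto_sqrt_atTop
  have h2 := h1.comp tendsto_natCast_atTop_atTop
  refine tendsto_of_tendsto_of_tendsto_of_le_of_le' tendsto_const_nhds h2
    (Eventually.of_forall fun N => by positivity) ?_
  filter_upwards [eventually_ge_atTop 2] with N hN
  have hN1 : (1 : ℝ) < N := by exact_mod_cast hN
  have h3 := Chebyshev.pi_le_log4_mul_div hN1
  rw [Nat.floor_natCast] at h3
  have hN0 : (0 : ℝ) < N := by linarith
  simp only [Function.comp]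
  rw [div_le_iff₀ hN0]
  refine h3.trans (le_of_eq ?_)
  have hs : √(N : ℝ) ≠ 0 := (Real.sqrt_pos.mpr hN0).ne'
  have hs2 : √(N : ℝ) * √(N : ℝ) = N := Real.mul_self_sqrt hN0.le
  have e : (1 / √(N : ℝ)) * N = √(N : ℝ) := by
    rw [div_mul_eq_mul_div, one_mul, div_eq_iff hs, hs2]
  rw [add_mul, e]
  ring

end Crest.Agent.R022.SieveReduction
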