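import Mathlib
import Crest.Prelude.Def_PowerFree
import Crest.Agent.R022.SieveReduction

/-!
# R022: the analytic sieve reduction, main theorem
-/

set_option autoImplicit false

open Crest.NumberTheoryR Filter Topology Polynomial

namespace Crest.Agent.R022.SieveReduction

open Classical in
/-- The number of `n ∈ [1, N]` for which some prime `p > N` has `p ^ k ∣ f n`. -/
noncomputable def bigCount (f : ℤ[X]) (k N : ℕ) : ℕ :=
  ((Finset.Icc 1 N).filter fun n : ℕ => ∃ p : ℕ, p.Prime ∧ N < p ∧ (p : ℤ) ^ k ∣ f.eval (n : ℤ)).card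

/-- upper and lower bound for the power free count in terms of a finite set of primes -/
lemma count_bounds (f a b : ℤ[X]) (D : ℤ) (hD : D ≠ 0) (hab : a * f + b * derivative f = C D)
    (k : ℕ) (hk : 2 ≤ k)
    (hs : Summable (fun p : Nat.Primes =>
      (polyRootCountMod f ((p : ℕ) ^ k) : ℝ) / ((p : ℕ) : ℝ) ^ k))
    (T : Finset Nat.Primes) (hT : ∀ p : Nat.Primes, ((p : ℕ) : ℤ) ∣ D → p ∈ T) (N : ℕ) :
    (powerFreeValueCount f k N : ℝ) ≤ N * (∏ p ∈ T, (1 - (polyRootCountMod f ((p : ℕ) ^ k) : ℝ) /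
      ((p : ℕ) : ℝ) ^ k)) + 2 * (∏ p ∈ T, ((p : ℕ) : ℝ) ^ k) ∧
    N * (∏ p ∈ T, (1 - (polyRootCountMod f ((p : ℕ) ^ k) : ℝ) /
      ((p : ℕ) : ℝ) ^ k)) - 2 * (∏ p ∈ T, ((p : ℕ) : ℝ) ^ k)
      - N * (∑' p : {p : Nat.Primes // p ∉ T},
        (polyRootCountMod f (((p : Nat.Primes) : ℕ) ^ k) : ℝ) / (((p : Nat.Primes) : ℕ) : ℝ) ^ k)
      - f.natDegree * (Nat.primeCounting N : ℝ) - bigCount f k N
      ≤ (powerFreeValueCount f k N : ℝ) := by
  classical
  set S : Finset ℕ := Finset.image (fun p : Nat.Primes => (p : ℕ)) T with hSdef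
  have hSp : ∀ p ∈ S, p.Prime := by
    intro p hp
    rw [hSdef, Finset.mem_image] at hp
    obtain ⟨q, _, rfl⟩ := hp
    exact q.2
  have hinjT : Set.InjOn (fun p : Nat.Primes => (p : ℕ)) T := Subtype.val_injective.injOn
  obtain ⟨hper, hcnt⟩ := count_finset f k S hSp
  have hQ : 0 < ∏ p ∈ S, p ^ k := Finset.prod_pos fun q hq => pow_pos (hSp q hq).pos _
  have hpc := periodic_count _ _ hQ hper N
  have hQR : ((∏ p ∈ S, p ^ k : ℕ) : ℝ) = ∏ p ∈ T, ((p : ℕ) : ℝ) ^ k := by
    rw [hSdef, Finset.prod_image hinjT]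
    push_cast
    rfl
  have hratio : ((Nat.count (fun n : ℕ => ∀ p ∈ S, ¬ (((p ^ k : ℕ) : ℤ) ∣ f.eval (n : ℤ)))
      (∏ p ∈ S, p ^ k) : ℕ) : ℝ) / ((∏ p ∈ S, p ^ k : ℕ) : ℝ) =
      ∏ p ∈ T, (1 - (polyRootCountMod f ((p : ℕ) ^ k) : ℝ) / ((p : ℕ) : ℝ) ^ k) := by
    rw [hcnt, hQR, hSdef, Finset.prod_image hinjT, ← Finset.prod_div_distrib]
    apply Finset.prod_congr rfl
    intro p _
    have : ((p : ℕ) : ℝ) ^ k ≠ 0 := pow_ne_zero _ (by exact_mod_cast p.2.ne_zero)
    push_cast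
    field_simp
  rw [hratio, hQR] at hpc
  rw [abs_le] at hpc
  set A := (Finset.Icc 1 N).filter
    (fun n : ℕ => ∀ p ∈ S, ¬ (((p ^ k : ℕ) : ℤ) ∣ f.eval (n : ℤ))) with hA
  have hsubA : ((Finset.Icc 1 N).filter fun n : ℕ => IsPowerFree k (f.eval (n : ℤ))) ⊆ A := by
    intro n hn
    rw [Finset.mem_filter] at hn
    rw [hA, Finset.mem_filter]
    refine ⟨hn.1, fun p hp h => hn.2 p (hSp p hp) ?_⟩
    simpa using h
  constructor
  · have h1 : powerFreeValueCount f k N ≤ A.card := by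
      unfold powerFreeValueCount
      convert Finset.card_le_card hsubA
    have h2 : (powerFreeValueCount f k N : ℝ) ≤ A.card := by exact_mod_cast h1
    linarith [hpc.2]
  · set B : ℕ → Finset ℕ := fun p => (Finset.Icc 1 N).filter
      (fun n : ℕ => ((p ^ k : ℕ) : ℤ) ∣ f.eval (n : ℤ)) with hB
    set K := (Finset.Icc 1 N).filter
      (fun n : ℕ => ∃ p : ℕ, p.Prime ∧ N < p ∧ (p : ℤ) ^ k ∣ f.eval (n : ℤ)) with hK
    set U : Finset ℕ := ((Finset.range (N + 1)).filter Nat.Prime) \ S with hU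
    have hcover : A ⊆ ((Finset.Icc 1 N).filter fun n : ℕ => IsPowerFree k (f.eval (n : ℤ)))
        ∪ U.biUnion B ∪ K := by
      intro n hn
      rw [hA, Finset.mem_filter] at hn
      simp only [Finset.mem_union]
      by_cases hpf : IsPowerFree k (f.eval (n : ℤ))
      · exact Or.inl (Or.inl (Finset.mem_filter.mpr ⟨hn.1, hpf⟩))
      · unfold IsPowerFree at hpf
        push Not at hpf
        obtain ⟨p, hp, hdvd⟩ := hpf
        by_cases hpN : N < p
        · exact Or.inr (Finset.mem_filter.mpr ⟨hn.1, p, hp, hpN, hdvd⟩)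
        · refine Or.inl (Or.inr ?_)
          rw [Finset.mem_biUnion]
          refine ⟨p, ?_, Finset.mem_filter.mpr ⟨hn.1, by simpa using hdvd⟩⟩
          rw [hU, Finset.mem_sdiff, Finset.mem_filter, Finset.mem_range]
          refine ⟨⟨by omega, hp⟩, fun hpS => hn.2 p hpS (by simpa using hdvd)⟩
    have hcard : A.card ≤ powerFreeValueCount f k N + ∑ p ∈ U, (B p).card + bigCount f k N := by
      have h1 := Finset.card_le_card hcover
      have h2 := Finset.card_union_le (((Finset.Icc 1 N).filter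
        fun n : ℕ => IsPowerFree k (f.eval (n : ℤ))) ∪ U.biUnion B) K
      have h3 := Finset.card_union_le ((Finset.Icc 1 N).filter
        fun n : ℕ => IsPowerFree k (f.eval (n : ℤ))) (U.biUnion B)
      have h4 : (U.biUnion B).card ≤ ∑ p ∈ U, (B p).card := Finset.card_biUnion_le
      have h5 : ((Finset.Icc 1 N).filter fun n : ℕ => IsPowerFree k (f.eval (n : ℤ))).card
          = powerFreeValueCount f k N := by
        unfold powerFreeValueCount; congr
      have h6 : K.card = bigCount f k N := by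
        unfold bigCount; congr
      omega
    have hcardR : (A.card : ℝ) ≤ powerFreeValueCount f k N + ∑ p ∈ U, ((B p).card : ℝ)
        + bigCount f k N := by exact_mod_cast hcard
    have hUmem : ∀ p ∈ U, p.Prime ∧ ¬ (p : ℤ) ∣ D ∧ p ≤ N ∧ p ∉ S := by
      intro p hp
      rw [hU, Finset.mem_sdiff, Finset.mem_filter, Finset.mem_range] at hp
      refine ⟨hp.1.2, fun h => hp.2 ?_, by omega, hp.2⟩
      rw [hSdef, Finset.mem_image]
      exact ⟨⟨p, hp.1.2⟩, hT ⟨p, hp.1.2⟩ h, rfl⟩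
    have hBle : ∀ p ∈ U, ((B p).card : ℝ) ≤
        N * ((polyRootCountMod f (p ^ k) : ℝ) / (p : ℝ) ^ k) + f.natDegree := by
      intro p hp
      obtain ⟨hpp, hpD, _, _⟩ := hUmem p hp
      have h1 := count_roots_le f (p ^ k) N (pow_pos hpp.pos _)
      have h2 : (polyRootCountMod f (p ^ k) : ℝ) ≤ f.natDegree := by
        exact_mod_cast rootCount_le f a b D hab p k hpp (by omega) hpD
      calc ((B p).card : ℝ) ≤ polyRootCountMod f (p ^ k) * ((N : ℝ) / ((p ^ k : ℕ) : ℝ) + 1) := by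
            convert h1
        _ = N * ((polyRootCountMod f (p ^ k) : ℝ) / (p : ℝ) ^ k) + polyRootCountMod f (p ^ k) := by
            push_cast; ring
        _ ≤ _ := by gcongr
    have hUsum : ∑ p ∈ U, ((B p).card : ℝ) ≤
        N * (∑' p : {p : Nat.Primes // p ∉ T},
          (polyRootCountMod f (((p : Nat.Primes) : ℕ) ^ k) : ℝ) /
            (((p : Nat.Primes) : ℕ) : ℝ) ^ k)
        + f.natDegree * (Nat.primeCounting N : ℝ) := by
      refine (Finset.sum_le_sum hBle).trans ?_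
      rw [Finset.sum_add_distrib, ← Finset.mul_sum]
      apply add_le_add
      · gcongr
        -- sum over U bounded by the tsum
        have hs' : Summable (fun p : {p : Nat.Primes // p ∉ T} =>
          (polyRootCountMod f (((p : Nat.Primes) : ℕ) ^ k) : ℝ) /
            (((p : Nat.Primes) : ℕ) : ℝ) ^ k) := hs.subtype _
        have key := hs'.sum_le_tsum (U.attach.image (fun p : {p : ℕ // p ∈ U} =>
          (⟨⟨p.1, (hUmem p.1 p.2).1⟩, fun h => (hUmem p.1 p.2).2.2.2 (by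
            rw [hSdef, Finset.mem_image]; exact ⟨_, h, rfl⟩)⟩ : {p : Nat.Primes // p ∉ T})))
          (fun _ _ => by positivity)
        refine le_trans (le_of_eq ?_) key
        rw [Finset.sum_image]
        · rw [← Finset.sum_attach U]
        · intro x _ y _ hxy
          exact Subtype.ext (congrArg (fun z : {p : Nat.Primes // p ∉ T} => ((z : Nat.Primes) : ℕ)) hxy)
      · rw [Finset.sum_const, nsmul_eq_mul, mul_comm]
        gcongr
        rw [hU, Nat.primeCounting, Nat.primeCounting', Nat.count_eq_card_filter_range]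
        exact Finset.card_le_card Finset.sdiff_subset
    linarith [hpc.1]

/-- **Sieve reduction.** It suffices to show that few `n ≤ N` have `p ^ k ∣ f n` for a prime
`p > N`. -/
theorem reduction (f : ℤ[X]) (k : ℕ) (hirr : Irreducible (f.map (Int.castRingHom ℚ)))
    (hk : 2 ≤ k) (hloc : ∀ p : ℕ, p.Prime → polyRootCountMod f (p ^ k) < p ^ k)
    (KI : Tendsto (fun N : ℕ => (bigCount f k N : ℝ) / N) atTop (𝓝 0)) :
    ∃ c : ℝ, 0 < c ∧
      HasProd (fun p : Nat.Primes => 1 - (polyRootCountMod f ((p : ℕ) ^ k) : ℝ) / ((p : ℕ) : ℝ) ^ k) c ∧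
      Tendsto (fun N : ℕ => (powerFreeValueCount f k N : ℝ) / (N : ℝ)) atTop (𝓝 c) := by
  classical
  obtain ⟨c, hc, hprod⟩ := hasProd_density f hirr k hk hloc
  refine ⟨c, hc, hprod, ?_⟩
  obtain ⟨a, b, D, hD, hab⟩ := exists_bezout f hirr
  have hs := summable_density f hirr k hk
  have hfin : {p : Nat.Primes | ((p : ℕ) : ℤ) ∣ D}.Finite := by
    have : {n : ℕ | ((n : ℕ) : ℤ) ∣ D}.Finite := by
      apply Set.Finite.subset (Finset.finite_toSet (Finset.range (D.natAbs + 1)))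
      intro n hn
      simp only [Set.mem_ofPred_eq] at hn
      simp only [Finset.coe_range, Set.mem_Iio]
      have h1 : n ∣ D.natAbs := Int.natCast_dvd.mp hn
      have h2 := Nat.le_of_dvd (Int.natAbs_pos.mpr hD) h1
      omega
    exact Set.Finite.preimage (f := fun p : Nat.Primes => (p : ℕ))
      (Subtype.val_injective.injOn) this
  rw [Metric.tendsto_atTop]
  intro ε hε
  -- choose the finite set of primes
  have h1 : ∀ᶠ T : Finset Nat.Primes in atTop, |(∏ p ∈ T, (1 - (polyRootCountMod f ((p : ℕ) ^ k) : ℝ) /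
      ((p : ℕ) : ℝ) ^ k)) - c| < ε / 4 := by
    have := Metric.tendsto_nhds.mp hprod (ε / 4) (by positivity)
    simpa [Real.dist_eq] using this
  have h2 : ∀ᶠ T : Finset Nat.Primes in atTop, (∑' p : {p : Nat.Primes // p ∉ T},
        (polyRootCountMod f (((p : Nat.Primes) : ℕ) ^ k) : ℝ) / (((p : Nat.Primes) : ℕ) : ℝ) ^ k)
        < ε / 4 := by
    have := tendsto_tsum_compl_atTop_zero (fun p : Nat.Primes =>
      (polyRootCountMod f ((p : ℕ) ^ k) : ℝ) / ((p : ℕ) : ℝ) ^ k)
    exact this.eventually_lt_const (by positivity)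
  have h3 : ∀ᶠ T : Finset Nat.Primes in atTop, ∀ p : Nat.Primes, ((p : ℕ) : ℤ) ∣ D → p ∈ T := by
    filter_upwards [eventually_ge_atTop hfin.toFinset] with T hT p hp
    exact hT (hfin.mem_toFinset.mpr hp)
  obtain ⟨T, hT1, hT2, hT3⟩ := (h1.and (h2.and h3)).exists
  have hb := count_bounds f a b D hD hab k hk hs T hT3
  set E₀ := ∏ p ∈ T, (1 - (polyRootCountMod f ((p : ℕ) ^ k) : ℝ) / ((p : ℕ) : ℝ) ^ k) with hE₀
  set Q₀ := ∏ p ∈ T, ((p : ℕ) : ℝ) ^ k with hQ₀
  set τ := ∑' p : {p : Nat.Primes // p ∉ T},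
        (polyRootCountMod f (((p : Nat.Primes) : ℕ) ^ k) : ℝ) / (((p : Nat.Primes) : ℕ) : ℝ) ^ k
    with hτ
  -- eventual smallness of the error
  have herr : Tendsto (fun N : ℕ => 2 * Q₀ / N + f.natDegree * ((Nat.primeCounting N : ℝ) / N)
      + (bigCount f k N : ℝ) / N) atTop (𝓝 0) := by
    rw [show (0 : ℝ) = 0 + f.natDegree * 0 + 0 by ring]
    apply Tendsto.add (Tendsto.add _ _) KI
    · exact Tendsto.div_atTop tendsto_const_nhds tendsto_natCast_atTop_atTop
    · exact primeCounting_div_tendsto.const_mul _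
  have h4 := herr.eventually_lt_const (show (0 : ℝ) < ε / 4 by positivity)
  obtain ⟨N₀, hN₀⟩ := eventually_atTop.mp (h4.and (eventually_ge_atTop 1))
  refine ⟨N₀, fun N hN => ?_⟩
  obtain ⟨hNe, hN1⟩ := hN₀ N hN
  have hN0 : (0 : ℝ) < N := by exact_mod_cast hN1
  obtain ⟨hu, hl⟩ := hb N
  rw [Real.dist_eq, abs_lt]
  rw [abs_lt] at hT1
  have hpc0 : (0 : ℝ) ≤ f.natDegree * ((Nat.primeCounting N : ℝ) / N) := by positivity
  have hbc0 : (0 : ℝ) ≤ (bigCount f k N : ℝ) / N := by positivity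
  have hQ0 : (0 : ℝ) ≤ 2 * Q₀ / N := by positivity
  constructor
  · have h5 : E₀ - 2 * Q₀ / N - τ - f.natDegree * ((Nat.primeCounting N : ℝ) / N)
        - (bigCount f k N : ℝ) / N ≤ (powerFreeValueCount f k N : ℝ) / N := by
      rw [le_div_iff₀ hN0]
      refine le_trans (le_of_eq ?_) hl
      field_simp
    linarith [hT1.1]
  · have h5 : (powerFreeValueCount f k N : ℝ) / N ≤ E₀ + 2 * Q₀ / N := by
      rw [div_le_iff₀ hN0]
      refine le_trans hu (le_of_eq ?_)
      field_simp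
    linarith [hT1.2]

end Crest.Agent.R022.SieveReduction
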