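import Crest.Agent.R022.Small997C
import Crest.Agent.R22.Range7A

set_option autoImplicit false

namespace Crest.Agent.R022.Small

open Polynomial Filter Topology Crest.NumberTheoryR Crest.Agent.R22

theorem ev_map_intCast (f : ℤ[X]) (n : ℤ) :
    ev (f.map (Int.castRingHom ℚ)) (n : ℝ) = ((f.eval n : ℤ) : ℝ) := by
  unfold ev
  rw [Polynomial.map_map, Polynomial.eval_map]
  have h := Polynomial.hom_eval₂ f (RingHom.id ℤ) ((algebraMap ℚ ℝ).comp (Int.castRingHom ℚ)) n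
  simp only [RingHom.comp_id, eq_intCast] at h
  rw [← h]
  simp

/-- Bound for the number of `n ≤ N` with fixed cofactor `m`. -/
theorem card_fixed (f : ℤ[X]) (s : ℕ) (H : ℝ) (hH : 1 ≤ H) (N m : ℕ) (hm : 1 ≤ m)
    (T : Finset ℕ) (hT : ∀ n ∈ T, n ≤ N ∧ (m : ℤ) ∣ f.eval (n : ℤ))
    (hwin : ∀ (ν : ℤ) (S : Finset ℤ), (∀ l ∈ S, ∃ n ∈ T, (n : ℤ) = ν + m * l) →
      (∀ l ∈ S, ∀ l' ∈ S, (l : ℝ) - l' ≤ H) → S.card ≤ s) :
    (T.card : ℝ) ≤ s * ((polyRootCountMod f m : ℝ) * ((N : ℝ) / (m * H) + 1)) := by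
  classical
  have hmpos : 0 < m := hm
  have hmR : (0 : ℝ) < m := by exact_mod_cast hmpos
  have hHpos : 0 < H := by linarith
  set g : ℕ → ℕ × ℕ := fun n => (n % m, ⌊((n / m : ℕ) : ℝ) / H⌋₊) with hg
  have h1 : T.card ≤ s * (T.image g).card := by
    apply Finset.card_le_mul_card_image
    intro a _
    set F := T.filter (fun x => g x = a) with hF
    set S : Finset ℤ := F.image (fun n : ℕ => ((n / m : ℕ) : ℤ)) with hS
    have hinj : Set.InjOn (fun n : ℕ => ((n / m : ℕ) : ℤ)) (F : Set ℕ) := by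
      intro x hx y hy hxy
      simp only [hF, Finset.coe_filter, Set.mem_ofPred_eq] at hx hy
      have e1 : x % m = y % m := by
        have h1 := congrArg Prod.fst hx.2
        have h2 := congrArg Prod.fst hy.2
        simp only [hg] at h1 h2
        rw [h1, h2]
      have e2 : x / m = y / m := by
        simp only at hxy
        exact_mod_cast hxy
      rw [← Nat.mod_add_div x m, ← Nat.mod_add_div y m, e1, e2]
    have hcard : F.card = S.card := (Finset.card_image_of_injOn hinj).symm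
    rw [hcard]
    apply hwin (a.1 : ℤ) S
    · intro l hl
      obtain ⟨n, hn, rfl⟩ := Finset.mem_image.mp hl
      simp only [hF, Finset.mem_filter] at hn
      refine ⟨n, hn.1, ?_⟩
      have h1 := congrArg Prod.fst hn.2
      simp only [hg] at h1
      have h2 := Nat.mod_add_div n m
      rw [← h1]
      exact_mod_cast h2.symm
    · intro l hl l' hl'
      obtain ⟨n, hn, rfl⟩ := Finset.mem_image.mp hl
      obtain ⟨n', hn', rfl⟩ := Finset.mem_image.mp hl'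
      simp only [hF, Finset.mem_filter] at hn hn'
      have h1 := congrArg Prod.snd hn.2
      have h2 := congrArg Prod.snd hn'.2
      simp only [hg] at h1 h2
      have h3 : ((n / m : ℕ) : ℝ) / H < a.2 + 1 := by
        have := Nat.lt_floor_add_one (((n / m : ℕ) : ℝ) / H)
        rw [h1] at this; exact this
      have h4 : (a.2 : ℝ) ≤ ((n' / m : ℕ) : ℝ) / H := by
        rw [← h2]; exact Nat.floor_le (by positivity)
      have h5 : (((n / m : ℕ) : ℝ) - ((n' / m : ℕ) : ℝ)) / H < 1 := by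
        rw [sub_div]; linarith
      rw [div_lt_one hHpos] at h5
      push_cast
      exact h5.le
  have h2 : (T.image g).card ≤ polyRootCountMod f m * (⌊(N : ℝ) / (m * H)⌋₊ + 1) := by
    unfold polyRootCountMod
    rw [← Finset.card_range (⌊(N : ℝ) / (m * H)⌋₊ + 1), ← Finset.card_product]
    apply Finset.card_le_card
    intro a ha
    obtain ⟨n, hn, rfl⟩ := Finset.mem_image.mp ha
    obtain ⟨hnN, hdvd⟩ := hT n hn
    simp only [Finset.mem_product, Finset.mem_filter, Finset.mem_range, hg]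
    refine ⟨⟨Nat.mod_lt _ hmpos, ?_⟩, ?_⟩
    · exact (SieveRed.eval_dvd_iff f m (n % m) n (Nat.mod_modEq n m)).mpr hdvd
    · apply Nat.lt_succ_of_le
      apply Nat.floor_le_floor
      rw [← div_div]
      apply div_le_div_of_nonneg_right _ hHpos.le
      have h1 : ((n / m : ℕ) : ℝ) ≤ (n : ℝ) / m := Nat.cast_div_le
      have h2 : (n : ℝ) / m ≤ (N : ℝ) / m := by
        apply div_le_div_of_nonneg_right _ hmR.le
        exact_mod_cast hnN
      linarith
  have h3 : (T.card : ℝ) ≤ s * ((polyRootCountMod f m : ℝ) * ((⌊(N : ℝ) / (m * H)⌋₊ : ℝ) + 1)) := by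
    have := h1.trans (Nat.mul_le_mul_left s h2)
    exact_mod_cast this
  refine h3.trans ?_
  have h4 : (⌊(N : ℝ) / (m * H)⌋₊ : ℝ) ≤ (N : ℝ) / (m * H) := Nat.floor_le (by positivity)
  gcongr

theorem small_cofactor_pos (f : ℤ[X]) (hirr : Irreducible (f.map (Int.castRingHom ℚ)))
    (hlc : 0 < f.leadingCoeff) (k : ℕ) (hk : 2 ≤ k) (c : ℝ) (hc : 0 < c) (hc1 : c ≤ 1) :
    ∃ (δ C : ℝ), 0 < δ ∧ δ ≤ 1 ∧ 0 < C ∧ ∀ (N : ℕ) (A : Finset ℕ),
      (∀ n ∈ A, 1 ≤ n ∧ n ≤ N ∧ ∃ (p : ℕ) (m : ℤ), f.eval (n : ℤ) = (p : ℤ) ^ k * m ∧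
        |(m : ℝ)| ≤ (N : ℝ) ^ (1 - c)) → (A.card : ℝ) ≤ C * (N : ℝ) ^ (1 - δ) := by
  classical
  set F : ℚ[X] := f.map (Int.castRingHom ℚ) with hF
  have hlcF : 0 < F.leadingCoeff := by
    rw [hF, Polynomial.leadingCoeff_map_of_injective (Int.castRingHom ℚ).injective_int]
    simpa using hlc
  obtain ⟨s, N0, hs0, hN01, hwin⟩ := window F hirr hlcF k hk c hc hc1
  obtain ⟨c1, x1, hc10, hx11, hlow⟩ := ev_lower F hlcF
  set δ0 : ℝ := c / (8 * (s + 1)) with hδ0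
  have hsR : (1 : ℝ) ≤ s := by exact_mod_cast hs0
  have hδ00 : 0 < δ0 := by positivity
  have hδ0c : δ0 ≤ c / 16 := by
    rw [hδ0]
    apply div_le_div_of_nonneg_left hc.le (by norm_num)
    linarith
  set ε : ℝ := δ0 / 4 with hε
  have hε0 : 0 < ε := by positivity
  obtain ⟨Cε, hCε0, hCε⟩ := Range7.rootCount_le_rpow f hirr ε hε0
  -- threshold for positivity
  have ht2 : Tendsto (fun N : ℕ => (N : ℝ) ^ (1 - c / 2)) atTop atTop :=
    (tendsto_rpow_atTop (by linarith)).comp tendsto_natCast_atTop_atTop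
  obtain ⟨N2, hN2⟩ := eventually_atTop.mp (ht2.eventually_ge_atTop x1)
  set N3 : ℕ := max N0 N2 with hN3
  refine ⟨δ0 / 2, (N3 : ℝ) + (2 + s * Cε * (2 + 1 / ε)), by positivity, by linarith,
    by positivity, ?_⟩
  intro N A hA
  rcases Nat.eq_zero_or_pos N with hN0 | hNpos
  · have : A = ∅ := by
      rw [Finset.eq_empty_iff_forall_notMem]
      intro n hn
      have h1 := (hA n hn).1
      have h2 := (hA n hn).2.1
      omega
    rw [this]
    simp only [Finset.card_empty, Nat.cast_zero]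
    positivity
  have hN1 : (1 : ℝ) ≤ N := by exact_mod_cast hNpos
  have hNp : (0 : ℝ) < N := by linarith
  have hAN : A ⊆ Finset.Icc 1 N := by
    intro n hn
    rw [Finset.mem_Icc]
    exact ⟨(hA n hn).1, (hA n hn).2.1⟩
  have hpow1 : (1 : ℝ) ≤ (N : ℝ) ^ (1 - δ0 / 2) := Real.one_le_rpow hN1 (by linarith)
  by_cases hsmall : N < N3
  · have h1 : A.card ≤ N := by
      have := Finset.card_le_card hAN
      simpa using this
    have h2 : (A.card : ℝ) ≤ N3 := by exact_mod_cast h1.trans hsmall.le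
    have h3 : (0 : ℝ) ≤ 2 + s * Cε * (2 + 1 / ε) := by positivity
    calc (A.card : ℝ) ≤ N3 := h2
      _ ≤ (N3 + (2 + s * Cε * (2 + 1 / ε))) * 1 := by linarith
      _ ≤ _ := by
          apply mul_le_mul_of_nonneg_left hpow1 (by positivity)
  push Not at hsmall
  have hNN0 : N0 ≤ N := (le_max_left _ _).trans hsmall
  have hNN2 : x1 ≤ (N : ℝ) ^ (1 - c / 2) := hN2 N ((le_max_right _ _).trans hsmall)
  set H : ℝ := (N : ℝ) ^ δ0 with hH
  have hH1 : 1 ≤ H := Real.one_le_rpow hN1 hδ00.le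
  set M : ℕ := ⌊(N : ℝ) ^ (1 - c)⌋₊ with hM
  have hMle : (M : ℝ) ≤ (N : ℝ) ^ (1 - c) := Nat.floor_le (by positivity)
  -- the sets with fixed cofactor
  set T : ℕ → Finset ℕ := fun m => (Finset.Icc 1 N).filter
    (fun n : ℕ => (N : ℝ) ^ (1 - c / 2) ≤ n ∧ ∃ p : ℕ, f.eval (n : ℤ) = (p : ℤ) ^ k * m) with hTdef
  have hTcard : ∀ m ∈ Finset.Icc 1 M, ((T m).card : ℝ) ≤
      s * ((polyRootCountMod f m : ℝ) * ((N : ℝ) / (m * H) + 1)) := by
    intro m hm
    rw [Finset.mem_Icc] at hm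
    have hmN : (m : ℝ) ≤ (N : ℝ) ^ (1 - c) := by
      have : (m : ℝ) ≤ M := by exact_mod_cast hm.2
      linarith
    apply card_fixed f s H hH1 N m hm.1
    · intro n hn
      simp only [hTdef, Finset.mem_filter, Finset.mem_Icc] at hn
      refine ⟨hn.1.2, ?_⟩
      obtain ⟨p, hp⟩ := hn.2.2
      exact ⟨(p : ℤ) ^ k, by rw [hp]; ring⟩
    · intro ν S hS hSd
      apply hwin N hNN0 m hm.1 hmN ν S
      · intro l hl
        obtain ⟨n, hn, hnl⟩ := hS l hl
        simp only [hTdef, Finset.mem_filter, Finset.mem_Icc] at hn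
        have e1 : (ν : ℝ) + m * l = ((n : ℤ) : ℝ) := by
          rw [hnl]; push_cast; ring
        rw [e1]
        refine ⟨by simpa using hn.2.1, ?_⟩
        obtain ⟨p, hp⟩ := hn.2.2
        refine ⟨p, ?_⟩
        rw [hF, ev_map_intCast, hp]
        push_cast
        ring
      · exact hSd
  -- covering
  have hcover : A ⊆ (Finset.range (⌊(N : ℝ) ^ (1 - c / 2)⌋₊ + 1)) ∪ (Finset.Icc 1 M).biUnion T := by
    intro n hn
    obtain ⟨h1, h2, p, m, hpm, hmb⟩ := hA n hn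
    rw [Finset.mem_union]
    by_cases hbig : (N : ℝ) ^ (1 - c / 2) ≤ n
    · right
      have hpos : (0 : ℝ) < ((f.eval (n : ℤ) : ℤ) : ℝ) := by
        rw [← ev_map_intCast]
        have h3 := hlow (n : ℝ) (hNN2.trans hbig)
        have h4 : (0 : ℝ) < n := by exact_mod_cast h1
        have h5 : 0 < c1 * (n : ℝ) ^ F.natDegree := by positivity
        have h6 : ((n : ℤ) : ℝ) = (n : ℝ) := by push_cast; rfl
        rw [h6]
        linarith
      have hpos' : 0 < f.eval (n : ℤ) := by exact_mod_cast hpos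
      rw [hpm] at hpos'
      have hp0 : (0 : ℤ) ≤ (p : ℤ) ^ k := by positivity
      have hm0 : 0 < m := by
        by_contra hneg
        push Not at hneg
        have := mul_nonpos_of_nonneg_of_nonpos hp0 hneg
        linarith
      rw [Finset.mem_biUnion]
      refine ⟨m.toNat, ?_, ?_⟩
      · rw [Finset.mem_Icc]
        refine ⟨by omega, ?_⟩
        rw [hM]
        apply Nat.le_floor
        have : ((m.toNat : ℕ) : ℝ) = (m : ℝ) := by
          have : ((m.toNat : ℤ)) = m := Int.toNat_of_nonneg hm0.le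
          exact_mod_cast congrArg (Int.cast : ℤ → ℝ) this
        rw [this]
        exact (le_abs_self _).trans hmb
      · simp only [hTdef, Finset.mem_filter, Finset.mem_Icc]
        refine ⟨⟨h1, h2⟩, hbig, p, ?_⟩
        rw [Int.toNat_of_nonneg hm0.le]
        exact hpm
    · left
      push Not at hbig
      rw [Finset.mem_range]
      apply Nat.lt_succ_of_le
      exact Nat.le_floor hbig.le
  have hcard1 : (A.card : ℝ) ≤ ((N : ℝ) ^ (1 - c / 2) + 1) +
      ∑ m ∈ Finset.Icc 1 M, ((T m).card : ℝ) := by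
    have h1 := (Finset.card_le_card hcover).trans (Finset.card_union_le _ _)
    have h2 : ((Finset.Icc 1 M).biUnion T).card ≤ ∑ m ∈ Finset.Icc 1 M, (T m).card :=
      Finset.card_biUnion_le
    rw [Finset.card_range] at h1
    have h3 : (A.card : ℝ) ≤ ((⌊(N : ℝ) ^ (1 - c / 2)⌋₊ : ℝ) + 1) +
        ∑ m ∈ Finset.Icc 1 M, ((T m).card : ℝ) := by
      have := h1.trans (Nat.add_le_add_left h2 _)
      exact_mod_cast this
    have h4 : (⌊(N : ℝ) ^ (1 - c / 2)⌋₊ : ℝ) ≤ (N : ℝ) ^ (1 - c / 2) := Nat.floor_le (by positivity)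
    linarith
  have hsum : ∑ m ∈ Finset.Icc 1 M, ((T m).card : ℝ) ≤
      s * Cε * (2 + 1 / ε) * (N : ℝ) ^ (1 - δ0 / 2) := by
    have hterm : ∀ m ∈ Finset.Icc 1 M, ((T m).card : ℝ) ≤
        s * Cε * (N : ℝ) ^ ε * ((N : ℝ) ^ (1 - δ0) * (1 / m) + 1) := by
      intro m hm
      refine (hTcard m hm).trans ?_
      rw [Finset.mem_Icc] at hm
      have hm0 : (0 : ℝ) < m := by exact_mod_cast hm.1
      have hmN : (m : ℝ) ≤ N := by
        have h1 : (m : ℝ) ≤ M := by exact_mod_cast hm.2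
        have h2 : (N : ℝ) ^ (1 - c) ≤ (N : ℝ) ^ (1 : ℝ) :=
          Real.rpow_le_rpow_of_exponent_le hN1 (by linarith)
        rw [Real.rpow_one] at h2
        linarith
      have e1 : (polyRootCountMod f m : ℝ) ≤ Cε * (N : ℝ) ^ ε :=
        (hCε m hm.1).trans (mul_le_mul_of_nonneg_left
          (Real.rpow_le_rpow hm0.le hmN hε0.le) hCε0.le)
      have e2 : (N : ℝ) / (m * H) = (N : ℝ) ^ (1 - δ0) * (1 / m) := by
        rw [Real.rpow_sub hNp, Real.rpow_one, hH]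
        field_simp
      rw [e2]
      calc (s : ℝ) * ((polyRootCountMod f m : ℝ) * ((N : ℝ) ^ (1 - δ0) * (1 / m) + 1))
          ≤ (s : ℝ) * ((Cε * (N : ℝ) ^ ε) * ((N : ℝ) ^ (1 - δ0) * (1 / m) + 1)) := by
            gcongr
        _ = _ := by ring
    refine (Finset.sum_le_sum hterm).trans ?_
    rw [← Finset.mul_sum, Finset.sum_add_distrib, ← Finset.mul_sum]
    simp only [Finset.sum_const, Nat.card_Icc, Nat.add_sub_cancel, nsmul_eq_mul, mul_one]
    have hharm : ∑ m ∈ Finset.Icc 1 M, (1 : ℝ) / m ≤ (1 + 1 / ε) * (N : ℝ) ^ ε := by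
      have h1 : ∑ m ∈ Finset.Icc 1 M, (1 : ℝ) / m = ((harmonic M : ℚ) : ℝ) := by
        rw [harmonic_eq_sum_Icc]
        push_cast
        apply Finset.sum_congr rfl
        intro m _
        rw [one_div]
      rw [h1]
      have h2 := harmonic_le_one_add_log M
      rcases Nat.eq_zero_or_pos M with hM0 | hM0
      · rw [hM0]
        simp only [harmonic_zero, Rat.cast_zero]
        positivity
      · have hMR : (1 : ℝ) ≤ M := by exact_mod_cast hM0
        have hMN : (M : ℝ) ≤ N := by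
          have h3 : (N : ℝ) ^ (1 - c) ≤ (N : ℝ) ^ (1 : ℝ) :=
            Real.rpow_le_rpow_of_exponent_le hN1 (by linarith)
          rw [Real.rpow_one] at h3
          linarith
        have h3 : Real.log M ≤ Real.log N := Real.log_le_log (by linarith) hMN
        have h4 : Real.log N ≤ (N : ℝ) ^ ε / ε := Real.log_le_rpow_div hNp.le hε0
        have h5 : (1 : ℝ) ≤ (N : ℝ) ^ ε := Real.one_le_rpow hN1 hε0.le
        calc ((harmonic M : ℚ) : ℝ) ≤ 1 + Real.log M := h2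
          _ ≤ (N : ℝ) ^ ε + (N : ℝ) ^ ε / ε := by linarith
          _ = (1 + 1 / ε) * (N : ℝ) ^ ε := by ring
    have e3 : (N : ℝ) ^ ε * ((N : ℝ) ^ (1 - δ0) * ((1 + 1 / ε) * (N : ℝ) ^ ε)) =
        (1 + 1 / ε) * (N : ℝ) ^ (1 - δ0 / 2) := by
      have : (N : ℝ) ^ (1 - δ0 / 2) = (N : ℝ) ^ ε * ((N : ℝ) ^ (1 - δ0) * (N : ℝ) ^ ε) := by
        rw [← Real.rpow_add hNp, ← Real.rpow_add hNp]
        congr 1
        rw [hε]; ring
      rw [this]; ring
    have e4 : (N : ℝ) ^ ε * M ≤ (N : ℝ) ^ (1 - δ0 / 2) := by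
      calc (N : ℝ) ^ ε * M ≤ (N : ℝ) ^ ε * (N : ℝ) ^ (1 - c) := by gcongr
        _ = (N : ℝ) ^ (ε + (1 - c)) := by rw [← Real.rpow_add hNp]
        _ ≤ (N : ℝ) ^ (1 - δ0 / 2) := by
            apply Real.rpow_le_rpow_of_exponent_le hN1
            rw [hε]; linarith
    have e5 : (N : ℝ) ^ ε * ((N : ℝ) ^ (1 - δ0) * ∑ m ∈ Finset.Icc 1 M, (1 : ℝ) / m + M) ≤
        (2 + 1 / ε) * (N : ℝ) ^ (1 - δ0 / 2) := by
      have h1 : (N : ℝ) ^ ε * ((N : ℝ) ^ (1 - δ0) * ∑ m ∈ Finset.Icc 1 M, (1 : ℝ) / m) ≤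
          (N : ℝ) ^ ε * ((N : ℝ) ^ (1 - δ0) * ((1 + 1 / ε) * (N : ℝ) ^ ε)) := by gcongr
      rw [mul_add]
      calc _ ≤ (1 + 1 / ε) * (N : ℝ) ^ (1 - δ0 / 2) + (N : ℝ) ^ (1 - δ0 / 2) := by linarith
        _ = _ := by ring
    calc (s : ℝ) * Cε * (N : ℝ) ^ ε * ((N : ℝ) ^ (1 - δ0) * ∑ m ∈ Finset.Icc 1 M, (1 : ℝ) / m + M)
        = (s : ℝ) * Cε * ((N : ℝ) ^ ε * ((N : ℝ) ^ (1 - δ0) * ∑ m ∈ Finset.Icc 1 M, (1 : ℝ) / m + M)) := by
          ring
      _ ≤ (s : ℝ) * Cε * ((2 + 1 / ε) * (N : ℝ) ^ (1 - δ0 / 2)) := by gcongr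
      _ = _ := by ring
  have e6 : (N : ℝ) ^ (1 - c / 2) ≤ (N : ℝ) ^ (1 - δ0 / 2) := by
    apply Real.rpow_le_rpow_of_exponent_le hN1
    linarith
  have e7 : (0 : ℝ) ≤ N3 * (N : ℝ) ^ (1 - δ0 / 2) := by positivity
  calc (A.card : ℝ) ≤ ((N : ℝ) ^ (1 - c / 2) + 1) +
      ∑ m ∈ Finset.Icc 1 M, ((T m).card : ℝ) := hcard1
    _ ≤ 2 * (N : ℝ) ^ (1 - δ0 / 2) + s * Cε * (2 + 1 / ε) * (N : ℝ) ^ (1 - δ0 / 2) := by linarith
    _ ≤ _ := by linarith

/-- **Small cofactor range.**  For `f` irreducible of degree `≥ 1`, `k ≥ 2`, the number of `n ≤ N`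
with `f(n) = p ^ k * m`, `|m| ≤ N ^ (1 - c)` is `O(N ^ (1 - δ))`. -/
theorem small_cofactor (f : ℤ[X]) (hirr : Irreducible (f.map (Int.castRingHom ℚ)))
    (k : ℕ) (hk : 2 ≤ k) (c : ℝ) (hc : 0 < c) :
    ∃ (δ C : ℝ), 0 < δ ∧ δ ≤ 1 ∧ 0 < C ∧ ∀ (N : ℕ) (A : Finset ℕ),
      (∀ n ∈ A, 1 ≤ n ∧ n ≤ N ∧ ∃ (p : ℕ) (m : ℤ), f.eval (n : ℤ) = (p : ℤ) ^ k * m ∧
        |(m : ℝ)| ≤ (N : ℝ) ^ (1 - c)) → (A.card : ℝ) ≤ C * (N : ℝ) ^ (1 - δ) := by
  -- reduce to `c ≤ 1`
  wlog hc1 : c ≤ 1 generalizing c with H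
  · obtain ⟨δ, C, h1, h2, h3, h4⟩ := H 1 one_pos le_rfl
    refine ⟨δ, C, h1, h2, h3, fun N A hA => h4 N A (fun n hn => ?_)⟩
    obtain ⟨a1, a2, p, m, a3, a4⟩ := hA n hn
    refine ⟨a1, a2, p, m, a3, a4.trans ?_⟩
    apply Real.rpow_le_rpow_of_exponent_le
    · exact_mod_cast a1.trans a2
    · push Not at hc1; linarith
  have hf0 : f ≠ 0 := by
    rintro rfl
    simp at hirr
  rcases lt_or_gt_of_ne (Polynomial.leadingCoeff_ne_zero.mpr hf0) with hneg | hpos
  · have hirr' : Irreducible ((-f).map (Int.castRingHom ℚ)) := by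
      rw [Polynomial.map_neg]
      exact (Associated.irreducible_iff (Associated.neg_left (Associated.refl _))).mpr hirr
    obtain ⟨δ, C, h1, h2, h3, h4⟩ := small_cofactor_pos (-f) hirr' (by
      rw [Polynomial.leadingCoeff_neg]; linarith) k hk c hc hc1
    refine ⟨δ, C, h1, h2, h3, fun N A hA => h4 N A (fun n hn => ?_)⟩
    obtain ⟨a1, a2, p, m, a3, a4⟩ := hA n hn
    refine ⟨a1, a2, p, -m, ?_, ?_⟩
    · rw [Polynomial.eval_neg, a3]; ring
    · push_cast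
      rw [abs_neg]; exact a4
  · exact small_cofactor_pos f hirr hpos k hk c hc hc1

end Crest.Agent.R022.Small
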