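import Mathlib
import Crest.Prelude.Def_PowerFree
import Crest.Agent.R022.SieveMain
import Crest.Agent.R022.Small997

/-!
# R022: dyadic reduction

It suffices to bound, for `N ≤ P` and `P ^ k ≤ N ^ (d - 1 + η)`, the number of `n ≤ N` such that
`p ^ k ∣ f n` for some prime `P < p ≤ 2 P`, by `C * N ^ (1 - c)`.
-/

set_option autoImplicit false

open Crest.NumberTheoryR Filter Topology Polynomial

namespace Crest.Agent.R022.Dyadic712

open Crest.Agent.R022.SieveReduction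

open Classical in
/-- The number of `n ∈ [1, N]` with `p ^ k ∣ f n` for some prime `P < p ≤ 2 P`. -/
noncomputable def dyCount (f : ℤ[X]) (k N : ℕ) (P : ℝ) : ℕ :=
  ((Finset.Icc 1 N).filter fun n : ℕ =>
    ∃ p : ℕ, p.Prime ∧ P < p ∧ (p : ℝ) ≤ 2 * P ∧ (p : ℤ) ^ k ∣ f.eval (n : ℤ)).card

/-- Trivial upper bound for the values of a polynomial. -/
lemma abs_eval_le (f : ℤ[X]) : ∃ C : ℝ, 0 < C ∧ ∀ n N : ℕ, 1 ≤ N → n ≤ N →
    |((f.eval (n : ℤ) : ℤ) : ℝ)| ≤ C * (N : ℝ) ^ f.natDegree := by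
  refine ⟨∑ i ∈ Finset.range (f.natDegree + 1), |(f.coeff i : ℝ)| + 1, by positivity, ?_⟩
  intro n N hN hn
  have hN1 : (1 : ℝ) ≤ N := by exact_mod_cast hN
  have hnN : (n : ℝ) ≤ N := by exact_mod_cast hn
  rw [Polynomial.eval_eq_sum_range]
  push_cast
  calc |∑ i ∈ Finset.range (f.natDegree + 1), (f.coeff i : ℝ) * (n : ℝ) ^ i|
      ≤ ∑ i ∈ Finset.range (f.natDegree + 1), |(f.coeff i : ℝ) * (n : ℝ) ^ i| :=
        Finset.abs_sum_le_sum_abs _ _
    _ ≤ ∑ i ∈ Finset.range (f.natDegree + 1), |(f.coeff i : ℝ)| * (N : ℝ) ^ f.natDegree := by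
        apply Finset.sum_le_sum
        intro i hi
        rw [Finset.mem_range] at hi
        rw [abs_mul, abs_of_nonneg (by positivity : (0 : ℝ) ≤ (n : ℝ) ^ i)]
        gcongr
        calc (n : ℝ) ^ i ≤ (N : ℝ) ^ i := by gcongr
          _ ≤ (N : ℝ) ^ f.natDegree := pow_le_pow_right₀ hN1 (by omega)
    _ = (∑ i ∈ Finset.range (f.natDegree + 1), |(f.coeff i : ℝ)|) * (N : ℝ) ^ f.natDegree := by
        rw [Finset.sum_mul]
    _ ≤ _ := by
        rw [add_mul]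
        have : (0 : ℝ) ≤ 1 * (N : ℝ) ^ f.natDegree := by positivity
        linarith

/-- Dyadic location of a number `> N`. -/
lemma exists_dyadic (N p : ℕ) (hN : 1 ≤ N) (hp : N < p) :
    ∃ j : ℕ, N * 2 ^ j < p ∧ p ≤ N * 2 ^ (j + 1) := by
  classical
  have hex : ∃ j : ℕ, p ≤ N * 2 ^ (j + 1) := by
    refine ⟨p, ?_⟩
    have h1 : p < 2 ^ p := Nat.lt_two_pow_self
    have h2 : 2 ^ p ≤ 2 ^ (p + 1) := Nat.pow_le_pow_right (by norm_num) (by omega)
    nlinarith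
  refine ⟨Nat.find hex, ?_, Nat.find_spec hex⟩
  rcases Nat.eq_zero_or_pos (Nat.find hex) with h0 | hpos
  · rw [h0]; simpa using hp
  · have h1 := Nat.find_min hex (m := Nat.find hex - 1) (by omega)
    push Not at h1
    rwa [Nat.sub_add_cancel hpos] at h1

/-- The key covering: `n` counted by `bigCount` is in a dyadic set or has a small cofactor. -/
lemma bigCount_le (f : ℤ[X]) (hirr : Irreducible (f.map (Int.castRingHom ℚ)))
    (k : ℕ) (hk : 2 ≤ k) (η : ℝ) (hη : 0 < η) :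
    ∃ (δ C : ℝ) (N₁ : ℕ), 0 < δ ∧ 0 < C ∧ ∀ N : ℕ, N₁ ≤ N → ∀ J : ℕ,
      (∀ j : ℕ, ((N : ℝ) * 2 ^ j) ^ k ≤ (N : ℝ) ^ ((f.natDegree : ℝ) - 1 + η) → j < J) →
      (bigCount f k N : ℝ) ≤ (∑ j ∈ (Finset.range J).filter
        (fun j : ℕ => ((N : ℝ) * 2 ^ j) ^ k ≤ (N : ℝ) ^ ((f.natDegree : ℝ) - 1 + η)),
        (dyCount f k N ((N : ℝ) * 2 ^ j) : ℝ)) + C * (N : ℝ) ^ (1 - δ) := by
  classical
  obtain ⟨Cf, hCf, hbd⟩ := abs_eval_le f
  obtain ⟨δ, C, hδ, _, hC, hsmall⟩ := Small.small_cofactor f hirr k hk (η / 2) (by positivity)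
  -- large `N`: `Cf ≤ N ^ (η / 2)`
  have hlim : Tendsto (fun N : ℕ => (N : ℝ) ^ (η / 2)) atTop atTop :=
    (tendsto_rpow_atTop (by positivity)).comp tendsto_natCast_atTop_atTop
  obtain ⟨N₁, hN₁⟩ := eventually_atTop.mp ((hlim.eventually_ge_atTop Cf).and
    (eventually_ge_atTop 1))
  refine ⟨δ, C, N₁, hδ, hC, fun N hN J hJ => ?_⟩
  obtain ⟨hNC, hN1⟩ := hN₁ N hN
  have hN0 : (0 : ℝ) < N := by exact_mod_cast hN1
  set R := (Finset.range J).filter
        (fun j : ℕ => ((N : ℝ) * 2 ^ j) ^ k ≤ (N : ℝ) ^ ((f.natDegree : ℝ) - 1 + η)) with hR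
  set big := (Finset.Icc 1 N).filter
      (fun n : ℕ => ∃ p : ℕ, p.Prime ∧ N < p ∧ (p : ℤ) ^ k ∣ f.eval (n : ℤ)) with hbig
  set D : ℕ → Finset ℕ := fun j => (Finset.Icc 1 N).filter (fun n : ℕ =>
    ∃ p : ℕ, p.Prime ∧ (N : ℝ) * 2 ^ j < p ∧ (p : ℝ) ≤ 2 * ((N : ℝ) * 2 ^ j) ∧
      (p : ℤ) ^ k ∣ f.eval (n : ℤ)) with hDdef
  set Sm := (Finset.Icc 1 N).filter (fun n : ℕ => ∃ (p : ℕ) (m : ℤ),
    f.eval (n : ℤ) = (p : ℤ) ^ k * m ∧ |(m : ℝ)| ≤ (N : ℝ) ^ (1 - η / 2)) with hSm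
  have hcov : big ⊆ R.biUnion D ∪ Sm := by
    intro n hn
    rw [hbig, Finset.mem_filter] at hn
    obtain ⟨hnI, p, hp, hNp, hdvd⟩ := hn
    obtain ⟨j, hj1, hj2⟩ := exists_dyadic N p hN1 hNp
    have hj1' : (N : ℝ) * 2 ^ j < p := by exact_mod_cast hj1
    have hj2' : (p : ℝ) ≤ 2 * ((N : ℝ) * 2 ^ j) := by
      have : (p : ℝ) ≤ (N : ℝ) * 2 ^ (j + 1) := by exact_mod_cast hj2
      refine this.trans (le_of_eq ?_)
      ring
    rw [Finset.mem_union]
    by_cases hjR : ((N : ℝ) * 2 ^ j) ^ k ≤ (N : ℝ) ^ ((f.natDegree : ℝ) - 1 + η)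
    · left
      rw [Finset.mem_biUnion]
      refine ⟨j, ?_, ?_⟩
      · rw [hR, Finset.mem_filter, Finset.mem_range]
        exact ⟨hJ j hjR, hjR⟩
      · rw [hDdef, Finset.mem_filter]
        exact ⟨hnI, p, hp, hj1', hj2', hdvd⟩
    · right
      rw [hSm, Finset.mem_filter]
      refine ⟨hnI, p, ?_⟩
      obtain ⟨m, hm⟩ := hdvd
      refine ⟨m, hm, ?_⟩
      push Not at hjR
      have hn1 : n ≤ N := (Finset.mem_Icc.mp hnI).2
      have h1 := hbd n N hN1 hn1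
      have h2 : |((f.eval (n : ℤ) : ℤ) : ℝ)| = (p : ℝ) ^ k * |(m : ℝ)| := by
        rw [hm]; push_cast
        rw [abs_mul, abs_of_nonneg (by positivity : (0 : ℝ) ≤ (p : ℝ) ^ k)]
      rw [h2] at h1
      have hpk : (N : ℝ) ^ ((f.natDegree : ℝ) - 1 + η) ≤ (p : ℝ) ^ k := by
        refine hjR.le.trans ?_
        gcongr
      have h3 : (N : ℝ) ^ ((f.natDegree : ℝ) - 1 + η) * |(m : ℝ)| ≤
          (N : ℝ) ^ (η / 2) * (N : ℝ) ^ (f.natDegree : ℝ) := by
        calc (N : ℝ) ^ ((f.natDegree : ℝ) - 1 + η) * |(m : ℝ)|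
            ≤ (p : ℝ) ^ k * |(m : ℝ)| := by gcongr
          _ ≤ Cf * (N : ℝ) ^ f.natDegree := h1
          _ ≤ (N : ℝ) ^ (η / 2) * (N : ℝ) ^ (f.natDegree : ℝ) := by
              rw [Real.rpow_natCast]
              gcongr
      have h4 : (N : ℝ) ^ (η / 2) * (N : ℝ) ^ (f.natDegree : ℝ) =
          (N : ℝ) ^ ((f.natDegree : ℝ) - 1 + η) * (N : ℝ) ^ (1 - η / 2) := by
        rw [← Real.rpow_add hN0, ← Real.rpow_add hN0]
        congr 1; ring
      rw [h4] at h3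
      exact le_of_mul_le_mul_left h3 (Real.rpow_pos_of_pos hN0 _)
  have hcard : big.card ≤ ∑ j ∈ R, (D j).card + Sm.card :=
    (Finset.card_le_card hcov).trans ((Finset.card_union_le _ _).trans
      (Nat.add_le_add_right Finset.card_biUnion_le _))
  have hSmc : (Sm.card : ℝ) ≤ C * (N : ℝ) ^ (1 - δ) := by
    apply hsmall N Sm
    intro n hn
    rw [hSm, Finset.mem_filter, Finset.mem_Icc] at hn
    exact ⟨hn.1.1, hn.1.2, hn.2⟩
  have h1 : (bigCount f k N : ℝ) = big.card := by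
    unfold bigCount
    congr
  have h2 : ∀ j, (dyCount f k N ((N : ℝ) * 2 ^ j) : ℝ) = (D j).card := by
    intro j
    unfold dyCount
    congr
  rw [h1]
  simp only [h2]
  calc (big.card : ℝ) ≤ ((∑ j ∈ R, (D j).card + Sm.card : ℕ) : ℝ) := by exact_mod_cast hcard
    _ = ∑ j ∈ R, ((D j).card : ℝ) + Sm.card := by push_cast; ring
    _ ≤ _ := by linarith

/-- **Dyadic reduction.** -/
theorem reduction_dyadic (f : ℤ[X]) (k : ℕ) (hirr : Irreducible (f.map (Int.castRingHom ℚ)))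
    (hk : 2 ≤ k) (hloc : ∀ p : ℕ, p.Prime → polyRootCountMod f (p ^ k) < p ^ k)
    (η : ℝ) (hη : 0 < η)
    (hE : ∃ c : ℝ, 0 < c ∧ ∃ (C : ℝ) (N₀ : ℕ), ∀ N : ℕ, N₀ ≤ N → ∀ P : ℝ, (N : ℝ) ≤ P →
      P ^ k ≤ (N : ℝ) ^ ((f.natDegree : ℝ) - 1 + η) →
      (dyCount f k N P : ℝ) ≤ C * (N : ℝ) ^ (1 - c)) :
    ∃ c : ℝ, 0 < c ∧
      HasProd (fun p : Nat.Primes => 1 - (polyRootCountMod f ((p : ℕ) ^ k) : ℝ) / ((p : ℕ) : ℝ) ^ k) c ∧
      Tendsto (fun N : ℕ => (powerFreeValueCount f k N : ℝ) / (N : ℝ)) atTop (𝓝 c) := by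
  classical
  apply reduction f k hirr hk hloc
  obtain ⟨c, hc, C, N₀, hE⟩ := hE
  obtain ⟨δ, C', N₁, hδ, hC', hbig⟩ := bigCount_le f hirr k hk η hη
  set e : ℝ := (f.natDegree : ℝ) - 1 + η with he
  -- bound for the number of dyadic ranges
  have hJ : ∀ N : ℕ, 1 ≤ N → ∀ j : ℕ, ((N : ℝ) * 2 ^ j) ^ k ≤ (N : ℝ) ^ e →
      (j : ℝ) ≤ |e| * Real.log N / Real.log 2 := by
    intro N hN j hj
    have hN1 : (1 : ℝ) ≤ N := by exact_mod_cast hN
    have hN0 : (0 : ℝ) < N := by linarith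
    have h1 : (2 : ℝ) ^ j ≤ ((N : ℝ) * 2 ^ j) ^ k := by
      have ha : (1 : ℝ) ≤ (N : ℝ) * 2 ^ j := by
        have : (1 : ℝ) ≤ 2 ^ j := one_le_pow₀ (by norm_num)
        nlinarith
      calc (2 : ℝ) ^ j ≤ (N : ℝ) * 2 ^ j := by
            have : (0 : ℝ) < 2 ^ j := by positivity
            nlinarith
        _ = ((N : ℝ) * 2 ^ j) ^ 1 := by ring
        _ ≤ ((N : ℝ) * 2 ^ j) ^ k := pow_le_pow_right₀ ha (by omega)
    have h2 := h1.trans hj
    have h3 := Real.log_le_log (by positivity) h2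
    rw [Real.log_pow, Real.log_rpow hN0] at h3
    have hlog2 : 0 < Real.log 2 := Real.log_pos (by norm_num)
    rw [le_div_iff₀ hlog2]
    refine h3.trans ?_
    have hlogN : 0 ≤ Real.log N := Real.log_nonneg hN1
    exact mul_le_mul_of_nonneg_right (le_abs_self e) hlogN
  have hkey : ∀ᶠ N : ℕ in atTop, (bigCount f k N : ℝ) / N ≤
      (|e| * Real.log N / Real.log 2 + 1) * (|C| * (N : ℝ) ^ (-c)) + C' * (N : ℝ) ^ (-δ) := by
    filter_upwards [eventually_ge_atTop N₀, eventually_ge_atTop N₁, eventually_ge_atTop 1]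
      with N hN0 hN1 hN
    have hNpos : (0 : ℝ) < N := by exact_mod_cast hN
    have hN1' : (1 : ℝ) ≤ N := by exact_mod_cast hN
    have hlogN : 0 ≤ Real.log N := Real.log_nonneg hN1'
    have hlog2 : 0 < Real.log 2 := Real.log_pos (by norm_num)
    set J : ℕ := ⌊|e| * Real.log N / Real.log 2⌋₊ + 1 with hJdef
    have hJ' : ∀ j : ℕ, ((N : ℝ) * 2 ^ j) ^ k ≤ (N : ℝ) ^ e → j < J := by
      intro j hj
      have := hJ N hN j hj
      rw [hJdef, Nat.lt_succ_iff]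
      exact Nat.le_floor this
    have h1 := hbig N hN1 J hJ'
    have h2 : (∑ j ∈ (Finset.range J).filter
        (fun j : ℕ => ((N : ℝ) * 2 ^ j) ^ k ≤ (N : ℝ) ^ e),
        (dyCount f k N ((N : ℝ) * 2 ^ j) : ℝ)) ≤ J * (|C| * (N : ℝ) ^ (1 - c)) := by
      calc _ ≤ ∑ j ∈ (Finset.range J).filter
            (fun j : ℕ => ((N : ℝ) * 2 ^ j) ^ k ≤ (N : ℝ) ^ e), (|C| * (N : ℝ) ^ (1 - c)) := by
            apply Finset.sum_le_sum
            intro j hj
            rw [Finset.mem_filter] at hj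
            refine (hE N hN0 _ ?_ hj.2).trans ?_
            · have : (1 : ℝ) ≤ 2 ^ j := one_le_pow₀ (by norm_num)
              nlinarith
            · gcongr
              exact le_abs_self C
        _ = (((Finset.range J).filter
            (fun j : ℕ => ((N : ℝ) * 2 ^ j) ^ k ≤ (N : ℝ) ^ e)).card : ℝ) *
              (|C| * (N : ℝ) ^ (1 - c)) := by
            rw [Finset.sum_const, nsmul_eq_mul]
        _ ≤ _ := by
            gcongr
            exact (Finset.card_filter_le _ _).trans (by simp)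
    have h3 : (J : ℝ) ≤ |e| * Real.log N / Real.log 2 + 1 := by
      rw [hJdef]
      push_cast
      have := Nat.floor_le (show 0 ≤ |e| * Real.log N / Real.log 2 by positivity)
      linarith
    have e1 : (N : ℝ) ^ (1 - c) = N * (N : ℝ) ^ (-c) := by
      rw [sub_eq_add_neg, Real.rpow_add hNpos, Real.rpow_one]
    have e2 : (N : ℝ) ^ (1 - δ) = N * (N : ℝ) ^ (-δ) := by
      rw [sub_eq_add_neg, Real.rpow_add hNpos, Real.rpow_one]
    rw [div_le_iff₀ hNpos]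
    calc (bigCount f k N : ℝ) ≤ J * (|C| * (N : ℝ) ^ (1 - c)) + C' * (N : ℝ) ^ (1 - δ) := by
          linarith
      _ ≤ (|e| * Real.log N / Real.log 2 + 1) * (|C| * (N : ℝ) ^ (1 - c))
            + C' * (N : ℝ) ^ (1 - δ) := by gcongr
      _ = _ := by rw [e1, e2]; ring
  have hlim : Tendsto (fun N : ℕ => (|e| * Real.log N / Real.log 2 + 1) *
      (|C| * (N : ℝ) ^ (-c)) + C' * (N : ℝ) ^ (-δ)) atTop (𝓝 0) := by
    have l1 : Tendsto (fun x : ℝ => Real.log x * x ^ (-c)) atTop (𝓝 0) := by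
      have := (isLittleO_log_rpow_atTop hc).tendsto_div_nhds_zero
      refine this.congr' ?_
      filter_upwards [eventually_gt_atTop 0] with x hx
      rw [Real.rpow_neg hx.le, div_eq_mul_inv]
    have l2 : Tendsto (fun x : ℝ => x ^ (-c)) atTop (𝓝 0) := tendsto_rpow_neg_atTop hc
    have l3 : Tendsto (fun x : ℝ => x ^ (-δ)) atTop (𝓝 0) := tendsto_rpow_neg_atTop hδ
    have l4 : Tendsto (fun x : ℝ => (|e| / Real.log 2 * |C|) * (Real.log x * x ^ (-c)) +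
        |C| * x ^ (-c) + C' * x ^ (-δ)) atTop (𝓝 0) := by
      have := ((l1.const_mul (|e| / Real.log 2 * |C|)).add (l2.const_mul |C|)).add
        (l3.const_mul C')
      simpa using this
    refine (l4.comp tendsto_natCast_atTop_atTop).congr ?_
    intro N
    simp only [Function.comp]
    ring
  exact tendsto_of_tendsto_of_tendsto_of_le_of_le' tendsto_const_nhds hlim
    (Eventually.of_forall fun N => by positivity) hkey

end Crest.Agent.R022.Dyadic712
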