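import Crest.Agent.R022.ExchA

/-!
# R022 (S0029): the abstract exchange lemma (block B4), part B: reduction and main theorem
-/

set_option autoImplicit false

namespace Crest.Agent.R022

namespace Exch

section Covers

variable {X F ι κ : Type}

/-- growth constant of one reduction -/
def gr (D m : ℕ) : ℕ := 1 + D + 2 ^ m * (D + 1) ^ m * D

/-- one reduction step -/
lemma reduce1 {Xs : Finset X} {PP : Finset ι} {mem : X → F → Prop} {rk : F → ℕ}
    {cl : ι → X → κ} {bad : F → ι → X → Prop} {lam : F → ι → X → ℤ} {D h K : ℕ}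
    (hc : ∀ v, 1 ≤ rk v → ∃ 𝒞 : Finset F, 𝒞.card ≤ D ∧ (∀ y ∈ 𝒞, rk y < rk v) ∧
        ∀ x ∈ Xs, mem x v → ∀ Q ⊆ PP, K < Q.card → (∀ p ∈ Q, bad v p x) → ∃ y ∈ 𝒞, mem x y)
    (hc' : ∀ v, 1 ≤ rk v → ∀ p ∈ PP, ∀ T ⊆ Xs,
        (∀ x ∈ T, mem x v ∧ ¬ bad v p x) → (∀ x ∈ T, ∀ y ∈ T, cl p x = cl p y) →
        (T.image (lam v p)).card ≤ D)
    (hd : ∀ v, 1 ≤ rk v → ∀ Q ⊆ PP, h ≤ Q.card → ∀ T ⊆ Xs,
        (∀ x ∈ T, mem x v) → (∀ p ∈ Q, ∀ x ∈ T, ¬ bad v p x) →
        (∀ p ∈ Q, ∀ x ∈ T, ∀ y ∈ T, cl p x = cl p y ∧ lam v p x = lam v p y) →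
        ∃ 𝒞 : Finset F, 𝒞.card ≤ D ∧ (∀ y ∈ 𝒞, rk y < rk v) ∧ ∀ x ∈ T, ∃ y ∈ 𝒞, mem x y)
    {Q : Finset ι} (hQ : Q ⊆ PP) {U : X → F} {c : ℕ}
    (hU : ∀ x ∈ Xs, mem x (U x)) (hUb : Bd Xs cl Q U c) :
    ∃ V : X → F, (∀ x ∈ Xs, mem x (V x)) ∧ Le Xs rk V U ∧
      Bd Xs cl Q V (c * gr D Q.card) ∧
      ∀ x ∈ Xs, (Red rk bad PP K h Q (U x) x → V x = U x) ∧
        (¬ Red rk bad PP K h Q (U x) x → rk (V x) < rk (U x)) := by
  classical
  -- covers (c)
  have hc1 : ∀ v : F, ∃ 𝒞 : Finset F, 𝒞.card ≤ D ∧ (1 ≤ rk v → (∀ y ∈ 𝒞, rk y < rk v) ∧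
        ∀ x ∈ Xs, mem x v → ∀ Q ⊆ PP, K < Q.card → (∀ p ∈ Q, bad v p x) →
          ∃ y ∈ 𝒞, mem x y) := by
    intro v
    by_cases hv : 1 ≤ rk v
    · obtain ⟨𝒞, h1, h2, h3⟩ := hc v hv
      exact ⟨𝒞, h1, fun _ => ⟨h2, h3⟩⟩
    · exact ⟨∅, by simp, fun h => absurd h hv⟩
  choose cc hcc1 hcc2 using hc1
  -- covers (d)
  have hd1 : ∀ k : F × Finset ι × Finset X, ∃ 𝒞 : Finset F, 𝒞.card ≤ D ∧
      (1 ≤ rk k.1 → k.2.1 ⊆ PP → h ≤ k.2.1.card → k.2.2 ⊆ Xs →
        (∀ x ∈ k.2.2, mem x k.1) → (∀ p ∈ k.2.1, ∀ x ∈ k.2.2, ¬ bad k.1 p x) →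
        (∀ p ∈ k.2.1, ∀ x ∈ k.2.2, ∀ y ∈ k.2.2, cl p x = cl p y ∧ lam k.1 p x = lam k.1 p y) →
        (∀ y ∈ 𝒞, rk y < rk k.1) ∧ ∀ x ∈ k.2.2, ∃ y ∈ 𝒞, mem x y) := by
    intro k
    by_cases hk : 1 ≤ rk k.1 ∧ k.2.1 ⊆ PP ∧ h ≤ k.2.1.card ∧ k.2.2 ⊆ Xs ∧
        (∀ x ∈ k.2.2, mem x k.1) ∧ (∀ p ∈ k.2.1, ∀ x ∈ k.2.2, ¬ bad k.1 p x) ∧
        (∀ p ∈ k.2.1, ∀ x ∈ k.2.2, ∀ y ∈ k.2.2, cl p x = cl p y ∧ lam k.1 p x = lam k.1 p y)
    · obtain ⟨k1, k2, k3, k4, k5, k6, k7⟩ := hk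
      obtain ⟨𝒞, h1, h2, h3⟩ := hd k.1 k1 k.2.1 k2 k3 k.2.2 k4 k5 k6 k7
      exact ⟨𝒞, h1, fun _ _ _ _ _ _ _ => ⟨h2, h3⟩⟩
    · exact ⟨∅, by simp, fun a1 a2 a3 a4 a5 a6 a7 => absurd ⟨a1, a2, a3, a4, a5, a6, a7⟩ hk⟩
  choose cd hcd1 hcd2 using hd1
  set gs : X → Finset ι := fun x => Q.filter (fun p => ¬ bad (U x) p x) with hgs
  set Tx : X → Finset X := fun x => (cls Xs cl Q x).filter
    (fun x' => U x' = U x ∧ gs x' = gs x ∧ ∀ p ∈ gs x, lam (U x) p x' = lam (U x) p x) with hTx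
  set key : X → F × Finset ι × Finset X := fun x => (U x, gs x, Tx x) with hkey
  have hself : ∀ x ∈ Xs, x ∈ Tx x := by
    intro x hx
    exact Finset.mem_filter.2 ⟨mem_cls.2 ⟨hx, fun _ _ => rfl⟩, rfl, rfl, fun _ _ => rfl⟩
  have hex : ∀ x : X, ∃ y : F, x ∈ Xs → mem x y ∧
      (y = U x ∨ (y ∈ cc (U x)) ∨ (1 ≤ rk (U x) ∧ y ∈ cd (key x))) ∧
      (Red rk bad PP K h Q (U x) x → y = U x) ∧
      (¬ Red rk bad PP K h Q (U x) x → rk y < rk (U x)) := by
    intro x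
    by_cases hx : x ∈ Xs
    swap
    · exact ⟨U x, fun h => absurd h hx⟩
    by_cases hred : Red rk bad PP K h Q (U x) x
    · exact ⟨U x, fun _ => ⟨hU x hx, Or.inl rfl, fun _ => rfl, fun h => absurd hred h⟩⟩
    have hred' := hred
    rw [Red] at hred'
    push Not at hred'
    obtain ⟨hr0, hr1⟩ := hred'
    have hr : 1 ≤ rk (U x) := Nat.one_le_iff_ne_zero.2 hr0
    by_cases hbadc : ∀ Q' ⊆ PP, (∀ p ∈ Q', bad (U x) p x) → Q'.card ≤ K
    · obtain ⟨Q', hQ', hg, hcard⟩ := hr1 hbadc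
      have hgsQ : Q' ⊆ gs x := fun p hp => Finset.mem_filter.2 ⟨hQ' hp, hg p hp⟩
      have hgs1 : gs x ⊆ PP := (Finset.filter_subset _ _).trans hQ
      have hcard2 : h ≤ (gs x).card := hcard.trans (Finset.card_le_card hgsQ)
      obtain ⟨h2, h3⟩ := hcd2 (key x) hr hgs1 hcard2
        (by
          intro x' hx'
          exact (mem_cls.1 (Finset.mem_filter.1 hx').1).1)
        (by
          intro x' hx'
          have h1 := Finset.mem_filter.1 hx'
          have h2 := hU x' (mem_cls.1 h1.1).1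
          rwa [h1.2.1] at h2)
        (by
          intro p hp x' hx'
          have h1 := Finset.mem_filter.1 hx'
          have h2 : p ∈ gs x' := by rw [h1.2.2.1]; exact hp
          have h3 := (Finset.mem_filter.1 h2).2
          rwa [h1.2.1] at h3)
        (by
          intro p hp x' hx' y' hy'
          have h1 := Finset.mem_filter.1 hx'
          have h2 := Finset.mem_filter.1 hy'
          have hpQ : p ∈ Q := (Finset.mem_filter.1 hp).1
          refine ⟨?_, ?_⟩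
          · rw [(mem_cls.1 h1.1).2 p hpQ, (mem_cls.1 h2.1).2 p hpQ]
          · change lam (U x) p x' = lam (U x) p y'
            rw [h1.2.2.2 p hp, h2.2.2.2 p hp])
      obtain ⟨y, hy1, hy2⟩ := h3 x (hself x hx)
      exact ⟨y, fun _ => ⟨hy2, Or.inr (Or.inr ⟨hr, hy1⟩), fun h => absurd h hred,
        fun _ => h2 y hy1⟩⟩
    · push Not at hbadc
      obtain ⟨Q', hQ', hb', hcard⟩ := hbadc
      obtain ⟨h2, h3⟩ := hcc2 (U x) hr
      obtain ⟨y, hy1, hy2⟩ := h3 x hx (hU x hx) Q' hQ' hcard hb'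
      exact ⟨y, fun _ => ⟨hy2, Or.inr (Or.inl hy1), fun h => absurd h hred,
        fun _ => h2 y hy1⟩⟩
  choose V hV using hex
  refine ⟨V, fun x hx => (hV x hx).1, ?_, ?_, fun x hx => (hV x hx).2.2⟩
  · intro x hx
    by_cases hred : Red rk bad PP K h Q (U x) x
    · rw [(hV x hx).2.2.1 hred]
      exact ⟨le_rfl, fun _ _ => rfl⟩
    · have := (hV x hx).2.2.2 hred
      exact ⟨this.le, fun he => absurd he this.ne⟩
  -- counting
  intro x0 hx0
  set T := cls Xs cl Q x0 with hT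
  set T1 := T.filter (fun x => 1 ≤ rk (U x)) with hT1
  have hsub : T.image V ⊆ T.image U ∪ (T.image U).biUnion cc ∪ (T1.image key).biUnion cd := by
    intro y hy
    obtain ⟨x, hx, rfl⟩ := Finset.mem_image.1 hy
    have hxX : x ∈ Xs := (mem_cls.1 hx).1
    rcases (hV x hxX).2.1 with h | h | h
    · rw [h]
      exact Finset.mem_union_left _ (Finset.mem_union_left _ (Finset.mem_image_of_mem _ hx))
    · exact Finset.mem_union_left _ (Finset.mem_union_right _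
        (Finset.mem_biUnion.2 ⟨U x, Finset.mem_image_of_mem _ hx, h⟩))
    · exact Finset.mem_union_right _ (Finset.mem_biUnion.2
        ⟨key x, Finset.mem_image_of_mem _ (Finset.mem_filter.2 ⟨hx, h.1⟩), h.2⟩)
  have hcU := hUb x0 hx0
  -- the number of keys
  set L : X → (ι → ℤ) := fun x p => if p ∈ gs x then lam (U x) p x else 0 with hL
  set key2 : X → F × Finset ι × (ι → ℤ) := fun x => (U x, gs x, L x) with hkey2
  have hk1 : (T1.image key).card ≤ (T1.image key2).card := by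
    refine card_image_le_of_factor T1 key2 key ?_
    intro x hx y hy hxy
    simp only [hkey2, Prod.mk.injEq] at hxy
    obtain ⟨e1, e2, e3⟩ := hxy
    have hxT := mem_cls.1 (Finset.mem_filter.1 hx).1
    have hyT := mem_cls.1 (Finset.mem_filter.1 hy).1
    simp only [hkey, Prod.mk.injEq]
    refine ⟨e1, e2, ?_⟩
    have hlam : ∀ p ∈ gs x, lam (U x) p x = lam (U y) p y := by
      intro p hp
      have := congrFun e3 p
      simp only [hL] at this
      rw [if_pos hp, if_pos (e2 ▸ hp)] at this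
      exact this
    ext z
    simp only [hTx, Finset.mem_filter, mem_cls]
    constructor
    · rintro ⟨⟨hz1, hz2⟩, hz3, hz4, hz5⟩
      refine ⟨⟨hz1, fun p hp => ?_⟩, hz3.trans e1, hz4.trans e2, fun p hp => ?_⟩
      · rw [hz2 p hp, hxT.2 p hp, hyT.2 p hp]
      · rw [← e2] at hp
        rw [← hlam p hp, ← e1]
        exact hz5 p hp
    · rintro ⟨⟨hz1, hz2⟩, hz3, hz4, hz5⟩
      refine ⟨⟨hz1, fun p hp => ?_⟩, hz3.trans e1.symm, hz4.trans e2.symm, fun p hp => ?_⟩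
      · rw [hz2 p hp, hxT.2 p hp, hyT.2 p hp]
      · rw [hlam p hp, e1]
        exact hz5 p (e2 ▸ hp)
  have hk2 : (T1.image key2).card ≤ (c * 2 ^ Q.card) * (D + 1) ^ Q.card := by
    have hsub2 : T1.image key2 ⊆ (T.image U ×ˢ Q.powerset).biUnion
        (fun vq => (T1.filter (fun x => U x = vq.1 ∧ gs x = vq.2)).image key2) := by
      intro k hk
      obtain ⟨x, hx, rfl⟩ := Finset.mem_image.1 hk
      refine Finset.mem_biUnion.2 ⟨(U x, gs x), ?_, ?_⟩
      · exact Finset.mem_product.2 ⟨Finset.mem_image_of_mem _ (Finset.mem_filter.1 hx).1,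
          Finset.mem_powerset.2 (Finset.filter_subset _ _)⟩
      · exact Finset.mem_image_of_mem _ (Finset.mem_filter.2 ⟨hx, rfl, rfl⟩)
    refine (Finset.card_le_card hsub2).trans ?_
    refine (Finset.card_biUnion_le_card_mul _ _ ((D + 1) ^ Q.card) ?_).trans ?_
    · rintro ⟨v, q⟩ hvq
      set S := T1.filter (fun x => U x = v ∧ gs x = q) with hS
      have hq : q ⊆ Q := Finset.mem_powerset.1 (Finset.mem_product.1 hvq).2
      have hSx : ∀ x ∈ S, x ∈ Xs ∧ (∀ p ∈ Q, cl p x = cl p x0) ∧ 1 ≤ rk v ∧ U x = v ∧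
          gs x = q := by
        intro x hx
        have h1 := Finset.mem_filter.1 hx
        have h2 := Finset.mem_filter.1 h1.1
        have h3 := mem_cls.1 h2.1
        exact ⟨h3.1, h3.2, h1.2.1 ▸ h2.2, h1.2.1, h1.2.2⟩
      by_cases hSe : S.Nonempty
      swap
      · rw [Finset.not_nonempty_iff_eq_empty] at hSe
        change (S.image key2).card ≤ _
        rw [hSe]; simp
      obtain ⟨s0, hs0⟩ := hSe
      have hrv : 1 ≤ rk v := (hSx s0 hs0).2.2.1
      have h1 : (S.image key2).card ≤ (S.image L).card := by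
        refine card_image_le_of_factor S L key2 ?_
        intro x hx y hy hxy
        have hx' := hSx x hx
        have hy' := hSx y hy
        simp only [hkey2, Prod.mk.injEq]
        exact ⟨by rw [hx'.2.2.2.1, hy'.2.2.2.1], by rw [hx'.2.2.2.2, hy'.2.2.2.2], hxy⟩
      refine h1.trans ?_
      have h2 : (S.image L).card ≤ (q.pi (fun p => S.image (lam v p))).card := by
        refine Finset.card_le_card_of_injOn (fun f => fun p _ => f p) ?_ ?_
        · intro f hf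
          obtain ⟨x, hx, rfl⟩ := Finset.mem_image.1 (Finset.mem_coe.1 hf)
          refine Finset.mem_coe.2 (Finset.mem_pi.2 fun p hp => ?_)
          have hx' := hSx x hx
          refine Finset.mem_image.2 ⟨x, hx, ?_⟩
          simp only [hL]
          rw [if_pos (by rw [hx'.2.2.2.2]; exact hp), hx'.2.2.2.1]
        · intro f hf g hg hfg
          obtain ⟨x, hx, rfl⟩ := Finset.mem_image.1 (Finset.mem_coe.1 hf)
          obtain ⟨y, hy, rfl⟩ := Finset.mem_image.1 (Finset.mem_coe.1 hg)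
          have hx' := hSx x hx
          have hy' := hSx y hy
          funext p
          by_cases hp : p ∈ q
          · exact congrFun (congrFun hfg p) hp
          · simp only [hL]
            rw [if_neg (by rw [hx'.2.2.2.2]; exact hp), if_neg (by rw [hy'.2.2.2.2]; exact hp)]
      refine h2.trans ?_
      rw [Finset.card_pi]
      calc ∏ p ∈ q, (S.image (lam v p)).card ≤ ∏ _p ∈ q, (D + 1) := by
            refine Finset.prod_le_prod (fun _ _ => Nat.zero_le _) fun p hp => ?_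
            refine le_trans ?_ (Nat.le_succ D)
            refine hc' v hrv p (hQ (hq hp)) S (fun x hx => (hSx x hx).1) ?_ ?_
            · intro x hx
              have hx' := hSx x hx
              refine ⟨?_, ?_⟩
              · have := hU x hx'.1
                rwa [hx'.2.2.2.1] at this
              · have : p ∈ gs x := by rw [hx'.2.2.2.2]; exact hp
                have := (Finset.mem_filter.1 this).2
                rwa [hx'.2.2.2.1] at this
            · intro x hx y hy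
              rw [(hSx x hx).2.1 p (hq hp), (hSx y hy).2.1 p (hq hp)]
        _ = (D + 1) ^ q.card := by rw [Finset.prod_const]
        _ ≤ (D + 1) ^ Q.card := Nat.pow_le_pow_right (by omega) (Finset.card_le_card hq)
    · rw [Finset.card_product, Finset.card_powerset]
      gcongr
  calc (T.image V).card ≤ _ := Finset.card_le_card hsub
    _ ≤ (T.image U ∪ (T.image U).biUnion cc).card + ((T1.image key).biUnion cd).card :=
        Finset.card_union_le _ _
    _ ≤ ((T.image U).card + ((T.image U).biUnion cc).card) + ((T1.image key).biUnion cd).card := by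
        gcongr
        exact Finset.card_union_le _ _
    _ ≤ (c + c * D) + ((c * 2 ^ Q.card) * (D + 1) ^ Q.card) * D := by
        gcongr
        · refine (Finset.card_biUnion_le_card_mul _ _ D (fun v _ => hcc1 v)).trans ?_
          gcongr
        · refine (Finset.card_biUnion_le_card_mul _ _ D (fun v _ => hcd1 v)).trans ?_
          gcongr
          exact hk1.trans hk2
    _ = c * gr D Q.card := by
        unfold gr
        ring

/-- iterated reduction -/
lemma reduceAll {Xs : Finset X} {PP : Finset ι} {mem : X → F → Prop} {rk : F → ℕ}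
    {cl : ι → X → κ} {bad : F → ι → X → Prop} {lam : F → ι → X → ℤ} {n D h K : ℕ}
    (hn : ∀ v, rk v ≤ n)
    (hc : ∀ v, 1 ≤ rk v → ∃ 𝒞 : Finset F, 𝒞.card ≤ D ∧ (∀ y ∈ 𝒞, rk y < rk v) ∧
        ∀ x ∈ Xs, mem x v → ∀ Q ⊆ PP, K < Q.card → (∀ p ∈ Q, bad v p x) → ∃ y ∈ 𝒞, mem x y)
    (hc' : ∀ v, 1 ≤ rk v → ∀ p ∈ PP, ∀ T ⊆ Xs,
        (∀ x ∈ T, mem x v ∧ ¬ bad v p x) → (∀ x ∈ T, ∀ y ∈ T, cl p x = cl p y) →
        (T.image (lam v p)).card ≤ D)
    (hd : ∀ v, 1 ≤ rk v → ∀ Q ⊆ PP, h ≤ Q.card → ∀ T ⊆ Xs,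
        (∀ x ∈ T, mem x v) → (∀ p ∈ Q, ∀ x ∈ T, ¬ bad v p x) →
        (∀ p ∈ Q, ∀ x ∈ T, ∀ y ∈ T, cl p x = cl p y ∧ lam v p x = lam v p y) →
        ∃ 𝒞 : Finset F, 𝒞.card ≤ D ∧ (∀ y ∈ 𝒞, rk y < rk v) ∧ ∀ x ∈ T, ∃ y ∈ 𝒞, mem x y)
    {Q : Finset ι} (hQ : Q ⊆ PP) {U : X → F} {c : ℕ}
    (hU : ∀ x ∈ Xs, mem x (U x)) (hUb : Bd Xs cl Q U c) :
    ∃ V : X → F, (∀ x ∈ Xs, mem x (V x)) ∧ Le Xs rk V U ∧
      Bd Xs cl Q V (c * gr D Q.card ^ n) ∧
      ∀ x ∈ Xs, Red rk bad PP K h Q (V x) x := by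
  have main : ∀ k : ℕ, k ≤ n → ∃ V : X → F, (∀ x ∈ Xs, mem x (V x)) ∧ Le Xs rk V U ∧
      Bd Xs cl Q V (c * gr D Q.card ^ k) ∧
      ∀ x ∈ Xs, Red rk bad PP K h Q (V x) x ∨ rk (V x) + k ≤ n := by
    intro k
    induction k with
    | zero =>
      intro _
      exact ⟨U, hU, Le.refl U, by simpa using hUb, fun x _ => Or.inr (by simpa using hn (U x))⟩
    | succ k ih =>
      intro hk
      obtain ⟨V, hV1, hV2, hV3, hV4⟩ := ih (by omega)
      obtain ⟨W, hW1, hW2, hW3, hW4⟩ := reduce1 hc hc' hd hQ hV1 hV3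
      refine ⟨W, hW1, hW2.trans hV2, ?_, ?_⟩
      · rw [pow_succ, ← mul_assoc]
        exact hW3
      · intro x hx
        by_cases hred : Red rk bad PP K h Q (V x) x
        · left
          rw [(hW4 x hx).1 hred]
          exact hred
        · right
          have h1 := (hW4 x hx).2 hred
          rcases hV4 x hx with h2 | h2
          · exact absurd h2 hred
          · omega
  obtain ⟨V, hV1, hV2, hV3, hV4⟩ := main n le_rfl
  refine ⟨V, hV1, hV2, hV3, fun x hx => ?_⟩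
  rcases hV4 x hx with h1 | h1
  · exact h1
  · left; omega

/-- growth of the iterated merge -/
def mb (D c : ℕ) : ℕ → ℕ
  | 0 => 1
  | j + 1 => mb D c j + c + mb D c j * c * D

/-- iterated merging -/
lemma mergeAll {Xs : Finset X} {mem : X → F → Prop} {rk : F → ℕ} {D : ℕ}
    (v0 : F) (hv0 : ∀ x ∈ Xs, mem x v0)
    (hb : ∀ v v', v ≠ v' → rk v = rk v' → 1 ≤ rk v → ∃ 𝒞 : Finset F, 𝒞.card ≤ D ∧
        (∀ y ∈ 𝒞, rk y < rk v) ∧ ∀ x ∈ Xs, mem x v → mem x v' → ∃ y ∈ 𝒞, mem x y)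
    {cl : ι → X → κ} {Q : Finset ι} {W : ι → X → F} {c : ℕ} (s : Finset ι) :
    (∀ p ∈ s, ∀ x ∈ Xs, mem x (W p x)) → (∀ p ∈ s, Bd Xs cl Q (W p) c) →
    ∃ M : X → F, (∀ x ∈ Xs, mem x (M x)) ∧ (∀ p ∈ s, Le Xs rk M (W p)) ∧
      Bd Xs cl Q M (mb D c s.card) := by
  classical
  induction s using Finset.induction_on with
  | empty =>
    intro _ _
    refine ⟨fun _ => v0, hv0, by simp, ?_⟩
    intro x0 _
    simp only [Finset.card_empty, mb]
    refine (Finset.card_le_card (t := {v0}) ?_).trans (by simp)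
    intro y hy
    obtain ⟨x, _, rfl⟩ := Finset.mem_image.1 hy
    simp
  | insert p s hps ih =>
    intro hW hWb
    obtain ⟨M, hM1, hM2, hM3⟩ := ih (fun q hq => hW q (Finset.mem_insert_of_mem hq))
      (fun q hq => hWb q (Finset.mem_insert_of_mem hq))
    obtain ⟨M', h1, h2, h3, h4⟩ := merge hb hM1 (hW p (Finset.mem_insert_self _ _)) hM3
      (hWb p (Finset.mem_insert_self _ _))
    refine ⟨M', h1, ?_, ?_⟩
    · intro q hq
      rcases Finset.mem_insert.1 hq with rfl | hq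
      · exact h3
      · exact h2.trans (hM2 q hq)
    · rw [Finset.card_insert_of_notMem hps]
      exact h4

/-- the constants -/
def cst (D n : ℕ) : ℕ → ℕ
  | 0 => gr D 0 ^ n
  | m + 1 => mb D (cst D n m) (m + 1) * gr D (m + 1) ^ n

lemma cst_eq (D n m : ℕ) (c : ℕ) (hc : ∀ k, m = k + 1 → c = cst D n k) :
    mb D c m * gr D m ^ n = cst D n m := by
  cases m with
  | zero => simp [mb, cst]
  | succ k => rw [hc k rfl]; rfl

/-- The family `V_Q`. -/
lemma family {Xs : Finset X} {PP : Finset ι} {mem : X → F → Prop} {rk : F → ℕ}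
    [DecidableEq ι]
    {cl : ι → X → κ} {bad : F → ι → X → Prop} {lam : F → ι → X → ℤ} {n D h K : ℕ}
    (hn : ∀ v, rk v ≤ n) (v0 : F) (hv0 : ∀ x ∈ Xs, mem x v0)
    (hb : ∀ v v', v ≠ v' → rk v = rk v' → 1 ≤ rk v → ∃ 𝒞 : Finset F, 𝒞.card ≤ D ∧
        (∀ y ∈ 𝒞, rk y < rk v) ∧ ∀ x ∈ Xs, mem x v → mem x v' → ∃ y ∈ 𝒞, mem x y)
    (hc : ∀ v, 1 ≤ rk v → ∃ 𝒞 : Finset F, 𝒞.card ≤ D ∧ (∀ y ∈ 𝒞, rk y < rk v) ∧
        ∀ x ∈ Xs, mem x v → ∀ Q ⊆ PP, K < Q.card → (∀ p ∈ Q, bad v p x) → ∃ y ∈ 𝒞, mem x y)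
    (hc' : ∀ v, 1 ≤ rk v → ∀ p ∈ PP, ∀ T ⊆ Xs,
        (∀ x ∈ T, mem x v ∧ ¬ bad v p x) → (∀ x ∈ T, ∀ y ∈ T, cl p x = cl p y) →
        (T.image (lam v p)).card ≤ D)
    (hd : ∀ v, 1 ≤ rk v → ∀ Q ⊆ PP, h ≤ Q.card → ∀ T ⊆ Xs,
        (∀ x ∈ T, mem x v) → (∀ p ∈ Q, ∀ x ∈ T, ¬ bad v p x) →
        (∀ p ∈ Q, ∀ x ∈ T, ∀ y ∈ T, cl p x = cl p y ∧ lam v p x = lam v p y) →
        ∃ 𝒞 : Finset F, 𝒞.card ≤ D ∧ (∀ y ∈ 𝒞, rk y < rk v) ∧ ∀ x ∈ T, ∃ y ∈ 𝒞, mem x y)
    (m : ℕ) :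
    ∃ V : Finset ι → X → F, ∀ Q ⊆ PP, Q.card ≤ m →
      (∀ x ∈ Xs, mem x (V Q x)) ∧ (∀ p ∈ Q, Le Xs rk (V Q) (V (Q.erase p))) ∧
      Bd Xs cl Q (V Q) (cst D n Q.card) ∧ ∀ x ∈ Xs, Red rk bad PP K h Q (V Q x) x := by
  induction m with
  | zero =>
    obtain ⟨M, hM1, -, hM3⟩ := mergeAll (cl := cl) (Q := ∅) (W := fun _ _ => v0) (c := 0)
      v0 hv0 hb (∅ : Finset ι) (by simp) (by simp)
    obtain ⟨V, hV1, hV2, hV3, hV4⟩ := reduceAll hn hc hc' hd (Finset.empty_subset PP) hM1 hM3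
    refine ⟨fun _ => V, fun Q hQ hQ0 => ?_⟩
    have : Q = ∅ := Finset.card_eq_zero.1 (by omega)
    subst this
    refine ⟨hV1, by simp, ?_, hV4⟩
    have := cst_eq D n 0 0 (by intro k hk; omega)
    simpa [mb, cst] using hV3
  | succ m ih =>
    obtain ⟨V, hV⟩ := ih
    have hex : ∀ Q : Finset ι, ∃ V' : X → F, Q ⊆ PP → Q.card = m + 1 →
        (∀ x ∈ Xs, mem x (V' x)) ∧ (∀ p ∈ Q, Le Xs rk V' (V (Q.erase p))) ∧
        Bd Xs cl Q V' (cst D n Q.card) ∧ ∀ x ∈ Xs, Red rk bad PP K h Q (V' x) x := by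
      intro Q
      by_cases hQ : Q ⊆ PP ∧ Q.card = m + 1
      swap
      · exact ⟨fun _ => v0, fun h1 h2 => absurd ⟨h1, h2⟩ hQ⟩
      obtain ⟨hQ1, hQ2⟩ := hQ
      have hVp : ∀ p ∈ Q, (∀ x ∈ Xs, mem x (V (Q.erase p) x)) ∧
          Bd Xs cl Q (V (Q.erase p)) (cst D n m) := by
        intro p hp
        have hcard : (Q.erase p).card = m := by rw [Finset.card_erase_of_mem hp, hQ2]; rfl
        obtain ⟨h1, -, h3, -⟩ := hV (Q.erase p) ((Finset.erase_subset _ _).trans hQ1)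
          (by omega)
        rw [hcard] at h3
        exact ⟨h1, h3.mono_set (Finset.erase_subset _ _)⟩
      obtain ⟨M, hM1, hM2, hM3⟩ := mergeAll (cl := cl) (Q := Q)
        (W := fun p => V (Q.erase p)) (c := cst D n m) v0 hv0 hb Q
        (fun p hp => (hVp p hp).1) (fun p hp => (hVp p hp).2)
      obtain ⟨V', hV1, hV2, hV3, hV4⟩ := reduceAll hn hc hc' hd hQ1 hM1 hM3
      refine ⟨V', fun _ _ => ⟨hV1, fun p hp => hV2.trans (hM2 p hp), ?_, hV4⟩⟩
      rw [hQ2] at hV3 ⊢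
      exact hV3
    choose V' hV' using hex
    refine ⟨fun Q => if Q.card ≤ m then V Q else V' Q, fun Q hQ hQm => ?_⟩
    by_cases hle : Q.card ≤ m
    · have hle' : ∀ p, (Q.erase p).card ≤ m := fun p =>
        (Finset.card_le_card (Finset.erase_subset _ _)).trans hle
      simp only [if_pos hle, if_pos (hle' _)]
      exact hV Q hQ hle
    · have hcard : Q.card = m + 1 := by omega
      obtain ⟨h1, h2, h3, h4⟩ := hV' Q hQ hcard
      simp only [if_neg hle]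
      refine ⟨h1, fun p hp => ?_, h3, h4⟩
      have : (Q.erase p).card ≤ m := by rw [Finset.card_erase_of_mem hp, hcard]; rfl
      simp only [if_pos this]
      exact h2 p hp

end Covers

set_option linter.unusedVariables false in
/-- **The abstract exchange lemma.** -/
theorem exchange (n D h K h' w : ℕ) (hh : 1 ≤ h) (hw : 0 < w)
    (hcond : n * (h' + w) + (h + 2) * w ≤ h' * w) :
    ∃ L C : ℕ, ∀ (X F ι κ : Type) [DecidableEq X] [DecidableEq F] [DecidableEq ι] [DecidableEq κ]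
      (Xs : Finset X) (PP : Finset ι) (mem : X → F → Prop) (rk : F → ℕ)
      (cl : ι → X → κ) (bad : F → ι → X → Prop) (lam : F → ι → X → ℤ) (B : ℕ),
      PP.card = L →
      (∀ v, rk v ≤ n) →
      -- (a) a top member
      (∃ v0, ∀ x ∈ Xs, mem x v0) →
      -- (b) intersections of distinct members of the same rank
      (∀ v v', v ≠ v' → rk v = rk v' → 1 ≤ rk v → ∃ 𝒞 : Finset F, 𝒞.card ≤ D ∧
        (∀ y ∈ 𝒞, rk y < rk v) ∧ ∀ x ∈ Xs, mem x v → mem x v' → ∃ y ∈ 𝒞, mem x y) →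
      -- (c) points with many bad primes
      (∀ v, 1 ≤ rk v → ∃ 𝒞 : Finset F, 𝒞.card ≤ D ∧ (∀ y ∈ 𝒞, rk y < rk v) ∧
        ∀ x ∈ Xs, mem x v → ∀ Q ⊆ PP, K < Q.card → (∀ p ∈ Q, bad v p x) → ∃ y ∈ 𝒞, mem x y) →
      -- (c') few labels on each class
      (∀ v, 1 ≤ rk v → ∀ p ∈ PP, ∀ T ⊆ Xs,
        (∀ x ∈ T, mem x v ∧ ¬ bad v p x) → (∀ x ∈ T, ∀ y ∈ T, cl p x = cl p y) →
        (T.image (lam v p)).card ≤ D) →
      -- (d) level step
      (∀ v, 1 ≤ rk v → ∀ Q ⊆ PP, h ≤ Q.card → ∀ T ⊆ Xs,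
        (∀ x ∈ T, mem x v) → (∀ p ∈ Q, ∀ x ∈ T, ¬ bad v p x) →
        (∀ p ∈ Q, ∀ x ∈ T, ∀ y ∈ T, cl p x = cl p y ∧ lam v p x = lam v p y) →
        ∃ 𝒞 : Finset F, 𝒞.card ≤ D ∧ (∀ y ∈ 𝒞, rk y < rk v) ∧ ∀ x ∈ T, ∃ y ∈ 𝒞, mem x y) →
      -- number of classes
      (∀ Q ⊆ PP, Q.card ≤ h' + w → (Xs.image (fun x => fun p : Q => cl p x)).card ≤ B) →
      ∃ 𝒢 : Finset F, 𝒢.card ≤ C * B ∧ (∀ y ∈ 𝒢, rk y = 0) ∧ ∀ x ∈ Xs, ∃ y ∈ 𝒢, mem x y := by
  refine ⟨h' + w + w * K, 2 ^ (h' + w + w * K) *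
    ∑ m ∈ Finset.range (h' + w + 1), cst D n m, ?_⟩
  intro X F ι κ _ _ _ _ Xs PP mem rk cl bad lam B hL hn hv0 hb hc hc' hd hB
  obtain ⟨v0, hv0⟩ := hv0
  obtain ⟨V, hV⟩ := family hn v0 hv0 hb hc hc' hd (h' + w)
  classical
  set 𝒬 := PP.powerset.filter (fun Q => Q.card ≤ h' + w) with h𝒬
  refine ⟨𝒬.biUnion (fun Q => (Xs.image (V Q)).filter (fun y => rk y = 0)), ?_, ?_, ?_⟩
  · -- cardinality
    refine (Finset.card_biUnion_le_card_mul _ _
      (B * ∑ m ∈ Finset.range (h' + w + 1), cst D n m) ?_).trans ?_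
    · intro Q hQ
      obtain ⟨hQ1, hQ2⟩ := Finset.mem_filter.1 hQ
      rw [Finset.mem_powerset] at hQ1
      refine (Finset.card_le_card (Finset.filter_subset _ _)).trans ?_
      obtain ⟨-, -, hbd, -⟩ := hV Q hQ1 hQ2
      -- image over all classes
      set ks := Xs.image (fun x => fun p : Q => cl p x) with hks
      have hsub : Xs.image (V Q) ⊆ ks.biUnion
          (fun k => (Xs.filter (fun x => (fun p : Q => cl p x) = k)).image (V Q)) := by
        intro y hy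
        obtain ⟨x, hx, rfl⟩ := Finset.mem_image.1 hy
        exact Finset.mem_biUnion.2 ⟨_, Finset.mem_image_of_mem _ hx,
          Finset.mem_image_of_mem _ (Finset.mem_filter.2 ⟨hx, rfl⟩)⟩
      refine (Finset.card_le_card hsub).trans ?_
      refine (Finset.card_biUnion_le_card_mul _ _ (cst D n Q.card) ?_).trans ?_
      · intro k hk
        obtain ⟨x0, hx0, rfl⟩ := Finset.mem_image.1 hk
        have e0 : ((cls Xs cl Q x0).image (V Q)).card ≤ cst D n Q.card := by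
          convert hbd x0 hx0
        refine (Finset.card_le_card (Finset.image_subset_image ?_)).trans e0
        intro x hx
        obtain ⟨hx1, hx2⟩ := Finset.mem_filter.1 hx
        exact mem_cls.2 ⟨hx1, fun p hp => congrFun hx2 ⟨p, hp⟩⟩
      · refine Nat.mul_le_mul (hB Q hQ1 hQ2) ?_
        exact Finset.single_le_sum (f := fun m => cst D n m) (fun _ _ => Nat.zero_le _)
          (Finset.mem_range.2 (by omega))
    · have : 𝒬.card ≤ 2 ^ (h' + w + w * K) := by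
        refine (Finset.card_le_card (Finset.filter_subset _ _)).trans ?_
        rw [Finset.card_powerset, hL]
      calc 𝒬.card * (B * ∑ m ∈ Finset.range (h' + w + 1), cst D n m)
          ≤ 2 ^ (h' + w + w * K) * (B * ∑ m ∈ Finset.range (h' + w + 1), cst D n m) := by
            gcongr
        _ = _ := by ring
  · intro y hy
    obtain ⟨Q, _, hy⟩ := Finset.mem_biUnion.1 hy
    exact (Finset.mem_filter.1 hy).2
  · intro x hx
    by_contra hcon
    have hne : ∀ Q ⊆ PP, Q.card ≤ h' + w → 1 ≤ rk (V Q x) := by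
      intro Q hQ hQc
      by_contra h0
      apply hcon
      refine ⟨V Q x, Finset.mem_biUnion.2 ⟨Q, Finset.mem_filter.2
        ⟨Finset.mem_powerset.2 hQ, hQc⟩, Finset.mem_filter.2
        ⟨Finset.mem_image_of_mem _ hx, by omega⟩⟩, (hV Q hQ hQc).1 x hx⟩
    refine averaging n K h h' w hw hcond PP hL.ge (fun Q => rk (V Q x))
      (fun Q hQ hQc => ⟨hne Q hQ hQc, hn _⟩)
      (fun S => PP.filter (fun p => bad (V S x) p x)) ?_ ?_
    · intro S hS hSc
      rcases (hV S hS hSc).2.2.2 x hx with h0 | ⟨h1, -⟩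
      · have := hne S hS hSc
        omega
      · refine h1 _ (Finset.filter_subset _ _) ?_
        intro p hp
        exact (Finset.mem_filter.1 (Finset.mem_filter.1 hp).2).2
    · intro Q hQ hQc
      obtain ⟨-, hle, -, hred⟩ := hV Q hQ hQc
      rcases hred x hx with h0 | ⟨-, hgood⟩
      · have := hne Q hQ hQc
        omega
      have hg := hgood (Q.filter (fun p => ¬ bad (V Q x) p x)) (Finset.filter_subset _ _)
        (fun p hp => (Finset.mem_filter.1 hp).2)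
      have hsub : Q ⊆ Q.filter (fun p => ¬ bad (V Q x) p x) ∪
          (Q.filter (fun p => V Q x ≠ V (Q.erase p) x) ∪
            Q.filter (fun p => p ∈ PP.filter (fun p' => bad (V (Q.erase p) x) p' x))) := by
        intro p hp
        by_cases hg1 : bad (V Q x) p x
        · refine Finset.mem_union_right _ ?_
          by_cases heq : V Q x = V (Q.erase p) x
          · refine Finset.mem_union_right _ (Finset.mem_filter.2 ⟨hp,
              Finset.mem_filter.2 ⟨hQ hp, ?_⟩⟩)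
            rw [← heq]; exact hg1
          · exact Finset.mem_union_left _ (Finset.mem_filter.2 ⟨hp, heq⟩)
        · exact Finset.mem_union_left _ (Finset.mem_filter.2 ⟨hp, hg1⟩)
      have hcard := (Finset.card_le_card hsub).trans (Finset.card_union_le _ _)
      have hcard2 := hcard.trans (Nat.add_le_add_left (Finset.card_union_le _ _) _)
      have hD : ((Q.filter (fun p => V Q x ≠ V (Q.erase p) x)).card : ℚ) ≤
          ∑ p ∈ Q, ((rk (V (Q.erase p) x) : ℚ) - rk (V Q x)) := by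
        rw [Finset.card_filter]
        push_cast
        refine Finset.sum_le_sum fun p hp => ?_
        have h1 := hle p hp x hx
        split_ifs with hne'
        · have hlt : rk (V Q x) < rk (V (Q.erase p) x) := by
            rcases lt_or_eq_of_le h1.1 with h2 | h2
            · exact h2
            · exact absurd (h1.2 h2 (hne Q hQ hQc)) hne'
          have : ((rk (V Q x) : ℚ)) + 1 ≤ rk (V (Q.erase p) x) := by exact_mod_cast hlt
          linarith
        · have : ((rk (V Q x) : ℚ)) ≤ rk (V (Q.erase p) x) := by exact_mod_cast h1.1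
          linarith
      have hcard3 : (Q.card : ℚ) ≤ (Q.filter (fun p => ¬ bad (V Q x) p x)).card +
          ((Q.filter (fun p => V Q x ≠ V (Q.erase p) x)).card +
          (Q.filter (fun p => p ∈ PP.filter (fun p' => bad (V (Q.erase p) x) p' x))).card) := by
        exact_mod_cast hcard2
      have hg' : ((Q.filter (fun p => ¬ bad (V Q x) p x)).card : ℚ) ≤ h := by
        exact_mod_cast hg.le
      linarith

end Exch

end Crest.Agent.R022
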