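import Mathlib

/-!
# R022 (S0029): the abstract exchange lemma (block B4), part A: averaging and merging
-/

set_option autoImplicit false

namespace Crest.Agent.R022

namespace Exch

/-! ### Averaging over subsets -/

section Averaging

variable {ι : Type} [DecidableEq ι]

lemma sum_erase (PP : Finset ι) (m : ℕ) (f : Finset ι → ι → ℚ) :
    ∑ Q ∈ PP.powersetCard (m + 1), ∑ p ∈ Q, f (Q.erase p) p
      = ∑ S ∈ PP.powersetCard m, ∑ p ∈ PP \ S, f S p := by
  rw [Finset.sum_sigma', Finset.sum_sigma']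
  refine Finset.sum_nbij' (fun q => ⟨q.1.erase q.2, q.2⟩) (fun s => ⟨insert s.2 s.1, s.2⟩)
    ?_ ?_ ?_ ?_ ?_
  · rintro ⟨Q, p⟩ hq
    simp only [Finset.mem_sigma, Finset.mem_powersetCard, Finset.mem_sdiff] at hq ⊢
    obtain ⟨⟨hQ, hc⟩, hp⟩ := hq
    refine ⟨⟨(Finset.erase_subset _ _).trans hQ, ?_⟩, hQ hp, by simp⟩
    rw [Finset.card_erase_of_mem hp, hc]; rfl
  · rintro ⟨S, p⟩ hs
    simp only [Finset.mem_sigma, Finset.mem_powersetCard, Finset.mem_sdiff] at hs ⊢
    obtain ⟨⟨hS, hc⟩, hp, hpS⟩ := hs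
    refine ⟨⟨?_, ?_⟩, by simp⟩
    · intro x hx
      rcases Finset.mem_insert.1 hx with rfl | hx
      · exact hp
      · exact hS hx
    · rw [Finset.card_insert_of_notMem hpS, hc]
  · rintro ⟨Q, p⟩ hq
    simp only [Finset.mem_sigma, Finset.mem_powersetCard] at hq
    simp [Finset.insert_erase hq.2]
  · rintro ⟨S, p⟩ hs
    simp only [Finset.mem_sigma, Finset.mem_powersetCard, Finset.mem_sdiff] at hs
    simp [Finset.erase_insert hs.2.2]
  · rintro ⟨Q, p⟩ hq
    rfl

/-- The averaging argument. -/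
lemma averaging (n K h h' w : ℕ) (hw : 0 < w)
    (hcond : n * (h' + w) + (h + 2) * w ≤ h' * w) (PP : Finset ι)
    (hL : h' + w + w * K ≤ PP.card) (r : Finset ι → ℕ)
    (hr : ∀ Q ⊆ PP, Q.card ≤ h' + w → 1 ≤ r Q ∧ r Q ≤ n)
    (bd : Finset ι → Finset ι)
    (hbd : ∀ S ⊆ PP, S.card ≤ h' + w → (PP.filter (fun p => p ∈ bd S)).card ≤ K)
    (hmain : ∀ Q ⊆ PP, Q.card ≤ h' + w → (Q.card : ℚ) ≤ h +
      ∑ p ∈ Q, ((r (Q.erase p) : ℚ) - r Q) + (Q.filter (fun p => p ∈ bd (Q.erase p))).card) :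
    False := by
  set L := PP.card with hLdef
  have hh' : 0 < h' := by
    rcases Nat.eq_zero_or_pos h' with h0 | h0
    · subst h0; nlinarith [Nat.zero_le (n * (0 + w)), Nat.zero_le (h * w)]
    · exact h0
  set N : ℕ → ℚ := fun m => (L.choose m : ℚ) with hN
  set R : ℕ → ℚ := fun m => ∑ S ∈ PP.powersetCard m, (r S : ℚ) with hR
  have hNpos : ∀ m, m ≤ h' + w → 0 < N m := by
    intro m hm
    simp only [hN]
    exact_mod_cast Nat.choose_pos (by omega)
  -- bounds on averages
  have hRlo : ∀ m, m ≤ h' + w → N m ≤ R m := by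
    intro m hm
    simp only [hN, hR]
    rw [hLdef, ← Finset.card_powersetCard, Finset.card_eq_sum_ones, Nat.cast_sum]
    refine Finset.sum_le_sum fun S hS => ?_
    rw [Finset.mem_powersetCard] at hS
    exact_mod_cast (hr S hS.1 (by omega)).1
  have hRhi : ∀ m, m ≤ h' + w → R m ≤ n * N m := by
    intro m hm
    simp only [hN, hR]
    rw [hLdef, ← Finset.card_powersetCard, Finset.card_eq_sum_ones, Nat.cast_sum, Finset.mul_sum]
    refine Finset.sum_le_sum fun S hS => ?_
    rw [Finset.mem_powersetCard] at hS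
    simpa using (show (r S : ℚ) ≤ n by exact_mod_cast (hr S hS.1 (by omega)).2)
  set a : ℕ → ℚ := fun m => R m / N m with ha
  have halo : ∀ m, m ≤ h' + w → 1 ≤ a m := by
    intro m hm
    simp only [ha]
    rw [le_div_iff₀ (hNpos m hm), one_mul]
    exact hRlo m hm
  have hahi : ∀ m, m ≤ h' + w → a m ≤ n := by
    intro m hm
    simp only [ha]
    rw [div_le_iff₀ (hNpos m hm)]
    exact hRhi m hm
  -- the main inequality for each level
  have hlev : ∀ m, h' ≤ m → m < h' + w →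
      (1 : ℚ) ≤ h / (m + 1) + (a m - a (m + 1)) + K / ((L : ℚ) - m) := by
    intro m hm1 hm2
    have hchoose : N (m + 1) * (m + 1) = N m * ((L : ℚ) - m) := by
      have := Nat.choose_succ_right_eq L m
      simp only [hN]
      have hmL : m ≤ L := by omega
      have h2 : ((L - m : ℕ) : ℚ) = (L : ℚ) - m := by push_cast [Nat.cast_sub hmL]; ring
      rw [← h2]
      exact_mod_cast this
    have hsum : ∑ Q ∈ PP.powersetCard (m + 1), (Q.card : ℚ) ≤
        ∑ Q ∈ PP.powersetCard (m + 1), ((h : ℚ) +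
          ∑ p ∈ Q, ((r (Q.erase p) : ℚ) - r Q) +
            (Q.filter (fun p => p ∈ bd (Q.erase p))).card) := by
      refine Finset.sum_le_sum fun Q hQ => ?_
      rw [Finset.mem_powersetCard] at hQ
      exact hmain Q hQ.1 (by omega)
    have h1 : ∑ Q ∈ PP.powersetCard (m + 1), (Q.card : ℚ) = N (m + 1) * (m + 1) := by
      rw [Finset.sum_congr rfl (g := fun _ => ((m : ℚ) + 1))]
      · rw [Finset.sum_const, Finset.card_powersetCard, nsmul_eq_mul]
      · intro Q hQ
        rw [Finset.mem_powersetCard] at hQ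
        rw [hQ.2]; push_cast; ring
    have h2 : ∑ Q ∈ PP.powersetCard (m + 1), (h : ℚ) = N (m + 1) * h := by
      rw [Finset.sum_const, Finset.card_powersetCard, nsmul_eq_mul]
    have h3 : ∑ Q ∈ PP.powersetCard (m + 1), ∑ p ∈ Q, ((r (Q.erase p) : ℚ) - r Q) =
        ((L : ℚ) - m) * R m - (m + 1) * R (m + 1) := by
      simp only [Finset.sum_sub_distrib]
      rw [sum_erase PP m (fun S _ => (r S : ℚ))]
      congr 1
      · simp only [hR]
        rw [Finset.mul_sum]
        refine Finset.sum_congr rfl fun S hS => ?_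
        rw [Finset.mem_powersetCard] at hS
        rw [Finset.sum_const, Finset.card_sdiff_of_subset hS.1, hS.2, nsmul_eq_mul]
        have hmL : m ≤ L := by omega
        rw [← hLdef, Nat.cast_sub hmL]
      · simp only [hR]
        rw [Finset.mul_sum]
        refine Finset.sum_congr rfl fun Q hQ => ?_
        rw [Finset.mem_powersetCard] at hQ
        rw [Finset.sum_const, hQ.2, nsmul_eq_mul]
        push_cast; ring
    have h4 : ∑ Q ∈ PP.powersetCard (m + 1),
        ((Q.filter (fun p => p ∈ bd (Q.erase p))).card : ℚ) ≤ K * N m := by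
      have e1 : ∀ Q ∈ PP.powersetCard (m + 1),
          ((Q.filter (fun p => p ∈ bd (Q.erase p))).card : ℚ) =
            ∑ p ∈ Q, (fun (S : Finset ι) (p : ι) => if p ∈ bd S then (1 : ℚ) else 0)
              (Q.erase p) p := by
        intro Q _
        rw [Finset.card_filter]
        push_cast
        rfl
      rw [Finset.sum_congr rfl e1]
      refine (le_of_eq (sum_erase PP m
        (fun (S : Finset ι) (p : ι) => if p ∈ bd S then (1 : ℚ) else 0))).trans ?_
      have e2 : ∀ S ∈ PP.powersetCard m,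
          ∑ p ∈ PP \ S, (fun (S : Finset ι) (p : ι) => if p ∈ bd S then (1 : ℚ) else 0) S p
            ≤ K := by
        intro S hS
        rw [Finset.mem_powersetCard] at hS
        have : ∑ p ∈ PP \ S, (if p ∈ bd S then (1 : ℚ) else 0) ≤
            ∑ p ∈ PP, (if p ∈ bd S then (1 : ℚ) else 0) := by
          refine Finset.sum_le_sum_of_subset_of_nonneg Finset.sdiff_subset ?_
          intro p _ _
          split_ifs <;> norm_num
        refine this.trans ?_
        rw [← Finset.sum_filter, Finset.sum_const, nsmul_eq_mul, mul_one]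
        exact_mod_cast hbd S hS.1 (by omega)
      refine (Finset.sum_le_sum e2).trans ?_
      rw [Finset.sum_const, Finset.card_powersetCard, nsmul_eq_mul, mul_comm]
    rw [Finset.sum_add_distrib, Finset.sum_add_distrib, h1, h2, h3] at hsum
    have hNm : 0 < N m := hNpos m (by omega)
    have hNm1 : 0 < N (m + 1) := hNpos (m + 1) (by omega)
    have hLm : (0 : ℚ) < (L : ℚ) - m := by
      have : m < L := by omega
      have : (m : ℚ) < L := by exact_mod_cast this
      linarith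
    have hm1' : (0 : ℚ) < (m : ℚ) + 1 := by positivity
    have key : N (m + 1) * (m + 1) ≤ N (m + 1) * h + (((L : ℚ) - m) * R m - (m + 1) * R (m + 1))
        + K * N m := by linarith
    have hRm : R m = a m * N m := by simp only [ha]; field_simp
    have hRm1 : R (m + 1) = a (m + 1) * N (m + 1) := by simp only [ha]; field_simp
    rw [hRm, hRm1] at key
    have e3 : ((L : ℚ) - m) * (a m * N m) = a m * (N (m + 1) * (m + 1)) := by
      rw [hchoose]; ring
    have e4 : N m = (N (m + 1) * (m + 1)) / ((L : ℚ) - m) := by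
      rw [hchoose]; field_simp
    have e5 : (K : ℚ) * N m = (K / ((L : ℚ) - m)) * (N (m + 1) * (m + 1)) := by
      rw [hchoose]; field_simp
    have e6 : N (m + 1) * (h : ℚ) = (h / ((m : ℚ) + 1)) * (N (m + 1) * (m + 1)) := by
      field_simp
    rw [e3, e5, e6] at key
    have hpos : 0 < N (m + 1) * ((m : ℚ) + 1) := by positivity
    have key2 : 1 * (N (m + 1) * ((m : ℚ) + 1)) ≤
        (h / ((m : ℚ) + 1) + (a m - a (m + 1)) + K / ((L : ℚ) - m)) *
          (N (m + 1) * ((m : ℚ) + 1)) := by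
      linarith
    exact le_of_mul_le_mul_right key2 hpos
  -- sum over the levels
  have htot : (w : ℚ) ≤ ∑ i ∈ Finset.range w,
      ((h : ℚ) / (((h' + i : ℕ) : ℚ) + 1) + (a (h' + i) - a (h' + i + 1)) +
        K / ((L : ℚ) - ((h' + i : ℕ) : ℚ))) := by
    have : (w : ℚ) = ∑ _i ∈ Finset.range w, (1 : ℚ) := by simp
    rw [this]
    refine Finset.sum_le_sum fun i hi => ?_
    rw [Finset.mem_range] at hi
    exact hlev (h' + i) (by omega) (by omega)
  rw [Finset.sum_add_distrib, Finset.sum_add_distrib] at htot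
  have t1 : ∑ i ∈ Finset.range w, (h : ℚ) / (((h' + i : ℕ) : ℚ) + 1) ≤ w * (h / h') := by
    have : ∑ i ∈ Finset.range w, (h : ℚ) / (((h' + i : ℕ) : ℚ) + 1) ≤
        ∑ _i ∈ Finset.range w, (h : ℚ) / h' := by
      refine Finset.sum_le_sum fun i _ => ?_
      have : (0 : ℚ) < h' := by exact_mod_cast hh'
      apply div_le_div_of_nonneg_left (by positivity) this
      push_cast
      have : (0 : ℚ) ≤ (i : ℚ) := by positivity
      linarith
    simpa using this
  have t2 : ∑ i ∈ Finset.range w, (a (h' + i) - a (h' + i + 1)) ≤ n - 1 := by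
    have : ∑ i ∈ Finset.range w, (a (h' + i) - a (h' + i + 1)) = a h' - a (h' + w) := by
      have := Finset.sum_range_sub' (fun i => a (h' + i)) w
      simpa [add_assoc] using this
    rw [this]
    have h1 := hahi h' (by omega)
    have h2 := halo (h' + w) le_rfl
    linarith
  have t3 : ∑ i ∈ Finset.range w, (K : ℚ) / ((L : ℚ) - ((h' + i : ℕ) : ℚ)) ≤ 1 := by
    have hwq : (0 : ℚ) < w := by exact_mod_cast hw
    have : ∑ i ∈ Finset.range w, (K : ℚ) / ((L : ℚ) - ((h' + i : ℕ) : ℚ)) ≤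
        ∑ _i ∈ Finset.range w, (1 : ℚ) / w := by
      refine Finset.sum_le_sum fun i hi => ?_
      rw [Finset.mem_range] at hi
      have hLi : (w : ℚ) * K + 1 ≤ (L : ℚ) - ((h' + i : ℕ) : ℚ) := by
        have : w * K + 1 + (h' + i) ≤ L := by omega
        have : ((w * K + 1 + (h' + i) : ℕ) : ℚ) ≤ L := by exact_mod_cast this
        push_cast at this ⊢
        linarith
      have hpos : (0 : ℚ) < (L : ℚ) - ((h' + i : ℕ) : ℚ) := by
        have : (0 : ℚ) ≤ (w : ℚ) * K := by positivity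
        linarith
      rw [div_le_div_iff₀ hpos hwq]
      linarith
    refine this.trans ?_
    rw [Finset.sum_const, Finset.card_range, nsmul_eq_mul]
    field_simp
    exact le_rfl
  have hcq : (n : ℚ) * (h' + w) + (h + 2) * w ≤ h' * w := by exact_mod_cast hcond
  have hh'q : (0 : ℚ) < h' := by exact_mod_cast hh'
  have hwq : (0 : ℚ) < w := by exact_mod_cast hw
  have hfin : (w : ℚ) ≤ w * (h / h') + (n - 1) + 1 := by linarith
  have hfin2 : (w : ℚ) * h' ≤ w * h + n * h' := by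
    have := mul_le_mul_of_nonneg_right hfin hh'q.le
    have e : (w * ((h : ℚ) / h') + (n - 1) + 1) * h' = w * h + n * h' := by
      field_simp; ring
    rw [e] at this
    exact this
  have : (0 : ℚ) ≤ n * w := by positivity
  nlinarith

end Averaging

/-! ### Combinatorics of covers -/

section Covers

lemma card_image_le_of_factor {α β γ : Type} [DecidableEq β] [DecidableEq γ]
    (s : Finset α) (f : α → β) (g : α → γ)
    (h : ∀ x ∈ s, ∀ y ∈ s, f x = f y → g x = g y) : (s.image g).card ≤ (s.image f).card := by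
  have hex : ∀ b ∈ s.image g, ∃ x ∈ s, g x = b := fun b hb => by
    simpa using Finset.mem_image.1 hb
  by_cases hs : s.Nonempty
  · obtain ⟨x0, hx0⟩ := hs
    have : Nonempty α := ⟨x0⟩
    choose! c hc1 hc2 using hex
    refine Finset.card_le_card_of_injOn (fun b => f (c b)) ?_ ?_
    · intro b hb
      exact Finset.mem_coe.2 (Finset.mem_image_of_mem f (hc1 b hb))
    · intro b hb b' hb' hbb
      have := h _ (hc1 b hb) _ (hc1 b' hb') hbb
      rw [hc2 b hb, hc2 b' hb'] at this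
      exact this
  · rw [Finset.not_nonempty_iff_eq_empty] at hs
    simp [hs]

variable {X F ι κ : Type}

open Classical in
/-- the class of `x0` modulo `Q` -/
noncomputable def cls (Xs : Finset X) (cl : ι → X → κ) (Q : Finset ι) (x0 : X) : Finset X :=
  Xs.filter (fun x => ∀ p ∈ Q, cl p x = cl p x0)

lemma mem_cls {Xs : Finset X} {cl : ι → X → κ} {Q : Finset ι} {x0 x : X} :
    x ∈ cls Xs cl Q x0 ↔ x ∈ Xs ∧ ∀ p ∈ Q, cl p x = cl p x0 := by
  simp [cls]

open Classical in
/-- `V` takes at most `c` values on every class modulo `Q` -/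
def Bd (Xs : Finset X) (cl : ι → X → κ) (Q : Finset ι) (V : X → F) (c : ℕ) : Prop :=
  ∀ x0 ∈ Xs, ((cls Xs cl Q x0).image V).card ≤ c

lemma Bd.mono_set {Xs : Finset X} {cl : ι → X → κ} {Q Q' : Finset ι} {V : X → F} {c : ℕ}
    (h : Bd Xs cl Q V c) (hQ : Q ⊆ Q') : Bd Xs cl Q' V c := by
  classical
  intro x0 hx0
  refine (Finset.card_le_card (Finset.image_subset_image ?_)).trans (h x0 hx0)
  intro x hx
  rw [mem_cls] at hx ⊢
  exact ⟨hx.1, fun p hp => hx.2 p (hQ hp)⟩

/-- the order relation between choice functions -/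
def Le (Xs : Finset X) (rk : F → ℕ) (V W : X → F) : Prop :=
  ∀ x ∈ Xs, rk (V x) ≤ rk (W x) ∧ (rk (V x) = rk (W x) → 1 ≤ rk (V x) → V x = W x)

lemma Le.trans {Xs : Finset X} {rk : F → ℕ} {U V W : X → F} (h1 : Le Xs rk U V)
    (h2 : Le Xs rk V W) : Le Xs rk U W := by
  intro x hx
  have a1 := h1 x hx
  have a2 := h2 x hx
  refine ⟨a1.1.trans a2.1, fun he h0 => ?_⟩
  have e1 : rk (U x) = rk (V x) := le_antisymm a1.1 (by rw [he]; exact a2.1)
  have e2 : rk (V x) = rk (W x) := by rw [← e1, he]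
  rw [a1.2 e1 h0, a2.2 e2 (by rw [← e1]; exact h0)]

lemma Le.refl {Xs : Finset X} {rk : F → ℕ} (U : X → F) : Le Xs rk U U :=
  fun _ _ => ⟨le_rfl, fun _ _ => rfl⟩

/-- merging two choice functions -/
lemma merge {Xs : Finset X} {mem : X → F → Prop} {rk : F → ℕ} {D : ℕ}
    (hb : ∀ v v', v ≠ v' → rk v = rk v' → 1 ≤ rk v → ∃ 𝒞 : Finset F, 𝒞.card ≤ D ∧
        (∀ y ∈ 𝒞, rk y < rk v) ∧ ∀ x ∈ Xs, mem x v → mem x v' → ∃ y ∈ 𝒞, mem x y)
    {cl : ι → X → κ} {Q : Finset ι} {U W : X → F} {a b : ℕ}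
    (hU : ∀ x ∈ Xs, mem x (U x)) (hW : ∀ x ∈ Xs, mem x (W x))
    (hUb : Bd Xs cl Q U a) (hWb : Bd Xs cl Q W b) :
    ∃ M : X → F, (∀ x ∈ Xs, mem x (M x)) ∧ Le Xs rk M U ∧ Le Xs rk M W ∧
      Bd Xs cl Q M (a + b + a * b * D) := by
  classical
  have hb' : ∀ v v' : F, ∃ 𝒞 : Finset F, 𝒞.card ≤ D ∧ (v ≠ v' → rk v = rk v' → 1 ≤ rk v →
      (∀ y ∈ 𝒞, rk y < rk v) ∧ ∀ x ∈ Xs, mem x v → mem x v' → ∃ y ∈ 𝒞, mem x y) := by
    intro v v'
    by_cases h : v ≠ v' ∧ rk v = rk v' ∧ 1 ≤ rk v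
    · obtain ⟨𝒞, h1, h2, h3⟩ := hb v v' h.1 h.2.1 h.2.2
      exact ⟨𝒞, h1, fun _ _ _ => ⟨h2, h3⟩⟩
    · exact ⟨∅, by simp, fun a1 a2 a3 => absurd ⟨a1, a2, a3⟩ h⟩
  choose cov hcov1 hcov2 using hb'
  have hex : ∀ x : X, ∃ y : F, x ∈ Xs → mem x y ∧
      (y = U x ∨ y = W x ∨ y ∈ cov (U x) (W x)) ∧
      (rk y ≤ rk (U x) ∧ (rk y = rk (U x) → 1 ≤ rk y → y = U x)) ∧
      (rk y ≤ rk (W x) ∧ (rk y = rk (W x) → 1 ≤ rk y → y = W x)) := by
    intro x
    by_cases hx : x ∈ Xs
    swap
    · exact ⟨U x, fun h => absurd h hx⟩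
    rcases lt_trichotomy (rk (U x)) (rk (W x)) with h | h | h
    · exact ⟨U x, fun _ => ⟨hU x hx, Or.inl rfl, ⟨le_rfl, fun _ _ => rfl⟩, h.le,
        fun he => absurd he h.ne⟩⟩
    · by_cases hUW : U x = W x
      · exact ⟨U x, fun _ => ⟨hU x hx, Or.inl rfl, ⟨le_rfl, fun _ _ => rfl⟩, h.le,
          fun _ _ => hUW⟩⟩
      · by_cases h0 : 1 ≤ rk (U x)
        · obtain ⟨h2, h3⟩ := hcov2 _ _ hUW h h0
          obtain ⟨y, hy1, hy2⟩ := h3 x hx (hU x hx) (hW x hx)
          have hlt := h2 y hy1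
          exact ⟨y, fun _ => ⟨hy2, Or.inr (Or.inr hy1), ⟨hlt.le, fun he => absurd he hlt.ne⟩,
            (h ▸ hlt.le), fun he => absurd he (h ▸ hlt.ne)⟩⟩
        · exact ⟨U x, fun _ => ⟨hU x hx, Or.inl rfl, ⟨le_rfl, fun _ _ => rfl⟩, h.le,
            fun _ h1 => absurd h1 h0⟩⟩
    · exact ⟨W x, fun _ => ⟨hW x hx, Or.inr (Or.inl rfl), ⟨h.le, fun he => absurd he h.ne⟩,
        le_rfl, fun _ _ => rfl⟩⟩
  choose M hM using hex
  refine ⟨M, fun x hx => (hM x hx).1, fun x hx => (hM x hx).2.2.1, fun x hx => (hM x hx).2.2.2,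
    ?_⟩
  intro x0 hx0
  set T := cls Xs cl Q x0 with hT
  have hsub : T.image M ⊆ T.image U ∪ T.image W ∪
      (T.image U ×ˢ T.image W).biUnion (fun vw => cov vw.1 vw.2) := by
    intro y hy
    obtain ⟨x, hx, rfl⟩ := Finset.mem_image.1 hy
    have hxX : x ∈ Xs := (mem_cls.1 hx).1
    rcases (hM x hxX).2.1 with h | h | h
    · rw [h]
      exact Finset.mem_union_left _ (Finset.mem_union_left _ (Finset.mem_image_of_mem _ hx))
    · rw [h]
      exact Finset.mem_union_left _ (Finset.mem_union_right _ (Finset.mem_image_of_mem _ hx))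
    · refine Finset.mem_union_right _ (Finset.mem_biUnion.2 ⟨(U x, W x), ?_, h⟩)
      exact Finset.mem_product.2 ⟨Finset.mem_image_of_mem _ hx, Finset.mem_image_of_mem _ hx⟩
  have c1 := hUb x0 hx0
  have c2 := hWb x0 hx0
  calc (T.image M).card ≤ _ := Finset.card_le_card hsub
    _ ≤ (T.image U ∪ T.image W).card + _ := Finset.card_union_le _ _
    _ ≤ ((T.image U).card + (T.image W).card) +
        ((T.image U ×ˢ T.image W).biUnion (fun vw => cov vw.1 vw.2)).card := by
          gcongr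
          exact Finset.card_union_le _ _
    _ ≤ (a + b) + (T.image U ×ˢ T.image W).card * D := by
          gcongr
          · exact Finset.card_biUnion_le_card_mul _ _ _ (fun vw _ => hcov1 vw.1 vw.2)
    _ ≤ (a + b) + (a * b) * D := by
          rw [Finset.card_product]
          gcongr

/-- reduced pairs -/
def Red (rk : F → ℕ) (bad : F → ι → X → Prop) (PP : Finset ι) (K h : ℕ) (Q : Finset ι)
    (v : F) (x : X) : Prop :=
  rk v = 0 ∨ ((∀ Q' ⊆ PP, (∀ p ∈ Q', bad v p x) → Q'.card ≤ K) ∧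
    (∀ Q' ⊆ Q, (∀ p ∈ Q', ¬ bad v p x) → Q'.card < h))

end Covers

end Exch

end Crest.Agent.R022
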