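import Crest.Agent.R022.InstB250

/-! Row 22 (helper250): instantiation: `SliceBoundAt` from the abstract level bookkeeping and the
four level theorems. -/

set_option autoImplicit false

namespace Crest.Agent.R022.Inst

open Crest.Agent.R022.Torsor Crest.Agent.R022.Expand

/-- a common size bound for all the coordinates -/
theorem exists_H {F : Polynomial ℤ} (hF : F.Monic) {k C M : ℕ} {A ρ : ℝ} (hA : 1 ≤ A)
    (hρ2 : ρ ≤ 2) {a0 : Fin F.natDegree → ℤ} (T : Finset (Fin 2 → ℤ)) (n : (Fin 2 → ℤ) → ℤ)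
    (b : (Fin 2 → ℤ) → Fin F.natDegree → ℤ)
    (hT : ∀ t ∈ T, IsSPt hF k C M A ρ a0 t (n t) (b t)) :
    ∃ H : ℕ, 1 ≤ H ∧ (H : ℝ) ≤ ((C : ℝ) + 3) * A ^ (k + 2) ∧
      ∀ t ∈ T, (∀ i, (t i).natAbs ≤ H) ∧ (n t).natAbs ≤ H := by
  have hC0 : (0 : ℝ) ≤ C := Nat.cast_nonneg _
  have hAk : 1 ≤ A ^ (k + 2) := one_le_pow₀ hA
  refine ⟨⌈((C : ℝ) + 2) * A ^ (k + 2)⌉₊, ?_, ?_, ?_⟩
  · refine Nat.one_le_ceil_iff.mpr ?_
    positivity
  · have h1 : ((⌈((C : ℝ) + 2) * A ^ (k + 2)⌉₊ : ℕ) : ℝ) < ((C : ℝ) + 2) * A ^ (k + 2) + 1 :=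
      Nat.ceil_lt_add_one (by positivity)
    calc _ ≤ ((C : ℝ) + 2) * A ^ (k + 2) + 1 := h1.le
      _ ≤ ((C : ℝ) + 2) * A ^ (k + 2) + A ^ (k + 2) := by gcongr
      _ = ((C : ℝ) + 3) * A ^ (k + 2) := by ring
  · have hHge : ((C : ℝ) + 2) * A ^ (k + 2) ≤ (⌈((C : ℝ) + 2) * A ^ (k + 2)⌉₊ : ℕ) := Nat.le_ceil _
    have hnat : ∀ x : ℤ, |(x : ℝ)| ≤ (⌈((C : ℝ) + 2) * A ^ (k + 2)⌉₊ : ℕ) →
        x.natAbs ≤ ⌈((C : ℝ) + 2) * A ^ (k + 2)⌉₊ := by
      intro x hx
      have h2 : ((x.natAbs : ℕ) : ℝ) ≤ (⌈((C : ℝ) + 2) * A ^ (k + 2)⌉₊ : ℕ) := by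
        have g1 : ((x.natAbs : ℕ) : ℝ) = |(x : ℝ)| := by rw [Nat.cast_natAbs]; push_cast; rfl
        rw [g1]; exact hx
      exact_mod_cast h2
    intro t ht
    refine ⟨fun i => hnat _ ?_, hnat _ ?_⟩
    · refine ((hT t ht).t_le i).trans (le_trans ?_ hHge)
      have h3 : A ≤ A ^ (k + 2) := le_self_pow₀ hA (by omega)
      calc 2 * A ≤ 2 * A ^ (k + 2) := by gcongr
        _ ≤ (C + 2) * A ^ (k + 2) := by gcongr; linarith
    · refine ((hT t ht).m_le).trans (le_trans ?_ hHge)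
      have g1 : A ^ ((k : ℝ) + ρ) ≤ A ^ (k + 2) := by
        rw [← Real.rpow_natCast A (k + 2)]
        refine Real.rpow_le_rpow_of_exponent_le hA ?_
        push_cast; linarith
      calc (C : ℝ) * A ^ ((k : ℝ) + ρ) ≤ C * A ^ (k + 2) := by gcongr
        _ ≤ (C + 2) * A ^ (k + 2) := by gcongr; linarith

set_option maxHeartbeats 1000000 in
theorem sliceBoundAt (levels : LevelsStmt) {F : Polynomial ℤ} (hF : F.Monic)
    (z : Fin F.natDegree → ℂ) (hinj : Function.Injective z)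
    (hz : ∀ i, F.eval₂ (Int.castRingHom ℂ) (z i) = 0) {k : ℕ} (hk : k + 2 = F.natDegree)
    (hk2 : 2 ≤ k) {ρ : ℝ} (hρ : (k : ℝ) / (k + 1) ≤ ρ) (hρ2 : ρ ≤ 2)
    (h1 : L1At hF z k ρ (49 / 100 * ρ)) (h2 : L2At hF z k ρ (505 / 1000 * ρ))
    (h3 : L3At hF z k ρ (505 / 1000 * ρ)) : SliceBoundAt hF z k ρ := by
  classical
  intro C M hC hM
  have hk0 : (2 : ℝ) ≤ k := by exact_mod_cast hk2
  have hρ35 : 3 / 5 ≤ ρ := by
    refine le_trans ?_ hρ
    rw [le_div_iff₀ (by linarith)]; linarith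
  have hρ0 : 0 < ρ := by linarith
  obtain ⟨D0, l0⟩ := l0At hF z hinj hz hk hk2 hρ35 C M hC hM
  obtain ⟨D1, A1, l1⟩ := h1 C M hC hM D0
  obtain ⟨D2, A2, l2⟩ := h2 C M hC hM D1
  obtain ⟨C3, A3, l3⟩ := h3 C M hC hM
  obtain ⟨h, hh⟩ : ∃ h : ℕ, h = 1000 := ⟨_, rfl⟩
  have hhr : (h : ℝ) = 1000 := by rw [hh]; norm_num
  obtain ⟨a, ha⟩ : ∃ a : ℕ, a = 98 := ⟨_, rfl⟩
  obtain ⟨b', hb'⟩ : ∃ b : ℕ, b = 101 := ⟨_, rfl⟩
  have har : (a : ℝ) = 98 := by rw [ha]; norm_num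
  have hbr : (b' : ℝ) = 101 := by rw [hb']; norm_num
  obtain ⟨c0, c1, hlev⟩ := levels h a b' D0 D1 D2 C3 (by omega) (by omega)
  set ε : ℝ := ρ / 200000 with hε
  have hε0 : 0 < ε := by positivity
  have hε1 : ε ≤ 1 := by rw [hε]; linarith
  obtain ⟨B, A4, hB⟩ := exists_B c0 c1 (k + 2) (C + 3) (by positivity) ε hε0
  obtain ⟨K, Const, hlev⟩ := hlev B
  -- the threshold for `A`
  set A5 : ℝ := ((C : ℝ) + 2) ^ (1 / ε) with hA5
  have hA50 : 0 < A5 := Real.rpow_pos_of_pos (by positivity) _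
  set A0 : ℝ := |A1| + |A2| + |A3| + |A4| + A5 + 2 ^ (K + 1) + 1 with hA0
  have hab1 := abs_nonneg A1
  have hab2 := abs_nonneg A2
  have hab3 := abs_nonneg A3
  have hab4 := abs_nonneg A4
  have hle1 := le_abs_self A1
  have hle2 := le_abs_self A2
  have hle3 := le_abs_self A3
  have hle4 := le_abs_self A4
  have hpow : (0 : ℝ) < 2 ^ (K + 1) := by positivity
  have hA01 : 1 ≤ A0 := by rw [hA0]; linarith
  obtain ⟨e, he⟩ : ∃ e : ℕ, e = (a + b') * (h + 3) := ⟨_, rfl⟩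
  set Kf : ℝ := (4 * A0 + 1) ^ 2 + Const * (2 ^ (K + 1)) ^ e + 1 with hKf
  refine ⟨Kf, by positivity, ?_⟩
  intro A hA a0 ha0 hgp T n b hT
  have hApos : 0 < A := by linarith
  have hAρ : 1 ≤ A ^ (999 / 1000 * ρ) := Real.one_le_rpow hA (by positivity)
  rcases lt_or_ge A A0 with hsmall | hlarge
  · -- small `A`
    set Bd : ℕ := ⌊2 * A⌋₊ with hBd
    have hTle : ∀ t ∈ T, ∀ i, |t i| ≤ (Bd : ℤ) := by
      intro t ht i
      have g1 := (hT t ht).t_le i
      have g4 : ((|t i|.toNat : ℕ) : ℤ) = |t i| := Int.toNat_of_nonneg (abs_nonneg _)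
      have g2 : ((|t i|.toNat : ℕ) : ℝ) ≤ 2 * A := by
        have : ((|t i|.toNat : ℕ) : ℝ) = |(t i : ℝ)| := by
          have g5 : (((|t i|.toNat : ℕ) : ℤ) : ℝ) = ((|t i| : ℤ) : ℝ) := by rw [g4]
          push_cast at g5
          exact g5
        rw [this]; exact g1
      have g3 : |t i|.toNat ≤ Bd := Nat.le_floor g2
      omega
    have hcard : T.card ≤ (2 * Bd + 1) ^ 2 := by
      have hbox : (Fintype.piFinset fun _ : Fin 2 => Finset.Icc (-(Bd : ℤ)) Bd).card =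
          (2 * Bd + 1) ^ 2 := by
        rw [Fintype.card_piFinset, Finset.prod_const, Finset.card_univ, Fintype.card_fin,
          Int.card_Icc]
        congr 1
        omega
      rw [← hbox]
      refine Finset.card_le_card fun t ht => Fintype.mem_piFinset.mpr fun i => Finset.mem_Icc.mpr ?_
      exact abs_le.mp (hTle t ht i)
    have g1 : (T.card : ℝ) ≤ (4 * A0 + 1) ^ 2 := by
      have g2 : (T.card : ℝ) ≤ (((2 * Bd + 1) ^ 2 : ℕ) : ℝ) := by exact_mod_cast hcard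
      refine g2.trans ?_
      push_cast
      have g3 : (Bd : ℝ) ≤ 2 * A := Nat.floor_le (by positivity)
      have g4 : (2 * (Bd : ℝ) + 1) ≤ 4 * A0 + 1 := by linarith
      gcongr
    calc (T.card : ℝ) ≤ (4 * A0 + 1) ^ 2 := g1
      _ ≤ Kf := by
          rw [hKf]
          have : (0 : ℝ) ≤ Const * (2 ^ (K + 1)) ^ e := by positivity
          linarith
      _ = Kf * 1 := (mul_one _).symm
      _ ≤ Kf * A ^ (999 / 1000 * ρ) := mul_le_mul_of_nonneg_left hAρ (by positivity)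
  · -- large `A`
    have gA1 : A1 ≤ A := by linarith
    have gA2 : A2 ≤ A := by linarith
    have gA3 : A3 ≤ A := by linarith
    have gA4 : A4 ≤ A := by linarith
    have gA5 : A5 ≤ A := by linarith
    have gAK : (2 : ℝ) ^ (K + 1) < A := by linarith
    have hAε1 : 1 ≤ A ^ ε := Real.one_le_rpow hA hε0.le
    set X : ℕ := ⌈A ^ ε⌉₊ with hX
    have hXA : A ^ ε ≤ X := Nat.le_ceil _
    have hXA2 : (X : ℝ) ≤ 2 * A ^ ε := by
      have : (X : ℝ) < A ^ ε + 1 := Nat.ceil_lt_add_one (by positivity)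
      linarith
    have hX1 : 1 ≤ X := by
      have : (1 : ℝ) ≤ X := hAε1.trans hXA
      exact_mod_cast this
    have hXC : C < X := by
      have g1 : (C : ℝ) + 2 ≤ A ^ ε := by
        calc (C : ℝ) + 2 = (((C : ℝ) + 2) ^ (1 / ε)) ^ ε := by
              rw [← Real.rpow_mul (by positivity), one_div, inv_mul_cancel₀ hε0.ne', Real.rpow_one]
          _ ≤ A ^ ε := Real.rpow_le_rpow hA50.le gA5 hε0.le
      have g2 : (C : ℝ) < X := by linarith
      exact_mod_cast g2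
    obtain ⟨PP, hPPc, hPP⟩ := exists_pool K X hX1
    have hX'A : ((2 ^ K * X : ℕ) : ℝ) ≤ 2 ^ (K + 1) * A ^ ε := by
      push_cast
      calc (2 : ℝ) ^ K * X ≤ 2 ^ K * (2 * A ^ ε) := by gcongr
        _ = 2 ^ (K + 1) * A ^ ε := by rw [pow_succ]; ring
    have hPd : ∀ r ∈ PP, (r : ℝ) < A ^ F.natDegree := by
      intro r hr
      have g1 : (r : ℝ) ≤ ((2 ^ K * X : ℕ) : ℝ) := by exact_mod_cast (hPP r hr).2.2
      calc (r : ℝ) ≤ 2 ^ (K + 1) * A ^ ε := g1.trans hX'A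
        _ ≤ 2 ^ (K + 1) * A := by
            have : A ^ ε ≤ A ^ (1 : ℝ) := Real.rpow_le_rpow_of_exponent_le hA hε1
            rw [Real.rpow_one] at this
            gcongr
        _ < A * A := mul_lt_mul_of_pos_right gAK hApos
        _ = A ^ 2 := by ring
        _ ≤ A ^ F.natDegree := pow_le_pow_right₀ hA (by omega)
    -- size `H`
    obtain ⟨H, hH1, hHle, hTH⟩ := exists_H hF hA hρ2 T n b hT
    have hmain := hlev H X (2 ^ K * X) T n PP hPPc hPP hH1 hTH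
      (hB A gA4 hA H X (by exact_mod_cast hHle) hXA) ?_ ?_ ?_ ?_
    · rw [← he] at hmain
      have g1 : (T.card : ℝ) ≤ ((Const * (2 ^ K * X) ^ e : ℕ) : ℝ) := by exact_mod_cast hmain
      have g2 : ε * e ≤ 999 / 1000 * ρ := by
        rw [he, hε]
        push_cast
        rw [hhr, har, hbr]
        linarith
      calc (T.card : ℝ) ≤ ((Const * (2 ^ K * X) ^ e : ℕ) : ℝ) := g1
        _ = Const * ((2 ^ K * X : ℕ) : ℝ) ^ e := by push_cast; ring
        _ ≤ Const * (2 ^ (K + 1) * A ^ ε) ^ e := by gcongr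
        _ = Const * (2 ^ (K + 1)) ^ e * A ^ (ε * e) := by
            rw [mul_pow, Real.rpow_mul hApos.le, Real.rpow_natCast]; ring
        _ ≤ Kf * A ^ (999 / 1000 * ρ) := by
            have g3 : A ^ (ε * e) ≤ A ^ (999 / 1000 * ρ) := Real.rpow_le_rpow_of_exponent_le hA g2
            have g4 : (Const : ℝ) * (2 ^ (K + 1)) ^ e ≤ Kf := by
              rw [hKf]
              have : (0 : ℝ) ≤ (4 * A0 + 1) ^ 2 := by positivity
              linarith
            exact mul_le_mul g4 g3 (by positivity) (by positivity)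
    · -- L0
      intro U hU Q hQ hQc hcong
      have hd := levelData_mods hF z (κ := 49 / 100 * ρ) (a := a) (h := h) ha0 hgp hT
        (by omega) hX1 (fun r hr => (hPP r (hQ hr)).1) (fun r hr => (hPP r (hQ hr)).2.1)
        (by omega) hA hε0.le hXA (by rw [hε, hhr, har]; linarith) hXC
        (fun r hr => hPd r (hQ hr)) hU
      refine l0 A hA a0 _ n b _ hd ?_
      intro l hl t ht t' ht' i
      obtain ⟨r, hr, rfl⟩ := mem_mods.mp hl
      push_cast
      exact hcong r hr t ht t' ht' i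
    · -- L1
      intro U hU Q hQ hQc hG hpar
      have hd := levelData_mods hF z (κ := 49 / 100 * ρ) (a := a) (h := h) ha0 hgp hT
        (by omega) hX1 (fun r hr => (hPP r (hQ hr)).1) (fun r hr => (hPP r (hQ hr)).2.1)
        (by omega) hA hε0.le hXA (by rw [hε, hhr, har]; linarith) hXC
        (fun r hr => hPd r (hQ hr)) hU
      refine l1 A gA1 hA a0 _ n b _ hd hG ?_
      intro l hl
      obtain ⟨r, hr, rfl⟩ := mem_mods.mp hl
      push_cast
      exact hpar r hr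
    · -- L2
      intro U hU Q hQ hQc hR hpar
      have hd := levelData_mods hF z (κ := 505 / 1000 * ρ) (a := b') (h := h) ha0 hgp hT
        (by omega) hX1 (fun r hr => (hPP r (hQ hr)).1) (fun r hr => (hPP r (hQ hr)).2.1)
        (by omega) hA hε0.le hXA (by rw [hε, hhr, hbr]; linarith) hXC
        (fun r hr => hPd r (hQ hr)) hU
      refine l2 A gA2 hA a0 _ n b _ hd hR ?_
      intro l hl
      obtain ⟨r, hr, rfl⟩ := mem_mods.mp hl
      push_cast
      exact hpar r hr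
    · -- L3
      intro U hU Q hQ hQc hpar
      have hd := levelData_mods hF z (κ := 505 / 1000 * ρ) (a := b') (h := h) ha0 hgp hT
        (by omega) hX1 (fun r hr => (hPP r (hQ hr)).1) (fun r hr => (hPP r (hQ hr)).2.1)
        (by omega) hA hε0.le hXA (by rw [hε, hhr, hbr]; linarith) hXC
        (fun r hr => hPd r (hQ hr)) hU
      have := l3 A gA3 hA a0 _ n b _ hd ?_
      · rwa [Set.ncard_coe_finset] at this
      intro l hl
      obtain ⟨r, hr, rfl⟩ := mem_mods.mp hl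
      push_cast
      exact hpar r hr

end Crest.Agent.R022.Inst
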