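import Mathlib
import Crest.Agent.R22.PolyKit859
import Crest.Agent.R22.DetCore107

/-! Row 22, glue for level 2 (helper776): from a relation over every irreducible complex factor of a
plane curve to integer relations between `n` and each coordinate. -/

set_option autoImplicit false

namespace Crest.Agent.R022.Glue776

open MvPolynomial Crest.Agent.R22

/-! ### degrees -/

theorem totalDegree_det {K : Type*} [CommRing K] {n : Type*} [DecidableEq n] [Fintype n]
    {σ : Type*} (M : Matrix n n (MvPolynomial σ K)) (D : ℕ) (hD : ∀ i j, (M i j).totalDegree ≤ D) :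
    M.det.totalDegree ≤ Fintype.card n * D := by
  rw [Matrix.det_apply]
  refine (MvPolynomial.totalDegree_finsetSum _ _).trans (Finset.sup_le fun s _ => ?_)
  have h1 : (Equiv.Perm.sign s • ∏ i, M (s i) i).totalDegree ≤ (∏ i, M (s i) i).totalDegree := by
    rcases Int.units_eq_one_or (Equiv.Perm.sign s) with h | h
    · rw [h, one_smul]
    · rw [h, Units.neg_smul, one_smul, MvPolynomial.totalDegree_neg]
  refine h1.trans ((MvPolynomial.totalDegree_finsetProd _ _).trans ?_)
  calc ∑ i, (M (s i) i).totalDegree ≤ ∑ _i : n, D := Finset.sum_le_sum fun i _ => hD _ _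
    _ = _ := by rw [Finset.sum_const, Finset.card_univ, smul_eq_mul]

theorem totalDegree_resultant {K : Type*} [CommRing K] {σ : Type*}
    (g G : Polynomial (MvPolynomial σ K)) (D M : ℕ)
    (hg : ∀ k, (g.coeff k).totalDegree ≤ D) (hG : ∀ k, (G.coeff k).totalDegree ≤ D)
    (hM : g.natDegree + G.natDegree ≤ M) : (Polynomial.resultant g G).totalDegree ≤ M * D := by
  have h1 := totalDegree_det (Polynomial.sylvester g G g.natDegree G.natDegree) D
    (fun i j => PolyKit.sylvester_entry (fun F => F.totalDegree ≤ D) (by simp) g G _ _ hg hG i j)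
  rw [Fintype.card_fin] at h1
  exact h1.trans (Nat.mul_le_mul_right _ hM)

variable {K : Type*} [Field K]

theorem finSuccEquiv_rename_succ {m : ℕ} (c : MvPolynomial (Fin m) K) :
    finSuccEquiv K m (rename Fin.succ c) = Polynomial.C c := by
  induction c using MvPolynomial.induction_on with
  | C a => simp [finSuccEquiv_apply]
  | add p q hp hq => rw [map_add, map_add, hp, hq, Polynomial.C_add]
  | mul_X p i hp => rw [map_mul, map_mul, hp, rename_X, finSuccEquiv_X_succ, Polynomial.C_mul]

theorem symm_C {m : ℕ} (c : MvPolynomial (Fin m) K) :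
    (finSuccEquiv K m).symm (Polynomial.C c) = rename Fin.succ c := by
  rw [AlgEquiv.symm_apply_eq, finSuccEquiv_rename_succ]

theorem symm_X {m : ℕ} : (finSuccEquiv K m).symm Polynomial.X = X 0 := by
  rw [AlgEquiv.symm_apply_eq, finSuccEquiv_X_zero]

theorem totalDegree_symm_le {m : ℕ} (g : Polynomial (MvPolynomial (Fin m) K)) {a b : ℕ}
    (ha : g.natDegree ≤ a) (hb : ∀ i, (g.coeff i).totalDegree ≤ b) :
    ((finSuccEquiv K m).symm g).totalDegree ≤ a + b := by
  rw [Polynomial.as_sum_range_C_mul_X_pow g, map_sum]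
  refine (totalDegree_finsetSum _ _).trans (Finset.sup_le fun i hi => ?_)
  rw [map_mul, map_pow, symm_C, symm_X]
  refine (totalDegree_mul _ _).trans ?_
  have h1 := (totalDegree_rename_le (Fin.succ) (g.coeff i)).trans (hb i)
  have h2 : ((X 0 : MvPolynomial (Fin (m + 1)) K) ^ i).totalDegree ≤ i := by
    refine (totalDegree_pow _ _).trans ?_
    rw [totalDegree_X, mul_one]
  rw [Finset.mem_range] at hi
  omega

/-! ### elimination -/

/-- new indices of `(n, t0, t1)`: `t_{1-j}` becomes the outer variable, `(n, t_j)` the inner ones -/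
def pe (j : Fin 2) : Equiv.Perm (Fin 3) := if j = 0 then finRotate 3 else Equiv.swap 0 1

omit [Field K] in
theorem cons_pe (j : Fin 2) (t : Fin 2 → K) (n : K) :
    (fun i => (Fin.cons (t (1 - j)) ![n, t j] : Fin 3 → K) (pe j i)) = Fin.cons n t := by
  funext i
  fin_cases j <;> fin_cases i <;> simp [pe, finRotate, Equiv.swap_apply_def] <;> rfl

/-- the change of variables -/
noncomputable def Ps (j : Fin 2) (p : MvPolynomial (Fin 3) K) : Polynomial (MvPolynomial (Fin 2) K) :=
  finSuccEquiv K 2 (rename (pe j) p)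

theorem eval_Ps (j : Fin 2) (p : MvPolynomial (Fin 3) K) (t : Fin 2 → K) (n : K) :
    ((Ps j p).map (eval ![n, t j])).eval (t (1 - j)) = eval (Fin.cons n t : Fin 3 → K) p := by
  unfold Ps
  rw [← eval_eq_eval_mv_eval', eval_rename]
  congr 1
  rw [← cons_pe j t n]
  rfl

/-- as an equivalence -/
noncomputable def PsE (j : Fin 2) :
    Polynomial (MvPolynomial (Fin 2) K) ≃ₐ[K] Polynomial (MvPolynomial (Fin 2) K) :=
  ((finSuccEquiv K 2).symm.trans (renameEquiv K (pe j))).trans (finSuccEquiv K 2)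

theorem PsE_apply (j : Fin 2) (g : Polynomial (MvPolynomial (Fin 2) K)) :
    PsE j g = Ps j ((finSuccEquiv K 2).symm g) := rfl

theorem coeff_Ps_le (j : Fin 2) (p : MvPolynomial (Fin 3) K) (i : ℕ) :
    ((Ps j p).coeff i).totalDegree ≤ p.totalDegree := by
  unfold Ps
  by_cases h : (finSuccEquiv K 2 (rename (pe j) p)).coeff i = 0
  · rw [h, totalDegree_zero]
    exact Nat.zero_le _
  · have h1 := totalDegree_coeff_finSuccEquiv_add_le _ i h
    have h2 := totalDegree_rename_le (pe j) p
    omega

theorem natDegree_Ps_le (j : Fin 2) (p : MvPolynomial (Fin 3) K) :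
    (Ps j p).natDegree ≤ p.totalDegree := by
  unfold Ps
  rw [natDegree_finSuccEquiv]
  exact (degreeOf_le_totalDegree _ _).trans (totalDegree_rename_le (pe j) p)

/-- elimination of one of the coordinates -/
theorem elim {h : MvPolynomial (Fin 2) K} (hirr : Irreducible h)
    {g : Polynomial (MvPolynomial (Fin 2) K)} (hg : ¬ Polynomial.C h ∣ g) {D1 D : ℕ}
    (hh : h.totalDegree ≤ D1) (hgn : g.natDegree ≤ D) (hgc : ∀ i, (g.coeff i).totalDegree ≤ D)
    (j : Fin 2) : ∃ E : MvPolynomial (Fin 2) K, E ≠ 0 ∧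
      E.totalDegree ≤ (D1 + 2 * D + 1) * (D1 + 2 * D) ∧
      ∀ (t : Fin 2 → K) (n : K), eval t h = 0 → (g.map (eval t)).eval n = 0 →
        eval ![n, t j] E = 0 := by
  set h3 : MvPolynomial (Fin 3) K := (finSuccEquiv K 2).symm (Polynomial.C h) with hh3
  set g3 : MvPolynomial (Fin 3) K := (finSuccEquiv K 2).symm g with hg3
  have dh3 : h3.totalDegree ≤ D1 := by
    rw [hh3, symm_C]
    exact (totalDegree_rename_le _ _).trans hh
  have dg3 : g3.totalDegree ≤ 2 * D := by
    have h1 : g3.totalDegree ≤ D + D := totalDegree_symm_le g hgn hgc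
    omega
  set H := Ps j h3 with hH
  set G := Ps j g3 with hG
  have hHirr : Irreducible H := by
    have h1 : Irreducible (Polynomial.C h) := (Polynomial.prime_C_iff.2 hirr.prime).irreducible
    have h2 := (MulEquiv.irreducible_iff (PsE (K := K) j)).2 h1
    rwa [PsE_apply] at h2
  have hHG : ¬ H ∣ G := by
    intro h1
    apply hg
    rw [hH, hG, hh3, hg3, ← PsE_apply, ← PsE_apply] at h1
    exact (map_dvd_iff (PsE (K := K) j)).1 h1
  have hevh : ∀ (t : Fin 2 → K) (n : K), eval t h = 0 →
      (H.map (eval ![n, t j])).eval (t (1 - j)) = 0 := by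
    intro t n h1
    rw [hH, eval_Ps, hh3, symm_C, eval_rename]
    exact h1
  have hevg : ∀ (t : Fin 2 → K) (n : K), (g.map (eval t)).eval n = 0 →
      (G.map (eval ![n, t j])).eval (t (1 - j)) = 0 := by
    intro t n h1
    rw [hG, eval_Ps, eval_eq_eval_mv_eval', hg3, AlgEquiv.apply_symm_apply]
    exact h1
  rcases Nat.eq_zero_or_pos H.natDegree with h0 | h0
  · refine ⟨H.coeff 0, ?_, ?_, ?_⟩
    · intro h1
      rw [Polynomial.eq_C_of_natDegree_eq_zero h0, h1, Polynomial.C_0] at hHirr
      exact hHirr.ne_zero rfl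
    · refine (coeff_Ps_le j h3 0).trans (dh3.trans ?_)
      nlinarith
    · intro t n h1 _
      have h2 := hevh t n h1
      rw [Polynomial.eq_C_of_natDegree_eq_zero h0, Polynomial.map_C, Polynomial.eval_C] at h2
      exact h2
  · refine ⟨Polynomial.resultant H G, PolyKit.resultant_ne_zero_of_irreducible hHirr h0 hHG, ?_, ?_⟩
    · refine (totalDegree_resultant H G (D1 + 2 * D) (D1 + 2 * D) ?_ ?_ ?_).trans ?_
      · intro i
        exact (coeff_Ps_le j h3 i).trans (by omega)
      · intro i
        exact (coeff_Ps_le j g3 i).trans (by omega)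
      · have h1 : H.natDegree ≤ h3.totalDegree := natDegree_Ps_le j h3
        have h2 : G.natDegree ≤ g3.totalDegree := natDegree_Ps_le j g3
        omega
      · exact Nat.mul_le_mul_right _ (by omega)
    · intro t n h1 h2
      refine PolyKit.map_resultant_eq_zero (eval ![n, t j]) H G h0 (t (1 - j)) ?_ ?_
      · rw [Polynomial.eval₂_eq_eval_map]
        exact hevh t n h1
      · rw [Polynomial.eval₂_eq_eval_map]
        exact hevg t n h2

/-- a complex relation on integer points gives an integer relation with the same monomials -/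
theorem exists_int_of_complex {σ P : Type*} [Finite σ] (S : Set P) (x : P → σ → ℤ)
    {E : MvPolynomial σ ℂ} (hE : E ≠ 0) (h : ∀ p ∈ S, eval (fun i => (x p i : ℂ)) E = 0) :
    ∃ E' : MvPolynomial σ ℤ, E' ≠ 0 ∧ E'.totalDegree ≤ E.totalDegree ∧
      ∀ p ∈ S, eval (x p) E' = 0 := by
  classical
  have := Fintype.ofFinite σ
  let mon : (σ →₀ ℕ) → P → ℤ := fun s p => ∏ i, x p i ^ s i
  obtain ⟨a, ha0, ha⟩ := DetCore.exists_relation (ι := E.support) S (fun s p => mon s p) (by
    intro y hy
    -- the matrix has a left kernel over `ℂ`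
    have h1 : (Matrix.of fun (i j : E.support) => mon i (y j)).map (Int.castRingHom ℂ) =
        Matrix.of fun (i j : E.support) => ((mon i (y j) : ℤ) : ℂ) := by
      ext i j
      rfl
    have h2 : ((Matrix.of fun (i j : E.support) => mon i (y j)).map (Int.castRingHom ℂ)).det = 0 := by
      rw [← Matrix.exists_vecMul_eq_zero_iff]
      refine ⟨fun s => E.coeff s, ?_, ?_⟩
      · obtain ⟨s, hs⟩ := support_nonempty.2 hE
        intro h3
        have := congrFun h3 ⟨s, hs⟩
        exact (mem_support_iff.1 hs) this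
      · funext j
        have h3 := h (y j) (hy j)
        rw [eval_eq'] at h3
        rw [h1, Matrix.vecMul, dotProduct, Pi.zero_apply, ← h3]
        rw [← Finset.sum_coe_sort E.support]
        refine Finset.sum_congr rfl fun s _ => ?_
        simp only [Matrix.of_apply, mon]
        push_cast
        rfl
    rw [← RingHom.mapMatrix_apply, ← RingHom.map_det] at h2
    have h3 : (Int.castRingHom ℂ) (Matrix.of fun (i j : E.support) => mon i (y j)).det =
      (((Matrix.of fun (i j : E.support) => mon i (y j)).det : ℤ) : ℂ) := rfl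
    rw [h3] at h2
    exact_mod_cast h2)
  refine ⟨∑ s : E.support, monomial (s : σ →₀ ℕ) (a s), ?_, ?_, ?_⟩
  · intro h0
    apply ha0
    funext s
    have h1 := congrArg (coeff (s : σ →₀ ℕ)) h0
    rw [coeff_sum, coeff_zero] at h1
    simp only [coeff_monomial] at h1
    rw [Finset.sum_eq_single s] at h1
    · simpa using h1
    · intro b _ hb
      rw [if_neg]
      intro h2
      exact hb (Subtype.ext h2)
    · intro h2
      exact absurd (Finset.mem_univ _) h2
  · refine (totalDegree_finsetSum _ _).trans (Finset.sup_le fun s _ => ?_)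
    refine (totalDegree_monomial_le _ _).trans ?_
    exact le_totalDegree s.2
  · intro p hp
    rw [map_sum, ← ha p hp]
    refine Finset.sum_congr rfl fun s _ => ?_
    rw [eval_monomial, Finsupp.prod_fintype _ _ (fun _ => pow_zero _)]

/-! ### the glue theorem -/

theorem totalDegree_multiset_prod {m : ℕ} (s : Multiset (MvPolynomial (Fin m) K))
    (h : ∀ g ∈ s, g ≠ 0) : s.prod.totalDegree = (s.map MvPolynomial.totalDegree).sum := by
  induction s using Multiset.induction_on with
  | empty => simp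
  | cons a s ih =>
      have h1 : ∀ g ∈ s, g ≠ 0 := fun g hg => h g (Multiset.mem_cons_of_mem hg)
      rw [Multiset.prod_cons, Multiset.map_cons, Multiset.sum_cons,
        MvPolynomial.totalDegree_mul_of_isDomain (h a (Multiset.mem_cons_self a s)), ih h1]
      rw [Ne, Multiset.prod_eq_zero_iff]
      exact fun h0 => h1 0 h0 rfl

theorem one_le_totalDegree {m : ℕ} {h : MvPolynomial (Fin m) K} (hirr : Irreducible h) :
    1 ≤ h.totalDegree := by
  rw [Nat.one_le_iff_ne_zero]
  intro h0
  rw [totalDegree_eq_zero_iff_eq_C] at h0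
  apply hirr.not_isUnit
  rw [h0]
  have h1 : coeff 0 h ≠ 0 := by
    intro h2
    rw [h2, C_0] at h0
    exact hirr.ne_zero h0
  exact (isUnit_iff_ne_zero.2 h1).map C

/-- finitely many irreducible factors, whose number is bounded by the degree -/
theorem exists_factors {m : ℕ} {R : MvPolynomial (Fin m) K} (hR : R ≠ 0) :
    ∃ s : Multiset (MvPolynomial (Fin m) K), (∀ h ∈ s, Irreducible h ∧
      h.totalDegree ≤ R.totalDegree) ∧ Multiset.card s ≤ R.totalDegree ∧
      ∀ x : Fin m → K, eval x R = 0 → ∃ h ∈ s, eval x h = 0 := by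
  classical
  set s := UniqueFactorizationMonoid.factors R with hs
  have hirr : ∀ h ∈ s, Irreducible h := fun h hh => UniqueFactorizationMonoid.irreducible_of_factor h hh
  have h0 : ∀ g ∈ s, g ≠ 0 := fun g hg => (hirr g hg).ne_zero
  obtain ⟨u, hu⟩ := UniqueFactorizationMonoid.factors_prod hR
  have hprod0 : s.prod ≠ 0 := by
    rw [Ne, Multiset.prod_eq_zero_iff]
    exact fun h1 => h0 0 h1 rfl
  have hdeg : s.prod.totalDegree ≤ R.totalDegree := by
    have h1 : s.prod.totalDegree + (u : MvPolynomial (Fin m) K).totalDegree = R.totalDegree := by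
      rw [← totalDegree_mul_of_isDomain hprod0 u.ne_zero, hu]
    omega
  rw [totalDegree_multiset_prod s h0] at hdeg
  refine ⟨s, fun h hh => ⟨hirr h hh, ?_⟩, ?_, ?_⟩
  · refine le_trans ?_ hdeg
    exact Multiset.single_le_sum (fun _ _ => Nat.zero_le _) _
      (Multiset.mem_map_of_mem MvPolynomial.totalDegree hh)
  · refine le_trans ?_ hdeg
    have h1 : ∀ a ∈ s.map MvPolynomial.totalDegree, 1 ≤ a := by
      intro a ha
      obtain ⟨g, hg, rfl⟩ := Multiset.mem_map.1 ha
      exact one_le_totalDegree (hirr g hg)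
    have h2 := Multiset.card_nsmul_le_sum h1
    simpa using h2
  · intro x hx
    have h1 : eval x s.prod = 0 := by
      rw [← hu, map_mul] at hx
      rcases mul_eq_zero.1 hx with h2 | h2
      · exact h2
      · exfalso
        have h3 : IsUnit (eval x (u : MvPolynomial (Fin m) K)) := u.isUnit.map (eval x)
        rw [h2] at h3
        exact not_isUnit_zero h3
    rw [map_multiset_prod, Multiset.prod_eq_zero_iff, Multiset.mem_map] at h1
    exact h1

/-- **Glue for level 2.** -/
theorem glue (D1 D B : ℕ) : ∃ D2 : ℕ, ∀ (U : Finset (Fin 2 → ℤ)) (n : (Fin 2 → ℤ) → ℤ)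
    (R : MvPolynomial (Fin 2) ℤ), R ≠ 0 → R.totalDegree ≤ D1 → (∀ t ∈ U, eval t R = 0) →
    (∀ h : MvPolynomial (Fin 2) ℂ, Irreducible h → h.totalDegree ≤ D1 → ∀ U' ⊆ U,
      (∀ t ∈ U', eval (fun i => (t i : ℂ)) h = 0) → U'.card ≤ B ∨
      ∃ g : Polynomial (MvPolynomial (Fin 2) ℂ), g.natDegree ≤ D ∧
        (∀ i, (g.coeff i).totalDegree ≤ D) ∧
        (∀ t ∈ U', (g.map (eval (fun i => (t i : ℂ)))).eval (n t : ℂ) = 0) ∧
        ¬ Polynomial.C h ∣ g) →
    ∀ j : Fin 2, ∃ E : MvPolynomial (Fin 2) ℤ, E ≠ 0 ∧ E.totalDegree ≤ D2 ∧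
      ∀ t ∈ U, eval ![n t, t j] E = 0 := by
  classical
  set D3 := (D1 + 2 * D + 1) * (D1 + 2 * D) + B with hD3
  refine ⟨D1 * D3, ?_⟩
  intro U n R hR hRD hRU hstep j
  set Rc : MvPolynomial (Fin 2) ℂ := MvPolynomial.map (Int.castRingHom ℂ) R with hRc
  have hinj : Function.Injective (MvPolynomial.map (σ := Fin 2) (Int.castRingHom ℂ)) :=
    MvPolynomial.map_injective _ Int.cast_injective
  have hRc0 : Rc ≠ 0 := by
    intro h0
    apply hR
    apply hinj
    rw [← hRc, h0, map_zero]
  have hRcD : Rc.totalDegree ≤ D1 :=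
    (Finset.sup_mono (MvPolynomial.support_map_subset _ _)).trans hRD
  obtain ⟨s, hs1, hs2, hs3⟩ := exists_factors hRc0
  -- a polynomial for each factor
  have hfac : ∀ h ∈ s, ∃ E : MvPolynomial (Fin 2) ℂ, E ≠ 0 ∧ E.totalDegree ≤ D3 ∧
      ∀ t ∈ U, eval (fun i => (t i : ℂ)) h = 0 → eval (![(n t : ℂ), (t j : ℂ)]) E = 0 := by
    intro h hh
    obtain ⟨hirr, hdeg⟩ := hs1 h hh
    set U' := U.filter (fun t => eval (fun i => (t i : ℂ)) h = 0) with hU'
    rcases hstep h hirr (hdeg.trans hRcD) U' (Finset.filter_subset _ _)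
      (fun t ht => (Finset.mem_filter.1 ht).2) with hcard | ⟨g, hg1, hg2, hg3, hg4⟩
    · refine ⟨∏ t ∈ U', (X 1 - C ((t j : ℤ) : ℂ)), ?_, ?_, ?_⟩
      · rw [Finset.prod_ne_zero_iff]
        intro t _ h1
        have h2 := congrArg (eval (fun _ => ((t j : ℤ) : ℂ) + 1)) h1
        simp at h2
      · refine (totalDegree_finsetProd _ _).trans ?_
        have h1 : ∀ t ∈ U', (X 1 - C ((t j : ℤ) : ℂ) : MvPolynomial (Fin 2) ℂ).totalDegree ≤ 1 := by
          intro t _
          refine (totalDegree_sub _ _).trans ?_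
          rw [totalDegree_X, totalDegree_C]
          simp
        refine (Finset.sum_le_sum h1).trans ?_
        rw [Finset.sum_const, smul_eq_mul, mul_one]
        omega
      · intro t ht h1
        rw [map_prod]
        refine Finset.prod_eq_zero (Finset.mem_filter.2 ⟨ht, h1⟩) ?_
        simp
    · obtain ⟨E, hE0, hE1, hE2⟩ := elim hirr hg4 (hdeg.trans hRcD) hg1 hg2 j
      refine ⟨E, hE0, hE1.trans (by omega), ?_⟩
      intro t ht h1
      exact hE2 (fun i => (t i : ℂ)) (n t) h1 (hg3 t (Finset.mem_filter.2 ⟨ht, h1⟩))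
  choose! E hE0 hE1 hE2 using hfac
  have hprod0 : (s.map E).prod ≠ 0 := by
    rw [Ne, Multiset.prod_eq_zero_iff, Multiset.mem_map]
    rintro ⟨h, hh, h0⟩
    exact hE0 h hh h0
  obtain ⟨E', hE'0, hE'1, hE'2⟩ := exists_int_of_complex (U : Set (Fin 2 → ℤ))
    (fun t => ![n t, t j]) hprod0 (by
      intro t ht
      have h1 : eval (fun i => (t i : ℂ)) Rc = 0 := by
        rw [hRc, eval_map]
        have h2 := hRU t ht
        have h3 : eval₂ (Int.castRingHom ℂ) (fun i => (t i : ℂ)) R =
            ((eval t R : ℤ) : ℂ) := (MvPolynomial.eval₂_comp (Int.castRingHom ℂ) t R).symm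
        rw [h3, h2, Int.cast_zero]
      obtain ⟨h, hh, h2⟩ := hs3 _ h1
      have h3 := hE2 h hh t ht h2
      have h4 : (fun i => ((![n t, t j] i : ℤ) : ℂ)) = ![(n t : ℂ), (t j : ℂ)] := by
        funext i
        fin_cases i <;> rfl
      rw [h4, map_multiset_prod, Multiset.prod_eq_zero_iff, Multiset.mem_map]
      exact ⟨E h, Multiset.mem_map_of_mem E hh, h3⟩)
  refine ⟨E', hE'0, hE'1.trans ?_, hE'2⟩
  rw [totalDegree_multiset_prod _ (by
    intro g hg
    obtain ⟨h, hh, rfl⟩ := Multiset.mem_map.1 hg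
    exact hE0 h hh)]
  have h5 : ∀ a ∈ (s.map E).map MvPolynomial.totalDegree, a ≤ D3 := by
    intro a ha
    rw [Multiset.map_map] at ha
    obtain ⟨h, hh, rfl⟩ := Multiset.mem_map.1 ha
    exact hE1 h hh
  have h6 := Multiset.sum_le_card_nsmul _ _ h5
  rw [Multiset.card_map, Multiset.card_map, smul_eq_mul] at h6
  exact h6.trans (Nat.mul_le_mul_right _ (hs2.trans hRcD))

end Crest.Agent.R022.Glue776
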