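import Mathlib
import Crest.Agent.R022.Ifaces250
import Crest.Agent.R022.Glue776

/-! Row 22 (helper776): level 2 (`L2At`) from helper712's `free_curve`. -/

set_option autoImplicit false

namespace Crest.Agent.R022.Glue776

open MvPolynomial Crest.Agent.R22 Crest.Agent.R022 Crest.Agent.R022.Torsor Crest.Agent.R022.Expand

/-- The conclusion of helper712's `free_curve` (all constants and degrees). -/
def FreeCurveAt {F : Polynomial ℤ} (hF : F.Monic) (z : Fin F.natDegree → ℂ) (k : ℕ) (ρ κ : ℝ) :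
    Prop :=
  ∀ Cc M : ℕ, 0 < Cc → 0 < M → ∀ D1 : ℕ, ∃ B D : ℕ, ∀ A : ℝ, 1 ≤ A →
    ∀ a0 S n b L, LevelData hF z k Cc M A ρ a0 S n b L κ →
    (∀ l ∈ L, Par 1 S (l : ℤ) {(fun t => t 0), (fun t => t 1)}) →
    ∀ h : MvPolynomial (Fin 2) ℂ, Irreducible h → h.totalDegree ≤ D1 →
    ∀ U ⊆ S, (∀ t ∈ U, MvPolynomial.eval (fun i => (t i : ℂ)) h = 0) → U.ncard ≤ B ∨
      ∃ g : Polynomial (MvPolynomial (Fin 2) ℤ), g.natDegree ≤ D ∧
        (∀ i, (g.coeff i).totalDegree ≤ D) ∧ (∀ t ∈ U, ev3 g t (n t) = 0) ∧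
        ¬ Polynomial.C h ∣ g.map (MvPolynomial.map (Int.castRingHom ℂ))

theorem ev3_map (g : Polynomial (MvPolynomial (Fin 2) ℤ)) (t : Fin 2 → ℤ) (n : ℤ) :
    ((g.map (MvPolynomial.map (Int.castRingHom ℂ))).map
      (MvPolynomial.eval (fun i => (t i : ℂ)))).eval (n : ℂ) = ((ev3 g t n : ℤ) : ℂ) := by
  unfold ev3
  rw [Polynomial.map_map]
  have h1 : (MvPolynomial.eval (fun i => (t i : ℂ))).comp
      (MvPolynomial.map (Int.castRingHom ℂ)) =
      (Int.castRingHom ℂ).comp (MvPolynomial.eval t) := by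
    ext i
    · simp
    · simp
  rw [h1, ← Polynomial.map_map, Polynomial.eval_intCast_map]
  simp

theorem l2At_of_freeCurveAt {F : Polynomial ℤ} (hF : F.Monic) (z : Fin F.natDegree → ℂ) (k : ℕ)
    (ρ κ : ℝ) (H : FreeCurveAt hF z k ρ κ) : L2At hF z k ρ κ := by
  classical
  intro Cc M hC hM D1
  obtain ⟨B, D, hBD⟩ := H Cc M hC hM D1
  obtain ⟨D2, hD2⟩ := glue D1 D B
  refine ⟨D2, 1, ?_⟩
  intro A _ hA a0 S n b L hL hR hPar j
  obtain ⟨R, hR0, hRD, hRS⟩ := hR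
  have hfin := hL.fin
  suffices hst : _ by
    obtain ⟨E, hE0, hED, hE⟩ := hD2 hfin.toFinset n R hR0 hRD
      (fun t ht => hRS t (hfin.mem_toFinset.1 ht)) hst j
    exact ⟨E, hE0, hED, fun t ht => hE t (hfin.mem_toFinset.2 ht)⟩
  · intro h hirr hdeg U' hU' hh
    have hUS : (U' : Set (Fin 2 → ℤ)) ⊆ S := fun t ht =>
      hfin.mem_toFinset.1 (hU' (Finset.mem_coe.1 ht))
    rcases hBD A hA a0 S n b L hL hPar h hirr hdeg (U' : Set (Fin 2 → ℤ)) hUS
      (fun t ht => hh t (Finset.mem_coe.1 ht)) with h1 | ⟨g, hg1, hg2, hg3, hg4⟩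
    · left
      rwa [Set.ncard_coe_finset] at h1
    · right
      refine ⟨g.map (MvPolynomial.map (Int.castRingHom ℂ)),
        Polynomial.natDegree_map_le.trans hg1, ?_, ?_, hg4⟩
      · intro i
        rw [Polynomial.coeff_map]
        exact (Finset.sup_mono (MvPolynomial.support_map_subset _ _)).trans (hg2 i)
      · intro t ht
        rw [ev3_map, hg3 t (Finset.mem_coe.2 ht), Int.cast_zero]

end Crest.Agent.R022.Glue776
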