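import Mathlib

/-! Row 22 (helper586): numerical part of the surface step.

The family `{t₀^u t₁^v b^j : u + v + ρ j ≤ Y, j = 0 or not (e1 ≤ u and e2 ≤ v)}`, `e1 + e2 = D`, has
`≥ (1 + D/ρ) Y²/2 - O(Y)` elements, and if `κ² (1 + D/ρ) > 1` the sum of the weights is smaller
than `κ` times the gain of the `q`-adic determinant method in two local parameters. -/

set_option autoImplicit false

open Finset

namespace Crest.Agent.R022.NumSurf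

/-- number of lattice points of a triangle -/
theorem card_tri (q : ℕ) :
    (((range (q + 1)) ×ˢ (range (q + 1))).filter (fun x : ℕ × ℕ => x.1 + x.2 ≤ q)).card * 2 =
      (q + 1) * (q + 2) := by
  have h1 : (((range (q + 1)) ×ˢ (range (q + 1))).filter (fun x : ℕ × ℕ => x.1 + x.2 ≤ q)).card =
      ∑ u ∈ range (q + 1), (q + 1 - u) := by
    rw [Finset.card_filter, Finset.sum_product]
    refine Finset.sum_congr rfl fun u hu => ?_
    have hu' := mem_range.mp hu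
    rw [← Finset.card_filter]
    have : (range (q + 1)).filter (fun v => u + v ≤ q) = range (q + 1 - u) := by
      ext v
      simp only [Finset.mem_filter, Finset.mem_range]
      omega
    rw [this, Finset.card_range]
  rw [h1]
  have h2 : ∀ q : ℕ, (∑ u ∈ range (q + 1), (q + 1 - u)) * 2 = (q + 1) * (q + 2) := by
    intro q
    induction q with
    | zero => simp
    | succ q ih =>
      have h3 : ∑ u ∈ range (q + 1 + 1), (q + 1 + 1 - u) =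
          (∑ u ∈ range (q + 1), (q + 1 - u)) + (q + 2) := by
        rw [Finset.sum_range_succ' (fun u => q + 1 + 1 - u)]
        simp
      rw [h3, add_mul, ih]
      ring
  exact h2 q

/-- the slice of the family -/
def slc (e1 e2 j q : ℕ) : Finset (ℕ × ℕ) :=
  ((range (q + 1)) ×ˢ (range (q + 1))).filter
    (fun x => x.1 + x.2 ≤ q ∧ (j = 0 ∨ ¬ (e1 ≤ x.1 ∧ e2 ≤ x.2)))

theorem card_slc_zero (e1 e2 q : ℕ) : (q : ℝ) ^ 2 / 2 ≤ (slc e1 e2 0 q).card := by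
  have h1 : slc e1 e2 0 q = ((range (q + 1)) ×ˢ (range (q + 1))).filter
      (fun x : ℕ × ℕ => x.1 + x.2 ≤ q) := by
    unfold slc
    refine Finset.filter_congr fun x _ => ?_
    simp
  have h2 : ((slc e1 e2 0 q).card : ℝ) * 2 = (q + 1) * (q + 2) := by
    rw [h1]
    exact_mod_cast card_tri q
  nlinarith [(Nat.cast_nonneg q : (0 : ℝ) ≤ q)]

theorem card_slc (e1 e2 j q : ℕ) :
    ((e1 + e2 : ℕ) : ℝ) * q - ((e1 + e2 : ℕ) : ℝ) ^ 2 ≤ (slc e1 e2 j q).card := by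
  set D := e1 + e2 with hD
  rcases Nat.lt_or_ge q D with h | h
  · have h1 : ((D : ℕ) : ℝ) * q - (D : ℝ) ^ 2 ≤ 0 := by
      have h2 : (q : ℝ) ≤ D := by exact_mod_cast h.le
      have h3 : (0 : ℝ) ≤ D := Nat.cast_nonneg D
      nlinarith
    exact h1.trans (Nat.cast_nonneg _)
  · -- tri q ≤ card slc + tri (q - D)
    have h1 : (((range (q + 1)) ×ˢ (range (q + 1))).filter
        (fun x : ℕ × ℕ => x.1 + x.2 ≤ q)).card ≤ (slc e1 e2 j q).card +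
        (((range (q - D + 1)) ×ˢ (range (q - D + 1))).filter
          (fun x : ℕ × ℕ => x.1 + x.2 ≤ q - D)).card := by
      have h2 : ((range (q + 1)) ×ˢ (range (q + 1))).filter (fun x : ℕ × ℕ => x.1 + x.2 ≤ q) ⊆
          (slc e1 e2 j q) ∪ ((((range (q - D + 1)) ×ˢ (range (q - D + 1))).filter
          (fun x : ℕ × ℕ => x.1 + x.2 ≤ q - D)).image (fun x => (x.1 + e1, x.2 + e2))) := by
        intro x hx
        rw [Finset.mem_filter, Finset.mem_product, mem_range, mem_range] at hx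
        rw [Finset.mem_union]
        by_cases hc : e1 ≤ x.1 ∧ e2 ≤ x.2
        · right
          rw [Finset.mem_image]
          refine ⟨(x.1 - e1, x.2 - e2), ?_, ?_⟩
          · rw [Finset.mem_filter, Finset.mem_product, mem_range, mem_range]
            simp only
            omega
          · ext <;> simp only <;> omega
        · left
          unfold slc
          rw [Finset.mem_filter, Finset.mem_product, mem_range, mem_range]
          exact ⟨hx.1, hx.2, Or.inr hc⟩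
      exact (Finset.card_le_card h2).trans ((Finset.card_union_le _ _).trans
        (Nat.add_le_add_left Finset.card_image_le _))
    have h3 := card_tri q
    have h4 := card_tri (q - D)
    set a := (((range (q + 1)) ×ˢ (range (q + 1))).filter
        (fun x : ℕ × ℕ => x.1 + x.2 ≤ q)).card
    set b := (((range (q - D + 1)) ×ˢ (range (q - D + 1))).filter
          (fun x : ℕ × ℕ => x.1 + x.2 ≤ q - D)).card
    obtain ⟨r, rfl⟩ : ∃ r, q = D + r := ⟨q - D, by omega⟩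
    have h5 : D + r - D = r := by omega
    rw [h5] at h4
    have h1' : (a : ℝ) ≤ (slc e1 e2 j (D + r)).card + (b : ℝ) := by exact_mod_cast h1
    have h3' : (a : ℝ) * 2 = ((D : ℝ) + r + 1) * (D + r + 2) := by exact_mod_cast h3
    have h4' : (b : ℝ) * 2 = ((r : ℝ) + 1) * (r + 2) := by exact_mod_cast h4
    push_cast
    nlinarith [(Nat.cast_nonneg r : (0 : ℝ) ≤ r), (Nat.cast_nonneg D : (0 : ℝ) ≤ D)]

/-- weight of the monomial `t₀^u t₁^v b^j`, `x = (j, u, v)` -/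
noncomputable def wt (ρ : ℝ) (x : ℕ × ℕ × ℕ) : ℝ := (x.2.1 : ℝ) + x.2.2 + ρ * x.1

/-- the family of monomials -/
noncomputable def fam (ρ : ℝ) (e1 e2 Y : ℕ) : Finset (ℕ × ℕ × ℕ) :=
  ((range (⌊(Y : ℝ) / ρ⌋₊ + 1)) ×ˢ ((range (Y + 1)) ×ˢ (range (Y + 1)))).filter
    (fun x => wt ρ x ≤ Y ∧ (x.1 = 0 ∨ ¬ (e1 ≤ x.2.1 ∧ e2 ≤ x.2.2)))

theorem mem_fam {ρ : ℝ} {e1 e2 Y : ℕ} {x : ℕ × ℕ × ℕ} (hx : x ∈ fam ρ e1 e2 Y) :
    x.1 ≤ ⌊(Y : ℝ) / ρ⌋₊ ∧ x.2.1 ≤ Y ∧ x.2.2 ≤ Y ∧ wt ρ x ≤ Y ∧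
      (x.1 = 0 ∨ ¬ (e1 ≤ x.2.1 ∧ e2 ≤ x.2.2)) := by
  unfold fam at hx
  rw [Finset.mem_filter, Finset.mem_product, Finset.mem_product, mem_range, mem_range,
    mem_range] at hx
  refine ⟨by omega, by omega, by omega, hx.2.1, hx.2.2⟩

/-- lower bound for the number of elements of weight `≤ y` -/
theorem card_fam_ge_sum (ρ : ℝ) (hρ : 0 < ρ) (e1 e2 Y y : ℕ) (hy : y ≤ Y) :
    ∑ j ∈ range (⌊(y : ℝ) / ρ⌋₊ + 1), (slc e1 e2 j ⌊(y : ℝ) - ρ * j⌋₊).card ≤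
      ((fam ρ e1 e2 Y).filter (fun x => wt ρ x ≤ y)).card := by
  classical
  rw [← Finset.card_sigma]
  refine Finset.card_le_card_of_injOn (fun x => (x.1, x.2.1, x.2.2)) ?_ ?_
  · intro x hx
    have hx' := Finset.mem_sigma.mp (Finset.mem_coe.mp hx)
    obtain ⟨h1, h2⟩ := hx'
    rw [mem_range] at h1
    unfold slc at h2
    rw [Finset.mem_filter, Finset.mem_product, mem_range, mem_range] at h2
    obtain ⟨⟨h3, h4⟩, h5, h6⟩ := h2
    have hj : (x.1 : ℝ) ≤ (y : ℝ) / ρ := by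
      have : x.1 ≤ ⌊(y : ℝ) / ρ⌋₊ := by omega
      exact (Nat.le_floor_iff (by positivity)).mp this
    have hj' : ρ * x.1 ≤ y := by
      rw [le_div_iff₀ hρ] at hj
      linarith
    have h7 : ((x.2.1 + x.2.2 : ℕ) : ℝ) ≤ (y : ℝ) - ρ * x.1 :=
      (Nat.le_floor_iff (by linarith)).mp h5
    have hw : wt ρ (x.1, x.2.1, x.2.2) ≤ y := by
      unfold wt
      push_cast at h7
      simp only
      linarith
    have hyY : (y : ℝ) ≤ Y := by exact_mod_cast hy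
    have hρj : 0 ≤ ρ * x.1 := by positivity
    have h8 : x.2.1 + x.2.2 ≤ y := by
      have : ((x.2.1 + x.2.2 : ℕ) : ℝ) ≤ (y : ℝ) := by linarith
      exact_mod_cast this
    rw [Finset.mem_coe, Finset.mem_filter]
    refine ⟨?_, hw⟩
    unfold fam
    rw [Finset.mem_filter, Finset.mem_product, Finset.mem_product, mem_range, mem_range,
      mem_range]
    refine ⟨⟨?_, ?_, ?_⟩, hw.trans hyY, h6⟩
    · have : x.1 ≤ ⌊(Y : ℝ) / ρ⌋₊ := by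
        rw [Nat.le_floor_iff (by positivity), le_div_iff₀ hρ]
        linarith
      simp only
      omega
    · simp only
      omega
    · simp only
      omega
  · rintro ⟨a, b, c⟩ _ ⟨a', b', c'⟩ _ h
    simp only [Prod.mk.injEq] at h
    obtain ⟨rfl, rfl, rfl⟩ := h
    rfl

/-- quadratic lower bound for the number of elements of weight `≤ y` -/
theorem card_fam_ge (ρ : ℝ) (hρ : 0 < ρ) (e1 e2 D : ℕ) (hD : e1 + e2 = D) (Y y : ℕ)
    (hy : y ≤ Y) :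
    (1 + D / ρ) / 2 * (y : ℝ) ^ 2 - (D * ρ + D + (D + D ^ 2) / ρ) * (y + 1) ≤
      ((fam ρ e1 e2 Y).filter (fun x => wt ρ x ≤ y)).card := by
  refine le_trans ?_ (Nat.cast_le.mpr (card_fam_ge_sum ρ hρ e1 e2 Y y hy))
  push_cast
  set J := ⌊(y : ℝ) / ρ⌋₊ with hJ
  have hJ1 : (J : ℝ) * ρ ≤ y := by
    rw [← le_div_iff₀ hρ]
    exact Nat.floor_le (by positivity)
  have hJ2 : (y : ℝ) < (J + 1) * ρ := by
    rw [← div_lt_iff₀ hρ]
    exact Nat.lt_floor_add_one _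
  have hD0 : (0 : ℝ) ≤ D := Nat.cast_nonneg D
  have hy0 : (0 : ℝ) ≤ y := Nat.cast_nonneg y
  have hJ0 : (0 : ℝ) ≤ J := Nat.cast_nonneg J
  rw [Finset.sum_range_succ']
  have h0 : (y : ℝ) ^ 2 / 2 ≤ ((slc e1 e2 0 ⌊(y : ℝ) - ρ * (0 : ℕ)⌋₊).card : ℝ) := by
    have h := card_slc_zero e1 e2 y
    have h1 : ⌊(y : ℝ) - ρ * (0 : ℕ)⌋₊ = y := by simp
    rw [h1]
    exact h
  have h1 : ∑ j ∈ range J, ((D : ℝ) * ((y : ℝ) - ρ * ((j : ℝ) + 1) - 1) - (D : ℝ) ^ 2) ≤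
      ∑ j ∈ range J, ((slc e1 e2 (j + 1) ⌊(y : ℝ) - ρ * ((j + 1 : ℕ) : ℝ)⌋₊).card : ℝ) := by
    refine Finset.sum_le_sum fun j hj => ?_
    have h := card_slc e1 e2 (j + 1) ⌊(y : ℝ) - ρ * ((j + 1 : ℕ) : ℝ)⌋₊
    rw [hD] at h
    have h2 := Nat.lt_floor_add_one ((y : ℝ) - ρ * ((j + 1 : ℕ) : ℝ))
    push_cast at h2 h ⊢
    nlinarith
  have h2 : ∑ j ∈ range J, ((D : ℝ) * ((y : ℝ) - ρ * ((j : ℝ) + 1) - 1) - (D : ℝ) ^ 2) =
      J * (D * (y - 1) - D ^ 2) - D * ρ * (J * (J + 1) / 2) := by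
    have h3 : ∀ J : ℕ, ∑ j ∈ range J, ((D : ℝ) * ((y : ℝ) - ρ * ((j : ℝ) + 1) - 1) - (D : ℝ) ^ 2) =
      J * (D * (y - 1) - D ^ 2) - D * ρ * (J * (J + 1) / 2) := by
      intro J
      induction J with
      | zero => simp
      | succ J ih =>
        rw [Finset.sum_range_succ, ih]
        push_cast
        ring
    exact h3 J
  rw [h2] at h1
  refine le_trans ?_ (add_le_add h1 h0)
  -- the inequality of real numbers
  have h4 : (J : ℝ) ≤ y / ρ := by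
    rw [le_div_iff₀ hρ]
    exact hJ1
  -- f(J) = y J - ρ J^2/2 ≥ y^2/(2ρ) - ρ/2
  have h5 : (y : ℝ) ^ 2 / (2 * ρ) - ρ / 2 ≤ y * J - ρ * J ^ 2 / 2 := by
    have h6 : (y : ℝ) * J - ρ * J ^ 2 / 2 - (y ^ 2 / (2 * ρ) - ρ / 2) =
        (ρ ^ 2 - (y - ρ * J) ^ 2) / (2 * ρ) := by
      field_simp
      ring
    have h7 : 0 ≤ (ρ ^ 2 - ((y : ℝ) - ρ * J) ^ 2) / (2 * ρ) := by
      apply div_nonneg _ (by positivity)
      have : 0 ≤ (y : ℝ) - ρ * J := by linarith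
      have : (y : ℝ) - ρ * J ≤ ρ := by linarith
      nlinarith
    linarith
  have h8 : (D : ℝ) * (y ^ 2 / (2 * ρ) - ρ / 2) ≤ D * (y * J - ρ * J ^ 2 / 2) :=
    mul_le_mul_of_nonneg_left h5 hD0
  have h9 : (1 + D / ρ) / 2 * (y : ℝ) ^ 2 = y ^ 2 / 2 + D * (y ^ 2 / (2 * ρ)) := by
    field_simp
  have h10 : (D : ℝ) * ρ * J / 2 ≤ D * y / 2 := by
    have := mul_le_mul_of_nonneg_left hJ1 hD0
    nlinarith
  have h11 : ((D : ℝ) + D ^ 2) * J ≤ (D + D ^ 2) / ρ * y := by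
    have : ((D : ℝ) + D ^ 2) * J ≤ (D + D ^ 2) * (y / ρ) :=
      mul_le_mul_of_nonneg_left h4 (by positivity)
    calc ((D : ℝ) + D ^ 2) * J ≤ (D + D ^ 2) * (y / ρ) := this
      _ = (D + D ^ 2) / ρ * y := by ring
  have h12 : 0 ≤ ((D : ℝ) + D ^ 2) / ρ := by positivity
  have h13 : 0 ≤ (D : ℝ) * ρ * y := by positivity
  have h14 : 0 ≤ (D : ℝ) * y := by positivity
  have h15 : 0 ≤ (D : ℝ) * ρ := by positivity
  rw [h9]
  nlinarith

/-- layer-cake bound for the sum of the weights -/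
theorem sum_wt_le {Ω : Type*} (T : Finset Ω) (w : Ω → ℝ) (Y : ℕ) (hY : ∀ x ∈ T, w x ≤ Y) :
    ∑ x ∈ T, w x ≤ (Y : ℝ) * T.card - ∑ y ∈ range Y, ((T.filter (fun x => w x ≤ y)).card : ℝ) := by
  classical
  have h1 : ∑ y ∈ range Y, ((T.filter (fun x => w x ≤ y)).card : ℝ) =
      ∑ x ∈ T, (((range Y).filter (fun y : ℕ => w x ≤ y)).card : ℝ) := by
    have h2 : ∀ y ∈ range Y, ((T.filter (fun x => w x ≤ y)).card : ℝ) =
        ∑ x ∈ T, (if w x ≤ (y : ℝ) then (1 : ℝ) else 0) := by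
      intro y _
      rw [Finset.card_filter]
      push_cast
      rfl
    rw [Finset.sum_congr rfl h2, Finset.sum_comm]
    refine Finset.sum_congr rfl fun x _ => ?_
    rw [Finset.card_filter]
    push_cast
    rfl
  rw [h1]
  have h3 : ∀ x ∈ T, w x ≤ (Y : ℝ) - (((range Y).filter (fun y : ℕ => w x ≤ y)).card : ℝ) := by
    intro x hx
    have h4 : ((range Y).filter (fun y : ℕ => w x ≤ y)).card ≤ Y - ⌈w x⌉₊ := by
      have h5 : (range Y).filter (fun y : ℕ => w x ≤ y) ⊆ Finset.Ico ⌈w x⌉₊ Y := by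
        intro y hy
        rw [Finset.mem_filter, mem_range] at hy
        rw [Finset.mem_Ico]
        exact ⟨Nat.ceil_le.mpr hy.2, hy.1⟩
      have := Finset.card_le_card h5
      rwa [Nat.card_Ico] at this
    have h6 : ⌈w x⌉₊ ≤ Y := Nat.ceil_le.mpr (hY x hx)
    have h7 : (((range Y).filter (fun y : ℕ => w x ≤ y)).card : ℝ) ≤ (Y : ℝ) - ⌈w x⌉₊ := by
      rw [← Nat.cast_sub h6]
      exact_mod_cast h4
    have h8 := Nat.le_ceil (w x)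
    linarith
  calc ∑ x ∈ T, w x ≤ ∑ x ∈ T, ((Y : ℝ) - (((range Y).filter (fun y : ℕ => w x ≤ y)).card : ℝ)) :=
        Finset.sum_le_sum h3
    _ = (Y : ℝ) * T.card - ∑ x ∈ T, (((range Y).filter (fun y : ℕ => w x ≤ y)).card : ℝ) := by
        rw [Finset.sum_sub_distrib, Finset.sum_const, nsmul_eq_mul, mul_comm]

theorem poly_ineq (x κ c C Y s : ℝ) (hx : 0 < x) (hκ : 0 < κ) (hc : c = x ^ 2 / 2)
    (hC : 0 ≤ C) (hY1 : 1 ≤ Y) (hδ0 : 0 < κ * x - 1) (hY2 : κ ≤ (κ * x - 1) * Y)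
    (hY3 : κ * c + 2 * C * (κ * x - 1) + κ * (3 * x ^ 2 + 2 * x) / 6 + c / 2 + C + 1 ≤
      2 / 3 * c * (κ * x - 1) * Y)
    (hs1 : c * Y ^ 2 - C * (Y + 1) ≤ s) :
    ((Y : ℝ) * s - (c * ((2 * (Y : ℝ) ^ 3 - 3 * Y ^ 2 + Y) / 6) - C * (Y * (Y + 1) / 2))) + 1 ≤
      κ * ((x * Y - 1) * s - (x * Y) * (x * Y + 1) * (x * Y + 2) / 6) := by
  obtain ⟨δ, hδ⟩ : ∃ δ, δ = κ * x - 1 := ⟨_, rfl⟩
  obtain ⟨E, hE⟩ : ∃ E, E = κ * c + 2 * C * δ + κ * (3 * x ^ 2 + 2 * x) / 6 + c / 2 + C :=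
    ⟨_, rfl⟩
  rw [← hδ] at hδ0 hY2 hY3
  rw [← hE] at hY3
  have hY0 : (0 : ℝ) < Y := by linarith
  have hcpos : 0 < c := by rw [hc]; positivity
  have h3 : (c * (Y : ℝ) ^ 2 - C * (Y + 1)) * (δ * Y - κ) ≤ s * (δ * Y - κ) :=
    mul_le_mul_of_nonneg_right hs1 (by linarith)
  have h4 : (E + 1) * (Y : ℝ) ^ 2 ≤ 2 / 3 * c * δ * Y * Y ^ 2 :=
    mul_le_mul_of_nonneg_right hY3 (by positivity)
  have h5 : (1 : ℝ) ≤ (Y : ℝ) ^ 2 := one_le_pow₀ hY1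
  have h6 : κ * ((x * Y - 1) * s - (x * Y) * (x * Y + 1) * (x * Y + 2) / 6) -
      ((Y : ℝ) * s - (c * ((2 * (Y : ℝ) ^ 3 - 3 * Y ^ 2 + Y) / 6) - C * (Y * (Y + 1) / 2))) =
      s * (δ * Y - κ) + c * ((2 * (Y : ℝ) ^ 3 - 3 * Y ^ 2 + Y) / 6) - C * (Y * (Y + 1) / 2)
        - κ * (x ^ 3 * Y ^ 3 + 3 * x ^ 2 * Y ^ 2 + 2 * x * Y) / 6 := by
    rw [hδ]; ring
  have h8 : (c * (Y : ℝ) ^ 2 - C * (Y + 1)) * (δ * Y - κ) +
      c * ((2 * (Y : ℝ) ^ 3 - 3 * Y ^ 2 + Y) / 6) - C * (Y * (Y + 1) / 2)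
        - κ * (x ^ 3 * Y ^ 3 + 3 * x ^ 2 * Y ^ 2 + 2 * x * Y) / 6 =
      2 / 3 * c * δ * Y * Y ^ 2 - (κ * c * Y ^ 2 + C * (Y + 1) * (δ * Y) - C * (Y + 1) * κ
        + c * Y ^ 2 / 2 - c * Y / 6 + C * (Y * (Y + 1) / 2) +
          κ * (3 * x ^ 2 * Y ^ 2 + 2 * x * Y) / 6) := by
    rw [hδ, hc]; ring
  have hYY : (Y : ℝ) ≤ Y ^ 2 := by nlinarith
  have a1 : C * ((Y : ℝ) + 1) * (δ * Y) ≤ 2 * C * δ * Y ^ 2 := by
    have h : C * δ * Y * (Y + 1) ≤ C * δ * Y * (2 * Y) :=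
      mul_le_mul_of_nonneg_left (by linarith) (by positivity)
    calc C * ((Y : ℝ) + 1) * (δ * Y) = C * δ * Y * (Y + 1) := by ring
      _ ≤ C * δ * Y * (2 * Y) := h
      _ = 2 * C * δ * Y ^ 2 := by ring
  have a2 : 0 ≤ C * ((Y : ℝ) + 1) * κ := by positivity
  have a3 : 0 ≤ c * (Y : ℝ) / 6 := by positivity
  have a4 : C * ((Y : ℝ) * (Y + 1) / 2) ≤ C * Y ^ 2 :=
    mul_le_mul_of_nonneg_left (by nlinarith) hC
  have a5 : κ * (3 * x ^ 2 * (Y : ℝ) ^ 2 + 2 * x * Y) / 6 ≤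
      κ * (3 * x ^ 2 + 2 * x) / 6 * Y ^ 2 := by
    have h : κ * (2 * x) * (Y : ℝ) ≤ κ * (2 * x) * Y ^ 2 :=
      mul_le_mul_of_nonneg_left hYY (by positivity)
    have e1 : κ * (3 * x ^ 2 * (Y : ℝ) ^ 2 + 2 * x * Y) / 6 =
      (κ * (3 * x ^ 2) * Y ^ 2 + κ * (2 * x) * Y) / 6 := by ring
    have e2 : κ * (3 * x ^ 2 + 2 * x) / 6 * Y ^ 2 =
      (κ * (3 * x ^ 2) * Y ^ 2 + κ * (2 * x) * Y ^ 2) / 6 := by ring
    rw [e1, e2]
    linarith
  have a6 : E * (Y : ℝ) ^ 2 = κ * c * Y ^ 2 + 2 * C * δ * Y ^ 2 +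
      κ * (3 * x ^ 2 + 2 * x) / 6 * Y ^ 2 + c / 2 * Y ^ 2 + C * Y ^ 2 := by
    rw [hE]; ring
  have a7 : (E + 1) * (Y : ℝ) ^ 2 = E * Y ^ 2 + Y ^ 2 := by ring
  have a8 : c * (Y : ℝ) ^ 2 / 2 = c / 2 * Y ^ 2 := by ring
  linarith

/-- **Numerical lemma of the surface step.** -/
theorem num_surf (ρ κ : ℝ) (hρ : 0 < ρ) (hκ : 0 < κ) (D : ℕ) (h : 1 < κ ^ 2 * (1 + D / ρ)) :
    ∃ (Y m : ℕ), ∀ e1 e2 : ℕ, e1 + e2 = D →
      (m + 2).choose 3 ≤ m * (fam ρ e1 e2 Y).card ∧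
      ∑ x ∈ fam ρ e1 e2 Y, wt ρ x + 1 ≤
        κ * ((m : ℝ) * (fam ρ e1 e2 Y).card - (m + 2).choose 3) := by
  obtain ⟨c, hc⟩ : ∃ c : ℝ, c = (1 + D / ρ) / 2 := ⟨_, rfl⟩
  obtain ⟨C, hC⟩ : ∃ C : ℝ, C = D * ρ + D + (D + D ^ 2) / ρ := ⟨_, rfl⟩
  obtain ⟨x, hx⟩ : ∃ x : ℝ, x = Real.sqrt (1 + D / ρ) := ⟨_, rfl⟩
  have hDρ : 0 ≤ (D : ℝ) / ρ := by positivity
  have hx2 : x ^ 2 = 1 + D / ρ := by rw [hx]; exact Real.sq_sqrt (by linarith)
  have hx1 : 1 ≤ x := by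
    rw [hx]
    exact Real.one_le_sqrt.mpr (by linarith)
  have hx0 : 0 < x := by linarith
  have hκx : 1 < κ * x := by
    have h1 : 1 < (κ * x) ^ 2 := by rw [mul_pow, hx2]; exact h
    nlinarith [mul_pos hκ hx0]
  have hc2 : c = x ^ 2 / 2 := by rw [hc, hx2]
  have hcpos : 0 < c := by rw [hc2]; positivity
  have hC0 : 0 ≤ C := by rw [hC]; positivity
  have hδ0 : 0 < κ * x - 1 := by linarith
  obtain ⟨E, hE⟩ : ∃ E, E = κ * c + 2 * C * (κ * x - 1) + κ * (3 * x ^ 2 + 2 * x) / 6 +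
    c / 2 + C + 1 := ⟨_, rfl⟩
  have hE0 : 0 ≤ E := by rw [hE]; positivity
  obtain ⟨Y, hY⟩ : ∃ Y : ℕ, 1 + κ / (κ * x - 1) + E / (2 / 3 * c * (κ * x - 1)) ≤ Y :=
    exists_nat_ge _
  have hq1 : 0 ≤ κ / (κ * x - 1) := by positivity
  have hq2 : 0 ≤ E / (2 / 3 * c * (κ * x - 1)) := by positivity
  have hY1 : (1 : ℝ) ≤ Y := by linarith
  have hY0 : (0 : ℝ) < Y := by linarith
  have hY2 : κ ≤ (κ * x - 1) * Y := by
    have : κ / (κ * x - 1) ≤ Y := by linarith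
    rw [div_le_iff₀ hδ0] at this
    linarith
  have hY3 : E ≤ 2 / 3 * c * (κ * x - 1) * Y := by
    have : E / (2 / 3 * c * (κ * x - 1)) ≤ Y := by linarith
    rw [div_le_iff₀ (by positivity)] at this
    linarith
  obtain ⟨m, hm⟩ : ∃ m : ℕ, m = ⌊x * Y⌋₊ := ⟨_, rfl⟩
  have hm1 : (m : ℝ) ≤ x * Y := by rw [hm]; exact Nat.floor_le (by positivity)
  have hm2 : x * Y < m + 1 := by rw [hm]; exact Nat.lt_floor_add_one _
  refine ⟨Y, m, fun e1 e2 he => ?_⟩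
  obtain ⟨T, hT⟩ : ∃ T, T = fam ρ e1 e2 Y := ⟨_, rfl⟩
  rw [← hT]
  have hTY : ∀ y : ℕ, y ≤ Y → c * (y : ℝ) ^ 2 - C * (y + 1) ≤
      ((T.filter (fun x => wt ρ x ≤ y)).card : ℝ) := fun y hy => by
    rw [hc, hC, hT]
    exact card_fam_ge ρ hρ e1 e2 D he Y y hy
  have hs1 : c * (Y : ℝ) ^ 2 - C * (Y + 1) ≤ (T.card : ℝ) :=
    (hTY Y le_rfl).trans (Nat.cast_le.mpr (Finset.card_filter_le _ _))
  have hw1 : ∑ x ∈ T, wt ρ x ≤ (Y : ℝ) * (T.card : ℝ) -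
      ∑ y ∈ range Y, ((T.filter (fun x => wt ρ x ≤ y)).card : ℝ) :=
    sum_wt_le T (wt ρ) Y fun x hx => by
      rw [hT] at hx
      exact (mem_fam hx).2.2.2.1
  have hw2 : ∑ y ∈ range Y, (c * (y : ℝ) ^ 2 - C * (y + 1)) ≤
      ∑ y ∈ range Y, ((T.filter (fun x => wt ρ x ≤ y)).card : ℝ) :=
    Finset.sum_le_sum fun y hy => hTY y (mem_range.mp hy).le
  have hw3 : ∀ Y : ℕ, ∑ y ∈ range Y, (c * (y : ℝ) ^ 2 - C * (y + 1)) =
      c * ((2 * (Y : ℝ) ^ 3 - 3 * Y ^ 2 + Y) / 6) - C * (Y * (Y + 1) / 2) := by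
    intro Y
    induction Y with
    | zero => simp
    | succ Y ih =>
      rw [Finset.sum_range_succ, ih]
      push_cast
      ring
  rw [hw3 Y] at hw2
  have hch : ((m + 2).choose 3 : ℝ) = (m : ℝ) * (m + 1) * (m + 2) / 6 := by
    have h1 : (m + 2).choose 3 * 6 = m * (m + 1) * (m + 2) := by
      have h3 := Nat.descFactorial_eq_factorial_mul_choose (m + 2) 3
      have h4 : (m + 2).descFactorial 3 = (m + 2) * (m + 1) * m := by
        simp [Nat.descFactorial_succ]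
        ring
      rw [h4] at h3
      have : (3 : ℕ).factorial = 6 := rfl
      rw [this] at h3
      linarith
    have h2 : ((m + 2).choose 3 : ℝ) * 6 = (m : ℝ) * (m + 1) * (m + 2) := by exact_mod_cast h1
    linarith
  have hm0 : (0 : ℝ) ≤ m := Nat.cast_nonneg m
  have hs0 : (0 : ℝ) ≤ (T.card : ℝ) := Nat.cast_nonneg _
  have hch2 : ((m + 2).choose 3 : ℝ) ≤ (x * Y) * (x * Y + 1) * (x * Y + 2) / 6 := by
    rw [hch]
    have h1 : (m : ℝ) * (m + 1) ≤ (x * Y) * (x * Y + 1) :=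
      mul_le_mul hm1 (by linarith) (by positivity) (by positivity)
    have h2 : (m : ℝ) * (m + 1) * (m + 2) ≤ (x * Y) * (x * Y + 1) * (x * Y + 2) :=
      mul_le_mul h1 (by linarith) (by positivity) (by positivity)
    linarith
  have hms : (x * Y - 1) * (T.card : ℝ) ≤ (m : ℝ) * (T.card : ℝ) :=
    mul_le_mul_of_nonneg_right (by linarith) hs0
  have key : ∑ x ∈ T, wt ρ x + 1 ≤ κ * ((m : ℝ) * (T.card : ℝ) - (m + 2).choose 3) := by
    have h1 : κ * ((x * Y - 1) * (T.card : ℝ) - (x * Y) * (x * Y + 1) * (x * Y + 2) / 6) ≤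
        κ * ((m : ℝ) * (T.card : ℝ) - (m + 2).choose 3) :=
      mul_le_mul_of_nonneg_left (by linarith) hκ.le
    have h2 := poly_ineq x κ c C Y (T.card : ℝ) hx0 hκ hc2 hC0 hY1 hδ0 hY2
      (by rw [← hE]; exact hY3) hs1
    linarith
  refine ⟨?_, key⟩
  have hsum0 : 0 ≤ ∑ x ∈ T, wt ρ x := Finset.sum_nonneg fun x _ => by unfold wt; positivity
  have h2 : 0 < (m : ℝ) * (T.card : ℝ) - (m + 2).choose 3 := by
    by_contra hcon
    push Not at hcon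
    have := mul_nonneg hκ.le (neg_nonneg.mpr hcon)
    linarith
  have h3 : ((m + 2).choose 3 : ℝ) ≤ ((m * T.card : ℕ) : ℝ) := by
    push_cast
    linarith
  exact_mod_cast h3

end Crest.Agent.R022.NumSurf
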