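import Mathlib

/-! Row 22 (S0029), helper206.  Level-2 geometry, part (a): algebra of the substitution
`n = θ + α ^ k y` for a prime element `α` of a domain. -/

set_option autoImplicit false

namespace Crest.Agent.R022.Surf206

open Polynomial

variable {R : Type*} [CommRing R] [IsDomain R]

/-- the substitution `n ↦ θ + α ^ k y` -/
noncomputable def sb (θ α : R) (k : ℕ) : R[X] := C θ + C (α ^ k) * X

omit [IsDomain R] in
theorem comp_sb (g : R[X]) (θ α : R) (k : ℕ) :
    g.comp (sb θ α k) = (taylor θ g).comp (C (α ^ k) * X) := by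
  rw [sb, taylor_apply, comp_assoc]
  congr 1
  simp [add_comm]

omit [IsDomain R] in
theorem coeff_comp_sb (g : R[X]) (θ α : R) (k i : ℕ) :
    (g.comp (sb θ α k)).coeff i = (taylor θ g).coeff i * α ^ (k * i) := by
  rw [comp_sb, comp_C_mul_X_coeff, pow_mul]

omit [IsDomain R] in
theorem C_dvd_of_taylor {c θ : R} {g : R[X]} (h : C c ∣ taylor θ g) : C c ∣ g := by
  obtain ⟨q, hq⟩ := h
  refine ⟨taylor (-θ) q, ?_⟩
  have h1 := congrArg (taylor (-θ)) hq
  rw [taylor_taylor, neg_add_cancel, taylor_zero, taylor_mul, taylor_C] at h1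
  exact h1

/-- If the order of `g(θ + α ^ k y)` is larger than `k * natDegree g` then `α` divides `g`. -/
theorem C_dvd_of_large {θ α : R} (hα : Prime α) {k : ℕ} {g : R[X]}
    (h : C (α ^ (k * g.natDegree + 1)) ∣ g.comp (sb θ α k)) : C α ∣ g := by
  apply C_dvd_of_taylor (θ := θ)
  rw [C_dvd_iff_dvd_coeff] at h ⊢
  intro i
  by_cases hi : g.natDegree < i
  · rw [coeff_eq_zero_of_natDegree_lt (by rwa [natDegree_taylor])]
    exact dvd_zero _
  · push Not at hi
    have h1 := h i
    rw [coeff_comp_sb] at h1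
    have h2 : α ^ (k * g.natDegree + 1) = α ^ (k * g.natDegree - k * i + 1) * α ^ (k * i) := by
      rw [← pow_add]
      congr 1
      have : k * i ≤ k * g.natDegree := Nat.mul_le_mul_left _ hi
      omega
    rw [h2, mul_dvd_mul_iff_right (pow_ne_zero _ hα.ne_zero)] at h1
    exact (dvd_pow_self α (by omega)).trans h1

/-- If the order of `g(θ + α ^ k y)` is larger than `k * (m - 1)`, `m = natDegree g`, then
`g ≡ G_m (X - θ) ^ m` modulo `α`. -/
theorem C_dvd_sub_of_large {θ α : R} (hα : Prime α) {k : ℕ} {g : R[X]} (hm : 1 ≤ g.natDegree)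
    (h : C (α ^ (k * (g.natDegree - 1) + 1)) ∣ g.comp (sb θ α k)) :
    C α ∣ g - C g.leadingCoeff * (X - C θ) ^ g.natDegree := by
  apply C_dvd_of_taylor (θ := θ)
  have h0 : taylor θ (g - C g.leadingCoeff * (X - C θ) ^ g.natDegree) =
      taylor θ g - C g.leadingCoeff * X ^ g.natDegree := by
    rw [map_sub, taylor_mul, taylor_C, taylor_pow]
    congr 3
    rw [map_sub, taylor_X, taylor_C]
    ring
  rw [h0]
  rw [C_dvd_iff_dvd_coeff] at h ⊢
  intro i
  rw [coeff_sub, coeff_C_mul, coeff_X_pow]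
  rcases lt_trichotomy g.natDegree i with hi | hi | hi
  · rw [coeff_eq_zero_of_natDegree_lt (by rwa [natDegree_taylor]), if_neg (by omega)]
    simp
  · have h5 : (taylor θ g).coeff g.natDegree = g.leadingCoeff := by
      have h6 := leadingCoeff_taylor θ g
      rw [leadingCoeff, natDegree_taylor] at h6
      exact h6
    rw [if_pos hi.symm, mul_one, ← hi, h5, sub_self]
    exact dvd_zero _
  · rw [if_neg (by omega), mul_zero, sub_zero]
    have h1 := h i
    rw [coeff_comp_sb] at h1
    have h2 : α ^ (k * (g.natDegree - 1) + 1) =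
        α ^ (k * (g.natDegree - 1) - k * i + 1) * α ^ (k * i) := by
      rw [← pow_add]
      congr 1
      have : k * i ≤ k * (g.natDegree - 1) := Nat.mul_le_mul_left _ (by omega)
      omega
    rw [h2, mul_dvd_mul_iff_right (pow_ne_zero _ hα.ne_zero)] at h1
    exact (dvd_pow_self α (by omega)).trans h1

/-- The exact power of `α` in `g(θ + α ^ k y)`. -/
theorem exists_order [WfDvdMonoid R] {θ α : R} (hα : Prime α) {k : ℕ} {g : R[X]} (hg : g ≠ 0) :
    ∃ (V : ℕ) (q : R[X]), g.comp (sb θ α k) = C (α ^ V) * q ∧ ¬ C α ∣ q := by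
  have hne : g.comp (sb θ α k) ≠ 0 := by
    intro h
    apply hg
    rw [comp_sb] at h
    have h1 : taylor θ g = 0 := by
      ext i
      have h2 : ((taylor θ g).comp (C (α ^ k) * X)).coeff i = 0 := by rw [h]; simp
      rw [comp_C_mul_X_coeff] at h2
      rcases mul_eq_zero.mp h2 with h3 | h3
      · simpa using h3
      · exact absurd h3 (pow_ne_zero _ (pow_ne_zero _ hα.ne_zero))
    exact (taylor_eq_zero θ g).mp h1
  have hp : Prime (C α : R[X]) := prime_C_iff.mpr hα
  obtain ⟨q, h1, h2⟩ := (FiniteMultiplicity.of_prime_left hp hne).exists_eq_pow_mul_and_not_dvd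
  exact ⟨multiplicity (C α) (g.comp (sb θ α k)), q, by rw [C_pow]; exact h1, h2⟩

/-- The local divisibility statement. -/
theorem dvd_top_coeff {θ α : R} (hα : Prime α) {k V r e : ℕ} {g Q q : R[X]}
    (hV : g.comp (sb θ α k) = C (α ^ V) * q) (hq : ¬ C α ∣ q)
    (hQ : Q.natDegree ≤ r) (h : C (α ^ (e + k * r)) ∣ (g * Q).comp (sb θ α k)) :
    α ^ e ∣ α ^ V * Q.coeff r := by
  have hp : Prime (C α : R[X]) := prime_C_iff.mpr hα
  rw [mul_comp, hV] at h
  have h1 : C α ^ (e + k * r) ∣ q * (C (α ^ V) * Q.comp (sb θ α k)) := by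
    rw [← C_pow]
    refine dvd_trans h (dvd_of_eq ?_)
    ring
  have h2 := hp.pow_dvd_of_dvd_mul_left _ hq h1
  rw [← C_pow, C_dvd_iff_dvd_coeff] at h2
  have h3 := h2 r
  rw [coeff_C_mul, coeff_comp_sb] at h3
  have h4 : (taylor θ Q).coeff r = Q.coeff r := by
    rcases Nat.lt_or_ge Q.natDegree r with hlt | hge
    · rw [coeff_eq_zero_of_natDegree_lt (by rwa [natDegree_taylor]),
        coeff_eq_zero_of_natDegree_lt hlt]
    · have heq : Q.natDegree = r := le_antisymm hQ hge
      have h6 := leadingCoeff_taylor θ Q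
      rw [leadingCoeff, natDegree_taylor] at h6
      rw [← heq, h6]
      rfl
  rw [h4, ← mul_assoc, pow_add, mul_dvd_mul_iff_right (pow_ne_zero _ hα.ne_zero)] at h3
  exact h3

/-- a prime polynomial of positive degree is not divisible by a nonzero nonunit constant -/
theorem not_C_dvd_of_prime {g : R[X]} (hg : Prime g) (hm : 1 ≤ g.natDegree) {c : R}
    (hc : ¬ IsUnit c) : ¬ C c ∣ g := by
  rintro ⟨q, hq⟩
  rcases hg.dvd_or_dvd (dvd_of_eq hq) with h | h
  · have hc0 : (C c : R[X]) ≠ 0 := by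
      intro h0
      rw [h0, zero_mul] at hq
      exact hg.ne_zero hq
    have := natDegree_le_of_dvd h hc0
    rw [natDegree_C] at this
    omega
  · obtain ⟨w, hw⟩ := h
    rw [hw] at hq
    have h1 : g * (C c * w) = g * 1 := by
      rw [mul_one]
      conv_rhs => rw [hq]
      ring
    have h2 := mul_left_cancel₀ hg.ne_zero h1
    apply hc
    rw [← isUnit_C]
    exact IsUnit.of_mul_eq_one _ h2

end Crest.Agent.R022.Surf206
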