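import Mathlib
import Crest.Agent.R022.Surf206a

/-! Row 22 (S0029), helper206.  Level-2 geometry, part (b): the linear forms
`α_i = t₀ + z_i t₁ + a_i` and the restriction to the line `α_i = 0`. -/

set_option autoImplicit false

namespace Crest.Agent.R022.Surf206

open MvPolynomial

variable {F : Type*} [Field F]

/-- ring of functions of `t` -/
abbrev Rt (F : Type*) [Field F] := MvPolynomial (Fin 2) F

/-- a linear form `t₀ + z t₁ + a` -/
noncomputable def lf (z a : F) : Rt F := X 0 + C z * X 1 + C a

/-- restriction to the line `t₀ + z t₁ + a = 0` -/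
noncomputable def rs (z a : F) : Rt F →ₐ[F] Polynomial F :=
  aeval ![-(Polynomial.C z * Polynomial.X) - Polynomial.C a, Polynomial.X]

theorem rs_X0 (z a : F) : rs z a (X 0) = -(Polynomial.C z * Polynomial.X) - Polynomial.C a := by
  simp [rs]

theorem rs_X1 (z a : F) : rs z a (X 1) = Polynomial.X := by
  simp [rs]

theorem rs_C (z a c : F) : rs z a (C c) = Polynomial.C c := by
  simp [rs, Polynomial.algebraMap_eq]

theorem rs_lf (z a z' a' : F) : rs z a (lf z' a') =
    Polynomial.C (z' - z) * Polynomial.X + Polynomial.C (a' - a) := by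
  rw [lf, map_add, map_add, map_mul, rs_X0, rs_X1, rs_C, rs_C, Polynomial.C_sub, Polynomial.C_sub]
  ring

theorem rs_lf_self (z a : F) : rs z a (lf z a) = 0 := by
  rw [rs_lf]; simp

/-- the section `F[X] → F[t₀, t₁]` -/
noncomputable def sec (F : Type*) [Field F] : Polynomial F →ₐ[F] Rt F := Polynomial.aeval (X 1)

theorem lf_dvd_sub (z a : F) (P : Rt F) : lf z a ∣ P - sec F (rs z a P) := by
  induction P using MvPolynomial.induction_on with
  | C c =>
    rw [rs_C]
    simp [sec, MvPolynomial.algebraMap_eq]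
  | add P Q hP hQ =>
    rw [map_add, map_add, add_sub_add_comm]
    exact dvd_add hP hQ
  | mul_X P i hP =>
    have hi : lf z a ∣ X i - sec F (rs z a (X i)) := by
      fin_cases i
      · simp only [Fin.zero_eta, rs_X0]
        refine ⟨1, ?_⟩
        simp [sec, lf, MvPolynomial.algebraMap_eq]
        ring
      · simp only [Fin.mk_one, rs_X1]
        simp [sec]
    have : P * X i - sec F (rs z a (P * X i)) =
        (P - sec F (rs z a P)) * X i + sec F (rs z a P) * (X i - sec F (rs z a (X i))) := by
      rw [map_mul, map_mul]; ring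
    rw [this]
    exact dvd_add (hP.mul_right _) (hi.mul_left _)

theorem lf_dvd_iff (z a : F) (P : Rt F) : lf z a ∣ P ↔ rs z a P = 0 := by
  constructor
  · rintro ⟨Q, rfl⟩
    rw [map_mul, rs_lf_self, zero_mul]
  · intro h
    have := lf_dvd_sub z a P
    rwa [h, map_zero, sub_zero] at this

theorem totalDegree_lf (z a : F) : (lf z a).totalDegree = 1 := by
  apply le_antisymm
  · rw [lf]
    refine le_trans (totalDegree_add _ _) (max_le (le_trans (totalDegree_add _ _) (max_le ?_ ?_)) ?_)
    · rw [totalDegree_X]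
    · refine le_trans (totalDegree_mul _ _) ?_
      rw [totalDegree_C, totalDegree_X]
    · rw [totalDegree_C]; omega
  · have h : coeff (Finsupp.single 0 1) (lf z a) = 1 := by
      rw [lf, coeff_add, coeff_add, coeff_X, coeff_C_mul]
      have h1 : coeff (Finsupp.single 0 1) (X 1 : Rt F) = 0 := by
        rw [coeff_X]
        rw [if_neg]
        intro h
        have := DFunLike.congr_fun h 0
        simp at this
      have h2 : coeff (Finsupp.single 0 1) (C a : Rt F) = 0 := by
        rw [coeff_C, if_neg]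
        intro h
        have := DFunLike.congr_fun h 0
        simp at this
      rw [h1, h2]
      simp
    have h3 : (Finsupp.single 0 1 : Fin 2 →₀ ℕ) ∈ (lf z a).support := by
      rw [mem_support_iff, h]
      exact one_ne_zero
    have := le_totalDegree h3
    simpa using this

theorem lf_ne_zero (z a : F) : lf z a ≠ 0 := by
  intro h
  have := totalDegree_lf z a
  rw [h, totalDegree_zero] at this
  omega

theorem lf_prime (z a : F) : Prime (lf z a) := by
  refine ⟨lf_ne_zero z a, ?_, ?_⟩
  · intro h
    have h1 := h.map (rs z a)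
    rw [rs_lf_self] at h1
    exact not_isUnit_zero h1
  · intro P Q h
    rw [lf_dvd_iff, map_mul] at h
    rw [lf_dvd_iff, lf_dvd_iff]
    exact mul_eq_zero.mp h

theorem rs_natDegree_le (z a : F) (P : Rt F) : (rs z a P).natDegree ≤ P.totalDegree := by
  have h := MvPolynomial.aeval_natDegree_le (m := P.totalDegree) (n := 1) P le_rfl
    ![-(Polynomial.C z * Polynomial.X) - Polynomial.C a, Polynomial.X] ?_
  · rw [mul_one] at h
    exact h
  · intro i
    fin_cases i
    · simp only [Fin.zero_eta, Matrix.cons_val_zero]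
      refine le_trans (Polynomial.natDegree_sub_le _ _) (max_le ?_ ?_)
      · rw [Polynomial.natDegree_neg]
        refine le_trans Polynomial.natDegree_mul_le ?_
        rw [Polynomial.natDegree_C, Polynomial.natDegree_X]
      · rw [Polynomial.natDegree_C]; omega
    · simp

theorem rs_lf_natDegree {z a z' a' : F} (h : z' ≠ z) : (rs z a (lf z' a')).natDegree = 1 := by
  rw [rs_lf]
  exact Polynomial.natDegree_linear (sub_ne_zero.mpr h)

theorem rs_lf_ne_zero {z a z' a' : F} (h : z' ≠ z) : rs z a (lf z' a') ≠ 0 := by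
  intro h0
  have := rs_lf_natDegree (a := a) (a' := a') h
  rw [h0, Polynomial.natDegree_zero] at this
  omega

theorem not_lf_dvd_lf {z a z' a' : F} (h : z' ≠ z) : ¬ lf z a ∣ lf z' a' := by
  rw [lf_dvd_iff]
  exact rs_lf_ne_zero h

/-- two different lines meet the line `α_i = 0` in different points -/
theorem rs_isCoprime {z a z₁ a₁ z₂ a₂ : F}
    (hgp : (a₁ - a) * (z₂ - z) ≠ (a₂ - a) * (z₁ - z)) :
    IsCoprime (rs z a (lf z₁ a₁)) (rs z a (lf z₂ a₂)) := by
  rw [rs_lf, rs_lf]
  set e := (a₁ - a) * (z₂ - z) - (a₂ - a) * (z₁ - z) with he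
  have he0 : e ≠ 0 := sub_ne_zero.mpr hgp
  refine ⟨Polynomial.C ((z₂ - z) / e), Polynomial.C (-(z₁ - z) / e), ?_⟩
  have h1 : Polynomial.C ((z₂ - z) / e) *
        (Polynomial.C (z₁ - z) * Polynomial.X + Polynomial.C (a₁ - a)) +
      Polynomial.C (-(z₁ - z) / e) *
        (Polynomial.C (z₂ - z) * Polynomial.X + Polynomial.C (a₂ - a)) =
      Polynomial.C ((z₂ - z) / e * (z₁ - z) + (-(z₁ - z) / e) * (z₂ - z)) * Polynomial.X +
      Polynomial.C ((z₂ - z) / e * (a₁ - a) + (-(z₁ - z) / e) * (a₂ - a)) := by
    simp only [map_add, map_mul]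
    ring
  rw [h1]
  have h2 : (z₂ - z) / e * (z₁ - z) + (-(z₁ - z) / e) * (z₂ - z) = 0 := by
    field_simp
    ring
  have h3 : (z₂ - z) / e * (a₁ - a) + (-(z₁ - z) / e) * (a₂ - a) = 1 := by
    field_simp
    rw [he]
    ring
  rw [h2, h3]
  simp

end Crest.Agent.R022.Surf206
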