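import Mathlib
import Crest.Agent.R022.Surf206b

/-! Row 22 (S0029), helper206.  Level-2 geometry, part (c): the polynomial
`W = G_m ∏ α_i ^ (k m - V_i)` and its degree. -/

set_option autoImplicit false

namespace Crest.Agent.R022.Surf206

open MvPolynomial

variable {F : Type*} [Field F] {d : ℕ}

/-- general position (helper294) -/
def GenPos (z a : Fin d → F) : Prop :=
  ∀ i₀ i i', i ≠ i₀ → i' ≠ i₀ → i ≠ i' →
      (a i - a i₀) * (z i' - z i₀) ≠ (a i' - a i₀) * (z i - z i₀)

/-- the order `V` of `g (z + α ^ k y)` along `α`, together with the cofactor -/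
def IsOrd (k : ℕ) (z a : F) (g : Polynomial (Rt F)) (V : ℕ) : Prop :=
  ∃ q : Polynomial (Rt F), g.comp (sb (C z) (lf z a) k) = Polynomial.C (lf z a ^ V) * q ∧
    ¬ Polynomial.C (lf z a) ∣ q

theorem exists_isOrd (k : ℕ) (z a : F) {g : Polynomial (Rt F)} (hg : g ≠ 0) :
    ∃ V, IsOrd k z a g V := by
  obtain ⟨V, q, h1, h2⟩ := exists_order (θ := C z) (lf_prime z a) (k := k) hg
  exact ⟨V, q, h1, h2⟩

theorem isOrd_le {k : ℕ} {z a : F} {g : Polynomial (Rt F)} (hg : Prime g)
    (hm : 1 ≤ g.natDegree) {V : ℕ} (hV : IsOrd k z a g V) : V ≤ k * g.natDegree := by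
  by_contra h
  push Not at h
  obtain ⟨q, h1, _⟩ := hV
  refine not_C_dvd_of_prime hg hm (lf_prime z a).not_isUnit
    (C_dvd_of_large (θ := C z) (lf_prime z a) (k := k) ?_)
  rw [h1]
  refine Dvd.dvd.mul_right (map_dvd Polynomial.C (pow_dvd_pow _ h)) _

theorem pow_dvd_eval {k : ℕ} {z a : F} {g : Polynomial (Rt F)} {V : ℕ}
    (hV : IsOrd k z a g V) : lf z a ^ V ∣ g.eval (C z) := by
  obtain ⟨q, h1, _⟩ := hV
  have h2 := congrArg (Polynomial.eval 0) h1
  rw [Polynomial.eval_comp, sb] at h2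
  simp only [Polynomial.eval_add, Polynomial.eval_C, Polynomial.eval_mul, Polynomial.eval_X,
    mul_zero, add_zero] at h2
  exact ⟨_, h2⟩

/-- the case of a large order: the leading coefficient is divisible, on the line `i₀`, by the
powers of all other forms -/
theorem sum_le_of_large {k : ℕ} {z a : Fin d → F} (hz : Function.Injective z)
    (hgp : GenPos z a) {g : Polynomial (Rt F)} (hg : Prime g) (hm : 1 ≤ g.natDegree)
    {V : Fin d → ℕ} (hV : ∀ i, IsOrd k (z i) (a i) g (V i)) {i₀ : Fin d}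
    (hi₀ : k * (g.natDegree - 1) < V i₀) :
    ∑ j ∈ Finset.univ.erase i₀, V j ≤ g.leadingCoeff.totalDegree := by
  classical
  have hα := lf_prime (z i₀) (a i₀)
  obtain ⟨q, h1, _⟩ := hV i₀
  have h2 := C_dvd_sub_of_large (θ := C (z i₀)) hα (k := k) hm
    (by rw [h1]; exact Dvd.dvd.mul_right (map_dvd Polynomial.C (pow_dvd_pow _ hi₀)) _)
  have hndvd : ¬ Polynomial.C (lf (z i₀) (a i₀)) ∣ g := not_C_dvd_of_prime hg hm hα.not_isUnit
  have hlc : ¬ lf (z i₀) (a i₀) ∣ g.leadingCoeff := by
    intro h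
    apply hndvd
    have h3 : Polynomial.C (lf (z i₀) (a i₀)) ∣
        Polynomial.C g.leadingCoeff * (Polynomial.X - Polynomial.C (C (z i₀))) ^ g.natDegree :=
      (map_dvd Polynomial.C h).mul_right _
    have := dvd_add h2 h3
    rwa [sub_add_cancel] at this
  rw [lf_dvd_iff] at hlc
  -- evaluation at n = z j
  have heval : ∀ j, j ≠ i₀ → rs (z i₀) (a i₀) (lf (z j) (a j)) ^ V j ∣
      rs (z i₀) (a i₀) g.leadingCoeff := by
    intro j hj
    have h3 : lf (z i₀) (a i₀) ∣ g.eval (C (z j)) -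
        g.leadingCoeff * (C (z j) - C (z i₀)) ^ g.natDegree := by
      have := map_dvd (Polynomial.evalRingHom (C (z j) : Rt F)) h2
      simpa using this
    rw [lf_dvd_iff, map_sub, sub_eq_zero, map_mul, map_pow, map_sub, rs_C, rs_C,
      ← Polynomial.C_sub, ← Polynomial.C_pow] at h3
    have h4 := map_dvd (rs (z i₀) (a i₀)) (pow_dvd_eval (hV j))
    rw [h3, map_pow] at h4
    have hu : IsUnit (Polynomial.C ((z j - z i₀) ^ g.natDegree)) := by
      rw [Polynomial.isUnit_C]
      exact (pow_ne_zero _ (sub_ne_zero.mpr (fun h => hj (hz h)))).isUnit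
    exact (hu.dvd_mul_right).mp h4
  have hprod : ∏ j ∈ Finset.univ.erase i₀, rs (z i₀) (a i₀) (lf (z j) (a j)) ^ V j ∣
      rs (z i₀) (a i₀) g.leadingCoeff := by
    apply Finset.prod_dvd_of_coprime
    · intro j hj j' hj' hjj'
      apply IsCoprime.pow
      have h1 : j ≠ i₀ := by simpa using hj
      have h2 : j' ≠ i₀ := by simpa using hj'
      exact rs_isCoprime (hgp i₀ j j' h1 h2 hjj')
    · intro j hj
      exact heval j (Finset.ne_of_mem_erase hj)
  have hdeg := Polynomial.natDegree_le_of_dvd hprod hlc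
  rw [Polynomial.natDegree_prod _ _ (fun j hj =>
    pow_ne_zero _ (rs_lf_ne_zero (fun h => Finset.ne_of_mem_erase hj (hz h))))] at hdeg
  refine le_trans (le_of_eq ?_) (le_trans hdeg (rs_natDegree_le _ _ _))
  refine Finset.sum_congr rfl fun j hj => ?_
  rw [Polynomial.natDegree_pow, rs_lf_natDegree (fun h => Finset.ne_of_mem_erase hj (hz h)),
    mul_one]

/-- the polynomial `W = G_m ∏ α_i ^ (k m - V_i)` -/
noncomputable def Wp (k : ℕ) (z a : Fin d → F) (g : Polynomial (Rt F)) (V : Fin d → ℕ) : Rt F :=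
  g.leadingCoeff * ∏ i, lf (z i) (a i) ^ (k * g.natDegree - V i)

theorem Wp_ne_zero {k : ℕ} {z a : Fin d → F} {g : Polynomial (Rt F)} {V : Fin d → ℕ}
    (hg : g ≠ 0) : Wp k z a g V ≠ 0 := by
  rw [Wp]
  refine mul_ne_zero (Polynomial.leadingCoeff_ne_zero.mpr hg) ?_
  exact Finset.prod_ne_zero_iff.mpr fun i _ => pow_ne_zero _ (lf_ne_zero _ _)

theorem totalDegree_prod_lf (z a : Fin d → F) (s : Finset (Fin d)) (e : Fin d → ℕ) :
    (∏ i ∈ s, lf (z i) (a i) ^ e i).totalDegree = ∑ i ∈ s, e i := by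
  classical
  induction s using Finset.induction_on with
  | empty => simp
  | insert i s hi ih =>
    rw [Finset.prod_insert hi, Finset.sum_insert hi, totalDegree_mul_of_isDomain, ih]
    · congr 1
      have : ∀ n : ℕ, (lf (z i) (a i) ^ n).totalDegree = n := by
        intro n
        induction n with
        | zero => simp
        | succ n ihn =>
          rw [pow_succ, totalDegree_mul_of_isDomain (pow_ne_zero _ (lf_ne_zero _ _))
            (lf_ne_zero _ _), ihn, totalDegree_lf]
      exact this _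
    · exact pow_ne_zero _ (lf_ne_zero _ _)
    · exact Finset.prod_ne_zero_iff.mpr fun i _ => pow_ne_zero _ (lf_ne_zero _ _)

theorem totalDegree_Wp {k : ℕ} {z a : Fin d → F} {g : Polynomial (Rt F)} {V : Fin d → ℕ}
    (hg : g ≠ 0) : (Wp k z a g V).totalDegree =
      g.leadingCoeff.totalDegree + ∑ i, (k * g.natDegree - V i) := by
  rw [Wp, totalDegree_mul_of_isDomain (Polynomial.leadingCoeff_ne_zero.mpr hg)
    (Finset.prod_ne_zero_iff.mpr fun i _ => pow_ne_zero _ (lf_ne_zero _ _)), totalDegree_prod_lf]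

/-- **the degree bound** (helper147's argument, without Galois) -/
theorem le_totalDegree_Wp {k : ℕ} {z a : Fin d → F} (hz : Function.Injective z)
    (hgp : GenPos z a) {g : Polynomial (Rt F)} (hg : Prime g) (hm : 1 ≤ g.natDegree)
    {V : Fin d → ℕ} (hV : ∀ i, IsOrd k (z i) (a i) g (V i)) :
    (d - 1) * k ≤ (Wp k z a g V).totalDegree := by
  classical
  rw [totalDegree_Wp hg.ne_zero]
  have hVle : ∀ i, V i ≤ k * g.natDegree := fun i => isOrd_le hg hm (hV i)
  by_cases h : ∃ i₀, k * (g.natDegree - 1) < V i₀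
  · obtain ⟨i₀, hi₀⟩ := h
    have h1 := sum_le_of_large hz hgp hg hm hV hi₀
    have h2 : ∑ i, (k * g.natDegree - V i) = (k * g.natDegree - V i₀) +
        ∑ i ∈ Finset.univ.erase i₀, (k * g.natDegree - V i) :=
      (Finset.add_sum_erase _ _ (Finset.mem_univ i₀)).symm
    have h3 : ∑ i ∈ Finset.univ.erase i₀, V i +
        ∑ i ∈ Finset.univ.erase i₀, (k * g.natDegree - V i) = (d - 1) * (k * g.natDegree) := by
      rw [← Finset.sum_add_distrib]
      rw [Finset.sum_congr rfl (fun i _ => Nat.add_sub_cancel' (hVle i))]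
      rw [Finset.sum_const, Finset.card_erase_of_mem (Finset.mem_univ _), Finset.card_univ,
        Fintype.card_fin, smul_eq_mul]
    have h4 : (d - 1) * k ≤ (d - 1) * (k * g.natDegree) :=
      Nat.mul_le_mul_left _ (Nat.le_mul_of_pos_right _ (by omega))
    omega
  · push Not at h
    have h1 : ∀ i : Fin d, k ≤ k * g.natDegree - V i := by
      intro i
      have h2 := h i
      have h3 : k * g.natDegree = k * (g.natDegree - 1) + k := by
        obtain ⟨m, hm'⟩ : ∃ m, g.natDegree = m + 1 := ⟨g.natDegree - 1, by omega⟩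
        rw [hm']
        simp [Nat.mul_add]
      omega
    have h2 : ∑ _i : Fin d, k ≤ ∑ i : Fin d, (k * g.natDegree - V i) :=
      Finset.sum_le_sum fun i _ => h1 i
    rw [Finset.sum_const, Finset.card_univ, Fintype.card_fin, smul_eq_mul] at h2
    have h3 : (d - 1) * k ≤ d * k := Nat.mul_le_mul_right _ (by omega)
    omega

end Crest.Agent.R022.Surf206
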