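import Mathlib
import Crest.Agent.R022.Surf206c

/-! Row 22 (S0029), helper206.  Level-2 geometry, part (d): choice of a generic combination
`b = ∑ x ^ l b_l` and the divisibility `W ∣ P`. -/

set_option autoImplicit false

namespace Crest.Agent.R022.Surf206

open MvPolynomial

variable {F : Type*} [Field F] {d : ℕ}

/-- Vandermonde: a common divisor of all `∑ v_i ^ l c_l` divides every `c_l`. -/
theorem dvd_of_vandermonde {v : Fin d → F} (hv : Function.Injective v) (c : Fin d → Rt F)
    (δ : Rt F) (h : ∀ i, δ ∣ ∑ l : Fin d, C (v i ^ (l : ℕ)) * c l) (l : Fin d) : δ ∣ c l := by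
  classical
  have hdet : (Matrix.vandermonde v).det ≠ 0 := Matrix.det_vandermonde_ne_zero_iff.mpr hv
  have hunit : IsUnit (Matrix.vandermonde v).det := isUnit_iff_ne_zero.mpr hdet
  have h1 : (Matrix.vandermonde v)⁻¹ * Matrix.vandermonde v = 1 := Matrix.nonsing_inv_mul _ hunit
  have h2 : c l = ∑ i, C ((Matrix.vandermonde v)⁻¹ l i) *
      (∑ l' : Fin d, C (v i ^ (l' : ℕ)) * c l') := by
    simp_rw [Finset.mul_sum]
    rw [Finset.sum_comm]
    have h3 : ∀ l' : Fin d, ∑ i, C ((Matrix.vandermonde v)⁻¹ l i) * (C (v i ^ (l' : ℕ)) * c l') =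
        C (((Matrix.vandermonde v)⁻¹ * Matrix.vandermonde v) l l') * c l' := by
      intro l'
      rw [Matrix.mul_apply, map_sum, Finset.sum_mul]
      refine Finset.sum_congr rfl fun i _ => ?_
      rw [Matrix.vandermonde_apply, map_mul, mul_assoc]
    simp_rw [h3, h1, Matrix.one_apply]
    simp
  rw [h2]
  exact Finset.dvd_sum fun i _ => (h i).mul_left _

/-- the product of the other forms -/
noncomputable def co (z a : Fin d → F) (i : Fin d) : Rt F :=
  ∏ j ∈ Finset.univ.erase i, lf (z j) (a j)

/-- the hypothesis on the coordinates of `β` -/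
structure CoordData (k : ℕ) (z a : Fin d → F) (A B : Fin d → Rt F) (μ : F) : Prop where
  hμ : μ ≠ 0
  hA : ∀ i, ∑ l : Fin d, C (z i ^ (l : ℕ)) * A l = C μ * co z a i ^ k
  hB : ∀ i, ∑ l : Fin d, C (z i ^ (l : ℕ)) * B l = C (μ * z i) * co z a i ^ k

theorem lf_dvd_co {z a : Fin d → F} {i j : Fin d} (h : i ≠ j) : lf (z i) (a i) ∣ co z a j :=
  Finset.dvd_prod_of_mem _ (Finset.mem_erase.mpr ⟨h, Finset.mem_univ _⟩)

/-- `α_i ^ k` divides `A_l z_i - B_l`. -/
theorem lf_pow_dvd {k : ℕ} {z a : Fin d → F} (hz : Function.Injective z) {A B : Fin d → Rt F}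
    {μ : F} (h : CoordData k z a A B μ) (i l : Fin d) :
    lf (z i) (a i) ^ k ∣ A l * C (z i) - B l := by
  refine dvd_of_vandermonde hz (fun l => A l * C (z i) - B l) _ (fun i' => ?_) l
  have h1 : ∑ l : Fin d, C (z i' ^ (l : ℕ)) * (A l * C (z i) - B l) =
      C (μ * (z i - z i')) * co z a i' ^ k := by
    have h2 : ∀ l : Fin d, C (z i' ^ (l : ℕ)) * (A l * C (z i) - B l) =
        (C (z i' ^ (l : ℕ)) * A l) * C (z i) - C (z i' ^ (l : ℕ)) * B l := fun l => by ring
    simp_rw [h2]
    rw [Finset.sum_sub_distrib, ← Finset.sum_mul, h.hA, h.hB]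
    simp only [map_mul, map_sub]
    ring
  rw [h1]
  by_cases hi : i = i'
  · subst hi
    simp
  · exact (pow_dvd_pow_of_dvd (lf_dvd_co hi) k).mul_left _

/-- a prime does not divide all `A_l` -/
theorem exists_not_dvd (hd : 2 ≤ d) {k : ℕ} {z a : Fin d → F}
    (hz : Function.Injective z) {A B : Fin d → Rt F}
    {μ : F} (h : CoordData k z a A B μ) {π : Rt F} (hπ : Prime π) : ∃ l, ¬ π ∣ A l := by
  by_contra hall
  push Not at hall
  have h1 : ∀ i, ∃ j, j ≠ i ∧ π ∣ lf (z j) (a j) := by
    intro i
    have h2 : π ∣ C μ * co z a i ^ k := by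
      rw [← h.hA]
      exact Finset.dvd_sum fun l _ => (hall l).mul_left _
    rcases hπ.dvd_or_dvd h2 with h3 | h3
    · exfalso
      have hu : IsUnit (C μ : Rt F) := (isUnit_iff_ne_zero.mpr h.hμ).map C
      exact hπ.not_isUnit (isUnit_of_dvd_unit h3 hu)
    · have h4 := hπ.dvd_of_dvd_pow h3
      rw [co, hπ.dvd_finsetProd_iff] at h4
      obtain ⟨j, hj, hjd⟩ := h4
      exact ⟨j, Finset.ne_of_mem_erase hj, hjd⟩
  obtain ⟨j₁, _, hj₁⟩ := h1 ⟨0, by omega⟩
  obtain ⟨j₂, hne, hj₂⟩ := h1 j₁
  have hass : Associated π (lf (z j₁) (a j₁)) :=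
    hπ.associated_of_dvd (lf_prime _ _) hj₁
  have := hass.symm.dvd.trans hj₂
  exact not_lf_dvd_lf (fun h => hne (hz h)) this

/-- the generic combination -/
noncomputable def gen (x : ℕ) (A : Fin d → Rt F) : Rt F := ∑ l : Fin d, C ((x : F) ^ (l : ℕ)) * A l

/-- number of irreducible factors of a polynomial -/
theorem card_factors_le [DecidableEq (Rt F)] {P : Rt F}
    (hP : P ≠ 0) : (UniqueFactorizationMonoid.factors P).toFinset.card ≤
      P.totalDegree := by
  classical
  refine le_trans (Multiset.toFinset_card_le _) ?_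
  have hgen : ∀ s : Multiset (Rt F), (∀ q ∈ s, Irreducible q) → s.card ≤ s.prod.totalDegree := by
    intro s
    induction s using Multiset.induction_on with
    | empty => intro _; simp
    | cons q s ih =>
      intro hs
      have hq := hs q (Multiset.mem_cons_self _ _)
      have hs' : ∀ q ∈ s, Irreducible q := fun q hq => hs q (Multiset.mem_cons_of_mem hq)
      rw [Multiset.card_cons, Multiset.prod_cons, totalDegree_mul_of_isDomain hq.ne_zero
        (Multiset.prod_ne_zero (fun h0 => (hs' 0 h0).ne_zero rfl))]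
      have h1 : 1 ≤ q.totalDegree := by
        by_contra hlt
        have h0 : q.totalDegree = 0 := by omega
        rw [totalDegree_eq_zero_iff_eq_C] at h0
        apply hq.not_isUnit
        rw [h0]
        apply IsUnit.map
        rw [isUnit_iff_ne_zero]
        intro h2
        rw [h2, map_zero] at h0
        exact hq.ne_zero h0
      have := ih hs'
      omega
  refine le_trans (hgen _ fun q hq =>
    UniqueFactorizationMonoid.irreducible_of_factor q hq) ?_
  have hass := UniqueFactorizationMonoid.factors_prod hP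
  obtain ⟨u, hu⟩ := hass
  have h1 : (UniqueFactorizationMonoid.factors P).prod ≠ 0 := by
    intro h0
    rw [h0, zero_mul] at hu
    exact hP hu.symm
  have h2 := congrArg totalDegree hu
  rw [totalDegree_mul_of_isDomain h1 (Units.ne_zero u)] at h2
  omega

/-- choice of the generic combination -/
theorem exists_gen [CharZero F] (hd : 2 ≤ d) {k : ℕ} {z a : Fin d → F}
    (hz : Function.Injective z) {A B : Fin d → Rt F}
    {μ : F} (h : CoordData k z a A B μ) {P : Rt F} (hP : P ≠ 0) :
    ∃ x : ℕ, x ≤ d * P.totalDegree ∧ IsRelPrime P (gen x A) := by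
  classical
  set 𝓕 := (UniqueFactorizationMonoid.factors P).toFinset with h𝓕
  have h𝓕card : 𝓕.card ≤ P.totalDegree := card_factors_le hP
  have hprime : ∀ π ∈ 𝓕, Prime π := by
    intro π hπ
    exact UniqueFactorizationMonoid.prime_of_factor π (Multiset.mem_toFinset.mp hπ)
  -- bad x for a factor
  have hbad : ∀ π ∈ 𝓕, ∀ n : ℕ, ((Finset.range n).filter (fun x => π ∣ gen x A)).card < d := by
    intro π hπ n
    by_contra hge
    push Not at hge
    obtain ⟨T, hT, hTcard⟩ := Finset.exists_subset_card_eq hge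
    set e := T.orderEmbOfFin hTcard with he
    set v : Fin d → F := fun i => ((e i : ℕ) : F) with hv
    have hvinj : Function.Injective v := by
      intro i j hij
      exact e.injective (Nat.cast_injective hij)
    obtain ⟨l, hl⟩ := exists_not_dvd hd hz h (hprime π hπ)
    apply hl
    refine dvd_of_vandermonde hvinj A π (fun i => ?_) l
    have h1 : e i ∈ T := Finset.orderEmbOfFin_mem T hTcard i
    have h2 := (Finset.mem_filter.mp (hT h1)).2
    exact h2
  -- union bound
  have hunion : (𝓕.biUnion (fun π => (Finset.range (d * P.totalDegree + 1)).filter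
      (fun x => π ∣ gen x A))).card < d * P.totalDegree + 1 := by
    refine lt_of_le_of_lt Finset.card_biUnion_le ?_
    refine lt_of_le_of_lt (Finset.sum_le_sum fun π hπ => (hbad π hπ _).le) ?_
    rw [Finset.sum_const, smul_eq_mul]
    have : 𝓕.card * d ≤ P.totalDegree * d := Nat.mul_le_mul_right _ h𝓕card
    rw [mul_comm d]
    omega
  have hex : ∃ x ∈ Finset.range (d * P.totalDegree + 1),
      x ∉ 𝓕.biUnion (fun π => (Finset.range (d * P.totalDegree + 1)).filter
      (fun x => π ∣ gen x A)) := by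
    by_contra hall
    push Not at hall
    have := Finset.card_le_card (s := Finset.range (d * P.totalDegree + 1)) hall
    rw [Finset.card_range] at this
    omega
  obtain ⟨x, hx, hxn⟩ := hex
  refine ⟨x, by rw [Finset.mem_range] at hx; omega, ?_⟩
  rw [UniqueFactorizationMonoid.isRelPrime_iff_no_prime_factors hP]
  intro π hπP hπA hπ
  obtain ⟨π', hπ', hass⟩ := UniqueFactorizationMonoid.exists_mem_factors_of_dvd hP
    hπ.irreducible hπP
  apply hxn
  rw [Finset.mem_biUnion]
  refine ⟨π', Multiset.mem_toFinset.mpr hπ', ?_⟩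
  rw [Finset.mem_filter]
  exact ⟨hx, hass.symm.dvd.trans hπA⟩

end Crest.Agent.R022.Surf206
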