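import Mathlib
import Crest.Agent.R022.Surf206d

/-! Row 22 (S0029), helper206.  Level-2 geometry, final part: a family of
`Y²/2 + (d-1) k Y²/(2ρ)` functions `t^e b^j` which is independent modulo EVERY prime polynomial
`g ∈ F[t₀,t₁][n]` of positive `n`-degree. -/

set_option autoImplicit false

namespace Crest.Agent.R022.Surf206

open MvPolynomial

variable {F : Type*} [Field F] {d : ℕ}

/-- the norm form -/
noncomputable def nrm (z a : Fin d → F) : Rt F := ∏ i, lf (z i) (a i)

/-- the linear polynomial `A_x n - B_x` -/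
noncomputable def Lx (x : ℕ) (A B : Fin d → Rt F) : Polynomial (Rt F) :=
  Polynomial.C (gen x A) * Polynomial.X - Polynomial.C (gen x B)

theorem nrm_ne_zero (z a : Fin d → F) : nrm z a ≠ 0 :=
  Finset.prod_ne_zero_iff.mpr fun _ _ => lf_ne_zero _ _

theorem lf_dvd_nrm (z a : Fin d → F) (i : Fin d) : lf (z i) (a i) ∣ nrm z a :=
  Finset.dvd_prod_of_mem (fun i => lf (z i) (a i)) (Finset.mem_univ i)

theorem totalDegree_nrm (z a : Fin d → F) : (nrm z a).totalDegree = d := by
  have := totalDegree_prod_lf z a Finset.univ (fun _ => 1)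
  simpa [nrm] using this

theorem Lx_natDegree_le (x : ℕ) (A B : Fin d → Rt F) : (Lx x A B).natDegree ≤ 1 := by
  rw [Lx]
  refine le_trans (Polynomial.natDegree_sub_le _ _) (max_le ?_ ?_)
  · refine le_trans Polynomial.natDegree_mul_le ?_
    rw [Polynomial.natDegree_C, Polynomial.natDegree_X]
  · rw [Polynomial.natDegree_C]; omega

theorem Lx_coeff_one (x : ℕ) (A B : Fin d → Rt F) : (Lx x A B).coeff 1 = gen x A := by
  rw [Lx, Polynomial.coeff_sub, Polynomial.coeff_C_mul, Polynomial.coeff_X_one,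
    Polynomial.coeff_C_succ, mul_one, sub_zero]

theorem dvd_Lx_comp {k : ℕ} {z a : Fin d → F} (hz : Function.Injective z) {A B : Fin d → Rt F}
    {μ : F} (h : CoordData k z a A B μ) (x : ℕ) (i : Fin d) :
    Polynomial.C (lf (z i) (a i) ^ k) ∣ (Lx x A B).comp (sb (C (z i)) (lf (z i) (a i)) k) := by
  have h1 : (Lx x A B).comp (sb (C (z i)) (lf (z i) (a i)) k) =
      Polynomial.C (gen x A * C (z i) - gen x B) +
        Polynomial.C (lf (z i) (a i) ^ k) * (Polynomial.C (gen x A) * Polynomial.X) := by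
    rw [Lx, sb]
    simp only [Polynomial.sub_comp, Polynomial.mul_comp, Polynomial.C_comp, Polynomial.X_comp,
      Polynomial.C_sub, Polynomial.C_mul]
    ring
  rw [h1]
  refine dvd_add (map_dvd Polynomial.C ?_) (dvd_mul_right _ _)
  have h2 : gen x A * C (z i) - gen x B =
      ∑ l : Fin d, C ((x : F) ^ (l : ℕ)) * (A l * C (z i) - B l) := by
    rw [gen, gen, Finset.sum_mul, ← Finset.sum_sub_distrib]
    refine Finset.sum_congr rfl fun l _ => ?_
    ring
  rw [h2]
  exact Finset.dvd_sum fun l _ => (lf_pow_dvd hz h i l).mul_left _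

/-- the homogeneous left hand side `∑_{j ≤ j₀} P_j L^j N^(k (j₀ - j))` -/
noncomputable def lhs (k : ℕ) (z a : Fin d → F) (x : ℕ) (A B : Fin d → Rt F) (P : ℕ → Rt F)
    (j₀ : ℕ) : Polynomial (Rt F) :=
  ∑ j ∈ Finset.range (j₀ + 1),
    Polynomial.C (P j) * Lx x A B ^ j * Polynomial.C (nrm z a ^ (k * (j₀ - j)))

theorem lhs_natDegree_le (k : ℕ) (z a : Fin d → F) (x : ℕ) (A B : Fin d → Rt F) (P : ℕ → Rt F)
    (j₀ : ℕ) : (lhs k z a x A B P j₀).natDegree ≤ j₀ := by
  rw [lhs]
  refine Polynomial.natDegree_sum_le_of_forall_le _ _ fun j hj => ?_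
  rw [Finset.mem_range] at hj
  refine le_trans Polynomial.natDegree_mul_le ?_
  rw [Polynomial.natDegree_C, add_zero]
  refine le_trans Polynomial.natDegree_mul_le ?_
  rw [Polynomial.natDegree_C, zero_add]
  refine le_trans (Polynomial.natDegree_pow_le_of_le j (Lx_natDegree_le x A B)) ?_
  omega

theorem lhs_coeff (k : ℕ) (z a : Fin d → F) (x : ℕ) (A B : Fin d → Rt F) (P : ℕ → Rt F)
    (j₀ : ℕ) : (lhs k z a x A B P j₀).coeff j₀ = P j₀ * gen x A ^ j₀ := by
  rw [lhs, Polynomial.finsetSum_coeff, Finset.sum_range_succ, Finset.sum_eq_zero, zero_add]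
  · rw [Polynomial.coeff_mul_C, Polynomial.coeff_C_mul, Nat.sub_self, mul_zero, pow_zero, mul_one]
    congr 1
    have := Polynomial.coeff_pow_of_natDegree_le (m := j₀) (Lx_natDegree_le x A B)
    rw [mul_one] at this
    rw [this, Lx_coeff_one]
  · intro j hj
    rw [Finset.mem_range] at hj
    apply Polynomial.coeff_eq_zero_of_natDegree_lt
    refine lt_of_le_of_lt Polynomial.natDegree_mul_le ?_
    rw [Polynomial.natDegree_C, add_zero]
    refine lt_of_le_of_lt Polynomial.natDegree_mul_le ?_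
    rw [Polynomial.natDegree_C, zero_add]
    refine lt_of_le_of_lt (Polynomial.natDegree_pow_le_of_le j (Lx_natDegree_le x A B)) ?_
    omega

theorem dvd_lhs_comp {k : ℕ} {z a : Fin d → F} (hz : Function.Injective z) {A B : Fin d → Rt F}
    {μ : F} (h : CoordData k z a A B μ) (x : ℕ) (P : ℕ → Rt F) (j₀ : ℕ) (i : Fin d) :
    Polynomial.C (lf (z i) (a i) ^ (k * j₀)) ∣
      (lhs k z a x A B P j₀).comp (sb (C (z i)) (lf (z i) (a i)) k) := by
  rw [lhs, Polynomial.sum_comp]
  refine Finset.dvd_sum fun j hj => ?_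
  rw [Finset.mem_range] at hj
  rw [Polynomial.mul_comp, Polynomial.mul_comp, Polynomial.pow_comp, Polynomial.C_comp,
    Polynomial.C_comp]
  have h1 : Polynomial.C (lf (z i) (a i) ^ (k * j)) ∣
      ((Lx x A B).comp (sb (C (z i)) (lf (z i) (a i)) k)) ^ j := by
    rw [pow_mul, Polynomial.C_pow]
    exact pow_dvd_pow_of_dvd (dvd_Lx_comp hz h x i) j
  have h2 : Polynomial.C (lf (z i) (a i) ^ (k * (j₀ - j))) ∣
      Polynomial.C (nrm z a ^ (k * (j₀ - j))) := by
    apply map_dvd
    exact pow_dvd_pow_of_dvd (lf_dvd_nrm z a i) _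
  have h3 : lf (z i) (a i) ^ (k * j₀) =
      lf (z i) (a i) ^ (k * j) * lf (z i) (a i) ^ (k * (j₀ - j)) := by
    rw [← pow_add, ← mul_add]
    congr 2
    omega
  rw [h3, Polynomial.C_mul]
  exact mul_dvd_mul (h1.mul_left _) h2

theorem isRelPrime_Wp {k : ℕ} {z a : Fin d → F} {g : Polynomial (Rt F)} (hg : g ≠ 0)
    {V : Fin d → ℕ} {Q : Rt F} (h : IsRelPrime (g.leadingCoeff * nrm z a) Q) :
    IsRelPrime (Wp k z a g V) Q := by
  rw [UniqueFactorizationMonoid.isRelPrime_iff_no_prime_factors (Wp_ne_zero hg)]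
  intro π hπW hπQ hπ
  rw [Wp] at hπW
  have h1 : π ∣ g.leadingCoeff * nrm z a := by
    rcases hπ.dvd_or_dvd hπW with h2 | h2
    · exact h2.mul_right _
    · rw [hπ.dvd_finsetProd_iff] at h2
      obtain ⟨i, _, hi⟩ := h2
      exact ((hπ.dvd_of_dvd_pow hi).trans (lf_dvd_nrm z a i)).mul_left _
  exact hπ.not_isUnit (h h1 hπQ)

/-- **key divisibility** -/
theorem Wp_dvd {k : ℕ} {z a : Fin d → F} (hz : Function.Injective z) {A B : Fin d → Rt F}
    {μ : F} (h : CoordData k z a A B μ) {g : Polynomial (Rt F)} (hg : Prime g)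
    (hm : 1 ≤ g.natDegree) {V : Fin d → ℕ} (hV : ∀ i, IsOrd k (z i) (a i) g (V i)) {x : ℕ}
    (hx : IsRelPrime (g.leadingCoeff * nrm z a) (gen x A)) (hA0 : gen x A ≠ 0)
    (P : ℕ → Rt F) (j₀ : ℕ) (hdvd : g ∣ lhs k z a x A B P j₀) :
    (j₀ < g.natDegree → P j₀ = 0) ∧ Wp k z a g V ∣ P j₀ := by
  classical
  have hcoeff := lhs_coeff k z a x A B P j₀
  have hnd := lhs_natDegree_le k z a x A B P j₀
  have hsmall : j₀ < g.natDegree → P j₀ = 0 := by
    intro hlt
    have h0 : lhs k z a x A B P j₀ = 0 := by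
      by_contra hne
      have := Polynomial.natDegree_le_of_dvd hdvd hne
      omega
    rw [h0, Polynomial.coeff_zero] at hcoeff
    rcases mul_eq_zero.mp hcoeff.symm with h1 | h1
    · exact h1
    · exact absurd h1 (pow_ne_zero _ hA0)
  refine ⟨hsmall, ?_⟩
  rcases Nat.lt_or_ge j₀ g.natDegree with hlt | hge
  · rw [hsmall hlt]
    exact dvd_zero _
  · obtain ⟨Q, hQ⟩ := hdvd
    set r := j₀ - g.natDegree with hr
    have hjr : j₀ = g.natDegree + r := by omega
    have hQr : Q.natDegree ≤ r := by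
      by_cases hQ0 : Q = 0
      · rw [hQ0]; simp
      · have h1 : (g * Q).natDegree = g.natDegree + Q.natDegree :=
          Polynomial.natDegree_mul hg.ne_zero hQ0
        rw [← hQ] at h1
        omega
    have htop : g.leadingCoeff * Q.coeff r = P j₀ * gen x A ^ j₀ := by
      rw [← hcoeff, hQ, hjr]
      exact (Polynomial.coeff_mul_add_eq_of_natDegree_le le_rfl hQr).symm
    have hαdvd : ∀ i, lf (z i) (a i) ^ (k * g.natDegree - V i) ∣ Q.coeff r := by
      intro i
      obtain ⟨q, hq1, hq2⟩ := hV i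
      have h1 := dvd_lhs_comp hz h x P j₀ i
      rw [hQ, show k * j₀ = k * g.natDegree + k * r by rw [hjr, mul_add]] at h1
      have h2 := dvd_top_coeff (lf_prime (z i) (a i)) hq1 hq2 hQr h1
      have h3 := isOrd_le hg hm (hV i)
      have h4 : lf (z i) (a i) ^ (k * g.natDegree) =
          lf (z i) (a i) ^ V i * lf (z i) (a i) ^ (k * g.natDegree - V i) := by
        rw [← pow_add]
        congr 1
        omega
      rw [h4, mul_dvd_mul_iff_left (pow_ne_zero _ (lf_ne_zero _ _))] at h2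
      exact h2
    have hprod : ∏ i, lf (z i) (a i) ^ (k * g.natDegree - V i) ∣ Q.coeff r := by
      apply Finset.prod_dvd_of_isRelPrime
      · intro i _ j _ hij
        apply IsRelPrime.pow
        rw [(lf_prime (z i) (a i)).irreducible.isRelPrime_iff_not_dvd]
        exact not_lf_dvd_lf (fun h => hij (hz h).symm)
      · intro i _
        exact hαdvd i
    have hW : Wp k z a g V ∣ P j₀ * gen x A ^ j₀ := by
      rw [← htop, Wp]
      exact mul_dvd_mul_left _ hprod
    have hrel : IsRelPrime (Wp k z a g V) (gen x A ^ j₀) :=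
      (isRelPrime_Wp hg.ne_zero hx).pow_right
    exact hrel.dvd_of_dvd_mul_right hW

/-- the member `(j, e)` of the family, denominators cleared: `t^e (A_x n - B_x)^j N^(k (J - j))` -/
noncomputable def fam (k : ℕ) (z a : Fin d → F) (x : ℕ) (A B : Fin d → Rt F) (J : ℕ)
    (je : ℕ × (Fin 2 →₀ ℕ)) (c : F) : Polynomial (Rt F) :=
  Polynomial.C (monomial je.2 c) * Lx x A B ^ je.1 * Polynomial.C (nrm z a ^ (k * (J - je.1)))

/-- **Surface independence theorem.** -/
theorem independent [CharZero F] (hd : 2 ≤ d) {k : ℕ} {z a : Fin d → F}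
    (hz : Function.Injective z) (hgp : GenPos z a) {A B : Fin d → Rt F} {μ : F}
    (h : CoordData k z a A B μ) {g : Polynomial (Rt F)} (hg : Prime g)
    (hm : 1 ≤ g.natDegree) {D : ℕ} (hD : g.leadingCoeff.totalDegree ≤ D) :
    ∃ x : ℕ, x ≤ d * (D + d) ∧ ∃ e₁ e₂ : ℕ, e₁ + e₂ = (d - 1) * k ∧
      ∀ (J : ℕ) (c : (ℕ × (Fin 2 →₀ ℕ)) →₀ F),
        (∀ je ∈ c.support, je.1 ≤ J ∧ (je.1 = 0 ∨ ¬ (e₁ ≤ je.2 0 ∧ e₂ ≤ je.2 1))) →
        g ∣ c.sum (fun je y => fam k z a x A B J je y) → c = 0 := by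
  classical
  choose V hV using fun i => exists_isOrd k (z i) (a i) hg.ne_zero
  set W := Wp k z a g V with hW
  have hW0 : W ≠ 0 := Wp_ne_zero hg.ne_zero
  have hlcN : g.leadingCoeff * nrm z a ≠ 0 :=
    mul_ne_zero (Polynomial.leadingCoeff_ne_zero.mpr hg.ne_zero) (nrm_ne_zero z a)
  obtain ⟨x, hx1, hx2⟩ := exists_gen hd hz h hlcN
  have hdeg : (g.leadingCoeff * nrm z a).totalDegree ≤ D + d := by
    rw [totalDegree_mul_of_isDomain (Polynomial.leadingCoeff_ne_zero.mpr hg.ne_zero)
      (nrm_ne_zero z a), totalDegree_nrm]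
    omega
  have hA0 : gen x A ≠ 0 := by
    intro h0
    rw [h0, isRelPrime_zero_right] at hx2
    have h1 : IsUnit (nrm z a) := isUnit_of_mul_isUnit_right hx2
    have h2 : lf (z ⟨0, by omega⟩) (a ⟨0, by omega⟩) ∣ nrm z a := lf_dvd_nrm z a _
    exact (lf_prime (z ⟨0, by omega⟩) (a ⟨0, by omega⟩)).not_isUnit (isUnit_of_dvd_unit h2 h1)
  -- the exponent
  set e₀ := MonomialOrder.degLex.degree W with he₀
  have hsum : e₀ 0 + e₀ 1 = W.totalDegree := by
    rw [← MvPolynomial.degree_degLexDegree, Finsupp.degree_eq_sum, Fin.sum_univ_two]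
  have hWdeg := le_totalDegree_Wp hz hgp hg hm hV
  rw [← hW] at hWdeg
  refine ⟨x, le_trans hx1 (Nat.mul_le_mul_left _ hdeg), min (e₀ 0) ((d - 1) * k),
    (d - 1) * k - min (e₀ 0) ((d - 1) * k), by omega, ?_⟩
  intro J c hc hdvd
  by_contra hc0
  -- top degree
  have hne : (c.support.image Prod.fst).Nonempty := by
    rw [Finset.image_nonempty, Finsupp.support_nonempty_iff]
    exact hc0
  set j₀ := (c.support.image Prod.fst).max' hne with hj₀
  have hj₀mem : j₀ ∈ c.support.image Prod.fst := Finset.max'_mem _ _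
  have hle : ∀ je ∈ c.support, je.1 ≤ j₀ := fun je hje =>
    Finset.le_max' _ _ (Finset.mem_image_of_mem _ hje)
  obtain ⟨⟨j', e'⟩, hje', hj'⟩ := Finset.mem_image.mp hj₀mem
  have hj₀J : j₀ ≤ J := by
    have := (hc _ hje').1
    omega
  -- coefficient polynomials
  set P : ℕ → Rt F := fun j => ∑ je ∈ c.support.filter (fun je => je.1 = j),
    monomial je.2 (c je) with hP
  have hPcoeff : ∀ j e, coeff e (P j) = c (j, e) := by
    intro j e
    simp only [hP, coeff_sum, coeff_monomial]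
    rw [Finset.sum_ite, Finset.sum_const_zero, add_zero]
    by_cases hmem : (j, e) ∈ c.support
    · have h1 : (c.support.filter (fun je => je.1 = j)).filter (fun je => je.2 = e) =
          {(j, e)} := by
        ext ⟨j1, e1⟩
        simp only [Finset.mem_filter, Finset.mem_singleton, Prod.mk.injEq]
        constructor
        · rintro ⟨⟨_, h1⟩, h2⟩
          exact ⟨h1, h2⟩
        · rintro ⟨rfl, rfl⟩
          exact ⟨⟨hmem, rfl⟩, rfl⟩
      rw [h1, Finset.sum_singleton]
    · have h1 : (c.support.filter (fun je => je.1 = j)).filter (fun je => je.2 = e) = ∅ := by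
        ext ⟨j1, e1⟩
        simp only [Finset.mem_filter, Finset.notMem_empty, iff_false]
        rintro ⟨⟨h0, h1⟩, h2⟩
        obtain rfl : j1 = j := h1
        obtain rfl : e1 = e := h2
        exact hmem h0
      rw [h1, Finset.sum_empty]
      exact (Finsupp.notMem_support_iff.mp hmem).symm
  have hPne : P j₀ ≠ 0 := by
    intro h0
    have h1 := hPcoeff j₀ e'
    rw [h0, coeff_zero, ← hj'] at h1
    exact (Finsupp.mem_support_iff.mp hje') h1.symm
  -- rewrite the sum
  have hsumeq : c.sum (fun je y => fam k z a x A B J je y) =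
      Polynomial.C (nrm z a ^ (k * (J - j₀))) * lhs k z a x A B P j₀ := by
    rw [Finsupp.sum, lhs, Finset.mul_sum]
    rw [← Finset.sum_fiberwise_of_maps_to (s := c.support) (t := Finset.range (j₀ + 1))
      (g := Prod.fst) (fun je hje => Finset.mem_range.mpr (Nat.lt_succ_of_le (hle je hje)))]
    refine Finset.sum_congr rfl fun j hj => ?_
    rw [Finset.mem_range] at hj
    simp only [hP]
    rw [map_sum, Finset.sum_mul, Finset.sum_mul, Finset.mul_sum]
    refine Finset.sum_congr rfl fun je hje => ?_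
    obtain ⟨hje1, hje2⟩ := Finset.mem_filter.mp hje
    rw [fam, hje2]
    have h1 : nrm z a ^ (k * (J - j)) = nrm z a ^ (k * (J - j₀)) * nrm z a ^ (k * (j₀ - j)) := by
      rw [← pow_add, ← mul_add]
      congr 2
      omega
    rw [h1, Polynomial.C_mul]
    ring
  rw [hsumeq] at hdvd
  have hdvd' : g ∣ lhs k z a x A B P j₀ := by
    rcases hg.dvd_or_dvd hdvd with h1 | h1
    · exfalso
      have h2 : (Polynomial.C (nrm z a ^ (k * (J - j₀))) : Polynomial (Rt F)) ≠ 0 := by
        rw [Ne, Polynomial.C_eq_zero]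
        exact pow_ne_zero _ (nrm_ne_zero z a)
      have h3 := Polynomial.natDegree_le_of_dvd h1 h2
      rw [Polynomial.natDegree_C] at h3
      omega
    · exact h1
  obtain ⟨hsmall, hWdvd⟩ := Wp_dvd hz h hg hm hV hx2 hA0 P j₀ hdvd'
  rw [← hW] at hWdvd
  have hj₀pos : j₀ ≠ 0 := by
    intro h0
    exact hPne (hsmall (by omega))
  obtain ⟨Q, hQ⟩ := hWdvd
  have hQ0 : Q ≠ 0 := by
    intro h0
    rw [h0, mul_zero] at hQ
    exact hPne hQ
  have hdegP : MonomialOrder.degLex.degree (P j₀) = e₀ + MonomialOrder.degLex.degree Q := by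
    rw [hQ]
    exact MonomialOrder.degree_mul hW0 hQ0
  set e := MonomialOrder.degLex.degree (P j₀) with he
  have hmem : (j₀, e) ∈ c.support := by
    rw [Finsupp.mem_support_iff, ← hPcoeff]
    exact MonomialOrder.coeff_degree_ne_zero_iff.mpr hPne
  have h1 := (hc _ hmem).2
  rcases h1 with h1 | h1
  · exact hj₀pos h1
  · apply h1
    simp only
    rw [hdegP]
    simp only [Finsupp.add_apply]
    constructor <;> omega

end Crest.Agent.R022.Surf206
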