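import Mathlib
import Crest.Agent.R022.Surf206
import Crest.Agent.R022.CntLink

/-! Row 22 (S0029), helper206.  Glue: the surface independence theorem in terms of the integer slice
objects (helper250's `Nf`, `Sf`, helper294's `Bt`). -/

set_option autoImplicit false

namespace Crest.Agent.R022.Surf206

open MvPolynomial Crest.Agent.R022.Torsor Crest.Agent.R022.Cnt

/-- base change of the coefficients -/
noncomputable def phi : MvPolynomial (Fin 2) ℤ →+* Rt ℂ := MvPolynomial.map (Int.castRingHom ℂ)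

theorem phi_injective : Function.Injective phi :=
  MvPolynomial.map_injective _ (RingHom.injective_int (Int.castRingHom ℂ))

theorem phi_totalDegree_le (P : MvPolynomial (Fin 2) ℤ) :
    (phi P).totalDegree ≤ P.totalDegree := by
  unfold phi
  rw [totalDegree, totalDegree]
  exact Finset.sup_mono (support_map_subset _ _)

section
variable {F : Polynomial ℤ} (hF : F.Monic)

/-- the generic combination of the cleared coordinates -/
noncomputable def Bg (k : ℕ) (M : ℤ) (a0 : Fin F.natDegree → ℤ) (x : ℕ) :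
    Polynomial (MvPolynomial (Fin 2) ℤ) :=
  ∑ l : Fin F.natDegree, Polynomial.C (C ((x : ℤ) ^ (l : ℕ))) * Bt hF k M a0 l

/-- integer family -/
noncomputable def famZ (k : ℕ) (M : ℤ) (J : ℕ) (a0 : Fin F.natDegree → ℤ) (x : ℕ)
    (ω : ℕ × ℕ × ℕ) : Polynomial (MvPolynomial (Fin 2) ℤ) :=
  Polynomial.C (X 0 ^ ω.2.1 * X 1 ^ ω.2.2) * Bg hF k M a0 x ^ ω.1 *
    Polynomial.C (Nf hF 2 a0 ^ (k * (J - ω.1)))

theorem Bg_natDegree (k : ℕ) (M : ℤ) (a0 : Fin F.natDegree → ℤ) (x : ℕ) :
    (Bg hF k M a0 x).natDegree ≤ 1 := by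
  unfold Bg
  refine Polynomial.natDegree_sum_le_of_forall_le _ _ fun l _ => ?_
  refine (Polynomial.natDegree_C_mul_le _ _).trans ?_
  exact Bt_natDegree hF k M a0 l

theorem famZ_natDegree (k : ℕ) (M : ℤ) (J : ℕ) (a0 : Fin F.natDegree → ℤ) (x : ℕ)
    (ω : ℕ × ℕ × ℕ) : (famZ hF k M J a0 x ω).natDegree ≤ ω.1 := by
  unfold famZ
  refine (Polynomial.natDegree_mul_C_le _ _).trans ?_
  refine (Polynomial.natDegree_C_mul_le _ _).trans ?_
  refine (Polynomial.natDegree_pow_le_of_le ω.1 (Bg_natDegree hF k M a0 x)).trans ?_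
  omega

theorem val_Bt (k : ℕ) (M : ℤ) (a0 : Fin F.natDegree → ℤ) (t : Fin 2 → ℤ) (m : ℤ)
    (b : Fin F.natDegree → ℤ)
    (h : (M : AdjoinRoot F) * ((m : AdjoinRoot F) - AdjoinRoot.root F) =
      el F (emb 2 a0 t) ^ k * el F b) (l : Fin F.natDegree) :
    val (Bt hF k M a0 l) t m = b l * (MvPolynomial.eval t (Nf hF 2 a0)) ^ k := by
  rw [coord_eq_slice hF 2 a0 t k M m b h l]
  unfold val Bt
  simp only [Polynomial.map_mul, Polynomial.map_sub, Polynomial.map_C, Polynomial.map_X,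
    Polynomial.eval_mul, Polynomial.eval_sub, Polynomial.eval_C, Polynomial.eval_X,
    MvPolynomial.eval_C]

theorem val_Bg (k : ℕ) (M : ℤ) (a0 : Fin F.natDegree → ℤ) (x : ℕ) (t : Fin 2 → ℤ) (m : ℤ)
    (b : Fin F.natDegree → ℤ)
    (h : (M : AdjoinRoot F) * ((m : AdjoinRoot F) - AdjoinRoot.root F) =
      el F (emb 2 a0 t) ^ k * el F b) :
    val (Bg hF k M a0 x) t m =
      (∑ l : Fin F.natDegree, (x : ℤ) ^ (l : ℕ) * b l) *
        (MvPolynomial.eval t (Nf hF 2 a0)) ^ k := by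
  have h1 : val (Bg hF k M a0 x) t m =
      ∑ l : Fin F.natDegree, (x : ℤ) ^ (l : ℕ) * val (Bt hF k M a0 l) t m := by
    unfold val Bg
    rw [Polynomial.map_sum, Polynomial.eval_finsetSum]
    refine Finset.sum_congr rfl fun l _ => ?_
    rw [Polynomial.map_mul, Polynomial.eval_mul, Polynomial.map_C, Polynomial.eval_C,
      MvPolynomial.eval_C]
  rw [h1, Finset.sum_mul]
  refine Finset.sum_congr rfl fun l _ => ?_
  rw [val_Bt hF k M a0 t m b h l]
  ring

theorem val_famZ (k : ℕ) (M : ℤ) (J : ℕ) (a0 : Fin F.natDegree → ℤ) (x : ℕ)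
    (ω : ℕ × ℕ × ℕ) (hω : ω.1 ≤ J) (t : Fin 2 → ℤ) (m : ℤ) (b : Fin F.natDegree → ℤ)
    (h : (M : AdjoinRoot F) * ((m : AdjoinRoot F) - AdjoinRoot.root F) =
      el F (emb 2 a0 t) ^ k * el F b) :
    val (famZ hF k M J a0 x ω) t m =
      (t 0 ^ ω.2.1 * t 1 ^ ω.2.2 * (∑ l : Fin F.natDegree, (x : ℤ) ^ (l : ℕ) * b l) ^ ω.1) *
        (MvPolynomial.eval t (Nf hF 2 a0)) ^ (k * J) := by
  have h1 : val (famZ hF k M J a0 x ω) t m = (t 0 ^ ω.2.1 * t 1 ^ ω.2.2) *
      (val (Bg hF k M a0 x) t m) ^ ω.1 * (MvPolynomial.eval t (Nf hF 2 a0)) ^ (k * (J - ω.1)) := by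
    unfold val famZ
    rw [Polynomial.map_mul, Polynomial.map_mul, Polynomial.eval_mul, Polynomial.eval_mul,
      Polynomial.map_C, Polynomial.eval_C, Polynomial.map_C, Polynomial.eval_C,
      Polynomial.map_pow, Polynomial.eval_pow]
    simp only [map_mul, map_pow, MvPolynomial.eval_X]
  rw [h1, val_Bg hF k M a0 x t m b h]
  have h2 : k * J = k * ω.1 + k * (J - ω.1) := by
    rw [← Nat.mul_add]
    congr 1
    omega
  rw [h2, pow_add, mul_pow, pow_mul]
  ring

/-- the coordinate data over `ℂ` -/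
theorem coordData (z : Fin F.natDegree → ℂ) (hd : 2 ≤ F.natDegree)
    (hinj : Function.Injective z) (hz : ∀ i, F.eval₂ (Int.castRingHom ℂ) (z i) = 0) (k : ℕ)
    {M : ℤ} (hM : M ≠ 0) (a0 : Fin F.natDegree → ℤ) :
    CoordData k z (cst z a0) (fun l => C (M : ℂ) * phi (Sf hF 2 a0 k 1 l))
      (fun l => C (M : ℂ) * phi (Sf hF 2 a0 k (AdjoinRoot.root F) l)) (M : ℂ) := by
  have hV : Matrix.vandermonde z * (Matrix.vandermonde z)⁻¹ = 1 := by
    apply Matrix.mul_nonsing_inv
    exact isUnit_iff_ne_zero.mpr (Matrix.det_vandermonde_ne_zero_iff.mpr hinj)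
  have hδ : ∀ i i', ∑ l : Fin F.natDegree,
      z i ^ (l : ℕ) * (Matrix.vandermonde z)⁻¹ l i' = if i = i' then 1 else 0 := by
    intro i i'
    have := congrFun (congrFun hV i) i'
    rw [Matrix.mul_apply, Matrix.one_apply] at this
    simpa [Matrix.vandermonde_apply] using this
  have hco : ∀ i, coP z 2 a0 i = co z (cst z a0) i := by
    intro i
    unfold coP co
    exact Finset.prod_congr rfl fun j _ => aP_two z hd a0 j
  have hS : ∀ (y : AdjoinRoot F) (i : Fin F.natDegree),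
      ∑ l : Fin F.natDegree, C (z i ^ (l : ℕ)) * phi (Sf hF 2 a0 k y l) =
        C (Torsor.ev F (z i) (hz i) y) * co z (cst z a0) i ^ k := by
    intro y i
    have hmap : ∀ l, phi (Sf hF 2 a0 k y l) =
        ∑ i', C ((Matrix.vandermonde z)⁻¹ l i' * Torsor.ev F (z i') (hz i') y) *
          co z (cst z a0) i' ^ k := by
      intro l
      unfold phi
      rw [map_Sf hF z hinj hz]
      exact Finset.sum_congr rfl fun i' _ => by rw [hco]
    simp_rw [hmap, Finset.mul_sum]
    rw [Finset.sum_comm]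
    have h1 : ∀ i', ∑ l : Fin F.natDegree, (C (z i ^ (l : ℕ)) : Rt ℂ) *
        (C ((Matrix.vandermonde z)⁻¹ l i' * Torsor.ev F (z i') (hz i') y) *
          co z (cst z a0) i' ^ k) =
        C ((if i = i' then 1 else 0) * Torsor.ev F (z i') (hz i') y) *
          co z (cst z a0) i' ^ k := by
      intro i'
      rw [← hδ i i', Finset.sum_mul, map_sum, Finset.sum_mul]
      refine Finset.sum_congr rfl fun l _ => ?_
      rw [← mul_assoc, ← C_mul, mul_assoc]
    rw [Finset.sum_congr rfl fun i' _ => h1 i', Finset.sum_eq_single i]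
    · simp
    · intro b _ hb
      rw [if_neg (Ne.symm hb)]
      simp
    · intro h
      exact absurd (Finset.mem_univ _) h
  have hS' : ∀ (y : AdjoinRoot F) (i : Fin F.natDegree),
      ∑ l : Fin F.natDegree, C (z i ^ (l : ℕ)) * (C (M : ℂ) * phi (Sf hF 2 a0 k y l)) =
        C ((M : ℂ) * Torsor.ev F (z i) (hz i) y) * co z (cst z a0) i ^ k := by
    intro y i
    rw [C_mul, mul_assoc, ← hS y i, Finset.mul_sum]
    refine Finset.sum_congr rfl fun l _ => ?_
    ring
  refine ⟨by exact_mod_cast hM, fun i => ?_, fun i => ?_⟩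
  · rw [hS' 1 i, map_one, mul_one]
  · rw [hS' (AdjoinRoot.root F) i, ev_root]

theorem map_Bg (k : ℕ) (M : ℤ) (a0 : Fin F.natDegree → ℤ) (x : ℕ) :
    (Bg hF k M a0 x).map phi = Lx x (fun l => C (M : ℂ) * phi (Sf hF 2 a0 k 1 l))
      (fun l => C (M : ℂ) * phi (Sf hF 2 a0 k (AdjoinRoot.root F) l)) := by
  unfold Bg Lx gen
  rw [Polynomial.map_sum, map_sum, map_sum, Finset.sum_mul, ← Finset.sum_sub_distrib]
  refine Finset.sum_congr rfl fun l _ => ?_
  unfold Bt
  have hc : ∀ c : ℤ, phi (C c) = C (c : ℂ) := by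
    intro c
    unfold phi
    rw [MvPolynomial.map_C]
    rfl
  simp only [Polynomial.map_mul, Polynomial.map_sub, Polynomial.map_C, Polynomial.map_X, hc,
    Polynomial.C_mul]
  push_cast
  ring

theorem map_Nf' (z : Fin F.natDegree → ℂ) (hd : 2 ≤ F.natDegree)
    (hinj : Function.Injective z) (hz : ∀ i, F.eval₂ (Int.castRingHom ℂ) (z i) = 0)
    (a0 : Fin F.natDegree → ℤ) : phi (Nf hF 2 a0) = nrm z (cst z a0) := by
  unfold phi nrm
  rw [map_Nf hF z hinj hz]
  exact Finset.prod_congr rfl fun j _ => aP_two z hd a0 j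

/-- exponent as a finitely supported function -/
noncomputable def ex (u v : ℕ) : Fin 2 →₀ ℕ := Finsupp.single 0 u + Finsupp.single 1 v

theorem ex_zero (u v : ℕ) : ex u v 0 = u := by simp [ex]
theorem ex_one (u v : ℕ) : ex u v 1 = v := by simp [ex]

theorem ex_injective : Function.Injective (fun ω : ℕ × ℕ × ℕ => (ω.1, ex ω.2.1 ω.2.2)) := by
  rintro ⟨j, u, v⟩ ⟨j', u', v'⟩ h
  simp only [Prod.mk.injEq] at h
  obtain ⟨h1, h2⟩ := h
  have h3 := DFunLike.congr_fun h2 0
  have h4 := DFunLike.congr_fun h2 1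
  rw [ex_zero, ex_zero] at h3
  rw [ex_one, ex_one] at h4
  subst h1; subst h3; subst h4
  rfl

theorem monomial_ex (u v : ℕ) (c : ℂ) :
    (monomial (ex u v) c : Rt ℂ) = C c * (X 0 ^ u * X 1 ^ v) := by
  rw [ex, X_pow_eq_monomial, X_pow_eq_monomial, monomial_mul, C_mul_monomial]
  simp

theorem map_famZ (z : Fin F.natDegree → ℂ) (hd : 2 ≤ F.natDegree)
    (hinj : Function.Injective z) (hz : ∀ i, F.eval₂ (Int.castRingHom ℂ) (z i) = 0)
    (k : ℕ) (M : ℤ) (J : ℕ) (a0 : Fin F.natDegree → ℤ) (x : ℕ)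
    (ω : ℕ × ℕ × ℕ) (c : ℤ) :
    (Polynomial.C (C c) * famZ hF k M J a0 x ω).map phi =
      fam k z (cst z a0) x (fun l => C (M : ℂ) * phi (Sf hF 2 a0 k 1 l))
        (fun l => C (M : ℂ) * phi (Sf hF 2 a0 k (AdjoinRoot.root F) l)) J
        (ω.1, ex ω.2.1 ω.2.2) (c : ℂ) := by
  unfold famZ fam
  have hc : phi (C c) = C (c : ℂ) := by
    unfold phi
    rw [MvPolynomial.map_C]
    rfl
  have hX : ∀ i, phi (X i) = X i := by
    intro i
    unfold phi
    rw [MvPolynomial.map_X]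
  rw [Polynomial.map_mul, Polynomial.map_mul, Polynomial.map_mul, Polynomial.map_pow, map_Bg,
    Polynomial.map_C, Polynomial.map_C, Polynomial.map_C, map_pow, map_Nf' hF z hd hinj hz, hc,
    monomial_ex, map_mul, map_pow, map_pow, hX, hX]
  simp only [Polynomial.C_mul]
  ring

/-- a polynomial of positive degree has a prime factor of positive degree -/
theorem exists_prime_factor {g : Polynomial (Rt ℂ)} (hg : 1 ≤ g.natDegree) :
    ∃ q, Prime q ∧ q ∣ g ∧ 1 ≤ q.natDegree ∧
      q.leadingCoeff.totalDegree ≤ g.leadingCoeff.totalDegree := by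
  classical
  have hg0 : g ≠ 0 := by
    rintro rfl
    simp at hg
  by_contra hall
  push Not at hall
  obtain ⟨u, hu⟩ := UniqueFactorizationMonoid.factors_prod hg0
  have h1 : ∀ s : Multiset (Polynomial (Rt ℂ)), (∀ q ∈ s, q.natDegree = 0 ∧ q ≠ 0) →
      s.prod.natDegree = 0 ∧ s.prod ≠ 0 := by
    intro s
    induction s using Multiset.induction_on with
    | empty => intro _; simp
    | cons q s ih =>
      intro hs
      have hq := hs q (Multiset.mem_cons_self _ _)
      have hs' := ih fun q hq => hs q (Multiset.mem_cons_of_mem hq)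
      rw [Multiset.prod_cons]
      refine ⟨?_, mul_ne_zero hq.2 hs'.2⟩
      rw [Polynomial.natDegree_mul hq.2 hs'.2, hq.1, hs'.1]
  have h2 := h1 (UniqueFactorizationMonoid.factors g) (by
    intro q hq
    have hqp := UniqueFactorizationMonoid.prime_of_factor q hq
    have hqd := UniqueFactorizationMonoid.dvd_of_mem_factors hq
    refine ⟨?_, hqp.ne_zero⟩
    by_contra hne
    have h3 := hall q hqp hqd (by omega)
    obtain ⟨w, hw⟩ := hqd
    have hw0 : w ≠ 0 := by
      rintro rfl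
      rw [mul_zero] at hw
      exact hg0 hw
    rw [hw, Polynomial.leadingCoeff_mul, totalDegree_mul_of_isDomain
      (Polynomial.leadingCoeff_ne_zero.mpr hqp.ne_zero)
      (Polynomial.leadingCoeff_ne_zero.mpr hw0)] at h3
    omega)
  have h3 : g.natDegree = 0 := by
    rw [← hu, Polynomial.natDegree_mul h2.2 (Units.ne_zero u), h2.1]
    rw [Polynomial.natDegree_eq_zero_of_isUnit u.isUnit]
  omega

/-- **Surface independence, integer form.** -/
theorem independent_int (z : Fin F.natDegree → ℂ) (hd : 2 ≤ F.natDegree)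
    (hinj : Function.Injective z) (hz : ∀ i, F.eval₂ (Int.castRingHom ℂ) (z i) = 0)
    (k : ℕ) {M : ℤ} (hM : M ≠ 0) (a0 : Fin F.natDegree → ℤ)
    (hgp : Crest.Agent.R022.GenPos z a0) {g : Polynomial (MvPolynomial (Fin 2) ℤ)}
    (hg : 1 ≤ g.natDegree) {D : ℕ} (hD : g.leadingCoeff.totalDegree ≤ D) :
    ∃ x : ℕ, x ≤ F.natDegree * (D + F.natDegree) ∧ ∃ e₁ e₂ : ℕ,
      e₁ + e₂ = (F.natDegree - 1) * k ∧
      ∀ (J : ℕ) (T : Finset (ℕ × ℕ × ℕ)) (a : ℕ × ℕ × ℕ → ℤ),
        (∀ ω ∈ T, ω.1 ≤ J ∧ (ω.1 = 0 ∨ ¬ (e₁ ≤ ω.2.1 ∧ e₂ ≤ ω.2.2))) →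
        g ∣ ∑ ω ∈ T, Polynomial.C (C (a ω)) * famZ hF k M J a0 x ω → ∀ ω ∈ T, a ω = 0 := by
  classical
  have hgC : (g.map phi).natDegree = g.natDegree :=
    Polynomial.natDegree_map_eq_of_injective phi_injective g
  obtain ⟨q, hq1, hq2, hq3, hq4⟩ := exists_prime_factor (g := g.map phi) (by omega)
  have hlc : (g.map phi).leadingCoeff = phi g.leadingCoeff :=
    Polynomial.leadingCoeff_map_of_injective phi_injective g
  have hqD : q.leadingCoeff.totalDegree ≤ D :=
    hq4.trans (hlc ▸ (phi_totalDegree_le _).trans hD)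
  obtain ⟨x, hx, e₁, e₂, he, hind⟩ := independent (F := ℂ) hd hinj
    (a := cst z a0) (k := k)
    (fun i₀ i i' hi hi' hne => hgp i i' i₀ hne hi hi')
    (coordData hF z hd hinj hz k hM a0) hq1 hq3 hqD
  refine ⟨x, hx, e₁, e₂, he, ?_⟩
  intro J T a hT hdvd
  set ι : ℕ × ℕ × ℕ → ℕ × (Fin 2 →₀ ℕ) := fun ω => (ω.1, ex ω.2.1 ω.2.2) with hι
  have hιinj : Function.Injective ι := ex_injective
  set c : (ℕ × (Fin 2 →₀ ℕ)) →₀ ℂ :=
    ∑ ω ∈ T, Finsupp.single (ι ω) ((a ω : ℤ) : ℂ) with hc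
  have hcval : ∀ ω ∈ T, c (ι ω) = ((a ω : ℤ) : ℂ) := by
    intro ω hω
    rw [hc, Finsupp.finsetSum_apply, Finset.sum_eq_single ω]
    · simp
    · intro b _ hb
      rw [Finsupp.single_apply, if_neg (fun h => hb (hιinj h))]
    · intro h
      exact absurd hω h
  have hsupp : c.support ⊆ T.image ι := by
    intro y hy
    have h1 := Finsupp.support_finsetSum hy
    simp only [Finset.mem_biUnion] at h1
    obtain ⟨ω, hω, hy'⟩ := h1
    have h2 := Finsupp.support_single_subset hy'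
    rw [Finset.mem_singleton] at h2
    rw [h2]
    exact Finset.mem_image_of_mem _ hω
  have hzero := hind J c (by
    intro je hje
    obtain ⟨ω, hω, rfl⟩ := Finset.mem_image.mp (hsupp hje)
    have := hT ω hω
    simp only [hι, ex_zero, ex_one]
    exact this) (by
    have h1 : c.sum (fun je y => fam k z (cst z a0) x
        (fun l => C (M : ℂ) * phi (Sf hF 2 a0 k 1 l))
        (fun l => C (M : ℂ) * phi (Sf hF 2 a0 k (AdjoinRoot.root F) l)) J je y) =
        (∑ ω ∈ T, Polynomial.C (C (a ω)) * famZ hF k M J a0 x ω).map phi := by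
      rw [hc, ← Finsupp.sum_finsetSum_index, Polynomial.map_sum]
      · refine Finset.sum_congr rfl fun ω _ => ?_
        rw [Finsupp.sum_single_index, map_famZ hF z hd hinj hz]
        unfold fam
        simp
      · intro je
        unfold fam
        simp
      · intro je y y'
        unfold fam
        rw [map_add (monomial je.2), Polynomial.C_add]
        ring
    rw [h1]
    exact hq2.trans (Polynomial.map_dvd phi hdvd))
  intro ω hω
  have := hcval ω hω
  rw [hzero, Finsupp.zero_apply] at this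
  exact_mod_cast this.symm

end

end Crest.Agent.R022.Surf206
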