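import Crest.Agent.R022.Ifaces250
import Crest.Agent.R022.Surf206Glue
import Crest.Agent.R022.NumSurf586

/-! Row 22, level L1 (helper586): the surface step. A relation `G(t, n) = 0` holds on `S`, and the
functions `t_i, b_l` are power series in two parameters at all auxiliary moduli. The monomials
`t^e β^j`, `β = ∑ x^l b_l`, of the family of `Surf206.independent_int` are linearly independent modulo
each irreducible factor `g` of `G`; the determinant step gives a relation which is not divisible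
by `g`, and the resultant with respect to `n` is a plane curve containing `t(S)`. -/

set_option autoImplicit false

namespace Crest.Agent.R022.Surf586

open Crest.Agent.R022.Torsor Crest.Agent.R022.Expand Crest.Agent.R022.Surf206
  Crest.Agent.R022.Stage107 Crest.Agent.R022.Cnt
open Polynomial (C X)

/-! ### expansions -/

section exp

variable {P σ : Type*} {S : Set P} {s : P → σ → ℤ} {n' : P → ℤ} {l : ℤ}

/-- a function with an expansion without `n` is constant modulo `l`. -/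
theorem hasExp_dvd_sub {D : P → ℤ} (hs : ∀ p ∈ S, ∀ i, l ∣ s p i)
    (hD : HasExp S s n' l 1 0 D) {p p' : P} (hp : p ∈ S) (hp' : p' ∈ S) : l ∣ D p - D p' := by
  obtain ⟨G, hG, h⟩ := hD
  obtain ⟨Q, rfl⟩ : ∃ Q, G = C Q := ⟨G.coeff 0, Polynomial.eq_C_of_natDegree_le_zero hG⟩
  simp only [Polynomial.eval₂_C, pow_one] at h
  have h1 : l ∣ MvPolynomial.eval (s p) Q - MvPolynomial.eval (s p') Q :=
    HasExp.dvd_eval_sub Q fun i => dvd_sub (hs p hp i) (hs p' hp' i)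
  have h2 := dvd_add (dvd_sub (h p hp) (h p' hp')) h1
  exact dvd_congr_right h2 (by ring)

theorem hasExp_unit {D : P → ℤ} (hs : ∀ p ∈ S, ∀ i, l ∣ s p i)
    (hD : HasExp S s n' l 1 0 D) (hcop : ∀ p ∈ S, IsCoprime (D p) l) :
    ∃ u : ℤ, ∀ p ∈ S, l ∣ 1 - u * D p := by
  rcases S.eq_empty_or_nonempty with h | ⟨p0, hp0⟩
  · exact ⟨0, fun p hp => by rw [h] at hp; exact absurd hp (Set.notMem_empty _)⟩
  obtain ⟨u, v, huv⟩ := hcop p0 hp0
  refine ⟨u, fun p hp => ?_⟩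
  have h1 := hasExp_dvd_sub hs hD hp hp0
  have h2 : 1 - u * D p = v * l - u * (D p - D p0) := by linear_combination -huv
  rw [h2]
  exact dvd_sub (dvd_mul_left l v) (h1.mul_left u)

end exp

section pts

variable {F : Polynomial ℤ} (hF : F.Monic)

/-- `b_l` is a power series in the local parameters as soon as `t, n` are. -/
theorem hasExp_b {σ : Type*} {k : ℕ} {M : ℤ} {a0 : Fin F.natDegree → ℤ} {S : Set (Fin 2 → ℤ)}
    {n : (Fin 2 → ℤ) → ℤ} {b : (Fin 2 → ℤ) → Fin F.natDegree → ℤ}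
    (heq : ∀ t ∈ S, (M : AdjoinRoot F) * ((n t : AdjoinRoot F) - AdjoinRoot.root F) =
      el F (emb 2 a0 t) ^ k * el F (b t))
    {s : (Fin 2 → ℤ) → σ → ℤ} {l : ℤ} (hs : ∀ p ∈ S, ∀ i, l ∣ s p i)
    (hcop : ∀ t ∈ S, IsCoprime (nm hF (el F (emb 2 a0 t))) l) {n' : (Fin 2 → ℤ) → ℤ}
    (ht : ∀ (m : ℕ) (i : Fin 2), HasExp S s n' l m 0 (fun t => t i))
    (hn : ∀ m : ℕ, HasExp S s n' l m 0 n) (m : ℕ) (i : Fin F.natDegree) :
    HasExp S s n' l m 0 (fun t => b t i) := by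
  have hpoly : ∀ (m : ℕ) (Q : MvPolynomial (Fin 2) ℤ),
      HasExp S s n' l m 0 (fun t => MvPolynomial.eval t Q) := fun m Q =>
    HasExp.mvPolynomial (fun t => t) (ht m) Q
  have hD : ∀ m : ℕ, HasExp S s n' l m 0 (fun t => (MvPolynomial.eval t (Nf hF 2 a0)) ^ k) :=
    fun m => (hpoly m _).pow_zero k
  obtain ⟨u, hu⟩ := hasExp_unit hs (hD 1) (fun p hp => by
    rw [Nf_eval]
    exact (hcop p hp).pow_left)
  have hψ : HasExp S s n' l m 0 (fun t => M * (n t * MvPolynomial.eval t (Sf hF 2 a0 k 1 i) -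
      MvPolynomial.eval t (Sf hF 2 a0 k (AdjoinRoot.root F) i))) :=
    HasExp.const_mul M ((HasExp.mul_zero_left (hn m) (hpoly m _)).sub (hpoly m _))
  refine HasExp.div (hD m) u hu hψ fun p hp => ?_
  rw [← coord_eq_slice hF 2 a0 p k M (n p) (b p) (heq p hp) i, mul_comm, sub_self]
  exact dvd_zero _

/-! ### degrees of the family -/

theorem CD_Bt (k : ℕ) (M : ℤ) (a0 : Fin F.natDegree → ℤ) (l : Fin F.natDegree) :
    CD (Bt hF k M a0 l) (k * F.natDegree) := by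
  rw [← Bi_eq]
  exact CD_Bi hF k M a0 l

theorem CD_Bg (k : ℕ) (M : ℤ) (a0 : Fin F.natDegree → ℤ) (x : ℕ) :
    CD (Bg hF k M a0 x) (k * F.natDegree) := by
  unfold Bg
  refine CD_sum _ _ _ fun l _ => ?_
  have h := CD_mul (CD_C (x := (MvPolynomial.C ((x : ℤ) ^ (l : ℕ)) : MvPolynomial (Fin 2) ℤ))
    (c := 0) (by rw [MvPolynomial.totalDegree_C])) (CD_Bt hF k M a0 l)
  rwa [zero_add] at h

theorem CD_famZ (k : ℕ) (M : ℤ) (J : ℕ) (a0 : Fin F.natDegree → ℤ) (x : ℕ) (ω : ℕ × ℕ × ℕ)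
    (hω : ω.1 ≤ J) :
    CD (famZ hF k M J a0 x ω) (ω.2.1 + ω.2.2 + J * (k * F.natDegree)) := by
  unfold famZ
  have h1 : (MvPolynomial.X 0 ^ ω.2.1 * MvPolynomial.X 1 ^ ω.2.2 :
      MvPolynomial (Fin 2) ℤ).totalDegree ≤ ω.2.1 + ω.2.2 := by
    refine (MvPolynomial.totalDegree_mul _ _).trans ?_
    rw [MvPolynomial.totalDegree_X_pow, MvPolynomial.totalDegree_X_pow]
  have h2 : CD (Bg hF k M a0 x ^ ω.1) (ω.1 * (k * F.natDegree)) := CD_pow (CD_Bg hF k M a0 x) _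
  have h3 : (Nf hF 2 a0 ^ (k * (J - ω.1))).totalDegree ≤ (k * (J - ω.1)) * F.natDegree :=
    (MvPolynomial.totalDegree_pow _ _).trans (Nat.mul_le_mul_left _ (totalDegree_Nf_le hF a0))
  have h4 := CD_mul (CD_mul (CD_C h1) h2) (CD_C h3)
  refine h4.mono ?_
  rw [add_assoc]
  refine Nat.add_le_add_left ?_ _
  rw [show k * (J - ω.1) * F.natDegree = (J - ω.1) * (k * F.natDegree) by ring, ← Nat.add_mul]
  refine Nat.mul_le_mul_right _ ?_
  omega

/-- the value of a monomial `t^e β^j`, `β = ∑ x^l b_l` -/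
def mv {d : ℕ} (x : ℕ) (ω : ℕ × ℕ × ℕ) (t : Fin 2 → ℤ) (b : Fin d → ℤ) : ℤ :=
  t 0 ^ ω.2.1 * t 1 ^ ω.2.2 * (∑ l : Fin d, (x : ℤ) ^ (l : ℕ) * b l) ^ ω.1

theorem abs_mv_le {d : ℕ} {ρ A : ℝ} (hA : 1 ≤ A) (Cc : ℕ) (x X : ℕ) (hx : x ≤ X)
    (ω : ℕ × ℕ × ℕ) (Y J : ℕ) (h1 : ω.2.1 ≤ Y) (h2 : ω.2.2 ≤ Y) (h3 : ω.1 ≤ J)
    (t : Fin 2 → ℤ) (b : Fin d → ℤ) (ht : ∀ i, |(t i : ℝ)| ≤ 2 * A)
    (hb : ∀ l, |(b l : ℝ)| ≤ Cc * A ^ ρ) :
    |(mv x ω t b : ℝ)| ≤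
      2 ^ (Y + Y) * (1 + d * ((X + 1 : ℕ) : ℝ) ^ d * Cc) ^ J * A ^ NumSurf.wt ρ ω := by
  have hA0 : 0 < A := by linarith
  have hAρ : 0 < A ^ ρ := Real.rpow_pos_of_pos hA0 ρ
  obtain ⟨C1, hC1⟩ : ∃ C1 : ℝ, C1 = 1 + d * ((X + 1 : ℕ) : ℝ) ^ d * Cc := ⟨_, rfl⟩
  have hC1' : 1 ≤ C1 := by
    rw [hC1]
    have : (0 : ℝ) ≤ d * ((X + 1 : ℕ) : ℝ) ^ d * Cc := by positivity
    linarith
  rw [← hC1]
  unfold mv
  push_cast
  rw [abs_mul, abs_mul, abs_pow, abs_pow, abs_pow]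
  have e1 : |(t 0 : ℝ)| ^ ω.2.1 * |(t 1 : ℝ)| ^ ω.2.2 ≤ (2 * A) ^ (ω.2.1 + ω.2.2) := by
    rw [pow_add]
    exact mul_le_mul (pow_le_pow_left₀ (abs_nonneg _) (ht 0) _)
      (pow_le_pow_left₀ (abs_nonneg _) (ht 1) _) (by positivity) (by positivity)
  have e2 : |∑ l : Fin d, (x : ℝ) ^ (l : ℕ) * (b l : ℝ)| ≤ C1 * A ^ ρ := by
    refine (Finset.abs_sum_le_sum_abs _ _).trans ?_
    calc ∑ l : Fin d, |(x : ℝ) ^ (l : ℕ) * (b l : ℝ)|
        ≤ ∑ _l : Fin d, ((X + 1 : ℕ) : ℝ) ^ d * (Cc * A ^ ρ) := by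
          refine Finset.sum_le_sum fun l _ => ?_
          rw [abs_mul, abs_pow, Nat.abs_cast]
          have g1 : (x : ℝ) ^ (l : ℕ) ≤ ((X + 1 : ℕ) : ℝ) ^ d := by
            calc (x : ℝ) ^ (l : ℕ) ≤ ((X + 1 : ℕ) : ℝ) ^ (l : ℕ) := by
                  refine pow_le_pow_left₀ (by positivity) ?_ _
                  exact_mod_cast (by omega : x ≤ X + 1)
              _ ≤ ((X + 1 : ℕ) : ℝ) ^ d := by
                  refine pow_le_pow_right₀ ?_ (by omega)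
                  exact_mod_cast (by omega : 1 ≤ X + 1)
          exact mul_le_mul g1 (hb l) (abs_nonneg _) (by positivity)
      _ = d * ((X + 1 : ℕ) : ℝ) ^ d * Cc * A ^ ρ := by
          rw [Finset.sum_const, Finset.card_univ, Fintype.card_fin, nsmul_eq_mul]
          ring
      _ ≤ C1 * A ^ ρ := by
          rw [hC1]
          refine mul_le_mul_of_nonneg_right ?_ hAρ.le
          linarith
  have e3 : A ^ NumSurf.wt ρ ω = A ^ (ω.2.1 + ω.2.2) * (A ^ ρ) ^ ω.1 := by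
    unfold NumSurf.wt
    rw [Real.rpow_add hA0, Real.rpow_mul hA0.le, Real.rpow_natCast, ← Nat.cast_add,
      Real.rpow_natCast]
  have e4 : |∑ l : Fin d, (x : ℝ) ^ (l : ℕ) * (b l : ℝ)| ^ ω.1 ≤ (C1 * A ^ ρ) ^ ω.1 :=
    pow_le_pow_left₀ (abs_nonneg _) e2 _
  calc |(t 0 : ℝ)| ^ ω.2.1 * |(t 1 : ℝ)| ^ ω.2.2 *
        |∑ l : Fin d, (x : ℝ) ^ (l : ℕ) * (b l : ℝ)| ^ ω.1
      ≤ (2 * A) ^ (ω.2.1 + ω.2.2) * (C1 * A ^ ρ) ^ ω.1 :=
        mul_le_mul e1 e4 (by positivity) (by positivity)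
    _ = 2 ^ (ω.2.1 + ω.2.2) * C1 ^ ω.1 * A ^ NumSurf.wt ρ ω := by
        rw [e3, mul_pow, mul_pow]; ring
    _ ≤ 2 ^ (Y + Y) * C1 ^ J * A ^ NumSurf.wt ρ ω := by
        have g1 : (2 : ℝ) ^ (ω.2.1 + ω.2.2) ≤ 2 ^ (Y + Y) :=
          pow_le_pow_right₀ (by norm_num) (by omega)
        have g2 : C1 ^ ω.1 ≤ C1 ^ J := pow_le_pow_right₀ hC1' h3
        have g3 : 0 < A ^ NumSurf.wt ρ ω := Real.rpow_pos_of_pos hA0 _
        exact mul_le_mul_of_nonneg_right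
          (mul_le_mul g1 g2 (by positivity) (by positivity)) g3.le

theorem card_fam_le (ρ : ℝ) (e1 e2 Y : ℕ) :
    (NumSurf.fam ρ e1 e2 Y).card ≤ (⌊(Y : ℝ) / ρ⌋₊ + 1) * ((Y + 1) * (Y + 1)) := by
  unfold NumSurf.fam
  refine (Finset.card_filter_le _ _).trans ?_
  rw [Finset.card_product, Finset.card_product, Finset.card_range, Finset.card_range]

/-! ### the determinant step for one factor -/

/-- the surface step for one irreducible factor `g` of positive degree in `n`. -/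
theorem factor_step (z : Fin F.natDegree → ℂ) (hd : 2 ≤ F.natDegree)
    (hinj : Function.Injective z) (hz : ∀ i, F.eval₂ (Int.castRingHom ℂ) (z i) = 0)
    {k : ℕ} {ρ κ : ℝ} (hρ : 0 < ρ) (hκ : 0 < κ)
    (hthr : 1 < κ ^ 2 * (1 + (((F.natDegree - 1) * k : ℕ) : ℝ) / ρ)) (Cc M : ℕ) (hM : 0 < M)
    (D0 : ℕ) :
    ∃ (D1 : ℕ) (A0 : ℝ), ∀ A : ℝ, A0 ≤ A → 1 ≤ A →
    ∀ a0 S n b L, LevelData hF z k Cc M A ρ a0 S n b L κ →
    (∀ l ∈ L, Par 2 S (l : ℤ) {(fun t => t 0), (fun t => t 1), n}) →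
    ∀ g : Polynomial (MvPolynomial (Fin 2) ℤ), Irreducible g → 1 ≤ g.natDegree →
      g.natDegree ≤ D0 → CD g D0 →
      ∃ R : MvPolynomial (Fin 2) ℤ, R ≠ 0 ∧ R.totalDegree ≤ D1 ∧
        ∀ t ∈ S, ev3 g t (n t) = 0 → MvPolynomial.eval t R = 0 := by
  classical
  obtain ⟨Y, m, hYm⟩ := NumSurf.num_surf ρ κ hρ hκ ((F.natDegree - 1) * k) hthr
  obtain ⟨J, hJ⟩ : ∃ J : ℕ, J = ⌊(Y : ℝ) / ρ⌋₊ := ⟨_, rfl⟩
  obtain ⟨Xb, hXb⟩ : ∃ Xb : ℕ, Xb = F.natDegree * (D0 + F.natDegree) := ⟨_, rfl⟩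
  obtain ⟨C2, hC2⟩ : ∃ C2 : ℝ, C2 = 2 ^ (Y + Y) *
    (1 + F.natDegree * ((Xb + 1 : ℕ) : ℝ) ^ F.natDegree * Cc) ^ J := ⟨_, rfl⟩
  have hC21 : 1 ≤ C2 := by
    rw [hC2]
    refine one_le_mul_of_one_le_of_one_le (one_le_pow₀ (by norm_num)) (one_le_pow₀ ?_)
    have : (0 : ℝ) ≤ F.natDegree * ((Xb + 1 : ℕ) : ℝ) ^ F.natDegree * Cc := by positivity
    linarith
  obtain ⟨s0, hs0⟩ : ∃ s0 : ℕ, s0 = (J + 1) * ((Y + 1) * (Y + 1)) := ⟨_, rfl⟩
  obtain ⟨Q, hQ⟩ : ∃ Q : ℝ, Q = (s0.factorial : ℝ) * C2 ^ s0 := ⟨_, rfl⟩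
  obtain ⟨E, hE⟩ : ∃ E : ℕ, E = D0 + (Y + Y + J * (k * F.natDegree)) := ⟨_, rfl⟩
  refine ⟨(D0 + J) * E, Q + 1, ?_⟩
  intro A hAQ hA a0 S n b L hL hPar g hgirr hg1 hgD hgCD
  have hApos : 0 < A := by linarith
  obtain ⟨x, hx, e₁, e₂, he, hind⟩ := independent_int hF z hd hinj hz k (M := (M : ℤ))
    (by exact_mod_cast hM.ne') a0 hL.gp hg1 (D := D0) (by
      rw [Polynomial.leadingCoeff]
      exact hgCD _)
  obtain ⟨hY1, hY2⟩ := hYm e₁ e₂ he
  obtain ⟨T, hT⟩ : ∃ T : Finset (ℕ × ℕ × ℕ), T = NumSurf.fam ρ e₁ e₂ Y := ⟨_, rfl⟩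
  rw [← hT] at hY1 hY2
  have hTmem : ∀ ω ∈ T, ω.1 ≤ J ∧ ω.2.1 ≤ Y ∧ ω.2.2 ≤ Y ∧
      (ω.1 = 0 ∨ ¬ (e₁ ≤ ω.2.1 ∧ e₂ ≤ ω.2.2)) := by
    intro ω hω
    rw [hT] at hω
    have h := NumSurf.mem_fam hω
    exact ⟨hJ ▸ h.1, h.2.1, h.2.2.1, h.2.2.2.2⟩
  have hTcard : T.card ≤ s0 := by
    rw [hT, hs0, hJ]
    exact card_fam_le ρ e₁ e₂ Y
  obtain ⟨w, hw⟩ : ∃ w : ℕ, w = m * T.card - (m + 2).choose 3 := ⟨_, rfl⟩
  have hw' : w + (m + 2).choose 3 = m * T.card := by omega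
  have hwR : (w : ℝ) = (m : ℝ) * T.card - (m + 2).choose 3 := by
    have : ((w + (m + 2).choose 3 : ℕ) : ℝ) = ((m * T.card : ℕ) : ℝ) := by rw [hw']
    push_cast at this
    linarith
  -- the determinant step on the points of `g = 0`
  obtain ⟨U, hU⟩ : ∃ U : Set (Fin 2 → ℤ), U = {t ∈ S | ev3 g t (n t) = 0} := ⟨_, rfl⟩
  have hUS : U ⊆ S := by
    rw [hU]
    exact fun t ht => ht.1
  obtain ⟨a, ha0, ha⟩ := relation_hasExp (ι := {ω // ω ∈ T}) (r := 2) (J := 0) (m := m)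
    (w := w) U (fun ω t => mv x ω.1 t (b t)) L hL.cop
    (by
      intro l hl
      obtain ⟨s, hs, hs'⟩ := hPar l hl
      refine ⟨s, fun _ => 0, fun p hp i => hs p (hUS hp) i, fun ω => ?_⟩
      have ht : ∀ (m : ℕ) (i : Fin 2), HasExp S s (fun _ => 0) (l : ℤ) m 0 (fun t => t i) := by
        intro m i
        fin_cases i
        · exact hs' _ (by simp) _ m
        · exact hs' _ (by simp) _ m
      have hn : ∀ m : ℕ, HasExp S s (fun _ => 0) (l : ℤ) m 0 n := fun m => hs' n (by simp) _ m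
      have hb := hasExp_b hF (M := (M : ℤ)) (fun t ht => (hL.pt t ht).eqn) hs
        (fun t ht => hL.nm l hl t ht) ht hn m
      have h1 : HasExp S s (fun _ => 0) (l : ℤ) m 0
          (fun t => ∑ i : Fin F.natDegree, (x : ℤ) ^ (i : ℕ) * b t i) :=
        HasExp.sum _ _ fun i _ => HasExp.const_mul _ (hb i)
      have h2 := HasExp.mul_zero_left (HasExp.mul_zero_left ((ht m 0).pow_zero ω.1.2.1)
        ((ht m 1).pow_zero ω.1.2.2)) (h1.pow_zero ω.1.1)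
      exact (h2.mono_set hUS).congr fun p _ => rfl)
    (fun ω => C2 * A ^ NumSurf.wt ρ ω.1)
    (by
      intro p hp ω
      have h1 := hTmem _ ω.2
      have h2 := hL.pt p (hUS hp)
      rw [hC2]
      exact abs_mv_le hA Cc x Xb (hXb ▸ hx) ω.1 Y J h1.2.1 h1.2.2.1 h1.1 p (b p) h2.t_le h2.b_le)
    (by
      rw [Fintype.card_coe, zero_add, one_mul]
      exact hw'.le)
    (by
      rw [Fintype.card_coe, Finset.prod_mul_distrib, Finset.prod_const, Finset.card_univ,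
        Fintype.card_coe]
      have e1 : ∏ x : {ω // ω ∈ T}, A ^ NumSurf.wt ρ x.1 = A ^ (∑ ω ∈ T, NumSurf.wt ρ ω) := by
        rw [Finset.prod_coe_sort T (fun ω => A ^ NumSurf.wt ρ ω)]
        rw [← Real.rpow_sum_of_pos hApos]
      rw [e1, ← mul_assoc]
      have e2 : (T.card.factorial : ℝ) * C2 ^ T.card ≤ Q := by
        rw [hQ]
        refine mul_le_mul ?_ (pow_le_pow_right₀ hC21 hTcard) (by positivity) (by positivity)
        exact_mod_cast Nat.factorial_le hTcard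
      have e3 : (A ^ κ) ^ w ≤ ((∏ l ∈ L, l : ℕ) : ℝ) ^ w :=
        pow_le_pow_left₀ (Real.rpow_pos_of_pos hApos _).le hL.big w
      refine lt_of_lt_of_le ?_ e3
      rw [← Real.rpow_natCast (A ^ κ) w, ← Real.rpow_mul hApos.le]
      have e4 : ∑ ω ∈ T, NumSurf.wt ρ ω + 1 ≤ κ * (w : ℝ) := by rw [hwR]; exact hY2
      have e5 : A ^ (∑ ω ∈ T, NumSurf.wt ρ ω + 1) ≤ A ^ (κ * (w : ℝ)) :=
        Real.rpow_le_rpow_of_exponent_le hA e4
      refine lt_of_lt_of_le ?_ e5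
      rw [Real.rpow_add hApos, Real.rpow_one, mul_comm (A ^ (∑ ω ∈ T, NumSurf.wt ρ ω)) A]
      refine mul_lt_mul_of_pos_right ?_ (Real.rpow_pos_of_pos hApos _)
      linarith)
  -- the relation as a polynomial
  obtain ⟨a', ha'⟩ : ∃ a' : ℕ × ℕ × ℕ → ℤ, a' = fun ω => if h : ω ∈ T then a ⟨ω, h⟩ else 0 :=
    ⟨_, rfl⟩
  obtain ⟨G, hG⟩ : ∃ G : Polynomial (MvPolynomial (Fin 2) ℤ),
    G = ∑ ω ∈ T, C (MvPolynomial.C (a' ω)) * famZ hF k M J a0 x ω := ⟨_, rfl⟩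
  have hnd : ¬ g ∣ G := by
    intro hdvd
    apply ha0
    funext ω
    have h1 := hind J T a' (fun ω hω => ⟨(hTmem ω hω).1, (hTmem ω hω).2.2.2⟩) (hG ▸ hdvd)
      ω.1 ω.2
    simp only [ha', dif_pos ω.2] at h1
    exact h1
  have hGdeg : G.natDegree ≤ J := by
    rw [hG]
    refine Polynomial.natDegree_sum_le_of_forall_le _ _ (n := J) fun ω hω => ?_
    exact (Polynomial.natDegree_C_mul_le _ _).trans
      ((famZ_natDegree hF k M J a0 x ω).trans (hTmem ω hω).1)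
  have hGCD : CD G (Y + Y + J * (k * F.natDegree)) := by
    rw [hG]
    refine CD_sum _ _ _ fun ω hω => ?_
    have h1 := CD_mul (CD_C (x := (MvPolynomial.C (a' ω) : MvPolynomial (Fin 2) ℤ)) (c := 0)
      (by rw [MvPolynomial.totalDegree_C])) (CD_famZ hF k M J a0 x ω (hTmem ω hω).1)
    have h2 := hTmem ω hω
    refine h1.mono ?_
    omega
  refine ⟨Polynomial.resultant g G,
    R22.PolyKit.resultant_ne_zero_of_irreducible hgirr hg1 hnd, ?_, ?_⟩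
  · refine R22.PolyKit.totalDegree_resultant g G E (D0 + J) (fun i => (hgCD i).trans (by omega))
      (fun i => (hGCD i).trans (by omega)) (by omega)
  · intro t ht hgt
    have hev : ∀ H : Polynomial (MvPolynomial (Fin 2) ℤ),
        H.eval₂ (MvPolynomial.eval t) (n t) = ev3 H t (n t) := fun H => by
      rw [ev3, Polynomial.eval_map]
    have htU : t ∈ U := by
      rw [hU]
      exact ⟨ht, hgt⟩
    refine R22.PolyKit.map_resultant_eq_zero (MvPolynomial.eval t) g G hg1 (n t) ?_ ?_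
    · rw [hev]; exact hgt
    · rw [hev]
      have h1 := ha t htU
      unfold ev3
      rw [hG, Polynomial.map_sum, Polynomial.eval_finsetSum]
      have h2 : ∀ ω ∈ T, ((C (MvPolynomial.C (a' ω)) * famZ hF k M J a0 x ω).map
          (MvPolynomial.eval t)).eval (n t) =
          (a' ω * mv x ω t (b t)) * (MvPolynomial.eval t (Nf hF 2 a0)) ^ (k * J) := by
        intro ω hω
        have h3 := val_famZ hF k M J a0 x ω (hTmem ω hω).1 t (n t) (b t) (hL.pt t ht).eqn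
        unfold val at h3
        rw [Polynomial.map_mul, Polynomial.eval_mul, h3, Polynomial.map_C, Polynomial.eval_C,
          MvPolynomial.eval_C, mv]
        ring
      rw [Finset.sum_congr rfl h2, ← Finset.sum_mul]
      have h4 : ∑ ω ∈ T, a' ω * mv x ω t (b t) = 0 := by
        rw [← Finset.sum_coe_sort T (fun ω => a' ω * mv x ω t (b t)), ← h1]
        refine Finset.sum_congr rfl fun ω _ => ?_
        simp only [ha', dif_pos ω.2]
      rw [h4, zero_mul]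

/-- the surface step for one irreducible factor in three variables. -/
theorem factor_step3 (z : Fin F.natDegree → ℂ) (hd : 2 ≤ F.natDegree)
    (hinj : Function.Injective z) (hz : ∀ i, F.eval₂ (Int.castRingHom ℂ) (z i) = 0)
    {k : ℕ} {ρ κ : ℝ} (hρ : 0 < ρ) (hκ : 0 < κ)
    (hthr : 1 < κ ^ 2 * (1 + (((F.natDegree - 1) * k : ℕ) : ℝ) / ρ)) (Cc M : ℕ) (hM : 0 < M)
    (D0 : ℕ) :
    ∃ (D1 : ℕ) (A0 : ℝ), ∀ A : ℝ, A0 ≤ A → 1 ≤ A →
    ∀ a0 S n b L, LevelData hF z k Cc M A ρ a0 S n b L κ →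
    (∀ l ∈ L, Par 2 S (l : ℤ) {(fun t => t 0), (fun t => t 1), n}) →
    ∀ g : MvPolynomial (Fin 3) ℤ, Irreducible g → g.totalDegree ≤ D0 →
      ∃ R : MvPolynomial (Fin 2) ℤ, R ≠ 0 ∧ R.totalDegree ≤ D1 ∧
        ∀ t ∈ S, MvPolynomial.eval (![n t, t 0, t 1] : Fin 3 → ℤ) g = 0 →
          MvPolynomial.eval t R = 0 := by
  obtain ⟨D1, A0, h⟩ := factor_step hF z hd hinj hz hρ hκ hthr Cc M hM D0
  refine ⟨D0 + D1, A0, fun A hA0 hA a0 S n b L hL hPar g hg hgD => ?_⟩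
  obtain ⟨g', hg'⟩ : ∃ g' : Polynomial (MvPolynomial (Fin 2) ℤ),
    g' = MvPolynomial.finSuccEquiv ℤ 2 g := ⟨_, rfl⟩
  have hg'irr : Irreducible g' := by
    rw [hg']
    exact (MulEquiv.irreducible_iff (MvPolynomial.finSuccEquiv ℤ 2)).mpr hg
  have hdeg : g'.natDegree ≤ D0 := by
    rw [hg', MvPolynomial.natDegree_finSuccEquiv]
    exact (MvPolynomial.degreeOf_le_totalDegree g 0).trans hgD
  have hCD : CD g' D0 := by
    intro i
    by_cases hi : g'.coeff i = 0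
    · rw [hi]; simp
    · rw [hg'] at hi ⊢
      have := MvPolynomial.totalDegree_coeff_finSuccEquiv_add_le g i hi
      omega
  have hev : ∀ t : Fin 2 → ℤ, ∀ n : ℤ,
      MvPolynomial.eval (![n, t 0, t 1] : Fin 3 → ℤ) g = ev3 g' t n := by
    intro t n
    have h1 := R22.PolyKit.eval₂_finSuccEquiv g (![n, t 0, t 1] : Fin 3 → ℤ)
    have h2 : (fun i : Fin 2 => (![n, t 0, t 1] : Fin 3 → ℤ) i.succ) = t := by
      funext i
      fin_cases i <;> rfl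
    rw [h2] at h1
    rw [← h1, ev3, hg', Polynomial.eval_map]
    rfl
  rcases Nat.eq_zero_or_pos g'.natDegree with h0 | h1
  · obtain ⟨R, hR⟩ : ∃ R, g' = C R := ⟨g'.coeff 0, Polynomial.eq_C_of_natDegree_eq_zero h0⟩
    refine ⟨R, ?_, ?_, fun t ht hgt => ?_⟩
    · rintro rfl
      rw [hR, map_zero] at hg'irr
      exact hg'irr.ne_zero rfl
    · have := hCD 0
      rw [hR, Polynomial.coeff_C_zero] at this
      omega
    · rw [hev, hR, ev3, Polynomial.map_C, Polynomial.eval_C] at hgt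
      exact hgt
  · obtain ⟨R, hR0, hR1, hR2⟩ := h A hA0 hA a0 S n b L hL hPar g' hg'irr h1 hdeg hCD
    exact ⟨R, hR0, by omega, fun t ht hgt => hR2 t ht (by rw [← hev]; exact hgt)⟩

/-- **L1, surface step**, general threshold. -/
theorem l1At_gen (z : Fin F.natDegree → ℂ) (hd : 2 ≤ F.natDegree)
    (hinj : Function.Injective z) (hz : ∀ i, F.eval₂ (Int.castRingHom ℂ) (z i) = 0)
    {k : ℕ} {ρ κ : ℝ} (hρ : 0 < ρ) (hκ : 0 < κ)
    (hthr : 1 < κ ^ 2 * (1 + (((F.natDegree - 1) * k : ℕ) : ℝ) / ρ)) : L1At hF z k ρ κ := by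
  classical
  intro Cc M _ hM D0
  obtain ⟨D1, A0, h⟩ := factor_step3 hF z hd hinj hz hρ hκ hthr Cc M hM D0
  refine ⟨D0 * D1, A0, fun A hA0 hA a0 S n b L hL hG hPar => ?_⟩
  obtain ⟨G, hG0, hGD, hGS⟩ := hG
  have hstep := h A hA0 hA a0 S n b L hL hPar
  obtain ⟨ms, hms⟩ : ∃ ms : Multiset (MvPolynomial (Fin 3) ℤ),
    ms = (UniqueFactorizationMonoid.factors G).filter (fun g => g.totalDegree ≠ 0) := ⟨_, rfl⟩
  have hirr : ∀ g ∈ UniqueFactorizationMonoid.factors G, Irreducible g := fun g hg =>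
    UniqueFactorizationMonoid.irreducible_of_factor g hg
  have hdvd : ∀ g ∈ UniqueFactorizationMonoid.factors G, g ∣ G := fun g hg =>
    UniqueFactorizationMonoid.dvd_of_mem_factors hg
  have hR : ∀ g : MvPolynomial (Fin 3) ℤ, ∃ R : MvPolynomial (Fin 2) ℤ, R ≠ 0 ∧
      R.totalDegree ≤ D1 ∧ (g ∈ UniqueFactorizationMonoid.factors G → ∀ t ∈ S,
        MvPolynomial.eval (![n t, t 0, t 1] : Fin 3 → ℤ) g = 0 → MvPolynomial.eval t R = 0) := by
    intro g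
    by_cases hg : g ∈ UniqueFactorizationMonoid.factors G
    · obtain ⟨R, h1, h2, h3⟩ := hstep g (hirr g hg)
        ((MvPolynomial.totalDegree_le_of_dvd_of_isDomain (hdvd g hg) hG0).trans hGD)
      exact ⟨R, h1, h2, fun _ => h3⟩
    · exact ⟨1, one_ne_zero, by simp, fun h => absurd h hg⟩
  choose R hR0 hR1 hR2 using hR
  refine ⟨(ms.map R).prod, ?_, ?_, ?_⟩
  · refine Multiset.prod_ne_zero fun h0 => ?_
    obtain ⟨g, -, hg⟩ := Multiset.mem_map.mp h0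
    exact hR0 g hg
  · refine (MvPolynomial.totalDegree_multiset_prod _).trans ?_
    rw [Multiset.map_map]
    have h1 : ((ms.map (MvPolynomial.totalDegree ∘ R))).sum ≤
        Multiset.card (ms.map (MvPolynomial.totalDegree ∘ R)) • D1 := by
      refine Multiset.sum_le_card_nsmul _ _ fun x hx => ?_
      obtain ⟨g, -, rfl⟩ := Multiset.mem_map.mp hx
      exact hR1 g
    refine h1.trans ?_
    rw [Multiset.card_map, smul_eq_mul]
    refine Nat.mul_le_mul_right _ ?_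
    rw [hms]
    exact (R22.PolyKit.card_factors_le G hG0).trans hGD
  · intro t ht
    have hGt := hGS t ht
    obtain ⟨u, hu⟩ := UniqueFactorizationMonoid.factors_prod hG0
    have h1 : MvPolynomial.eval (![n t, t 0, t 1] : Fin 3 → ℤ)
        (UniqueFactorizationMonoid.factors G).prod = 0 := by
      have h2 : MvPolynomial.eval (![n t, t 0, t 1] : Fin 3 → ℤ)
          (UniqueFactorizationMonoid.factors G).prod *
          MvPolynomial.eval (![n t, t 0, t 1] : Fin 3 → ℤ) (u : MvPolynomial (Fin 3) ℤ) = 0 := by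
        rw [← map_mul, hu, hGt]
      rcases mul_eq_zero.mp h2 with h3 | h3
      · exact h3
      · exfalso
        have h4 : IsUnit (MvPolynomial.eval (![n t, t 0, t 1] : Fin 3 → ℤ)
            (u : MvPolynomial (Fin 3) ℤ)) := u.isUnit.map _
        rw [h3] at h4
        exact not_isUnit_zero h4
    rw [map_multiset_prod, Multiset.prod_eq_zero_iff] at h1
    obtain ⟨g, hg, hgt⟩ := Multiset.mem_map.mp h1
    rw [map_multiset_prod, Multiset.prod_eq_zero_iff, Multiset.map_map, Multiset.mem_map]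
    refine ⟨g, ?_, hR2 g hg t ht hgt⟩
    rw [hms, Multiset.mem_filter]
    refine ⟨hg, fun h0 => ?_⟩
    rw [MvPolynomial.totalDegree_eq_zero_iff_eq_C] at h0
    rw [h0, MvPolynomial.eval_C] at hgt
    rw [hgt, map_zero] at h0
    exact (hirr g hg).ne_zero h0

/-- the threshold is satisfied for `κ = 0.49 ρ`, `ρ ≥ 0.6556` -/
theorem thr {d k : ℕ} (hk2 : 2 ≤ k) (hk : k + 2 = d) {ρ : ℝ} (hρ : 2 / 3 ≤ ρ) :
    1 < (49 / 100 * ρ) ^ 2 * (1 + (((d - 1) * k : ℕ) : ℝ) / ρ) := by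
  have hρ0 : 0 < ρ := by linarith
  have h6 : 6 ≤ (d - 1) * k := by
    calc 6 = 3 * 2 := rfl
      _ ≤ (d - 1) * k := Nat.mul_le_mul (by omega) hk2
  have h6' : (6 : ℝ) ≤ (((d - 1) * k : ℕ) : ℝ) := by exact_mod_cast h6
  have h1 : (49 / 100 * ρ) ^ 2 * (1 + (((d - 1) * k : ℕ) : ℝ) / ρ) =
      (49 / 100) ^ 2 * (ρ ^ 2 + (((d - 1) * k : ℕ) : ℝ) * ρ) := by
    field_simp
  rw [h1]
  have h2 : (6 : ℝ) * (2 / 3) ≤ (((d - 1) * k : ℕ) : ℝ) * ρ :=
    mul_le_mul h6' hρ (by norm_num) (by positivity)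
  nlinarith

/-- **L1, surface step** with `κ = 0.49 ρ`. -/
theorem l1At (z : Fin F.natDegree → ℂ) (hinj : Function.Injective z)
    (hz : ∀ i, F.eval₂ (Int.castRingHom ℂ) (z i) = 0) {k : ℕ} (hk2 : 2 ≤ k)
    (hk : k + 2 = F.natDegree) {ρ : ℝ} (hρ : 2 / 3 ≤ ρ) : L1At hF z k ρ (49 / 100 * ρ) :=
  l1At_gen hF z (by omega) hinj hz (by linarith) (by linarith) (thr hk2 hk hρ)

end pts

end Crest.Agent.R022.Surf586
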