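import Crest.Agent.R022.Outer250
import Crest.Agent.R022.InstC250
import Crest.Agent.R022.Curve354G
import Crest.Agent.R022.Surf586
import Crest.Agent.R022.L2Glue776

/-! Row 22 (helper250): S0029 from the abstract level bookkeeping (`LevelsStmt`) and the free curve
theorem (`FreeCurveAt`). -/

set_option autoImplicit false

open Filter Topology

namespace Crest.Agent.R022.Final

open Crest.Agent.R022.Torsor Crest.Agent.R022.Inst

theorem final (levels : LevelsStmt)
    (free : ∀ {F : Polynomial ℤ} (hF : F.Monic), Irreducible (F.map (Int.castRingHom ℚ)) →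
      ∀ (z : Fin F.natDegree → ℂ), Function.Injective z →
      (∀ i, F.eval₂ (Int.castRingHom ℂ) (z i) = 0) →
      ∀ {k : ℕ}, k + 2 = F.natDegree → 2 ≤ k → ∀ {ρ : ℝ}, (k : ℝ) / (k + 1) ≤ ρ → ρ ≤ 2 →
        Glue776.FreeCurveAt hF z k ρ (505 / 1000 * ρ))
    (f : Polynomial ℤ) (k : ℕ) (hirr : Irreducible (f.map (Int.castRingHom ℚ)))
    (hdeg : 4 ≤ f.natDegree) (hk : k + 2 = f.natDegree)
    (hloc : ∀ p : ℕ, p.Prime → Crest.NumberTheoryR.polyRootCountMod f (p ^ k) < p ^ k) :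
    ∃ c : ℝ, 0 < c ∧
      HasProd (fun p : Nat.Primes => 1 - (Crest.NumberTheoryR.polyRootCountMod f ((p : ℕ) ^ k) : ℝ) /
        ((p : ℕ) : ℝ) ^ k) c ∧
      Tendsto (fun N : ℕ => (Crest.NumberTheoryR.powerFreeValueCount f k N : ℝ) / (N : ℝ)) atTop (𝓝 c) := by
  refine Outer.outer f k hirr hdeg hk hloc ?_
  intro hF z hirrF hinj hz _ ρ hρ hρ2
  have hk2 : 2 ≤ k := by omega
  have hkF : k + 2 = (mon f).natDegree := by rw [mon_natDegree f]; exact hk
  have hk0 : (2 : ℝ) ≤ k := by exact_mod_cast hk2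
  have hirrQ : Irreducible ((mon f).map (Int.castRingHom ℚ)) :=
    (hF.irreducible_iff_irreducible_map_fraction_map (K := ℚ)).mp hirrF
  have hρ23 : 2 / 3 ≤ ρ := by
    refine le_trans ?_ hρ
    rw [le_div_iff₀ (by linarith)]; linarith
  exact sliceBoundAt levels hF z hinj hz hkF hk2 hρ hρ2
    (Surf586.l1At hF z hinj hz hk2 hkF hρ23)
    (Glue776.l2At_of_freeCurveAt hF z k ρ _ (free hF hirrQ z hinj hz hkF hk2 hρ hρ2))
    (Curve354.l3At hF hirrF z hinj hz k hk2 hkF ρ _ (by linarith))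

end Crest.Agent.R022.Final
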