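import Mathlib
import Crest.Agent.R022.CntStep

/-!
# R022, stage 3 (helper712), part A

The ring of functions on a plane curve `h = 0`, its degree filtration, and the step bound for the
spaces `Wsp` in a general one-dimensional ring.
-/

set_option autoImplicit false

namespace Crest.Agent.R022.Free712

open Module Finset Crest.Agent.R022.Cnt

variable {F : Type*} [Field F] {ι : Type*} [DecidableEq ι]

section step

variable {R S : Type*} [CommRing R] [IsDomain R] [Algebra F R] [CommRing S] [Algebra F S]

/-- adding one more form `α i₀`: general version with a ring homomorphism `ψ` killing `α i₀`, under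
which the other forms are non zero divisors. -/
theorem step_ring {k j m : ℕ} {Z : ℕ → Submodule F R} {α : ι → R} {I : Finset ι} {i₀ : ι}
    (hi₀ : i₀ ∉ I) (hI : I.Nonempty) (hfin : ∀ m, FiniteDimensional F (Z m))
    (hmul : ∀ m, ∀ z ∈ Z m, α i₀ * z ∈ Z (m + 1)) (hπ : α i₀ ≠ 0)
    (ψ : R →ₐ[F] S) (hψ : ψ (α i₀) = 0)
    (hu : ∀ i ∈ I, ∀ y : S, ψ (α i) * y = 0 → y = 0)
    (D' : ℕ → ℕ) (hD' : ∀ m', D' m' ≤ finrank F ((Z m').map ψ.toLinearMap)) :
    finrank F (Wsp k Z α I j m) + j * ∑ s ∈ range (min k (m + 1)), D' (m - s) ≤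
      finrank F (Wsp k Z α (insert i₀ I) j m) := by
  classical
  have hfinm := hfin m
  set V := Wsp k Z α (insert i₀ I) j m with hV
  set π : R := α i₀ with hπdef
  have hψ' : ∀ y, ψ.toLinearMap (π * y) = 0 := by
    intro y
    rw [AlgHom.toLinearMap_apply, map_mul, hψ, zero_mul]
  have hchain := finrank_chain V hπ ψ.toLinearMap hψ' (k * j)
  -- powers of π raise the degree
  have hpow : ∀ s : ℕ, ∀ m', ∀ z ∈ Z m', π ^ s * z ∈ Z (m' + s) := by
    intro s
    induction s with
    | zero => intro m' z hz; simpa using hz
    | succ s ih =>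
      intro m' z hz
      have h1 := hmul _ _ (ih m' z hz)
      have h2 : π ^ (s + 1) * z = π * (π ^ s * z) := by ring
      rw [h2]
      exact h1
  -- last term
  have hlast : finrank F (Wsp k Z α I j m) ≤
      finrank F (V.comap (LinearMap.mulLeft F (π ^ (k * j)))) := by
    have hfd := finite_comap_mul V (pow_ne_zero (k * j) hπ)
    refine Submodule.finrank_mono (Wsp_le ?_)
    intro f hf z hz
    rw [Submodule.mem_comap, LinearMap.mulLeft_apply]
    rw [Finset.mem_piAntidiag] at hf
    have hf0 : f i₀ = 0 := by
      by_contra h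
      exact hi₀ (hf.2 i₀ h)
    have hmem : f ∈ (insert i₀ I).piAntidiag j := by
      rw [Finset.mem_piAntidiag]
      refine ⟨?_, fun i hi => Finset.mem_insert_of_mem (hf.2 i hi)⟩
      rw [Finset.sum_insert hi₀, hf0, zero_add]
      exact hf.1
    have := mem_Wsp (F := F) (k := k) (Z := Z) (α := α) hmem hz
    rw [Finset.prod_insert hi₀, hf0, Nat.sub_zero] at this
    rw [← mul_assoc]
    exact this
  -- middle terms
  obtain ⟨i₁, hi₁⟩ := hI
  have hne : i₀ ≠ i₁ := fun h => hi₀ (h ▸ hi₁)
  have hmid : ∀ l ∈ range j, ∀ s ∈ range (min k (m + 1)), D' (m - s) ≤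
      finrank F ((V.comap (LinearMap.mulLeft F (π ^ (k * l + s)))).map ψ.toLinearMap) := by
    intro l hl s hs
    rw [Finset.mem_range] at hl hs
    have hsm : s ≤ m := by omega
    refine (hD' (m - s)).trans ?_
    have hfd := finite_comap_mul V (pow_ne_zero (k * l + s) hπ)
    -- exponent vector: `l` at `i₁`, `j - l` at `i₀`
    obtain ⟨f, hf⟩ : ∃ f : ι → ℕ, f = Function.update (Pi.single i₁ l : ι → ℕ) i₀ (j - l) :=
      ⟨_, rfl⟩
    have hfi₀ : f i₀ = j - l := by rw [hf, Function.update_self]
    have hfi : ∀ i, i ≠ i₀ → f i = (Pi.single i₁ l : ι → ℕ) i := fun i hi => by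
      rw [hf, Function.update_of_ne hi]
    have hmem : f ∈ (insert i₀ I).piAntidiag j := by
      rw [Finset.mem_piAntidiag]
      constructor
      · rw [Finset.sum_insert hi₀, hfi₀]
        have h1 : ∑ x ∈ I, f x = ∑ x ∈ I, (Pi.single i₁ l : ι → ℕ) x :=
          Finset.sum_congr rfl fun x hx => hfi x (fun h => hi₀ (h ▸ hx))
        rw [h1, Finset.sum_eq_single i₁]
        · rw [Pi.single_eq_same]; omega
        · intro b _ hb
          exact Pi.single_eq_of_ne hb _
        · intro h
          exact absurd hi₁ h
      · intro i hi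
        by_cases h : i = i₀
        · rw [h]; exact Finset.mem_insert_self _ _
        · rw [hfi i h] at hi
          by_cases h2 : i = i₁
          · rw [h2]; exact Finset.mem_insert_of_mem hi₁
          · exact absurd (Pi.single_eq_of_ne h2 _) hi
    set c : R := ∏ i ∈ I, α i ^ (k * (j - f i)) with hc
    have hcinj : ∀ (e : ι → ℕ) (T : Finset ι), T ⊆ I → ∀ y : S, ψ (∏ i ∈ T, α i ^ e i) * y = 0 →
        y = 0 := by
      intro e T
      induction T using Finset.induction_on with
      | empty => intro _ y hy; simpa using hy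
      | insert i T hiT ih =>
        intro hTI y hy
        rw [Finset.prod_insert hiT, map_mul, mul_assoc, map_pow] at hy
        have hiI : i ∈ I := hTI (Finset.mem_insert_self _ _)
        have hpw : ∀ n : ℕ, ∀ y : S, ψ (α i) ^ n * y = 0 → y = 0 := by
          intro n
          induction n with
          | zero => intro y hy; simpa using hy
          | succ n ihn =>
            intro y hy
            rw [pow_succ', mul_assoc] at hy
            exact ihn _ (hu i hiI _ hy)
        exact ih (fun x hx => hTI (Finset.mem_insert_of_mem hx)) _ (hpw _ _ hy)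
    have hsub : (Z (m - s)).map ψ.toLinearMap ≤
        ((V.comap (LinearMap.mulLeft F (π ^ (k * l + s)))).map ψ.toLinearMap).comap
          (LinearMap.mulLeft F (ψ c)) := by
      rintro _ ⟨z', hz', rfl⟩
      rw [Submodule.mem_comap, LinearMap.mulLeft_apply, Submodule.mem_map]
      refine ⟨c * z', ?_, ?_⟩
      · rw [Submodule.mem_comap, LinearMap.mulLeft_apply]
        have hz : π ^ s * z' ∈ Z m := by
          have := hpow s (m - s) _ hz'
          rwa [Nat.sub_add_cancel hsm] at this
        have := mem_Wsp (F := F) (k := k) (Z := Z) (α := α) hmem hz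
        rw [Finset.prod_insert hi₀, hfi₀] at this
        have h3 : j - (j - l) = l := by omega
        rw [h3, ← hπdef, ← hc] at this
        have h4 : π ^ (k * l + s) * (c * z') = π ^ (k * l) * c * (π ^ s * z') := by
          rw [pow_add]; ring
        rw [h4]
        exact this
      · rw [AlgHom.toLinearMap_apply, AlgHom.toLinearMap_apply, map_mul]
    have hinj : Function.Injective (LinearMap.mulLeft F (ψ c)) := by
      rw [injective_iff_map_eq_zero]
      intro y hy
      rw [LinearMap.mulLeft_apply] at hy
      exact hcinj _ I (Finset.Subset.refl _) y hy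
    have hfd' : FiniteDimensional F (Z (m - s)) := hfin _
    have := LinearMap.finrank_le_finrank_of_injective
      (f := (LinearMap.mulLeft F (ψ c)).restrict (p := (Z (m - s)).map ψ.toLinearMap)
        (q := (V.comap (LinearMap.mulLeft F (π ^ (k * l + s)))).map ψ.toLinearMap)
        (fun x hx => hsub hx)) (by
        intro x y h
        apply Subtype.ext
        apply hinj
        have := congrArg Subtype.val h
        simpa using this)
    exact this
  have hmid2 : j * ∑ s ∈ range (min k (m + 1)), D' (m - s) ≤
      ∑ e ∈ range (k * j),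
        finrank F ((V.comap (LinearMap.mulLeft F (π ^ e))).map ψ.toLinearMap) := by
    rw [sum_range_mul_le]
    have h1 : j * ∑ s ∈ range (min k (m + 1)), D' (m - s) =
        ∑ l ∈ range j, ∑ s ∈ range (min k (m + 1)), D' (m - s) := by
      rw [Finset.sum_const, Finset.card_range, smul_eq_mul]
    rw [h1]
    refine Finset.sum_le_sum fun l hl => ?_
    refine (Finset.sum_le_sum (hmid l hl)).trans ?_
    refine Finset.sum_le_sum_of_subset ?_
    intro s hs
    rw [Finset.mem_range] at *
    omega
  omega

omit [IsDomain R] in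
/-- The space for a singleton contains `Z m`. -/
theorem le_Wsp_singleton {k : ℕ} {Z : ℕ → Submodule F R} {α : ι → R} {i₁ : ι} (j m : ℕ) :
    Z m ≤ Wsp k Z α {i₁} j m := by
  intro z hz
  have hmem : (Pi.single i₁ j : ι → ℕ) ∈ ({i₁} : Finset ι).piAntidiag j := by
    rw [Finset.mem_piAntidiag]
    constructor
    · simp
    · intro i hi
      by_contra h
      rw [Finset.mem_singleton] at h
      exact hi (Pi.single_eq_of_ne h _)
  have := mem_Wsp (F := F) (k := k) (α := α) hmem hz
  simpa using this

/-- Enlarging the index set does not decrease the dimension. -/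
theorem finrank_Wsp_mono {k j m : ℕ} {Z : ℕ → Submodule F R} {α : ι → R} {I I' : Finset ι}
    (hII : I ⊆ I') (hfin : ∀ m, FiniteDimensional F (Z m)) (hα : ∀ i ∈ I', α i ≠ 0) :
    finrank F (Wsp k Z α I j m) ≤ finrank F (Wsp k Z α I' j m) := by
  classical
  have hfinm := hfin m
  set c : R := ∏ i ∈ I' \ I, α i ^ (k * j) with hc
  have hc0 : c ≠ 0 := Finset.prod_ne_zero_iff.mpr fun i hi =>
    pow_ne_zero _ (hα i (Finset.mem_sdiff.1 hi).1)
  have hsub : Wsp k Z α I j m ≤ (Wsp k Z α I' j m).comap (LinearMap.mulLeft F c) := by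
    refine Wsp_le ?_
    intro f hf z hz
    rw [Submodule.mem_comap, LinearMap.mulLeft_apply]
    rw [Finset.mem_piAntidiag] at hf
    have hf0 : ∀ i ∉ I, f i = 0 := fun i hi => by
      by_contra h
      exact hi (hf.2 i h)
    have hmem : f ∈ I'.piAntidiag j := by
      rw [Finset.mem_piAntidiag]
      refine ⟨?_, fun i hi => hII (hf.2 i hi)⟩
      rw [← hf.1]
      symm
      exact Finset.sum_subset hII fun i _ hi => hf0 i hi
    have := mem_Wsp (F := F) (k := k) (Z := Z) (α := α) hmem hz
    rw [← Finset.prod_sdiff hII] at this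
    have h2 : ∏ x ∈ I' \ I, α x ^ (k * (j - f x)) = c := by
      rw [hc]
      refine Finset.prod_congr rfl fun x hx => ?_
      rw [hf0 x (Finset.mem_sdiff.1 hx).2, Nat.sub_zero]
    rw [h2, mul_assoc] at this
    exact this
  have hinj : Function.Injective (LinearMap.mulLeft F c) := by
    intro x y h
    simpa [hc0] using h
  exact LinearMap.finrank_le_finrank_of_injective
    (f := (LinearMap.mulLeft F c).restrict (p := Wsp k Z α I j m)
      (q := Wsp k Z α I' j m) (fun x hx => hsub hx)) (by
      intro x y h
      apply Subtype.ext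
      apply hinj
      have := congrArg Subtype.val h
      simpa using this)

end step

end Crest.Agent.R022.Free712
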