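import Mathlib
import Crest.Agent.R022.Free712A

/-!
# R022, stage 3 (helper712), part B

The ring `F[X₀,X₁]/(h)`, its degree filtration `Zq`, the dimension of `Zq h m`, the restriction to
the lines `α_i = X₀ + θ_i X₁ + a_i = 0`.
-/

set_option autoImplicit false

namespace Crest.Agent.R022.Free712

open Module Finset Crest.Agent.R022.Cnt

variable {F : Type*} [Field F]

/-- polynomials of total degree `≤ m` in two variables -/
noncomputable def Zt (F : Type*) [Field F] (m : ℕ) : Submodule F (MvPolynomial (Fin 2) F) :=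
  MvPolynomial.restrictTotalDegree (Fin 2) F m

theorem mem_Zt {m : ℕ} {p : MvPolynomial (Fin 2) F} : p ∈ Zt F m ↔ p.totalDegree ≤ m :=
  MvPolynomial.mem_restrictTotalDegree _ _ _

instance Zt_finite (m : ℕ) : FiniteDimensional F (Zt F m) := by
  unfold Zt; infer_instance

/-- triangular numbers -/
def Tri (m : ℕ) : ℕ := ∑ a ∈ range (m + 1), (a + 1)

theorem Tri_succ (m : ℕ) : Tri (m + 1) = Tri m + (m + 2) := by
  unfold Tri
  rw [Finset.sum_range_succ]

theorem finrank_Zt (m : ℕ) : finrank F (Zt F m) = Tri m := by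
  classical
  have hb := MvPolynomial.basisRestrictSupport F {n : Fin 2 →₀ ℕ | (n.sum fun _ e => e) ≤ m}
  have h1 : finrank F (Zt F m) = Nat.card {n : Fin 2 →₀ ℕ | (n.sum fun _ e => e) ≤ m} :=
    Module.finrank_eq_nat_card_basis hb
  rw [h1]
  have e : {n : Fin 2 →₀ ℕ | (n.sum fun _ e => e) ≤ m} ≃
      ((range (m + 1)).sigma fun a => range (m + 1 - a)) := by
    refine
      { toFun := fun n => ⟨⟨n.1 0, n.1 1⟩, ?_⟩
        invFun := fun q => ⟨Finsupp.equivFunOnFinite.symm ![q.1.1, q.1.2], ?_⟩
        left_inv := ?_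
        right_inv := ?_ }
    · have hn := n.2
      simp only [Set.mem_ofPred_eq] at hn
      rw [Finsupp.sum_fintype _ _ (fun _ => rfl), Fin.sum_univ_two] at hn
      rw [Finset.mem_sigma, Finset.mem_range, Finset.mem_range]
      constructor <;> simp only <;> omega
    · have hq := q.2
      rw [Finset.mem_sigma, Finset.mem_range, Finset.mem_range] at hq
      simp only [Set.mem_ofPred_eq]
      rw [Finsupp.sum_fintype _ _ (fun _ => rfl), Fin.sum_univ_two]
      simp
      omega
    · intro n
      apply Subtype.ext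
      ext i
      fin_cases i <;> simp
    · intro q
      apply Subtype.ext
      rcases q with ⟨⟨a, b⟩, hq⟩
      simp
  rw [Nat.card_congr e, Nat.card_eq_fintype_card, Fintype.card_coe, Finset.card_sigma]
  unfold Tri
  rw [← Finset.sum_range_reflect]
  refine Finset.sum_congr rfl fun a ha => ?_
  rw [Finset.mem_range] at ha
  rw [Finset.card_range]
  omega

section curve

variable (h : MvPolynomial (Fin 2) F)

/-- the ring of functions on the curve `h = 0` -/
abbrev Rq : Type _ := MvPolynomial (Fin 2) F ⧸ Ideal.span ({h} : Set (MvPolynomial (Fin 2) F))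

/-- functions of degree `≤ m` on the curve `h = 0` -/
noncomputable def Zq (m : ℕ) : Submodule F (Rq h) :=
  (Zt F m).map (Ideal.Quotient.mkₐ F (Ideal.span ({h} : Set (MvPolynomial (Fin 2) F)))).toLinearMap

instance Zq_finite (m : ℕ) : FiniteDimensional F (Zq h m) := by
  unfold Zq; infer_instance

theorem mem_Zq_of {m : ℕ} {p : MvPolynomial (Fin 2) F} (hp : p.totalDegree ≤ m) :
    (Ideal.Quotient.mk (Ideal.span ({h} : Set (MvPolynomial (Fin 2) F))) p : Rq h) ∈ Zq h m :=
  ⟨p, mem_Zt.2 hp, rfl⟩

variable {h}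

theorem isDomain_Rq (hh : Prime h) : IsDomain (Rq h) := by
  have : (Ideal.span ({h} : Set (MvPolynomial (Fin 2) F))).IsPrime :=
    (Ideal.span_singleton_prime hh.ne_zero).2 hh
  exact Ideal.Quotient.isDomain _

theorem finrank_Zq (hh : h ≠ 0) (m : ℕ) (hm : h.totalDegree ≤ m) :
    Tri m ≤ finrank F (Zq h m) + Tri (m - h.totalDegree) := by
  classical
  set δ := h.totalDegree with hδ
  set mk := (Ideal.Quotient.mkₐ F (Ideal.span ({h} : Set (MvPolynomial (Fin 2) F)))).toLinearMap
    with hmk
  set φ : Zt F m →ₗ[F] Rq h := mk.comp (Zt F m).subtype with hφ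
  have hrk := φ.finrank_range_add_finrank_ker
  have hran : LinearMap.range φ = Zq h m := by
    rw [hφ, LinearMap.range_comp, Submodule.range_subtype]
    rfl
  rw [hran, finrank_Zt] at hrk
  -- the kernel embeds in the multiples of `h`
  let g : Zt F (m - δ) →ₗ[F] MvPolynomial (Fin 2) F :=
    (LinearMap.mulLeft F h).comp (Zt F (m - δ)).subtype
  have hker : (LinearMap.ker φ).map (Zt F m).subtype ≤ LinearMap.range g := by
    rintro _ ⟨p, hp, rfl⟩
    have hp0 : mk (p : MvPolynomial (Fin 2) F) = 0 := hp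
    have hdvd : h ∣ (p : MvPolynomial (Fin 2) F) := by
      rw [← Ideal.mem_span_singleton]
      exact Ideal.Quotient.eq_zero_iff_mem.1 hp0
    obtain ⟨q, hq⟩ := hdvd
    by_cases hq0 : q = 0
    · refine ⟨0, ?_⟩
      rw [map_zero]
      show (0 : MvPolynomial (Fin 2) F) = (p : MvPolynomial (Fin 2) F)
      rw [hq, hq0, mul_zero]
    · have hpd := mem_Zt.1 p.2
      rw [hq, MvPolynomial.totalDegree_mul_of_isDomain hh hq0] at hpd
      refine ⟨⟨q, mem_Zt.2 (by omega)⟩, ?_⟩
      exact hq.symm
  have h1 : finrank F (LinearMap.ker φ) ≤ Tri (m - δ) := by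
    have h2 : finrank F ((LinearMap.ker φ).map (Zt F m).subtype) = finrank F (LinearMap.ker φ) :=
      Submodule.finrank_map_subtype_eq _ _
    rw [← h2]
    refine (Submodule.finrank_mono hker).trans ?_
    refine (LinearMap.finrank_range_le g).trans ?_
    rw [finrank_Zt]
  omega

theorem finrank_Zq_ge (hh : h ≠ 0) (m : ℕ) :
    h.totalDegree * m ≤ finrank F (Zq h m) + h.totalDegree * h.totalDegree := by
  rcases le_or_gt h.totalDegree m with hm | hm
  · have h1 := finrank_Zq hh m hm
    obtain ⟨q, rfl⟩ := Nat.exists_eq_add_of_le hm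
    rw [Nat.add_sub_cancel_left] at h1
    have h2 : ∀ δ : ℕ, Tri q + δ * q ≤ Tri (δ + q) := by
      intro δ
      induction δ with
      | zero => simp
      | succ δ ih =>
        have h3 : δ + 1 + q = (δ + q) + 1 := by ring
        rw [h3, Tri_succ]
        nlinarith
    have h3 := h2 h.totalDegree
    nlinarith
  · nlinarith

/-- For curves of degree 1: `m + 1`. -/
theorem finrank_Zq_one (h1 : h.totalDegree = 1) (m : ℕ) : m + 1 ≤ finrank F (Zq h m) := by
  have hh : h ≠ 0 := by
    rintro rfl
    simp at h1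
  rcases Nat.eq_zero_or_pos m with rfl | hm
  · -- constants are non zero on the curve
    rw [Nat.zero_add, Nat.one_le_iff_ne_zero, Ne, Submodule.finrank_eq_zero]
    intro hbot
    have h2 : (Ideal.Quotient.mk (Ideal.span ({h} : Set (MvPolynomial (Fin 2) F))) 1 : Rq h) ∈
        Zq h 0 := mem_Zq_of h (by simp)
    rw [hbot, Submodule.mem_bot, Ideal.Quotient.eq_zero_iff_mem, Ideal.mem_span_singleton] at h2
    have h3 := isUnit_of_dvd_one h2
    rw [MvPolynomial.isUnit_iff_eq_C_of_isReduced] at h3
    obtain ⟨r, _, hr⟩ := h3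
    rw [hr] at h1
    simp at h1
  · obtain ⟨q, rfl⟩ : ∃ q, m = q + 1 := ⟨m - 1, by omega⟩
    have h2 := finrank_Zq hh (q + 1) (by omega)
    rw [h1, Nat.add_sub_cancel, Tri_succ] at h2
    omega

/-- For curves of degree 2: `2 m`. -/
theorem finrank_Zq_two (h1 : h.totalDegree = 2) (m : ℕ) : 2 * m ≤ finrank F (Zq h m) := by
  have hh : h ≠ 0 := by
    rintro rfl
    simp at h1
  rcases le_or_gt 2 m with hm | hm
  · obtain ⟨q, rfl⟩ : ∃ q, m = q + 2 := ⟨m - 2, by omega⟩
    have h2 := finrank_Zq hh (q + 2) (by omega)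
    rw [h1, Nat.add_sub_cancel, Tri_succ, Tri_succ] at h2
    omega
  · -- `m ≤ 1`: the functions of degree `≤ 1` are independent modulo `h`
    have hm1 : m = 0 ∨ m = 1 := by omega
    rcases hm1 with rfl | rfl
    · simp
    · have hinj : Function.Injective ((Ideal.Quotient.mkₐ F (Ideal.span
          ({h} : Set (MvPolynomial (Fin 2) F)))).toLinearMap.comp (Zt F 1).subtype) := by
        rw [injective_iff_map_eq_zero]
        intro p hp
        have hp0 : (Ideal.Quotient.mk (Ideal.span ({h} : Set (MvPolynomial (Fin 2) F)))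
          (p : MvPolynomial (Fin 2) F) : Rq h) = 0 := hp
        rw [Ideal.Quotient.eq_zero_iff_mem, Ideal.mem_span_singleton] at hp0
        by_contra hne
        have hne' : (p : MvPolynomial (Fin 2) F) ≠ 0 := fun h => hne (Subtype.ext h)
        have h2 := MvPolynomial.totalDegree_le_of_dvd_of_isDomain hp0 hne'
        have h3 := mem_Zt.1 p.2
        omega
      have h2 : finrank F (Zt F 1) = finrank F (Zq h 1) := by
        have h3 := LinearMap.finrank_range_of_inj hinj
        rw [← h3, LinearMap.range_comp, Submodule.range_subtype]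
        rfl
      rw [← h2, finrank_Zt]
      decide

end curve

end Crest.Agent.R022.Free712
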