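import Mathlib
import Crest.Agent.R022.Free712B

/-!
# R022, stage 3 (helper712), part C

Restriction to the lines `α_i = X₀ + θ_i X₁ + a_i = 0`; the dimension bounds for `Wsp` on a conic
(two of the forms) and on a line in general position (all the forms).
-/

set_option autoImplicit false

namespace Crest.Agent.R022.Free712

open Module Finset Crest.Agent.R022.Cnt

variable {F : Type*} [Field F] {ι : Type*} [DecidableEq ι]

/-- the affine form `α_i = X₀ + θ_i X₁ + a_i` -/
noncomputable def al (θ a : ι → F) (i : ι) : MvPolynomial (Fin 2) F :=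
  MvPolynomial.X 0 + MvPolynomial.C (θ i) * MvPolynomial.X 1 + MvPolynomial.C (a i)

/-- restriction to the line `α_i = 0`, with coordinate `X₁` -/
noncomputable def res (θ a : ι → F) (i : ι) : MvPolynomial (Fin 2) F →ₐ[F] Polynomial F :=
  MvPolynomial.aeval ![-(Polynomial.C (θ i) * Polynomial.X + Polynomial.C (a i)), Polynomial.X]

omit [DecidableEq ι] in
theorem res_al (θ a : ι → F) (i i' : ι) :
    res θ a i (al θ a i') =
      Polynomial.C (θ i' - θ i) * Polynomial.X + Polynomial.C (a i' - a i) := by
  simp [res, al]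
  ring

omit [DecidableEq ι] in
theorem res_al_self (θ a : ι → F) (i : ι) : res θ a i (al θ a i) = 0 := by
  rw [res_al]; simp

omit [DecidableEq ι] in
theorem res_X_one (θ a : ι → F) (i : ι) :
    res θ a i (MvPolynomial.X 1) = Polynomial.X := by
  simp [res]

omit [DecidableEq ι] in
theorem natDegree_res_le (θ a : ι → F) (i : ι) (p : MvPolynomial (Fin 2) F) :
    (res θ a i p).natDegree ≤ p.totalDegree := by
  rw [res, MvPolynomial.aeval_def, MvPolynomial.eval₂_eq']
  refine Polynomial.natDegree_sum_le_of_forall_le _ _ ?_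
  intro s hs
  refine (Polynomial.natDegree_mul_le).trans ?_
  have h1 : (algebraMap F (Polynomial F) (MvPolynomial.coeff s p)).natDegree = 0 := by
    rw [Polynomial.algebraMap_eq, Polynomial.natDegree_C]
  rw [h1, zero_add, Fin.prod_univ_two]
  refine (Polynomial.natDegree_mul_le).trans ?_
  have h2 : (-(Polynomial.C (θ i) * Polynomial.X + Polynomial.C (a i))).natDegree ≤ 1 := by
    rw [Polynomial.natDegree_neg]
    exact Polynomial.natDegree_linear_le
  have h3 := Polynomial.natDegree_pow_le_of_le (s 0) h2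
  have h4 : (Polynomial.X ^ s 1 : Polynomial F).natDegree ≤ s 1 := Polynomial.natDegree_X_pow_le _
  have h5 := MvPolynomial.le_totalDegree hs
  rw [Finsupp.sum_fintype _ _ (fun _ => rfl), Fin.sum_univ_two] at h5
  simp only [Matrix.cons_val_zero, Matrix.cons_val_one, Matrix.cons_val_fin_one]
  omega

section psi

variable (h : MvPolynomial (Fin 2) F) (θ a : ι → F) (i : ι)

/-- restriction of the functions on the curve `h = 0` to the intersection with `α_i = 0` -/
noncomputable def psi : Rq h →ₐ[F] AdjoinRoot (res θ a i h) :=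
  Ideal.Quotient.liftₐ (Ideal.span ({h} : Set (MvPolynomial (Fin 2) F)))
    ((AdjoinRoot.mkₐ (res θ a i h)).comp (res θ a i)) (by
      intro p hp
      rw [Ideal.mem_span_singleton] at hp
      obtain ⟨q, rfl⟩ := hp
      rw [map_mul, AlgHom.comp_apply]
      have : (AdjoinRoot.mkₐ (res θ a i h)) (res θ a i h) = 0 := AdjoinRoot.mk_self
      rw [this, zero_mul])

omit [DecidableEq ι] in
theorem psi_mk (p : MvPolynomial (Fin 2) F) :
    psi h θ a i (Ideal.Quotient.mk (Ideal.span ({h} : Set (MvPolynomial (Fin 2) F))) p) =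
      AdjoinRoot.mk (res θ a i h) (res θ a i p) := rfl

/-- the form `α_i` on the curve -/
noncomputable def alq (i : ι) : Rq h :=
  Ideal.Quotient.mk (Ideal.span ({h} : Set (MvPolynomial (Fin 2) F))) (al θ a i)

omit [DecidableEq ι] in
theorem psi_alq_self : psi h θ a i (alq h θ a i) = 0 := by
  rw [alq, psi_mk, res_al_self, map_zero]

variable {h θ a i}

omit [DecidableEq ι] in
/-- dimension of the restriction -/
theorem finrank_map_psi (δ : ℕ) (hδ : 1 ≤ δ) (hdeg : (res θ a i h).natDegree = δ) (m : ℕ) :
    min (m + 1) δ ≤ finrank F ((Zq h m).map (psi h θ a i).toLinearMap) := by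
  classical
  have h0 : res θ a i h ≠ 0 := by
    intro h0
    rw [h0, Polynomial.natDegree_zero] at hdeg
    omega
  set pb := AdjoinRoot.powerBasis h0 with hpb
  have hdim : pb.dim = δ := by rw [hpb, AdjoinRoot.powerBasis_dim, hdeg]
  set c := min (m + 1) δ with hc
  have hle : c ≤ pb.dim := by rw [hdim]; exact min_le_right _ _
  have hli : LinearIndependent F (fun s : Fin c => (AdjoinRoot.root (res θ a i h)) ^ (s : ℕ)) := by
    have h1 := pb.basis.linearIndependent.comp (Fin.castLE hle) (Fin.castLE_injective hle)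
    have h2 : (pb.basis ∘ Fin.castLE hle) =
        fun s : Fin c => (AdjoinRoot.root (res θ a i h)) ^ (s : ℕ) := by
      funext s
      rw [Function.comp_apply, PowerBasis.basis_eq_pow]
      simp [hpb, AdjoinRoot.powerBasis_gen]
    rwa [h2] at h1
  have hspan : Submodule.span F (Set.range
      (fun s : Fin c => (AdjoinRoot.root (res θ a i h)) ^ (s : ℕ))) ≤
      (Zq h m).map (psi h θ a i).toLinearMap := by
    rw [Submodule.span_le]
    rintro _ ⟨s, rfl⟩
    refine ⟨Ideal.Quotient.mk _ ((MvPolynomial.X 1) ^ (s : ℕ)), mem_Zq_of h ?_, ?_⟩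
    · refine (MvPolynomial.totalDegree_pow _ _).trans ?_
      rw [MvPolynomial.totalDegree_X, mul_one]
      have := s.2
      omega
    · rw [AlgHom.toLinearMap_apply, psi_mk, map_pow, res_X_one, map_pow, AdjoinRoot.mk_X]
  have h1 := Submodule.finrank_mono hspan
  rw [finrank_span_eq_card hli, Fintype.card_fin] at h1
  exact h1

omit [DecidableEq ι] in
/-- coprimality gives non zero divisors -/
theorem psi_alq_regular {i' : ι} (hcop : IsCoprime (res θ a i h) (res θ a i (al θ a i')))
    (y : AdjoinRoot (res θ a i h)) (hy : psi h θ a i (alq h θ a i') * y = 0) : y = 0 := by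
  obtain ⟨u, v, huv⟩ := hcop
  have h0 : AdjoinRoot.mk (res θ a i h) (u * res θ a i h) = 0 := by
    rw [map_mul, AdjoinRoot.mk_self, mul_zero]
  have h1 : AdjoinRoot.mk (res θ a i h) v * psi h θ a i (alq h θ a i') = 1 := by
    have h2 := congrArg (AdjoinRoot.mk (res θ a i h)) huv
    rw [map_add, h0, zero_add, map_mul, map_one] at h2
    rw [alq, psi_mk]
    exact h2
  calc y = (AdjoinRoot.mk (res θ a i h) v * psi h θ a i (alq h θ a i')) * y := by
        rw [h1, one_mul]
    _ = AdjoinRoot.mk (res θ a i h) v * (psi h θ a i (alq h θ a i') * y) := by ring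
    _ = 0 := by rw [hy, mul_zero]

end psi

section general

variable {h : MvPolynomial (Fin 2) F} {θ a : ι → F}

omit [DecidableEq ι] in
theorem totalDegree_al_le (i : ι) : (al θ a i).totalDegree ≤ 1 := by
  unfold al
  refine (MvPolynomial.totalDegree_add _ _).trans (max_le ?_ ?_)
  · refine (MvPolynomial.totalDegree_add _ _).trans (max_le ?_ ?_)
    · rw [MvPolynomial.totalDegree_X]
    · refine (MvPolynomial.totalDegree_mul _ _).trans ?_
      rw [MvPolynomial.totalDegree_C, MvPolynomial.totalDegree_X]
  · rw [MvPolynomial.totalDegree_C]; omega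

omit [DecidableEq ι] in
theorem al_ne_zero (i : ι) : al θ a i ≠ 0 := by
  intro h0
  have h1 := congrArg (MvPolynomial.eval ![1 - a i, 0]) h0
  simp [al] at h1

omit [DecidableEq ι] in
/-- `α_i ≠ 0` on the curve, if the curve does not contain (as a polynomial) the line `i`. -/
theorem alq_ne_zero {i : ι} (hres : res θ a i h ≠ 0) (hdeg : 1 ≤ h.totalDegree) :
    alq h θ a i ≠ 0 := by
  intro h0
  rw [alq, Ideal.Quotient.eq_zero_iff_mem, Ideal.mem_span_singleton] at h0
  obtain ⟨q, hq⟩ := h0
  have hq0 : q ≠ 0 := by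
    rintro rfl
    rw [mul_zero] at hq
    exact al_ne_zero i hq
  have hh0 : h ≠ 0 := by
    rintro rfl
    simp at hdeg
  have h1 := totalDegree_al_le (θ := θ) (a := a) i
  rw [hq, MvPolynomial.totalDegree_mul_of_isDomain hh0 hq0] at h1
  have hqd : q.totalDegree = 0 := by omega
  rw [MvPolynomial.totalDegree_eq_zero_iff_eq_C] at hqd
  have h2 := congrArg (res θ a i) hq
  rw [res_al_self, map_mul] at h2
  rcases mul_eq_zero.1 h2.symm with h3 | h3
  · exact hres h3
  · rw [hqd] at h3
    have h4 : res θ a i (MvPolynomial.C (MvPolynomial.coeff 0 q)) =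
        Polynomial.C (MvPolynomial.coeff 0 q) := by
      simp [res, Polynomial.algebraMap_eq]
    rw [h4, Polynomial.C_eq_zero] at h3
    rw [h3, map_zero] at hqd
    exact hq0 hqd

omit [DecidableEq ι] in
theorem alq_ne_zero_of_two_le {i : ι} (hdeg : 2 ≤ h.totalDegree) : alq h θ a i ≠ 0 := by
  intro h0
  rw [alq, Ideal.Quotient.eq_zero_iff_mem, Ideal.mem_span_singleton] at h0
  have h1 := MvPolynomial.totalDegree_le_of_dvd_of_isDomain h0 (al_ne_zero i)
  have h2 := totalDegree_al_le (θ := θ) (a := a) i
  omega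

omit [DecidableEq ι] in
theorem alq_mul_mem (i : ι) (m : ℕ) (z : Rq h) (hz : z ∈ Zq h m) :
    alq h θ a i * z ∈ Zq h (m + 1) := by
  obtain ⟨p, hp, rfl⟩ := hz
  have h1 : alq h θ a i * (Ideal.Quotient.mkₐ F (Ideal.span
      ({h} : Set (MvPolynomial (Fin 2) F)))).toLinearMap p =
      Ideal.Quotient.mk (Ideal.span ({h} : Set (MvPolynomial (Fin 2) F))) (al θ a i * p) := by
    rw [map_mul]; rfl
  rw [h1]
  refine mem_Zq_of h ((MvPolynomial.totalDegree_mul _ _).trans ?_)
  have h2 := totalDegree_al_le (θ := θ) (a := a) i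
  have h3 := mem_Zt.1 hp
  omega

/-- **lines**: all the forms. -/
theorem line_curve_bound {k j m : ℕ} (hh : Prime h) (h1 : h.totalDegree = 1) (I : Finset ι)
    (hne : I.Nonempty) (hdeg : ∀ i ∈ I, (res θ a i h).natDegree = 1)
    (hcop : ∀ i ∈ I, ∀ i' ∈ I, i' ≠ i → IsCoprime (res θ a i h) (res θ a i (al θ a i'))) :
    m + 1 + (I.card - 1) * (j * min k (m + 1)) ≤ finrank F (Wsp k (Zq h) (alq h θ a) I j m) := by
  classical
  have := isDomain_Rq hh
  induction I using Finset.induction_on with
  | empty => exact absurd hne Finset.not_nonempty_empty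
  | insert i₀ I hi₀ ih =>
    rcases I.eq_empty_or_nonempty with rfl | hI
    · rw [Finset.card_insert_of_notMem hi₀, Finset.card_empty]
      simp only [Nat.zero_add, Nat.sub_self, zero_mul, add_zero]
      refine (finrank_Zq_one h1 m).trans ?_
      exact Submodule.finrank_mono (le_Wsp_singleton (F := F) j m)
    · have hres : res θ a i₀ h ≠ 0 := by
        intro h0
        have := hdeg i₀ (Finset.mem_insert_self _ _)
        rw [h0, Polynomial.natDegree_zero] at this
        omega
      have h2 := ih hI (fun i hi => hdeg i (Finset.mem_insert_of_mem hi))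
        (fun i hi i' hi' => hcop i (Finset.mem_insert_of_mem hi) i' (Finset.mem_insert_of_mem hi'))
      have h3 := step_ring (F := F) (k := k) (j := j) (m := m) (Z := Zq h) (α := alq h θ a)
        (I := I) (i₀ := i₀) hi₀ hI (fun m => Zq_finite h m) (alq_mul_mem i₀)
        (alq_ne_zero hres (by omega)) (psi h θ a i₀) (psi_alq_self h θ a i₀)
        (fun i hi y hy => psi_alq_regular (hcop i₀ (Finset.mem_insert_self _ _) i
          (Finset.mem_insert_of_mem hi) (fun h => hi₀ (h ▸ hi))) y hy)
        (fun _ => 1) (fun m' => by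
          have := finrank_map_psi (h := h) (θ := θ) (a := a) (i := i₀) 1 le_rfl
            (hdeg i₀ (Finset.mem_insert_self _ _)) m'
          simpa using this)
      rw [Finset.sum_const, Finset.card_range, smul_eq_mul, mul_one] at h3
      have hcard : (insert i₀ I).card - 1 = (I.card - 1) + 1 := by
        rw [Finset.card_insert_of_notMem hi₀]
        have := hI.card_pos
        omega
      rw [hcard, Nat.add_mul, one_mul]
      omega

/-- **two forms** with no common zero on the curve (any degree `δ ≥ 1`, the line `i₀` is not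
asymptotic). -/
theorem pair_curve_bound {k j m δ z : ℕ} (hh : Prime h) (hδ : 1 ≤ δ) {i₀ i₁ : ι} (hne : i₁ ≠ i₀)
    (hdeg : (res θ a i₀ h).natDegree = δ)
    (hcop : IsCoprime (res θ a i₀ h) (res θ a i₀ (al θ a i₁)))
    (hz : z ≤ finrank F (Zq h m)) (htd : 1 ≤ h.totalDegree) :
    z + j * ∑ s ∈ range (min k (m + 1)), min (m - s + 1) δ ≤
      finrank F (Wsp k (Zq h) (alq h θ a) {i₀, i₁} j m) := by
  classical
  have := isDomain_Rq hh
  have hres : res θ a i₀ h ≠ 0 := by
    intro h0
    rw [h0, Polynomial.natDegree_zero] at hdeg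
    omega
  have h2 : z ≤ finrank F (Wsp k (Zq h) (alq h θ a) {i₁} j m) :=
    hz.trans (Submodule.finrank_mono (le_Wsp_singleton (F := F) j m))
  have h3 := step_ring (F := F) (k := k) (j := j) (m := m) (Z := Zq h) (α := alq h θ a)
    (I := {i₁}) (i₀ := i₀) (by simpa using hne.symm) ⟨i₁, Finset.mem_singleton_self _⟩
    (fun m => Zq_finite h m) (alq_mul_mem i₀)
    (alq_ne_zero hres htd) (psi h θ a i₀) (psi_alq_self h θ a i₀)
    (fun i hi y hy => psi_alq_regular (by
      rw [Finset.mem_singleton] at hi
      rw [hi]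
      exact hcop) y hy)
    (fun m' => min (m' + 1) δ) (fun m' => finrank_map_psi (h := h) (θ := θ) (a := a) (i := i₀) δ hδ
      hdeg m')
  exact (Nat.add_le_add_right h2 _).trans h3

end general

end Crest.Agent.R022.Free712
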