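import Mathlib
import Crest.Agent.R022.CntAsym
import Crest.Agent.R022.CntSelect
import Crest.Agent.R022.CntMain

/-!
# R022, stage 3 (helper712), part D: numerics for one local parameter

`exists_params1` : `n` free over a curve (two-parameter count `c0 y ^ 2`), `exists_params0` :
functions of `t` alone on a curve of degree `δ` (count `δ y - C`).
-/

set_option autoImplicit false

namespace Crest.Agent.R022.Free712

open Module Finset Filter Topology Crest.Agent.R022.Cnt Polynomial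

/-- the count function used in the greedy choice -/
noncomputable def Hf2 (c0 : ℝ) (y0 y : ℕ) : ℕ := if y < y0 then 0 else ⌊c0 * (y : ℝ) ^ 2⌋₊

theorem Hf2_mono {c0 : ℝ} (hc0 : 0 < c0) (y0 : ℕ) : Monotone (Hf2 c0 y0) := by
  intro a b hab
  unfold Hf2
  split_ifs with h1 h2 h2
  · exact le_rfl
  · exact Nat.zero_le _
  · omega
  · apply Nat.floor_le_floor
    have : (a : ℝ) ≤ b := by exact_mod_cast hab
    gcongr

theorem sum_sq' (Y : ℕ) :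
    ∑ y ∈ range Y, (y : ℝ) ^ 2 = (Y : ℝ) * (Y - 1) * (2 * Y - 1) / 6 := by
  induction Y with
  | zero => simp
  | succ n ih => rw [Finset.sum_range_succ, ih]; push_cast; ring

theorem sum_Hf2_lower {c0 : ℝ} (hc0 : 0 < c0) (y0 Y : ℕ) :
    c0 * ((Y : ℝ) ^ 3 / 3 - (Y : ℝ) ^ 2 / 2) - Y - c0 * (y0 : ℝ) ^ 3 ≤
      ∑ y ∈ range Y, (Hf2 c0 y0 y : ℝ) := by
  have h1 : ∀ y ∈ range Y, c0 * (y : ℝ) ^ 2 - 1 - (if y < y0 then c0 * (y0 : ℝ) ^ 2 else 0) ≤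
      (Hf2 c0 y0 y : ℝ) := by
    intro y _
    unfold Hf2
    split_ifs with h
    · have : (y : ℝ) ≤ y0 := by exact_mod_cast h.le
      have : (y : ℝ) ^ 2 ≤ (y0 : ℝ) ^ 2 := by gcongr
      push_cast
      nlinarith
    · have := (Nat.sub_one_lt_floor (c0 * (y : ℝ) ^ 2)).le
      linarith
  refine le_trans ?_ (Finset.sum_le_sum h1)
  rw [Finset.sum_sub_distrib, Finset.sum_sub_distrib, ← Finset.mul_sum, sum_sq', Finset.sum_const,
    Finset.card_range, Finset.sum_ite, Finset.sum_const_zero, add_zero, Finset.sum_const,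
    nsmul_eq_mul, nsmul_eq_mul, mul_one]
  have h2 : (((range Y).filter fun y => y < y0).card : ℝ) ≤ y0 := by
    have : ((range Y).filter fun y => y < y0) ⊆ range y0 := by
      intro y hy
      rw [Finset.mem_filter] at hy
      exact Finset.mem_range.2 hy.2
    have h3 := Finset.card_le_card this
    rw [Finset.card_range] at h3
    exact_mod_cast h3
  have h3 : (((range Y).filter fun y => y < y0).card : ℝ) * (c0 * (y0 : ℝ) ^ 2) ≤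
      y0 * (c0 * (y0 : ℝ) ^ 2) := by
    apply mul_le_mul_of_nonneg_right h2
    positivity
  have hY : (0 : ℝ) ≤ Y := Nat.cast_nonneg Y
  nlinarith [mul_nonneg hc0.le hY]

/-- choice of the parameters of the determinant, one local parameter, `n` free -/
theorem exists_params1 {ρ κ c0 : ℝ} (hρ : 0 < ρ) (hκ : 0 < κ) (hc0 : 0 < c0)
    (hthr : (4 / 3 : ℝ) < κ * (c0 * ρ)) (y0 Y0 : ℕ) :
    ∃ Y m J w : ℕ, Y0 ≤ Y ∧ y0 ≤ Y ∧ (Y : ℝ) < ρ * (J + 1) ∧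
      w + (J + 1) * (m + 1).choose 2 ≤ m * Hf2 c0 y0 Y ∧
      (Y : ℝ) * Hf2 c0 y0 Y - ∑ y ∈ range Y, (Hf2 c0 y0 y : ℝ) < κ * w := by
  set μ : ℝ := c0 * ρ with hμ
  have hμ0 : 0 < μ := by positivity
  set g : ℝ → ℝ := fun x => κ * ((μ - x) * (c0 - x ^ 2) - (1 / ρ + x) * (μ + x) ^ 2 / 2) -
    (2 / 3 * c0 + c0 / 2 * x + x ^ 2 + c0 * (y0 : ℝ) ^ 3 * x ^ 3) with hg
  have hgc : Continuous g := by
    rw [hg]; fun_prop
  have hbase : (μ - 0) * (c0 - 0 ^ 2) - (1 / ρ + 0) * (μ + 0) ^ 2 / 2 = c0 ^ 2 * ρ / 2 := by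
    rw [hμ]
    field_simp
    ring
  have hg0 : 0 < g 0 := by
    have h1 : g 0 = κ * (c0 ^ 2 * ρ / 2) - 2 / 3 * c0 := by
      rw [hg]
      simp only
      rw [hbase]
      ring
    rw [h1]
    nlinarith
  have hlim1 : Tendsto (fun y : ℕ => (1 : ℝ) / y) atTop (𝓝 0) :=
    tendsto_one_div_atTop_nhds_zero_nat
  have hlim2 : Tendsto (fun y : ℕ => g ((1 : ℝ) / y)) atTop (𝓝 (g 0)) :=
    (hgc.tendsto 0).comp hlim1
  have hlim3 : Tendsto (fun y : ℕ => (μ - (1 : ℝ) / y) * (c0 - ((1 : ℝ) / y) ^ 2) -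
      (1 / ρ + (1 : ℝ) / y) * (μ + ((1 : ℝ) / y)) ^ 2 / 2) atTop (𝓝 (c0 ^ 2 * ρ / 2)) := by
    have hc : Continuous fun x : ℝ => (μ - x) * (c0 - x ^ 2) - (1 / ρ + x) * (μ + x) ^ 2 / 2 := by
      fun_prop
    have h3 := (hc.tendsto 0).comp hlim1
    rw [hbase, Function.comp_def] at h3
    exact h3
  have hev1 := hlim2.eventually (lt_mem_nhds hg0)
  have hev2 := hlim3.eventually (lt_mem_nhds (show (0 : ℝ) < c0 ^ 2 * ρ / 2 by positivity))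
  have hev3 : ∀ᶠ y : ℕ in atTop, (1 : ℝ) / y < μ := hlim1.eventually (gt_mem_nhds hμ0)
  have hev4 : ∀ᶠ y : ℕ in atTop, (1 : ℝ) / y < c0 := hlim1.eventually (gt_mem_nhds hc0)
  obtain ⟨Y, ⟨⟨⟨hY1, hY2⟩, hY3⟩, hY4⟩, hY5⟩ := (((hev1.and hev2).and hev3).and hev4 |>.and
    (eventually_ge_atTop (max (max y0 Y0) 1))).exists
  have hYy0 : y0 ≤ Y := by omega
  have hYY0 : Y0 ≤ Y := by omega
  have hYpos : (0 : ℝ) < Y := by
    have : 0 < Y := by omega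
    exact_mod_cast this
  have hY1' : (1 : ℝ) ≤ Y := by
    have : 1 ≤ Y := by omega
    exact_mod_cast this
  have hH : Hf2 c0 y0 Y = ⌊c0 * (Y : ℝ) ^ 2⌋₊ := by
    unfold Hf2
    rw [if_neg (by omega)]
  have hHlo : c0 * (Y : ℝ) ^ 2 - 1 ≤ Hf2 c0 y0 Y := by
    rw [hH]; exact (Nat.sub_one_lt_floor _).le
  have hHup : (Hf2 c0 y0 Y : ℝ) ≤ c0 * (Y : ℝ) ^ 2 := by
    rw [hH]; exact Nat.floor_le (by positivity)
  set m : ℕ := ⌊μ * Y⌋₊ with hm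
  have hmlo : μ * Y - 1 ≤ m := (Nat.sub_one_lt_floor _).le
  have hmup : (m : ℝ) ≤ μ * Y := Nat.floor_le (by positivity)
  set J : ℕ := ⌊(Y : ℝ) / ρ⌋₊ with hJ
  have hJup : (J : ℝ) ≤ Y / ρ := Nat.floor_le (by positivity)
  have hJlo : (Y : ℝ) / ρ < J + 1 := Nat.lt_floor_add_one _
  have hch : (((m + 1).choose 2 : ℕ) : ℝ) ≤ (μ * Y + 1) ^ 2 / 2 := by
    have h1 := Nat.choose_le_pow_div (α := ℝ) 2 (m + 1)
    have h2 : ((Nat.factorial 2 : ℕ) : ℝ) = 2 := by norm_num [Nat.factorial]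
    rw [h2] at h1
    refine h1.trans ?_
    push_cast
    gcongr
  have hneg1 : 0 ≤ μ * Y - 1 := by
    rw [div_lt_iff₀ hYpos] at hY3
    linarith
  have hneg2 : 0 ≤ c0 * (Y : ℝ) ^ 2 - 1 := by
    rw [div_lt_iff₀ hYpos] at hY4
    have : c0 * (Y : ℝ) ≤ c0 * (Y : ℝ) ^ 2 := by
      apply mul_le_mul_of_nonneg_left _ hc0.le
      calc (Y : ℝ) = Y ^ 1 := (pow_one _).symm
        _ ≤ Y ^ 2 := pow_le_pow_right₀ hY1' (by norm_num)
    linarith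
  have hprod : (μ * Y - 1) * (c0 * (Y : ℝ) ^ 2 - 1) ≤ (m : ℝ) * Hf2 c0 y0 Y :=
    mul_le_mul hmlo hHlo hneg2 (Nat.cast_nonneg m)
  have hsub : ((J : ℝ) + 1) * ((m + 1).choose 2 : ℕ) ≤ (Y / ρ + 1) * ((μ * Y + 1) ^ 2 / 2) := by
    apply mul_le_mul (by linarith) hch (by positivity) (by positivity)
  have hW : (μ * Y - 1) * (c0 * (Y : ℝ) ^ 2 - 1) - (Y / ρ + 1) * ((μ * Y + 1) ^ 2 / 2) =
      (Y : ℝ) ^ 3 * ((μ - (1 : ℝ) / Y) * (c0 - ((1 : ℝ) / Y) ^ 2) -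
      (1 / ρ + (1 : ℝ) / Y) * (μ + ((1 : ℝ) / Y)) ^ 2 / 2) := by
    field_simp
  have hWpos : 0 < (μ * Y - 1) * (c0 * (Y : ℝ) ^ 2 - 1) - (Y / ρ + 1) * ((μ * Y + 1) ^ 2 / 2) := by
    rw [hW]
    positivity
  have hle : (J + 1) * (m + 1).choose 2 ≤ m * Hf2 c0 y0 Y := by
    have : (((J + 1) * (m + 1).choose 2 : ℕ) : ℝ) ≤ ((m * Hf2 c0 y0 Y : ℕ) : ℝ) := by
      push_cast
      linarith
    exact_mod_cast this
  refine ⟨Y, m, J, m * Hf2 c0 y0 Y - (J + 1) * (m + 1).choose 2, hYY0, hYy0, ?_, ?_, ?_⟩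
  · rw [div_lt_iff₀ hρ] at hJlo
    linarith
  · omega
  · rw [Nat.cast_sub hle]
    push_cast
    have hs := sum_Hf2_lower hc0 y0 Y
    have h1 : (Y : ℝ) * Hf2 c0 y0 Y ≤ Y * (c0 * (Y : ℝ) ^ 2) :=
      mul_le_mul_of_nonneg_left hHup hYpos.le
    have h2 : κ * ((μ * Y - 1) * (c0 * (Y : ℝ) ^ 2 - 1) - (Y / ρ + 1) * ((μ * Y + 1) ^ 2 / 2)) ≤
        κ * ((m : ℝ) * Hf2 c0 y0 Y - ((J : ℝ) + 1) * ((m + 1).choose 2 : ℕ)) := by
      apply mul_le_mul_of_nonneg_left _ hκ.le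
      linarith
    have h3 : (Y : ℝ) ^ 3 * g ((1 : ℝ) / Y) =
        κ * ((μ * Y - 1) * (c0 * (Y : ℝ) ^ 2 - 1) - (Y / ρ + 1) * ((μ * Y + 1) ^ 2 / 2)) -
        (2 / 3 * c0 * (Y : ℝ) ^ 3 + c0 / 2 * (Y : ℝ) ^ 2 + Y + c0 * (y0 : ℝ) ^ 3) := by
      rw [hW, hg]
      field_simp
    have h4 : 0 < (Y : ℝ) ^ 3 * g ((1 : ℝ) / Y) := by positivity
    rw [h3] at h4
    have h5 : (Y : ℝ) * (c0 * (Y : ℝ) ^ 2) = c0 * (Y : ℝ) ^ 3 := by ring
    have h6 : c0 * ((Y : ℝ) ^ 3 / 3 - (Y : ℝ) ^ 2 / 2) =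
      c0 * (Y : ℝ) ^ 3 / 3 - c0 / 2 * (Y : ℝ) ^ 2 := by ring
    rw [h5] at h1
    rw [h6] at hs
    have h7 : (Y : ℝ) * Hf2 c0 y0 Y - ∑ y ∈ range Y, (Hf2 c0 y0 y : ℝ) ≤
      2 / 3 * c0 * (Y : ℝ) ^ 3 + c0 / 2 * (Y : ℝ) ^ 2 + Y + c0 * (y0 : ℝ) ^ 3 := by linarith
    calc _ ≤ _ := h7
      _ < κ * ((μ * Y - 1) * (c0 * (Y : ℝ) ^ 2 - 1) - (Y / ρ + 1) * ((μ * Y + 1) ^ 2 / 2)) := by
        linarith
      _ ≤ _ := h2

/-- the constant of the count on a curve -/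
noncomputable def C2 (ρ δ w' : ℝ) : ℝ := δ / (2 * ρ) + w' / (2 * ρ ^ 2)

/-- normalised count -/
noncomputable def Pc (ρ δ w' C ν x : ℝ) : ℝ :=
  (ν + x) * (δ * (1 - x) - C * x) + (w' - δ * ρ) * (ν * (ν + x) / 2)

theorem Pc_zero {ρ : ℝ} (hρ : 0 < ρ) (δ w' C : ℝ) : Pc ρ δ w' C (1 / ρ) 0 = C2 ρ δ w' := by
  unfold Pc C2
  field_simp
  ring

/-- the asymptotic count on a curve -/
theorem count_asym1 {ρ : ℝ} (hρ : 0 < ρ) (k : ℕ) (δ w' C : ℝ) (hδ : 0 ≤ δ) {c0 : ℝ}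
    (hc0 : c0 < C2 ρ δ w') :
    ∃ y0 : ℕ, ∀ y : ℕ, y0 ≤ y → ∃ n : ℕ, ρ * n ≤ y ∧ ∀ D : ℕ → ℕ → ℕ,
      (∀ j m, k ≤ m → δ * m + w' * j ≤ D j m + C) →
      c0 * (y : ℝ) ^ 2 ≤ ((∑ j ∈ range (n + 1), D j ⌊(y : ℝ) - ρ * j⌋₊ : ℕ) : ℝ) := by
  have hcont : Continuous fun p : ℝ × ℝ => Pc ρ δ w' C p.1 p.2 := by
    unfold Pc
    fun_prop
  have hlim1 : Tendsto (fun y : ℕ => (1 : ℝ) / y) atTop (𝓝 0) :=
    tendsto_one_div_atTop_nhds_zero_nat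
  set n : ℕ → ℕ := fun y => ⌊((y : ℝ) - k) / ρ⌋₊ with hn
  have hev : ∀ᶠ y : ℕ in atTop, (k : ℝ) ≤ y := by
    filter_upwards [eventually_ge_atTop k] with y hy
    exact_mod_cast hy
  have hup : ∀ᶠ y : ℕ in atTop, (n y : ℝ) / y ≤ (1 / ρ) * (1 - k * (1 / y)) := by
    filter_upwards [hev, eventually_gt_atTop 0] with y hy hy0
    have hy' : (0 : ℝ) < y := by exact_mod_cast hy0
    have h1 : (n y : ℝ) ≤ ((y : ℝ) - k) / ρ :=
      Nat.floor_le (div_nonneg (by linarith) hρ.le)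
    rw [div_le_iff₀ hy']
    calc (n y : ℝ) ≤ ((y : ℝ) - k) / ρ := h1
      _ = _ := by field_simp
  have hlo : ∀ᶠ y : ℕ in atTop, (1 / ρ) * (1 - k * (1 / y)) - 1 / y ≤ (n y : ℝ) / y := by
    filter_upwards [hev, eventually_gt_atTop 0] with y hy hy0
    have hy' : (0 : ℝ) < y := by exact_mod_cast hy0
    have h1 : ((y : ℝ) - k) / ρ - 1 ≤ n y := (Nat.sub_one_lt_floor _).le
    rw [le_div_iff₀ hy']
    calc _ = ((y : ℝ) - k) / ρ - 1 := by field_simp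
      _ ≤ _ := h1
  have hlimn : Tendsto (fun y : ℕ => (n y : ℝ) / y) atTop (𝓝 (1 / ρ)) := by
    refine tendsto_of_tendsto_of_tendsto_of_le_of_le' ?_ ?_ hlo hup
    · have := ((hlim1.const_mul (k : ℝ)).const_sub 1).const_mul (1 / ρ)
      have h2 := this.sub hlim1
      simpa using h2
    · have := ((hlim1.const_mul (k : ℝ)).const_sub 1).const_mul (1 / ρ)
      simpa using this
  have hlim : Tendsto (fun y : ℕ => Pc ρ δ w' C ((n y : ℝ) / y) (1 / y)) atTop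
      (𝓝 (C2 ρ δ w')) := by
    have hpair : Tendsto (fun y : ℕ => (((n y : ℝ) / y, (1 : ℝ) / y) : ℝ × ℝ)) atTop
        (𝓝 ((1 / ρ, 0) : ℝ × ℝ)) := hlimn.prodMk_nhds hlim1
    have h9 : Tendsto (fun p : ℝ × ℝ => Pc ρ δ w' C p.1 p.2) (𝓝 ((1 / ρ, 0) : ℝ × ℝ))
        (𝓝 (C2 ρ δ w')) := by
      rw [← Pc_zero hρ δ w' C]
      exact hcont.tendsto ((1 / ρ, 0) : ℝ × ℝ)
    have h10 := h9.comp hpair
    rw [Function.comp_def] at h10
    exact h10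
  have hev2 := hlim.eventually (lt_mem_nhds hc0)
  obtain ⟨y0, hy0⟩ := eventually_atTop.1 (hev2.and (hev.and (eventually_gt_atTop 0)))
  refine ⟨y0, fun y hy => ⟨n y, ?_, ?_⟩⟩
  · obtain ⟨-, h2, h3⟩ := hy0 y hy
    have h1 : (n y : ℝ) ≤ ((y : ℝ) - k) / ρ :=
      Nat.floor_le (div_nonneg (by linarith) hρ.le)
    rw [le_div_iff₀ hρ] at h1
    have hk0 : (0 : ℝ) ≤ k := Nat.cast_nonneg k
    linarith
  · intro D hD
    obtain ⟨h1, h2, h3⟩ := hy0 y hy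
    have hy' : (0 : ℝ) < y := by exact_mod_cast h3
    have h4 : (n y : ℝ) ≤ ((y : ℝ) - k) / ρ :=
      Nat.floor_le (div_nonneg (by linarith) hρ.le)
    rw [le_div_iff₀ hρ] at h4
    have h5 : ∀ j ∈ range (n y + 1), δ * ((y : ℝ) - 1 - ρ * j) + w' * j - C ≤
        (D j ⌊(y : ℝ) - ρ * j⌋₊ : ℝ) := by
      intro j hj
      have hjn : (j : ℝ) ≤ n y := by
        have := Finset.mem_range.1 hj
        exact_mod_cast Nat.lt_succ_iff.1 this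
      have hpos : (k : ℝ) ≤ (y : ℝ) - ρ * j := by nlinarith
      have hm1 : k ≤ ⌊(y : ℝ) - ρ * j⌋₊ := Nat.le_floor hpos
      have hm2 : (y : ℝ) - ρ * j - 1 < ⌊(y : ℝ) - ρ * j⌋₊ := Nat.sub_one_lt_floor _
      have := hD j _ hm1
      nlinarith
    have h6 : ∑ j ∈ range (n y + 1), (δ * ((y : ℝ) - 1 - ρ * j) + w' * j - C) =
        (y : ℝ) ^ 2 * Pc ρ δ w' C ((n y : ℝ) / y) (1 / y) := by
      have h7 : ∀ j : ℕ, δ * ((y : ℝ) - 1 - ρ * j) + w' * j - C =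
          (δ * ((y : ℝ) - 1) - C) + (w' - δ * ρ) * j := by
        intro j; ring
      rw [Finset.sum_congr rfl fun j _ => h7 j, Finset.sum_add_distrib, ← Finset.mul_sum, sum_id,
        Finset.sum_const, Finset.card_range, nsmul_eq_mul]
      unfold Pc
      push_cast
      field_simp
    have h8 : c0 * (y : ℝ) ^ 2 ≤ (y : ℝ) ^ 2 * Pc ρ δ w' C ((n y : ℝ) / y) (1 / y) := by
      nlinarith [pow_pos hy' 2]
    refine h8.trans ?_
    rw [← h6]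
    push_cast
    exact Finset.sum_le_sum h5

/-- numerics for the functions of `t` alone -/
theorem exists_params0 {κ : ℝ} (δ C : ℕ) (hκ : 0 < κ) (hthr : 1 < κ * δ) (Y0 : ℕ) :
    ∃ Y m w : ℕ, Y0 ≤ Y ∧ w + (0 + 1) * (m + 1).choose 2 ≤ m * (δ * Y - C) ∧
      (Y : ℝ) * ((δ * Y - C : ℕ) : ℝ) - ∑ y ∈ range Y, ((δ * y - C : ℕ) : ℝ) < κ * w := by
  have hδ : (0 : ℝ) < δ := by
    by_contra h
    push Not at h
    nlinarith
  have hδN : 1 ≤ δ := by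
    have : 0 < δ := by exact_mod_cast hδ
    exact this
  set g : ℝ → ℝ := fun x => κ * ((δ - C * x) * (δ - (C + 1) * x) / 2) -
    (δ / 2 + δ * x) with hg
  have hgc : Continuous g := by
    rw [hg]; fun_prop
  have hg0 : 0 < g 0 := by
    rw [hg]
    simp only [mul_zero, sub_zero, add_zero]
    nlinarith
  have hlim1 : Tendsto (fun y : ℕ => (1 : ℝ) / y) atTop (𝓝 0) :=
    tendsto_one_div_atTop_nhds_zero_nat
  have hlim2 : Tendsto (fun y : ℕ => g ((1 : ℝ) / y)) atTop (𝓝 (g 0)) :=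
    (hgc.tendsto 0).comp hlim1
  have hev1 := hlim2.eventually (lt_mem_nhds hg0)
  obtain ⟨Y, hY1, hY2⟩ := (hev1.and (eventually_ge_atTop (max Y0 (C + 1)))).exists
  have hYpos : (0 : ℝ) < Y := by
    have : 0 < Y := by omega
    exact_mod_cast this
  have hCY : C + 1 ≤ δ * Y := by
    calc C + 1 ≤ Y := by omega
      _ = 1 * Y := by ring
      _ ≤ δ * Y := Nat.mul_le_mul_right _ hδN
  set s : ℕ := δ * Y - C with hs
  have hs1 : 1 ≤ s := by omega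
  have hsR : (s : ℝ) = δ * Y - C := by
    rw [hs, Nat.cast_sub (by omega)]
    push_cast
    ring
  have hch : (s + 1).choose 2 ≤ s * s := by
    rw [Nat.choose_two_right, Nat.add_sub_cancel]
    apply Nat.div_le_of_le_mul
    nlinarith
  refine ⟨Y, s, s * s - (s + 1).choose 2, by omega, ?_, ?_⟩
  · rw [← hs, Nat.zero_add, one_mul]
    omega
  rw [Nat.cast_sub hch]
  have hch2 : (((s + 1).choose 2 : ℕ) : ℝ) = s * (s + 1) / 2 := by
    rw [Nat.cast_choose_two]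
    push_cast
    ring
  rw [hch2]
  push_cast
  have hsum : (δ : ℝ) * ((Y : ℝ) * (Y - 1) / 2) - C * Y ≤
      ∑ y ∈ range Y, ((δ * y - C : ℕ) : ℝ) := by
    have h1 : ∀ y ∈ range Y, (δ : ℝ) * y - C ≤ ((δ * y - C : ℕ) : ℝ) := by
      intro y _
      have h2 : δ * y ≤ (δ * y - C) + C := by omega
      have h3 : ((δ * y : ℕ) : ℝ) ≤ (((δ * y - C) + C : ℕ) : ℝ) := by exact_mod_cast h2
      push_cast at h3
      linarith
    refine le_trans (le_of_eq ?_) (Finset.sum_le_sum h1)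
    have h2 : ∑ y ∈ range Y, (y : ℝ) = (Y : ℝ) * (Y - 1) / 2 := by
      clear h1 hch2 hsR hs1 hs hCY hYpos hY2 hY1 hch
      clear_value s
      induction Y with
      | zero => simp
      | succ n ih => rw [Finset.sum_range_succ, ih]; push_cast; ring
    rw [Finset.sum_sub_distrib, ← Finset.mul_sum, h2, Finset.sum_const, Finset.card_range,
      nsmul_eq_mul]
    ring
  have h4 : 0 < (Y : ℝ) ^ 2 * g ((1 : ℝ) / Y) := by positivity
  have h5 : (Y : ℝ) ^ 2 * g ((1 : ℝ) / Y) =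
      κ * ((δ * Y - C) * (δ * Y - (C + 1)) / 2) - (δ * Y ^ 2 / 2 + δ * Y) := by
    rw [hg]
    field_simp
  rw [h5] at h4
  rw [hsR]
  nlinarith

end Crest.Agent.R022.Free712
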