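import Mathlib
import Crest.Agent.R022.Free712D

/-!
# R022, stage 3 (helper712), part E: families of monomials on a curve
-/

set_option autoImplicit false

namespace Crest.Agent.R022.Free712

open Module Finset Filter Topology Crest.Agent.R022.Cnt Polynomial

/-- The family for `n` free over a curve, from a lower bound for the dimensions of the `Wsp`. -/
theorem exists_family1 {k : ℕ} {ρ κ δ w' C : ℝ} (hρ : 0 < ρ) (hκ : 0 < κ) (hδ : 0 ≤ δ)
    (hthr : (4 / 3 : ℝ) < κ * (C2 ρ δ w' * ρ)) :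
    ∃ Y m J w s : ℕ, (Y : ℝ) < ρ * (J + 1) ∧ w + (J + 1) * (m + 1).choose 2 ≤ m * s ∧
      ∃ W : ℝ, W < κ * w ∧
      ∀ (F : Type) [Field F] (R : Type) [CommRing R] [IsDomain R] [Algebra F R]
        (ι : Type) [Fintype ι] [DecidableEq ι] (Z : ℕ → Submodule F R)
        (_ : ∀ m, FiniteDimensional F (Z m)) (α : ι → R) (_ : ∀ i, α i ≠ 0) (mo : ℕ × ℕ → R)
        (_ : ∀ m, Z m ≤ Submodule.span F (mo '' (Ex2 m : Set (ℕ × ℕ))))
        (_ : ∀ j m : ℕ, k ≤ m → δ * m + w' * j ≤ (finrank F (Wsp k Z α univ j m) : ℝ) + C)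
        (κ' : Type) [Fintype κ'] [DecidableEq κ'] (B : κ' → R[X])
          (c : ι → R[X]) (μ : F), μ ≠ 0 → (∀ l, (B l).natDegree ≤ 1) →
          (∀ i, (c i).natDegree ≤ 1) →
          (∀ i, (c i).coeff 1 = algebraMap F R μ * ∏ i' ∈ univ.erase i, α i' ^ k) →
          (∀ i, c i ∈ Submodule.span F (Set.range B)) →
          ∃ T : Finset ((ℕ × ℕ) × (κ' → ℕ)), T.card = s ∧
            (∀ ω ∈ T, wt ρ ω ≤ Y ∧ ∑ l, ω.2 l ≤ J) ∧
            LinearIndepOn F (mon k J α mo B) (T : Set ((ℕ × ℕ) × (κ' → ℕ))) ∧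
            ∑ ω ∈ T, wt ρ ω ≤ W := by
  -- the constant c0
  set cmin : ℝ := (4 / 3 : ℝ) / (κ * ρ) with hcmin
  have hden : 0 < κ * ρ := by positivity
  have hcm0 : 0 < cmin := by positivity
  have hcm : cmin < C2 ρ δ w' := by
    rw [hcmin, div_lt_iff₀ hden]
    nlinarith
  obtain ⟨c0, hc1, hc2⟩ := exists_between hcm
  have hc0 : 0 < c0 := hcm0.trans hc1
  have hthr' : (4 / 3 : ℝ) < κ * (c0 * ρ) := by
    rw [hcmin, div_lt_iff₀ hden] at hc1
    nlinarith
  obtain ⟨y0, hy0⟩ := count_asym1 hρ k δ w' C hδ hc2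
  obtain ⟨Y, m, J, w, -, hYy0, hJ, hw, hW⟩ := exists_params1 hρ hκ hc0 hthr' y0 0
  refine ⟨Y, m, J, w, Hf2 c0 y0 Y, hJ, hw, _, hW, ?_⟩
  intro F _ R _ _ _ ι _ _ Z hfinZ α hα mo hEx hD κ' _ _ B c μ hμ hB hc hc1' hcB
  choose! n hn1 hn2 using hy0
  set T : ℕ → Finset ((ℕ × ℕ) × (κ' → ℕ)) := fun y =>
    if y < y0 then ∅ else idxs κ' Ex2 (fun j => ⌊(y : ℝ) - ρ * j⌋₊) (n y + 1) with hT
  have hTw : ∀ y, ∀ ω ∈ T y, wt ρ ω ≤ y := by
    intro y ω hω
    simp only [hT] at hω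
    split_ifs at hω with h
    · exact absurd hω (Finset.notMem_empty _)
    · rw [mem_idxs, mem_Ex2] at hω
      obtain ⟨h1, h2⟩ := hω
      have h3 := hn1 y (not_lt.1 h)
      have h4 : ((∑ l, ω.2 l : ℕ) : ℝ) ≤ n y := by
        exact_mod_cast Nat.lt_succ_iff.1 h1
      have h5 : (0 : ℝ) ≤ (y : ℝ) - ρ * ((∑ l, ω.2 l : ℕ) : ℝ) := by nlinarith
      have h6 := Nat.floor_le h5
      have h7 : ((ω.1.1 + ω.1.2 : ℕ) : ℝ) ≤ ⌊(y : ℝ) - ρ * ((∑ l, ω.2 l : ℕ) : ℝ)⌋₊ := by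
        exact_mod_cast h2
      unfold wt
      linarith
  have hdim : ∀ y ≤ Y, Hf2 c0 y0 y ≤
      finrank F (Submodule.span F (mon k J α mo B '' (T y : Set _))) := by
    intro y _
    by_cases h : y < y0
    · unfold Hf2
      rw [if_pos h]
      exact Nat.zero_le _
    · have h1 := fam_dim (F := F) (k := k) (J := J) (α := α) hα (mo := mo) (Z := Z)
        hfinZ (Ex := Ex2) hEx (D := fun j m => finrank F (Wsp k Z α univ j m))
        (fun j m => le_rfl)
        hμ hB hc hc1' hcB (fun j => ⌊(y : ℝ) - ρ * j⌋₊) (n y + 1)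
      have hTy : T y = idxs κ' Ex2 (fun j => ⌊(y : ℝ) - ρ * j⌋₊) (n y + 1) := by
        simp only [hT, if_neg h]
      rw [hTy]
      refine le_trans ?_ h1
      have h2 := hn2 y (not_lt.1 h) (fun j m => finrank F (Wsp k Z α univ j m)) hD
      unfold Hf2
      rw [if_neg h]
      exact Nat.floor_le_of_le h2
  obtain ⟨s, h1, h2, h3, h4⟩ := exists_greedy (F := F) (x := mon k J α mo B)
    (wt ρ) T hTw (Hf2 c0 y0) (Hf2_mono hc0 y0) Y hdim
  refine ⟨s, h2, ?_, h3, h4⟩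
  intro ω hω
  obtain ⟨y, hyY, hy⟩ := h1 ω hω
  have h5 := hTw y ω hy
  have h6 : (y : ℝ) ≤ Y := by exact_mod_cast hyY
  refine ⟨h5.trans h6, ?_⟩
  by_contra hlt
  push Not at hlt
  have h7 : ((J : ℝ) + 1) ≤ ((∑ l, ω.2 l : ℕ) : ℝ) := by exact_mod_cast hlt
  have h8 : ρ * ((∑ l, ω.2 l : ℕ) : ℝ) ≤ wt ρ ω := by
    unfold wt
    have : (0 : ℝ) ≤ ((ω.1.1 + ω.1.2 : ℕ) : ℝ) := Nat.cast_nonneg _
    linarith
  nlinarith

/-- The family of monomials in `t` alone on a curve of degree `δ`. The output is phrased with the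
same index type as `exists_family1` (all exponents of the `b`'s vanish). -/
theorem exists_family0 {κ : ℝ} (δ C : ℕ) (hκ : 0 < κ) (hthr : 1 < κ * δ) (ρ : ℝ) :
    ∃ Y m w s : ℕ, w + (0 + 1) * (m + 1).choose 2 ≤ m * s ∧
      ∃ W : ℝ, W < κ * w ∧
      ∀ (F : Type) [Field F] (R : Type) [CommRing R] [IsDomain R] [Algebra F R]
        (ι : Type) [Fintype ι] [DecidableEq ι] (k : ℕ) (Z : ℕ → Submodule F R)
        (_ : ∀ m, FiniteDimensional F (Z m)) (α : ι → R) (_ : ∀ i, α i ≠ 0) (mo : ℕ × ℕ → R)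
        (_ : ∀ m, Z m ≤ Submodule.span F (mo '' (Ex2 m : Set (ℕ × ℕ))))
        (_ : ∀ m : ℕ, δ * m ≤ finrank F (Z m) + C)
        (κ' : Type) [Fintype κ'] [DecidableEq κ'] (B : κ' → R[X]),
          ∃ T : Finset ((ℕ × ℕ) × (κ' → ℕ)), T.card = s ∧
            (∀ ω ∈ T, wt ρ ω ≤ Y ∧ ω.2 = 0) ∧
            LinearIndepOn F (mon k 0 α mo B) (T : Set ((ℕ × ℕ) × (κ' → ℕ))) ∧
            ∑ ω ∈ T, wt ρ ω ≤ W := by
  classical
  obtain ⟨Y, m, w, -, hw, hW⟩ := exists_params0 δ C hκ hthr 0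
  refine ⟨Y, m, w, δ * Y - C, hw, _, hW, ?_⟩
  intro F _ R _ _ _ ι _ _ k Z hfinZ α hα mo hEx hdimZ κ' _ _ B
  set T : ℕ → Finset ((ℕ × ℕ) × (κ' → ℕ)) := fun y =>
    (Ex2 y).image (fun e => (e, (0 : κ' → ℕ))) with hT
  have hmon : ∀ e : ℕ × ℕ, mon k 0 α mo B (e, (0 : κ' → ℕ)) = Polynomial.C (mo e) := by
    intro e
    unfold mon
    simp
  have hTw : ∀ y, ∀ ω ∈ T y, wt ρ ω ≤ y := by
    intro y ω hω
    simp only [hT, Finset.mem_image] at hω
    obtain ⟨e, he, rfl⟩ := hω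
    rw [mem_Ex2] at he
    unfold wt
    simp only [Pi.zero_apply, Finset.sum_const_zero, Nat.cast_zero, mul_zero, add_zero]
    exact_mod_cast he
  have hmono : Monotone (fun y : ℕ => δ * y - C) := by
    intro a b hab
    have : δ * a ≤ δ * b := Nat.mul_le_mul_left _ hab
    simp only
    omega
  have hdim : ∀ y ≤ Y, δ * y - C ≤
      finrank F (Submodule.span F (mon k 0 α mo B '' (T y : Set _))) := by
    intro y _
    have h1 := hdimZ y
    have hfz := hfinZ y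
    -- embed `Z y` by constants
    have h2 : (Z y).map ((Polynomial.CAlgHom (R := F) (A := R)).toLinearMap) ≤
        Submodule.span F (mon k 0 α mo B '' (T y : Set _)) := by
      refine (Submodule.map_mono (hEx y)).trans ?_
      rw [Submodule.map_span, Submodule.span_le]
      rintro _ ⟨_, ⟨e, he, rfl⟩, rfl⟩
      refine Submodule.subset_span ⟨(e, 0), ?_, ?_⟩
      · simp only [hT, Finset.coe_image]
        exact ⟨e, he, rfl⟩
      · rw [hmon]; rfl
    have hfd : FiniteDimensional F (Submodule.span F (mon k 0 α mo B '' (T y : Set _))) :=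
      FiniteDimensional.span_of_finite F ((T y).finite_toSet.image _)
    have h3 := Submodule.finrank_mono h2
    have hinj : Function.Injective ((Polynomial.CAlgHom (R := F) (A := R)).toLinearMap) := by
      intro a b hab
      exact Polynomial.C_injective hab
    have h4 : finrank F ((Z y).map ((Polynomial.CAlgHom (R := F) (A := R)).toLinearMap)) =
        finrank F (Z y) := by
      have e := Submodule.equivMapOfInjective _ hinj (Z y)
      exact e.finrank_eq.symm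
    rw [h4] at h3
    omega
  obtain ⟨s, h1, h2, h3, h4⟩ := exists_greedy (F := F) (x := mon k 0 α mo B)
    (wt ρ) T hTw (fun y => δ * y - C) hmono Y hdim
  refine ⟨s, h2, ?_, h3, h4⟩
  intro ω hω
  obtain ⟨y, hyY, hy⟩ := h1 ω hω
  have h5 := hTw y ω hy
  have h6 : (y : ℝ) ≤ Y := by exact_mod_cast hyY
  refine ⟨h5.trans h6, ?_⟩
  simp only [hT, Finset.mem_image] at hy
  obtain ⟨e, _, rfl⟩ := hy
  rfl

end Crest.Agent.R022.Free712
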