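import Mathlib
import Crest.Agent.R022.Free712C
import Crest.Agent.R022.CntMain

/-!
# R022, stage 3 (helper712), part F

Restriction of a plane curve to the lines `α_i = 0`: all but `δ` of the restrictions have degree
`δ`; two lines of the slice which do not meet on a conic; the generic lines of helper776.
-/

set_option autoImplicit false

namespace Crest.Agent.R022.Free712

open Module Finset Crest.Agent.R022.Cnt

variable {F : Type*} [Field F] {ι : Type*}

/-- the top form of `h`, as a function of the slope -/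
noncomputable def tau (h : MvPolynomial (Fin 2) F) : Polynomial F :=
  ∑ s ∈ h.support.filter (fun s => s 0 + s 1 = h.totalDegree),
    Polynomial.C (MvPolynomial.coeff s h * (-1) ^ (s 0)) * Polynomial.X ^ (s 0)

theorem exists_top {h : MvPolynomial (Fin 2) F} (hh : h ≠ 0) :
    ∃ s ∈ h.support, s 0 + s 1 = h.totalDegree := by
  have hne : h.support.Nonempty := by
    rw [Finset.nonempty_iff_ne_empty, Ne, MvPolynomial.support_eq_empty]
    exact hh
  obtain ⟨s, hs, hs'⟩ := Finset.exists_mem_eq_sup h.support hne (fun s => s.sum fun _ e => e)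
  refine ⟨s, hs, ?_⟩
  rw [MvPolynomial.totalDegree, hs', Finsupp.sum_fintype _ _ (fun _ => rfl), Fin.sum_univ_two]

theorem tau_ne_zero {h : MvPolynomial (Fin 2) F} (hh : h ≠ 0) : tau h ≠ 0 := by
  classical
  obtain ⟨s, hs, hs'⟩ := exists_top hh
  intro h0
  have h1 := congrArg (fun p => p.coeff (s 0)) h0
  simp only [tau, Polynomial.finsetSum_coeff, Polynomial.coeff_C_mul_X_pow,
    Polynomial.coeff_zero] at h1
  rw [Finset.sum_eq_single s] at h1
  · rw [if_pos rfl] at h1
    have h2 := MvPolynomial.mem_support_iff.1 hs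
    rcases mul_eq_zero.1 h1 with h3 | h3
    · exact h2 h3
    · exact (pow_ne_zero _ (neg_ne_zero.2 one_ne_zero)) h3
  · intro b hb hne
    rw [if_neg]
    intro heq
    apply hne
    rw [Finset.mem_filter] at hb
    ext i
    fin_cases i
    · simpa using heq.symm
    · have := hb.2
      simp only [Fin.mk_one]
      omega
  · intro hns
    exact absurd (Finset.mem_filter.2 ⟨hs, hs'⟩) hns

theorem natDegree_tau_le (h : MvPolynomial (Fin 2) F) : (tau h).natDegree ≤ h.totalDegree := by
  unfold tau
  refine Polynomial.natDegree_sum_le_of_forall_le _ _ fun s hs => ?_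
  refine (Polynomial.natDegree_C_mul_X_pow_le _ _).trans ?_
  rw [Finset.mem_filter] at hs
  omega

theorem coeff_res (θ a : ι → F) (i : ι) (h : MvPolynomial (Fin 2) F) :
    (res θ a i h).coeff h.totalDegree = (tau h).eval (θ i) := by
  classical
  rw [res, MvPolynomial.aeval_def, MvPolynomial.eval₂_eq', Polynomial.finsetSum_coeff, tau,
    Polynomial.eval_finsetSum, Finset.sum_filter]
  refine Finset.sum_congr rfl fun s hs => ?_
  have h5 := MvPolynomial.le_totalDegree hs
  rw [Finsupp.sum_fintype _ _ (fun _ => rfl), Fin.sum_univ_two] at h5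
  rw [Polynomial.algebraMap_eq, Polynomial.coeff_C_mul, Fin.prod_univ_two]
  simp only [Matrix.cons_val_zero, Matrix.cons_val_one, Matrix.cons_val_fin_one]
  rw [Polynomial.coeff_mul_X_pow', if_pos (by omega)]
  have h2 : (-(Polynomial.C (θ i) * Polynomial.X + Polynomial.C (a i))).natDegree ≤ 1 := by
    rw [Polynomial.natDegree_neg]
    exact Polynomial.natDegree_linear_le
  split_ifs with h6
  · have h7 : h.totalDegree - s 1 = s 0 * 1 := by omega
    rw [h7, Polynomial.coeff_pow_of_natDegree_le h2]
    simp only [Polynomial.coeff_neg, Polynomial.coeff_add, Polynomial.coeff_C_mul,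
      Polynomial.coeff_X_one, Polynomial.coeff_C_succ, Polynomial.eval_mul, Polynomial.eval_C,
      Polynomial.eval_pow, Polynomial.eval_X, mul_one, add_zero]
    rw [neg_pow]
    ring
  · have h3 := Polynomial.natDegree_pow_le_of_le (s 0) h2
    rw [Polynomial.coeff_eq_zero_of_natDegree_lt (by omega), mul_zero]

theorem natDegree_res_eq {θ a : ι → F} {i : ι} {h : MvPolynomial (Fin 2) F}
    (hi : (tau h).eval (θ i) ≠ 0) : (res θ a i h).natDegree = h.totalDegree := by
  refine le_antisymm (natDegree_res_le θ a i h) ?_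
  refine Polynomial.le_natDegree_of_ne_zero ?_
  rw [coeff_res]
  exact hi

theorem exists_nonroot [Fintype ι] [DecidableEq ι] {p : Polynomial F} (hp : p ≠ 0) {S : Finset ι}
    {x : ι → F} (hx : Set.InjOn x S) (hS : p.natDegree < S.card) : ∃ i ∈ S, p.eval (x i) ≠ 0 := by
  classical
  by_contra hall
  push Not at hall
  have h1 : (S.image x).card ≤ p.natDegree := by
    refine le_trans (Finset.card_le_card ?_) ((Multiset.toFinset_card_le _).trans
      (Polynomial.card_roots' p))
    intro y hy
    rw [Finset.mem_image] at hy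
    obtain ⟨i, hi, rfl⟩ := hy
    rw [Multiset.mem_toFinset, Polynomial.mem_roots hp]
    exact hall i hi
  rw [Finset.card_image_of_injOn hx] at h1
  omega

/-- coprimality with a linear polynomial -/
theorem isCoprime_linear (p : Polynomial F) {c e : F} (hc : c ≠ 0) (hx : p.eval (-e / c) ≠ 0) :
    IsCoprime p (Polynomial.C c * Polynomial.X + Polynomial.C e) := by
  have h1 : Polynomial.C c * Polynomial.X + Polynomial.C e =
      Polynomial.C c * (Polynomial.X - Polynomial.C (-e / c)) := by
    rw [mul_sub, ← Polynomial.C_mul, mul_div_cancel₀ _ hc, Polynomial.C_neg, sub_neg_eq_add]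
  rw [h1, isCoprime_mul_unit_left_right (Polynomial.isUnit_C.2 (isUnit_iff_ne_zero.2 hc)),
    isCoprime_comm, (Polynomial.irreducible_X_sub_C _).coprime_iff_not_dvd,
    Polynomial.dvd_iff_isRoot]
  exact hx

/-- two of the lines which do not meet on the curve (`δ` = degree) -/
theorem exists_pair [Fintype ι] [DecidableEq ι] {θ a : ι → F} (hθ : Function.Injective θ)
    (hgp : ∀ i₀ i i' : ι, i ≠ i₀ → i' ≠ i₀ → i ≠ i' →
      (a i - a i₀) * (θ i' - θ i₀) ≠ (a i' - a i₀) * (θ i - θ i₀))
    {h : MvPolynomial (Fin 2) F} (hh : h ≠ 0) (hcard : h.totalDegree + 2 ≤ Fintype.card ι) :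
    ∃ i₀ i₁ : ι, i₁ ≠ i₀ ∧ (res θ a i₀ h).natDegree = h.totalDegree ∧
      (1 ≤ h.totalDegree → IsCoprime (res θ a i₀ h) (res θ a i₀ (al θ a i₁))) := by
  obtain ⟨i₀, -, h0⟩ := exists_nonroot (tau_ne_zero hh) (S := (univ : Finset ι)) (x := θ)
    hθ.injOn (by
      have := natDegree_tau_le h
      rw [Finset.card_univ]
      omega)
  have hdeg := natDegree_res_eq (a := a) h0
  by_cases hd : 1 ≤ h.totalDegree
  · have hres : res θ a i₀ h ≠ 0 := by
      intro h1
      rw [h1, Polynomial.natDegree_zero] at hdeg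
      omega
    obtain ⟨i₁, hi₁, h1⟩ := exists_nonroot hres (S := (univ : Finset ι).erase i₀)
      (x := fun i => -(a i - a i₀) / (θ i - θ i₀)) (by
        intro i hi i' hi' heq
        rw [Finset.mem_coe, Finset.mem_erase] at hi hi'
        by_contra hne
        have e1 : θ i - θ i₀ ≠ 0 := sub_ne_zero.2 fun h => hi.1 (hθ h)
        have e2 : θ i' - θ i₀ ≠ 0 := sub_ne_zero.2 fun h => hi'.1 (hθ h)
        simp only at heq
        rw [div_eq_div_iff e1 e2] at heq
        apply hgp i₀ i i' hi.1 hi'.1 hne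
        linear_combination -heq) (by
        rw [Finset.card_erase_of_mem (Finset.mem_univ _), Finset.card_univ, hdeg]
        omega)
    rw [Finset.mem_erase] at hi₁
    refine ⟨i₀, i₁, hi₁.1, hdeg, fun _ => ?_⟩
    rw [res_al]
    exact isCoprime_linear _ (sub_ne_zero.2 fun h => hi₁.1 (hθ h)) h1
  · have hne : ∃ i₁ : ι, i₁ ≠ i₀ := by
      have : 1 < Fintype.card ι := by omega
      exact Fintype.exists_ne_of_one_lt_card this i₀
    obtain ⟨i₁, hi₁⟩ := hne
    exact ⟨i₀, i₁, hi₁, hdeg, fun h => absurd h hd⟩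

/-- coefficients of an affine polynomial -/
theorem affine_eq {h : MvPolynomial (Fin 2) F} (h1 : h.totalDegree ≤ 1) :
    h = MvPolynomial.C (MvPolynomial.coeff 0 h) +
      MvPolynomial.C (MvPolynomial.coeff (Finsupp.single 0 1) h) * MvPolynomial.X 0 +
      MvPolynomial.C (MvPolynomial.coeff (Finsupp.single 1 1) h) * MvPolynomial.X 1 := by
  classical
  ext s
  rw [MvPolynomial.coeff_add, MvPolynomial.coeff_add, MvPolynomial.coeff_C,
    MvPolynomial.coeff_C_mul, MvPolynomial.coeff_C_mul, MvPolynomial.coeff_X,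
    MvPolynomial.coeff_X]
  by_cases hs : MvPolynomial.coeff s h = 0
  · rw [hs]
    split_ifs with e1 e2 e3 e3 e2 e3 e3
    all_goals first
      | (subst e1; simp_all)
      | (subst e2; simp_all)
      | (subst e3; simp_all)
      | simp
  · have h5 := MvPolynomial.le_totalDegree (MvPolynomial.mem_support_iff.2 hs)
    rw [Finsupp.sum_fintype _ _ (fun _ => rfl), Fin.sum_univ_two] at h5
    have hcases : s = 0 ∨ s = Finsupp.single 0 1 ∨ s = Finsupp.single 1 1 := by
      have h6 : (s 0 = 0 ∧ s 1 = 0) ∨ (s 0 = 1 ∧ s 1 = 0) ∨ (s 0 = 0 ∧ s 1 = 1) := by omega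
      rcases h6 with ⟨e0, e1⟩ | ⟨e0, e1⟩ | ⟨e0, e1⟩
      · left
        ext i
        fin_cases i <;> simp [e0, e1]
      · right; left
        ext i
        fin_cases i <;> simp [e0, e1]
      · right; right
        ext i
        fin_cases i <;> simp [e0, e1]
    have n1 : (Finsupp.single (0 : Fin 2) 1 : Fin 2 →₀ ℕ) ≠ 0 := by
      intro h
      have := DFunLike.congr_fun h 0
      simp at this
    have n2 : (Finsupp.single (1 : Fin 2) 1 : Fin 2 →₀ ℕ) ≠ 0 := by
      intro h
      have := DFunLike.congr_fun h 1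
      simp at this
    have n3 : (Finsupp.single (0 : Fin 2) 1 : Fin 2 →₀ ℕ) ≠ Finsupp.single 1 1 := by
      intro h
      have := DFunLike.congr_fun h 0
      simp at this
    rcases hcases with rfl | rfl | rfl
    · simp [n1, n2]
    · simp [n1.symm, n3.symm]
    · simp [n2.symm, n3]

theorem res_affine (θ a : ι → F) (i : ι) (h0 h1 h2 : F) :
    res θ a i (MvPolynomial.C h0 + MvPolynomial.C h1 * MvPolynomial.X 0 +
      MvPolynomial.C h2 * MvPolynomial.X 1) =
      Polynomial.C (h2 - h1 * θ i) * Polynomial.X + Polynomial.C (h0 - h1 * a i) := by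
  simp [res, Polynomial.algebraMap_eq]
  ring

/-- helper776's generic condition gives the hypotheses of `line_curve_bound`. -/
theorem generic_line {θ a : ι → F} (hθ : Function.Injective θ) {h0 h1 h2 : F}
    (g1 : ∀ i, h2 - h1 * θ i ≠ 0)
    (g2 : ∀ i j, i ≠ j → (θ j - θ i) * (-(h0 - h1 * a i) / (h2 - h1 * θ i)) + (a j - a i) ≠ 0)
    {h : MvPolynomial (Fin 2) F} (hh : h = MvPolynomial.C h0 + MvPolynomial.C h1 * MvPolynomial.X 0 +
      MvPolynomial.C h2 * MvPolynomial.X 1) :
    (∀ i, (res θ a i h).natDegree = 1) ∧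
      ∀ i i', i' ≠ i → IsCoprime (res θ a i h) (res θ a i (al θ a i')) := by
  constructor
  · intro i
    rw [hh, res_affine]
    exact Polynomial.natDegree_linear (g1 i)
  · intro i i' hne
    rw [hh, res_affine, res_al]
    have hc : θ i' - θ i ≠ 0 := sub_ne_zero.2 fun h => hne (hθ h)
    refine isCoprime_linear _ hc ?_
    simp only [Polynomial.eval_add, Polynomial.eval_mul, Polynomial.eval_C, Polynomial.eval_X]
    intro h3
    apply g2 i i' hne.symm
    have hg := g1 i
    field_simp at h3 ⊢
    linear_combination -h3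

section span

/-- monomials on the curve -/
noncomputable def moq (h : MvPolynomial (Fin 2) F) (e : ℕ × ℕ) : Rq h :=
  Ideal.Quotient.mk (Ideal.span ({h} : Set (MvPolynomial (Fin 2) F)))
    (MvPolynomial.X 0 ^ e.1 * MvPolynomial.X 1 ^ e.2)

theorem Zq_le_span (h : MvPolynomial (Fin 2) F) (m : ℕ) :
    Zq h m ≤ Submodule.span F (moq h '' (Ex2 m : Set (ℕ × ℕ))) := by
  rintro _ ⟨p, hp, rfl⟩
  have hp' := mem_Zt.1 hp
  rw [MvPolynomial.as_sum p, map_sum]
  refine Submodule.sum_mem _ fun s hs => ?_
  have h5 := MvPolynomial.le_totalDegree hs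
  rw [Finsupp.sum_fintype _ _ (fun _ => rfl), Fin.sum_univ_two] at h5
  have h6 : (MvPolynomial.monomial s (MvPolynomial.coeff s p) : MvPolynomial (Fin 2) F) =
      (MvPolynomial.coeff s p) • (MvPolynomial.X 0 ^ (s 0) * MvPolynomial.X 1 ^ (s 1)) := by
    rw [MvPolynomial.monomial_eq, MvPolynomial.smul_eq_C_mul,
      Finsupp.prod_fintype _ _ (fun _ => pow_zero _), Fin.prod_univ_two]
  rw [h6, map_smul]
  refine Submodule.smul_mem _ _ (Submodule.subset_span ⟨(s 0, s 1), ?_, rfl⟩)
  rw [Finset.mem_coe, mem_Ex2]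
  simp only
  omega

end span

end Crest.Agent.R022.Free712
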