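import Mathlib
import Crest.Agent.R022.Free712E
import Crest.Agent.R022.Free712F
import Crest.Agent.R022.Surf206Glue
import Crest.Agent.R022.CntInt

/-!
# R022, stage 3 (helper712), part G

The families of monomials on a plane curve `h(t) = 0` of a slice, in integral form.
-/

set_option autoImplicit false

namespace Crest.Agent.R022.Free712

open Module Finset Crest.Agent.R022.Cnt Crest.Agent.R022.Torsor Crest.Agent.R022.Surf206
open Polynomial (C X)

section dims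

variable {F : Type*} [Field F] {ι : Type*} [Fintype ι] [DecidableEq ι]
variable {h : MvPolynomial (Fin 2) F} {θ a : ι → F}

/-- lines in general position -/
theorem dim_line {k j m : ℕ} (hh : Prime h) (h1 : h.totalDegree = 1) (hι : 0 < Fintype.card ι)
    (hdeg : ∀ i, (res θ a i h).natDegree = 1)
    (hcop : ∀ i i', i' ≠ i → IsCoprime (res θ a i h) (res θ a i (al θ a i'))) (hm : k ≤ m) :
    m + (k * (Fintype.card ι - 1)) * j ≤ finrank F (Wsp k (Zq h) (alq h θ a) univ j m) := by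
  have := line_curve_bound (k := k) (j := j) (m := m) hh h1 (univ : Finset ι)
    (Finset.univ_nonempty_iff.2 (Fintype.card_pos_iff.1 hι)) (fun i _ => hdeg i)
    (fun i _ i' _ hne => hcop i i' hne)
  rw [Finset.card_univ, min_eq_left (by omega)] at this
  have e : (k * (Fintype.card ι - 1)) * j = (Fintype.card ι - 1) * (j * k) := by ring
  rw [e]
  omega

/-- conics -/
theorem dim_conic {k j m : ℕ} (hh : Prime h) (h2 : h.totalDegree = 2) (hι : 4 ≤ Fintype.card ι)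
    (hθ : Function.Injective θ)
    (hgp : ∀ i₀ i i' : ι, i ≠ i₀ → i' ≠ i₀ → i ≠ i' →
      (a i - a i₀) * (θ i' - θ i₀) ≠ (a i' - a i₀) * (θ i - θ i₀)) (hm : k ≤ m) :
    2 * m + (2 * k) * j ≤ finrank F (Wsp k (Zq h) (alq h θ a) univ j m) := by
  have hdom := isDomain_Rq hh
  obtain ⟨i₀, i₁, hne, hdeg, hcop⟩ := exists_pair hθ hgp hh.ne_zero (by omega)
  have h3 := pair_curve_bound (k := k) (j := j) (m := m) (δ := 2) (z := 2 * m) hh (by norm_num)
    hne (by rw [hdeg, h2]) (hcop (by omega)) (finrank_Zq_two h2 m) (by omega)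
  have h4 := finrank_Wsp_mono (F := F) (k := k) (j := j) (m := m) (Z := Zq h) (α := alq h θ a)
    (Finset.subset_univ ({i₀, i₁} : Finset ι)) (fun m => Zq_finite h m)
    (fun i _ => alq_ne_zero_of_two_le (by omega))
  refine le_trans ?_ (h3.trans h4)
  have h5 : ∑ s ∈ range (min k (m + 1)), min (m - s + 1) 2 = 2 * k := by
    rw [min_eq_left (by omega), Finset.sum_congr rfl (g := fun _ => 2), Finset.sum_const,
      Finset.card_range, smul_eq_mul, mul_comm]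
    intro s hs
    rw [Finset.mem_range] at hs
    rw [min_eq_right (by omega)]
  rw [h5]
  have e : j * (2 * k) = 2 * k * j := by ring
  rw [e]

end dims

section bridge

/-- base change and restriction to the curve -/
noncomputable def Th (h : MvPolynomial (Fin 2) ℂ) :
    Polynomial (MvPolynomial (Fin 2) ℤ) →+* Polynomial (Rq h) :=
  Polynomial.mapRingHom ((Ideal.Quotient.mk (Ideal.span ({h} : Set (MvPolynomial (Fin 2) ℂ)))).comp
    phi)

theorem Th_C (h : MvPolynomial (Fin 2) ℂ) (P : MvPolynomial (Fin 2) ℤ) :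
    Th h (C P) = C (Ideal.Quotient.mk (Ideal.span ({h} : Set (MvPolynomial (Fin 2) ℂ))) (phi P)) := by
  unfold Th
  rw [Polynomial.coe_mapRingHom, Polynomial.map_C]
  rfl

theorem not_dvd_of_Th {h : MvPolynomial (Fin 2) ℂ} {g : Polynomial (MvPolynomial (Fin 2) ℤ)}
    (hg : Th h g ≠ 0) : ¬ C h ∣ g.map (MvPolynomial.map (Int.castRingHom ℂ)) := by
  rintro ⟨q, hq⟩
  apply hg
  have h1 : Th h g = (g.map (MvPolynomial.map (Int.castRingHom ℂ))).map
      (Ideal.Quotient.mk (Ideal.span ({h} : Set (MvPolynomial (Fin 2) ℂ)))) := by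
    rw [Polynomial.map_map]
    rfl
  rw [h1, hq, Polynomial.map_mul, Polynomial.map_C]
  have h2 : (Ideal.Quotient.mk (Ideal.span ({h} : Set (MvPolynomial (Fin 2) ℂ)))) h = 0 := by
    rw [Ideal.Quotient.eq_zero_iff_mem]
    exact Ideal.mem_span_singleton_self h
  rw [h2, Polynomial.C_0, zero_mul]

variable {F : Polynomial ℤ} (hF : F.Monic)

theorem Th_Bt_natDegree (h : MvPolynomial (Fin 2) ℂ) (k : ℕ) (M : ℤ) (a0 : Fin F.natDegree → ℤ)
    (l : Fin F.natDegree) : (Th h (Bt hF k M a0 l)).natDegree ≤ 1 :=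
  (Polynomial.natDegree_map_le).trans (Bt_natDegree hF k M a0 l)

theorem Th_Bt_coeff (h : MvPolynomial (Fin 2) ℂ) (k : ℕ) (M : ℤ) (a0 : Fin F.natDegree → ℤ)
    (l : Fin F.natDegree) : (Th h (Bt hF k M a0 l)).coeff 1 =
      Ideal.Quotient.mk (Ideal.span ({h} : Set (MvPolynomial (Fin 2) ℂ)))
        (MvPolynomial.C (M : ℂ) * phi (Sf hF 2 a0 k 1 l)) := by
  unfold Th Bt
  rw [Polynomial.coe_mapRingHom, Polynomial.coeff_map, Polynomial.coeff_C_mul,
    Polynomial.coeff_sub, Polynomial.coeff_mul_C, Polynomial.coeff_X_one, Polynomial.coeff_C_succ,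
    sub_zero, one_mul, RingHom.comp_apply, map_mul phi]
  congr 2
  unfold phi
  rw [MvPolynomial.map_C]
  rfl

theorem coeff_c (z : Fin F.natDegree → ℂ) (hd : 2 ≤ F.natDegree) (hinj : Function.Injective z)
    (hz : ∀ i, F.eval₂ (Int.castRingHom ℂ) (z i) = 0) (h : MvPolynomial (Fin 2) ℂ) (k : ℕ)
    {M : ℤ} (hM : M ≠ 0) (a0 : Fin F.natDegree → ℤ) (i : Fin F.natDegree) :
    (∑ l : Fin F.natDegree, (z i ^ (l : ℕ)) • Th h (Bt hF k M a0 l)).coeff 1 =
      algebraMap ℂ (Rq h) (M : ℂ) * ∏ i' ∈ univ.erase i, alq h z (cst z a0) i' ^ k := by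
  rw [Polynomial.finsetSum_coeff]
  have h1 : ∀ l : Fin F.natDegree, ((z i ^ (l : ℕ)) • Th h (Bt hF k M a0 l)).coeff 1 =
      Ideal.Quotient.mk (Ideal.span ({h} : Set (MvPolynomial (Fin 2) ℂ)))
        (MvPolynomial.C (z i ^ (l : ℕ)) * (MvPolynomial.C (M : ℂ) * phi (Sf hF 2 a0 k 1 l))) := by
    intro l
    rw [Polynomial.coeff_smul, Th_Bt_coeff, map_mul, Algebra.smul_def]
    rfl
  rw [Finset.sum_congr rfl fun l _ => h1 l, ← map_sum, (coordData hF z hd hinj hz k hM a0).hA i,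
    map_mul, map_pow, Finset.prod_pow]
  have h2 : Ideal.Quotient.mk (Ideal.span ({h} : Set (MvPolynomial (Fin 2) ℂ)))
      (co z (cst z a0) i) = ∏ i' ∈ univ.erase i, alq h z (cst z a0) i' := by
    unfold co
    rw [map_prod]
    rfl
  rw [h2]
  rfl

theorem Th_monZ (z : Fin F.natDegree → ℂ) (hd : 2 ≤ F.natDegree) (hinj : Function.Injective z)
    (hz : ∀ i, F.eval₂ (Int.castRingHom ℂ) (z i) = 0) (h : MvPolynomial (Fin 2) ℂ) (k : ℕ)
    (M : ℤ) (J : ℕ) (a0 : Fin F.natDegree → ℤ) (ω : (ℕ × ℕ) × (Fin F.natDegree → ℕ)) :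
    Th h (monZ hF k M J a0 ω) =
      Cnt.mon k J (alq h z (cst z a0)) (moq h) (fun l => Th h (Bt hF k M a0 l)) ω := by
  unfold monZ Cnt.mon
  rw [map_mul, map_mul, map_prod, Th_C, Th_C]
  have hX : ∀ i, phi (MvPolynomial.X i) = MvPolynomial.X i := by
    intro i
    unfold phi
    rw [MvPolynomial.map_X]
  have h1 : phi (MvPolynomial.X 0 ^ ω.1.1 * MvPolynomial.X 1 ^ ω.1.2) =
      MvPolynomial.X 0 ^ ω.1.1 * MvPolynomial.X 1 ^ ω.1.2 := by
    rw [map_mul, map_pow, map_pow, hX, hX]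
  have h2 : Ideal.Quotient.mk (Ideal.span ({h} : Set (MvPolynomial (Fin 2) ℂ)))
      (phi (Nf hF 2 a0 ^ (k * (J - ∑ l, ω.2 l)))) =
      (∏ i, alq h z (cst z a0) i) ^ (k * (J - ∑ l, ω.2 l)) := by
    rw [map_pow, map_pow, map_Nf' hF z hd hinj hz]
    unfold nrm
    rw [map_prod]
    rfl
  rw [h1, h2]
  simp only [map_pow]
  rfl

/-- independence over `ℂ` on the curve gives independence over `ℤ` -/
theorem int_indep (z : Fin F.natDegree → ℂ) (hd : 2 ≤ F.natDegree) (hinj : Function.Injective z)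
    (hz : ∀ i, F.eval₂ (Int.castRingHom ℂ) (z i) = 0) (h : MvPolynomial (Fin 2) ℂ) (k : ℕ)
    (M : ℤ) (J : ℕ) (a0 : Fin F.natDegree → ℤ) {T : Finset ((ℕ × ℕ) × (Fin F.natDegree → ℕ))}
    (hT : LinearIndepOn ℂ (Cnt.mon k J (alq h z (cst z a0)) (moq h)
      (fun l => Th h (Bt hF k M a0 l))) (T : Set ((ℕ × ℕ) × (Fin F.natDegree → ℕ))))
    (a : (ℕ × ℕ) × (Fin F.natDegree → ℕ) → ℤ)
    (h0 : Th h (∑ ω ∈ T, C (MvPolynomial.C (a ω)) * monZ hF k M J a0 ω) = 0) :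
    ∀ ω ∈ T, a ω = 0 := by
  intro ω₀ hω₀
  rw [map_sum] at h0
  have h6 : ∀ ω ∈ T, Th h (C (MvPolynomial.C (a ω)) * monZ hF k M J a0 ω) =
      ((a ω : ℤ) : ℂ) • Cnt.mon k J (alq h z (cst z a0)) (moq h) (fun l => Th h (Bt hF k M a0 l)) ω := by
    intro ω _
    rw [map_mul, Th_monZ hF z hd hinj hz, Algebra.smul_def, Th_C]
    congr 1
    unfold phi
    rw [MvPolynomial.map_C]
    rfl
  rw [Finset.sum_congr rfl h6] at h0
  have h7 := (linearIndepOn_finset_iff.1 hT) (fun ω => ((a ω : ℤ) : ℂ)) h0 ω₀ hω₀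
  exact_mod_cast h7

/-- Families of monomials independent on all the curves with the property `P`. -/
def CurveFam (k : ℕ) (ρ κ : ℝ)
    (P : (Fin F.natDegree → ℤ) → MvPolynomial (Fin 2) ℂ → Prop) : Prop :=
  ∃ Y m J w s : ℕ, w + (J + 1) * (m + 1).choose 2 ≤ m * s ∧ ∃ W : ℝ, W < κ * w ∧
    ∀ (a0 : Fin F.natDegree → ℤ) (h : MvPolynomial (Fin 2) ℂ), P a0 h → ∀ M : ℤ, M ≠ 0 →
      ∃ T : Finset ((ℕ × ℕ) × (Fin F.natDegree → ℕ)), T.card = s ∧
        (∀ ω ∈ T, wt ρ ω ≤ Y ∧ ∑ l, ω.2 l ≤ J) ∧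
        (∀ a : (ℕ × ℕ) × (Fin F.natDegree → ℕ) → ℤ,
          Th h (∑ ω ∈ T, C (MvPolynomial.C (a ω)) * monZ hF k M J a0 ω) = 0 →
            ∀ ω ∈ T, a ω = 0) ∧
        ∑ ω ∈ T, wt ρ ω ≤ W

theorem c_natDegree (z : Fin F.natDegree → ℂ) (h : MvPolynomial (Fin 2) ℂ) (k : ℕ)
    (M : ℤ) (a0 : Fin F.natDegree → ℤ) (i : Fin F.natDegree) :
    (∑ l : Fin F.natDegree, (z i ^ (l : ℕ)) • Th h (Bt hF k M a0 l)).natDegree ≤ 1 := by
  refine Polynomial.natDegree_sum_le_of_forall_le _ _ fun l _ => ?_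
  exact (Polynomial.natDegree_smul_le _ _).trans (Th_Bt_natDegree hF h k M a0 l)

/-- **lines in general position** -/
theorem curveFam_line (z : Fin F.natDegree → ℂ) (hinj : Function.Injective z)
    (hz : ∀ i, F.eval₂ (Int.castRingHom ℂ) (z i) = 0) {k : ℕ} (hk : k + 2 = F.natDegree)
    {ρ κ : ℝ} (hρ : 0 < ρ) (hκ : 0 < κ)
    (hthr : (4 / 3 : ℝ) < κ * (C2 ρ 1 ((k * (k + 1) : ℕ) : ℝ) * ρ)) :
    CurveFam hF k ρ κ (fun a0 h => Prime h ∧ h.totalDegree = 1 ∧
      (∀ i, (res z (cst z a0) i h).natDegree = 1) ∧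
      ∀ i i', i' ≠ i → IsCoprime (res z (cst z a0) i h) (res z (cst z a0) i
        (al z (cst z a0) i'))) := by
  obtain ⟨Y, m, J, w, s, -, hw, W, hW, H⟩ := exists_family1 (k := k) (C := 0) hρ hκ
    zero_le_one hthr
  refine ⟨Y, m, J, w, s, hw, W, hW, ?_⟩
  rintro a0 h ⟨hh, h1, hdeg, hcop⟩ M hM
  have hdom := isDomain_Rq hh
  obtain ⟨T, hT1, hT2, hT3, hT4⟩ := H ℂ (Rq h) (Fin F.natDegree) (Zq h) (fun m => Zq_finite h m)
    (alq h z (cst z a0)) (fun i => alq_ne_zero (by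
      intro h0
      have := hdeg i
      rw [h0, Polynomial.natDegree_zero] at this
      omega) (by omega)) (moq h) (Zq_le_span h)
    (by
      intro j m hm
      have h2 := dim_line (k := k) (j := j) (m := m) hh h1
        (by rw [Fintype.card_fin]; omega) hdeg hcop hm
      have hcard : Fintype.card (Fin F.natDegree) - 1 = k + 1 := by
        rw [Fintype.card_fin]; omega
      rw [hcard] at h2
      have h3 : ((m + k * (k + 1) * j : ℕ) : ℝ) ≤
        (finrank ℂ (Wsp k (Zq h) (alq h z (cst z a0)) univ j m) : ℝ) := by exact_mod_cast h2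
      push_cast at h3 ⊢
      linarith)
    (Fin F.natDegree) (fun l => Th h (Bt hF k M a0 l))
    (fun i => ∑ l : Fin F.natDegree, (z i ^ (l : ℕ)) • Th h (Bt hF k M a0 l)) (M : ℂ)
    (by exact_mod_cast hM) (fun l => Th_Bt_natDegree hF h k M a0 l)
    (fun i => c_natDegree hF z h k M a0 i)
    (fun i => coeff_c hF z (by omega) hinj hz h k hM a0 i)
    (fun i => Submodule.sum_mem _ fun l _ => Submodule.smul_mem _ _
        (Submodule.subset_span ⟨l, rfl⟩))
  exact ⟨T, hT1, hT2, fun a h0 => int_indep hF z (by omega) hinj hz h k M J a0 hT3 a h0, hT4⟩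

/-- **conics** -/
theorem curveFam_conic (z : Fin F.natDegree → ℂ) (hinj : Function.Injective z)
    (hz : ∀ i, F.eval₂ (Int.castRingHom ℂ) (z i) = 0) {k : ℕ} (hk : k + 2 = F.natDegree)
    (hk2 : 2 ≤ k) {ρ κ : ℝ} (hρ : 0 < ρ) (hκ : 0 < κ)
    (hthr : (4 / 3 : ℝ) < κ * (C2 ρ 2 ((2 * k : ℕ) : ℝ) * ρ)) :
    CurveFam hF k ρ κ (fun a0 h => Prime h ∧ h.totalDegree = 2 ∧ GenPos z a0) := by
  obtain ⟨Y, m, J, w, s, -, hw, W, hW, H⟩ := exists_family1 (k := k) (C := 0) hρ hκ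
    zero_le_two hthr
  refine ⟨Y, m, J, w, s, hw, W, hW, ?_⟩
  rintro a0 h ⟨hh, h1, hgp⟩ M hM
  have hdom := isDomain_Rq hh
  obtain ⟨T, hT1, hT2, hT3, hT4⟩ := H ℂ (Rq h) (Fin F.natDegree) (Zq h) (fun m => Zq_finite h m)
    (alq h z (cst z a0)) (fun i => alq_ne_zero_of_two_le (by omega)) (moq h) (Zq_le_span h)
    (by
      intro j m hm
      have h2 := dim_conic (k := k) (j := j) (m := m) hh h1
        (by rw [Fintype.card_fin]; omega) hinj
        (fun i₀ i i' hi hi' hne => hgp i i' i₀ hne hi hi') hm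
      have h3 : ((2 * m + (2 * k) * j : ℕ) : ℝ) ≤
        (finrank ℂ (Wsp k (Zq h) (alq h z (cst z a0)) univ j m) : ℝ) := by exact_mod_cast h2
      push_cast at h3 ⊢
      linarith)
    (Fin F.natDegree) (fun l => Th h (Bt hF k M a0 l))
    (fun i => ∑ l : Fin F.natDegree, (z i ^ (l : ℕ)) • Th h (Bt hF k M a0 l)) (M : ℂ)
    (by exact_mod_cast hM) (fun l => Th_Bt_natDegree hF h k M a0 l)
    (fun i => c_natDegree hF z h k M a0 i)
    (fun i => coeff_c hF z (by omega) hinj hz h k hM a0 i)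
    (fun i => Submodule.sum_mem _ fun l _ => Submodule.smul_mem _ _
        (Submodule.subset_span ⟨l, rfl⟩))
  exact ⟨T, hT1, hT2, fun a h0 => int_indep hF z (by omega) hinj hz h k M J a0 hT3 a h0, hT4⟩

/-- **curves of degree `δ`** (used for `δ ≥ 3`) -/
theorem curveFam_high (z : Fin F.natDegree → ℂ) (hd : 2 ≤ F.natDegree)
    (hinj : Function.Injective z) (hz : ∀ i, F.eval₂ (Int.castRingHom ℂ) (z i) = 0) {k : ℕ}
    (δ : ℕ) (hδ : 2 ≤ δ) (ρ : ℝ) {κ : ℝ} (hκ : 0 < κ) (hthr : 1 < κ * δ) :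
    CurveFam hF k ρ κ (fun _ h => Prime h ∧ h.totalDegree = δ) := by
  obtain ⟨Y, m, w, s, hw, W, hW, H⟩ := exists_family0 δ (δ * δ) hκ hthr ρ
  refine ⟨Y, m, 0, w, s, hw, W, hW, ?_⟩
  rintro a0 h ⟨hh, h1⟩ M hM
  have hdom := isDomain_Rq hh
  obtain ⟨T, hT1, hT2, hT3, hT4⟩ := H ℂ (Rq h) (Fin F.natDegree) k (Zq h)
    (fun m => Zq_finite h m) (alq h z (cst z a0)) (fun i => alq_ne_zero_of_two_le (by omega))
    (moq h) (Zq_le_span h)
    (by
      intro m
      have := finrank_Zq_ge hh.ne_zero m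
      rwa [h1] at this)
    (Fin F.natDegree) (fun l => Th h (Bt hF k M a0 l))
  refine ⟨T, hT1, fun ω hω => ⟨(hT2 ω hω).1, ?_⟩,
    fun a h0 => int_indep hF z hd hinj hz h k M 0 a0 hT3 a h0, hT4⟩
  rw [(hT2 ω hω).2]
  simp

end bridge

end Crest.Agent.R022.Free712
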