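import Mathlib
import Crest.Agent.R022.SliceDefs

/-! Row 22, stage 3 (helper776): lines in a slice. Generic / special dichotomy. -/

set_option autoImplicit false

namespace Crest.Agent.R022.Free776L

open Polynomial Crest.Agent.R022.Torsor

section field

variable {L : Type*} [Field L] [Algebra ℚ L] [FiniteDimensional ℚ L]

open IntermediateField in
theorem norm_add_eq_pow (ξ : L) (s : ℚ) : ∃ y : ℚ,
    Algebra.norm ℚ (ξ + algebraMap ℚ L s) = y ^ (Module.finrank ℚ⟮ξ⟯ L) := by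
  set g : ℚ⟮ξ⟯ := AdjoinSimple.gen ℚ ξ + algebraMap ℚ ℚ⟮ξ⟯ s with hg
  refine ⟨Algebra.norm ℚ g, ?_⟩
  have h1 : ξ + algebraMap ℚ L s = algebraMap ℚ⟮ξ⟯ L g := by
    rw [hg, map_add, AdjoinSimple.algebraMap_gen, ← IsScalarTower.algebraMap_apply]
  rw [h1, ← Algebra.norm_norm (S := ℚ⟮ξ⟯), Algebra.norm_algebraMap, map_pow]

open IntermediateField in
theorem two_le_finrank (ξ : L) {σ τ : L →ₐ[ℚ] ℂ} (hne : σ ≠ τ) (h : σ ξ = τ ξ) :
    2 ≤ Module.finrank ℚ⟮ξ⟯ L := by
  by_contra hlt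
  have hpos : 0 < Module.finrank ℚ⟮ξ⟯ L := Module.finrank_pos
  have h1 : Module.finrank ℚ⟮ξ⟯ L = 1 := by omega
  rw [IntermediateField.finrank_eq_one_iff_eq_top] at h1
  apply hne
  ext x
  have hx : x ∈ ℚ⟮ξ⟯ := by rw [h1]; trivial
  induction hx using IntermediateField.adjoin_induction with
  | mem x hx =>
    rw [Set.mem_singleton_iff] at hx
    rw [hx, h]
  | algebraMap x => rw [AlgHom.commutes, AlgHom.commutes]
  | add x y _ _ hx hy => rw [map_add, map_add, hx, hy]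
  | inv x _ hx => rw [map_inv₀, map_inv₀, hx]
  | mul x y _ _ hx hy => rw [map_mul, map_mul, hx, hy]

end field

/-- the valuation argument -/
theorem same_prime {U y y' : ℚ} (hU : U ≠ 0) {e : ℕ} (he : 2 ≤ e) {p p' : ℕ} (hp : p.Prime)
    (hp' : p'.Prime) {c c' : ℤ} (hc : c ≠ 0) (hc' : c' ≠ 0) {C : ℕ} (hC : C < p)
    (hcC : |c| ≤ C) (hcC' : |c'| ≤ C) (h : (p * c : ℚ) = U * y ^ e)
    (h' : (p' * c' : ℚ) = U * y' ^ e) : p = p' := by
  by_contra hne
  have : Fact p.Prime := ⟨hp⟩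
  have hpc : ∀ x : ℤ, x ≠ 0 → |x| ≤ C → padicValRat p (x : ℚ) = 0 := by
    intro x hx hxC
    rw [padicValRat.of_int]
    have h1 : ¬ (p : ℤ) ∣ x := by
      intro hd
      have h2 := Int.le_of_dvd (abs_pos.2 hx) ((dvd_abs _ _).2 hd)
      omega
    have h2 : padicValInt p x = 0 := padicValInt.eq_zero_of_not_dvd h1
    rw [h2]; rfl
  have hy : y ^ e ≠ 0 := by
    intro h0
    rw [h0, mul_zero] at h
    have := mul_ne_zero (Nat.cast_ne_zero (R := ℚ).2 hp.ne_zero) (Int.cast_ne_zero (α := ℚ).2 hc)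
    exact this h
  have hy' : y' ^ e ≠ 0 := by
    intro h0
    rw [h0, mul_zero] at h'
    have := mul_ne_zero (Nat.cast_ne_zero (R := ℚ).2 hp'.ne_zero) (Int.cast_ne_zero (α := ℚ).2 hc')
    exact this h'
  have hy0 : y ≠ 0 := by
    rintro rfl
    exact hy (zero_pow (by omega))
  have hy0' : y' ≠ 0 := by
    rintro rfl
    exact hy' (zero_pow (by omega))
  have e1 : padicValRat p (p * c : ℚ) = 1 := by
    rw [padicValRat.mul (Nat.cast_ne_zero.2 hp.ne_zero) (Int.cast_ne_zero.2 hc), hpc c hc hcC,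
      padicValRat.self hp.one_lt, add_zero]
  have e2 : padicValRat p (p' * c' : ℚ) = 0 := by
    rw [padicValRat.mul (Nat.cast_ne_zero.2 hp'.ne_zero) (Int.cast_ne_zero.2 hc'), hpc c' hc' hcC',
      add_zero, padicValRat.of_nat]
    have h3 : padicValNat p p' = 0 := by
      rw [padicValNat.eq_zero_iff]
      right; right
      intro hd
      exact hne ((Nat.prime_dvd_prime_iff_eq hp hp').1 hd)
    rw [h3]; rfl
  rw [h, padicValRat.mul hU hy, padicValRat.pow] at e1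
  rw [h', padicValRat.mul hU hy', padicValRat.pow] at e2
  have e3 : (e : ℤ) * (padicValRat p y - padicValRat p y') = 1 := by linarith
  have e4 : (e : ℤ) ∣ 1 := Dvd.intro _ e3
  have e5 := Int.le_of_dvd one_pos e4
  omega

section main

variable {F : ℤ[X]}

theorem cj_emb (z : Fin F.natDegree → ℂ) (hd : 2 ≤ F.natDegree) (a0 : Fin F.natDegree → ℤ)
    (t : Fin 2 → ℤ) (i : Fin F.natDegree) :
    cj z (emb 2 a0 t) i = t 0 + z i * t 1 + cst z a0 i := by
  rw [← eval_aP, aP_two z hd a0 i]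
  simp

theorem comp_cast : (algebraMap ℚ ℂ).comp (Int.castRingHom ℚ) = Int.castRingHom ℂ :=
  Subsingleton.elim _ _

/-- a root of an irreducible polynomial of degree `≥ 2` is irrational -/
theorem nu_ne_zero (hirr : Irreducible (F.map (Int.castRingHom ℚ))) (hF : F.Monic)
    (hd : 2 ≤ F.natDegree) {z : ℂ} (hz : F.eval₂ (Int.castRingHom ℂ) z = 0) {v0 v1 : ℤ}
    (hv : v0 ≠ 0 ∨ v1 ≠ 0) : (v0 : ℂ) + z * v1 ≠ 0 := by
  intro h0
  by_cases h1 : v1 = 0
  · rw [h1] at h0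
    simp only [Int.cast_zero, mul_zero, add_zero, Int.cast_eq_zero] at h0
    rcases hv with h | h
    · exact h h0
    · exact h h1
  · have h2 : (v1 : ℂ) ≠ 0 := Int.cast_ne_zero.2 h1
    have h3 : z = algebraMap ℚ ℂ ((-v0 : ℚ) / v1) := by
      rw [eq_ratCast]
      push_cast
      rw [eq_div_iff h2]
      linear_combination h0
    have h4 : (F.map (Int.castRingHom ℚ)).eval ((-v0 : ℚ) / v1) = 0 := by
      have h5 : algebraMap ℚ ℂ ((F.map (Int.castRingHom ℚ)).eval ((-v0 : ℚ) / v1)) = 0 := by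
        rw [← Polynomial.aeval_algebraMap_apply_eq_algebraMap_eval, Polynomial.aeval_def,
          Polynomial.eval₂_map, comp_cast, ← h3]
        exact hz
      exact (map_eq_zero _).1 h5
    have h6 : (F.map (Int.castRingHom ℚ)).degree = 1 :=
      Polynomial.degree_eq_one_of_irreducible_of_root hirr h4
    have h7 : (F.map (Int.castRingHom ℚ)).natDegree = F.natDegree := hF.natDegree_map _
    have h8 : (F.map (Int.castRingHom ℚ)).natDegree = 1 :=
      Polynomial.natDegree_eq_of_degree_eq_some (n := 1) (by exact_mod_cast h6)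
    omega

/-- the number field generated by a root of `F`, with all its complex embeddings -/
theorem exists_field (hF : F.Monic) (hirr : Irreducible (F.map (Int.castRingHom ℚ)))
    {z : Fin F.natDegree → ℂ} (hinj : Function.Injective z)
    (hz : ∀ i, F.eval₂ (Int.castRingHom ℂ) (z i) = 0) :
    ∃ (L : Type) (_ : Field L) (_ : Algebra ℚ L) (_ : FiniteDimensional ℚ L) (θ : L)
      (σ : Fin F.natDegree → (L →ₐ[ℚ] ℂ)), Function.Bijective σ ∧ ∀ i, σ i θ = z i := by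
  have hfact : Fact (Irreducible (F.map (Int.castRingHom ℚ))) := ⟨hirr⟩
  let alg : Algebra ℚ (AdjoinRoot (F.map (Int.castRingHom ℚ))) := Ideal.Quotient.algebra ℚ
  have hfin : @Module.Finite ℚ (AdjoinRoot (F.map (Int.castRingHom ℚ))) _ _ alg.toModule :=
    Module.Finite.of_basis (AdjoinRoot.powerBasis hirr.ne_zero).basis
  have he : ∀ i, (F.map (Int.castRingHom ℚ)).eval₂ ((Algebra.ofId ℚ ℂ : ℚ →ₐ[ℚ] ℂ) : ℚ →+* ℂ)
      (z i) = 0 := by
    intro i
    rw [Polynomial.eval₂_map, show ((Algebra.ofId ℚ ℂ : ℚ →ₐ[ℚ] ℂ) : ℚ →+* ℂ) = algebraMap ℚ ℂ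
      from rfl, comp_cast]
    exact hz i
  let σ : Fin F.natDegree → (AdjoinRoot (F.map (Int.castRingHom ℚ)) →ₐ[ℚ] ℂ) := fun i =>
    AdjoinRoot.liftAlgHom _ (Algebra.ofId ℚ ℂ) (z i) (he i)
  have hσ : ∀ i, σ i (AdjoinRoot.root _) = z i := fun i => AdjoinRoot.liftAlgHom_root _ _ _ _
  refine ⟨AdjoinRoot (F.map (Int.castRingHom ℚ)), inferInstance, alg, hfin, AdjoinRoot.root _, σ,
    ?_, hσ⟩
  rw [Fintype.bijective_iff_injective_and_card]
  constructor
  · intro i j hij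
    apply hinj
    rw [← hσ i, ← hσ j, hij]
  · have h9 := (AdjoinRoot.powerBasis hirr.ne_zero).finrank
    rw [AdjoinRoot.powerBasis_dim, hF.natDegree_map] at h9
    rw [Fintype.card_fin, AlgHom.card ℚ (AdjoinRoot (F.map (Int.castRingHom ℚ))) ℂ]
    exact h9.symm

/-- the norm as a product over the embeddings -/
theorem norm_prod {L : Type} [Field L] [Algebra ℚ L] [FiniteDimensional ℚ L] {ι : Type*}
    [Fintype ι] (σ : ι → (L →ₐ[ℚ] ℂ)) (hσ : Function.Bijective σ) (x : L) :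
    ((Algebra.norm ℚ x : ℚ) : ℂ) = ∏ i, σ i x := by
  have h1 := Algebra.norm_eq_prod_embeddings ℚ ℂ x
  rw [eq_ratCast] at h1
  rw [h1]
  exact (Fintype.prod_bijective _ hσ _ _ fun i => rfl).symm

/-- special direction: the norm on the line is `U y^e`, `e ≥ 2` -/
theorem special_norm (hF : F.Monic) (hirr : Irreducible (F.map (Int.castRingHom ℚ)))
    (hd : 2 ≤ F.natDegree) {z : Fin F.natDegree → ℂ} (hinj : Function.Injective z)
    (hz : ∀ i, F.eval₂ (Int.castRingHom ℂ) (z i) = 0) (a0 : Fin F.natDegree → ℤ)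
    (t0 v : Fin 2 → ℤ) (hv : v 0 ≠ 0 ∨ v 1 ≠ 0) {i j : Fin F.natDegree} (hij : i ≠ j)
    (hsp : cj z (emb 2 a0 t0) i * ((v 0 : ℂ) + z j * v 1) =
      cj z (emb 2 a0 t0) j * ((v 0 : ℂ) + z i * v 1)) :
    ∃ (U : ℚ) (e : ℕ), U ≠ 0 ∧ 2 ≤ e ∧ ∀ (t : Fin 2 → ℤ) (s : ℚ),
      (∀ l, (t l : ℚ) = t0 l + s * v l) →
      ∃ y : ℚ, ((nm hF (el F (emb 2 a0 t)) : ℤ) : ℚ) = U * y ^ e := by
  obtain ⟨L, _, _, _, θ, σ, hσ, hσθ⟩ := exists_field hF hirr hinj hz
  set ν : L := (v 0 : L) + θ * (v 1 : L) with hν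
  have hσν : ∀ i, σ i ν = (v 0 : ℂ) + z i * v 1 := by
    intro i
    rw [hν, map_add, map_mul, map_intCast, map_intCast, hσθ]
  have hν0 : ν ≠ 0 := by
    intro h0
    have h1 := hσν i
    rw [h0, map_zero] at h1
    exact nu_ne_zero hirr hF hd (hz i) hv h1.symm
  set x0 : L := ∑ l, (emb 2 a0 t0 l : L) * θ ^ (l : ℕ) with hx0
  have hσx : ∀ (t : Fin 2 → ℤ) i, σ i (∑ l, (emb 2 a0 t l : L) * θ ^ (l : ℕ)) =
      cj z (emb 2 a0 t) i := by
    intro t i
    unfold cj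
    rw [map_sum]
    refine Finset.sum_congr rfl fun l _ => ?_
    rw [map_mul, map_pow, hσθ, map_intCast]
  set ξ : L := x0 / ν with hξ
  have hne : σ i ≠ σ j := fun h => hij (hσ.1 h)
  have hξij : σ i ξ = σ j ξ := by
    rw [hξ, map_div₀, map_div₀, hx0, hσx, hσx, hσν, hσν, div_eq_div_iff
      (nu_ne_zero hirr hF hd (hz i) hv) (nu_ne_zero hirr hF hd (hz j) hv)]
    exact hsp
  refine ⟨Algebra.norm ℚ ν, _, (Algebra.norm_ne_zero_iff).2 hν0, two_le_finrank ξ hne hξij, ?_⟩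
  intro t s hts
  obtain ⟨y, hy⟩ := norm_add_eq_pow ξ s
  refine ⟨y, ?_⟩
  rw [← hy, ← map_mul]
  have h1 : ν * (ξ + algebraMap ℚ L s) = ∑ l, (emb 2 a0 t l : L) * θ ^ (l : ℕ) := by
    have hinjσ : Function.Injective (σ i) := (σ i).toRingHom.injective
    apply hinjσ
    rw [hσx, map_mul, hσν, map_add, AlgHom.commutes, hξ, map_div₀, hx0, hσx, hσν, cj_emb z hd,
      cj_emb z hd]
    have h2 := nu_ne_zero hirr hF hd (hz i) hv
    have h3 : ((t 0 : ℚ) : ℂ) = ((t0 0 + s * v 0 : ℚ) : ℂ) := by rw [hts 0]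
    have h4 : ((t 1 : ℚ) : ℂ) = ((t0 1 + s * v 1 : ℚ) : ℂ) := by rw [hts 1]
    push_cast at h3 h4
    rw [eq_ratCast, mul_add, mul_div_cancel₀ _ h2, h3, h4]
    ring
  rw [h1]
  have h2 : ((((nm hF (el F (emb 2 a0 t)) : ℤ) : ℚ)) : ℂ) =
      ((Algebra.norm ℚ (∑ l, (emb 2 a0 t l : L) * θ ^ (l : ℕ)) : ℚ) : ℂ) := by
    rw [norm_prod σ hσ, Rat.cast_intCast, nm_eq_prod hF z hinj hz]
    exact Finset.prod_congr rfl fun i _ => (hσx t i).symm
  exact_mod_cast h2

/-- all points of a special line have the same prime, hence there are boundedly many -/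
theorem special_card (hF : F.Monic) (hirr : Irreducible (F.map (Int.castRingHom ℚ)))
    (hd : 2 ≤ F.natDegree) {z : Fin F.natDegree → ℂ} (hinj : Function.Injective z)
    (hz : ∀ i, F.eval₂ (Int.castRingHom ℂ) (z i) = 0) (a0 : Fin F.natDegree → ℤ) (C : ℕ)
    (T : Finset (Fin 2 → ℤ))
    (hT : ∀ t ∈ T, ∃ (p : ℕ) (c : ℤ), p.Prime ∧ C < p ∧ nm hF (el F (emb 2 a0 t)) = p * c ∧
      c ≠ 0 ∧ |c| ≤ C)
    (t0 v : Fin 2 → ℤ) (hv : v 0 ≠ 0 ∨ v 1 ≠ 0) {i j : Fin F.natDegree} (hij : i ≠ j)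
    (hsp : cj z (emb 2 a0 t0) i * ((v 0 : ℂ) + z j * v 1) =
      cj z (emb 2 a0 t0) j * ((v 0 : ℂ) + z i * v 1))
    (hline : ∀ t ∈ T, ∃ s : ℚ, ∀ l, (t l : ℚ) = t0 l + s * v l) :
    T.card ≤ F.natDegree * (2 * C + 1) := by
  classical
  obtain ⟨U, e, hU, he, hUe⟩ := special_norm hF hirr hd hinj hz a0 t0 v hv hij hsp
  rcases T.eq_empty_or_nonempty with hT0 | ⟨t1, ht1⟩
  · simp [hT0]
  obtain ⟨p, c1, hp, hCp, hn1, hc1, hc1C⟩ := hT t1 ht1
  obtain ⟨s1, hs1⟩ := hline t1 ht1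
  obtain ⟨y1, hy1⟩ := hUe t1 s1 hs1
  have hall : ∀ t ∈ T, ∃ c : ℤ, nm hF (el F (emb 2 a0 t)) = p * c ∧ |c| ≤ C := by
    intro t ht
    obtain ⟨p', c, hp', hCp', hn, hc, hcC⟩ := hT t ht
    obtain ⟨s, hs⟩ := hline t ht
    obtain ⟨y, hy⟩ := hUe t s hs
    have h1 : p = p' := by
      refine same_prime (y := y1) (y' := y) hU he hp hp' hc1 hc hCp hc1C hcC ?_ ?_
      · rw [← hy1, hn1]; push_cast; ring
      · rw [← hy, hn]; push_cast; ring
    exact ⟨c, by rw [hn, h1], hcC⟩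
  choose! cc hcc using hall
  have hmaps : ∀ t ∈ T, cc t ∈ Finset.Icc (-(C : ℤ)) C := by
    intro t ht
    rw [Finset.mem_Icc, ← abs_le]
    exact (hcc t ht).2
  have hcard := Finset.card_le_mul_card_image_of_maps_to hmaps F.natDegree (fun c _ => ?_)
  · rw [Int.card_Icc] at hcard
    have : (((C : ℤ) + 1 - -(C : ℤ)).toNat) = 2 * C + 1 := by omega
    rwa [this] at hcard
  · -- the polynomial in `s`
    choose! ss hss using hline
    set Q : ℂ[X] := (∏ i, (Polynomial.C (cj z (emb 2 a0 t0) i) +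
      Polynomial.C ((v 0 : ℂ) + z i * v 1) * X)) - Polynomial.C ((p : ℂ) * c) with hQ
    have hdeg1 : ∀ i, (Polynomial.C (cj z (emb 2 a0 t0) i) +
      Polynomial.C ((v 0 : ℂ) + z i * v 1) * X).natDegree = 1 := by
      intro i
      rw [add_comm]
      exact Polynomial.natDegree_linear (nu_ne_zero hirr hF hd (hz i) hv)
    have hdeg : (∏ i, (Polynomial.C (cj z (emb 2 a0 t0) i) +
      Polynomial.C ((v 0 : ℂ) + z i * v 1) * X)).natDegree = F.natDegree := by
      rw [Polynomial.natDegree_prod _ _ fun i _ => ?_]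
      · rw [Finset.sum_congr rfl fun i _ => hdeg1 i]
        simp
      · intro h0
        have := hdeg1 i
        rw [h0] at this
        simp at this
    have hQdeg : Q.natDegree = F.natDegree := by
      rw [hQ, Polynomial.natDegree_sub_C, hdeg]
    have hQ0 : Q ≠ 0 := by
      intro h0
      rw [h0, Polynomial.natDegree_zero] at hQdeg
      omega
    have hroot : ∀ t ∈ T.filter (fun t => cc t = c), ((ss t : ℚ) : ℂ) ∈ Q.roots.toFinset := by
      intro t ht
      rw [Finset.mem_filter] at ht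
      rw [Multiset.mem_toFinset, Polynomial.mem_roots hQ0, Polynomial.IsRoot.def, hQ,
        Polynomial.eval_sub, Polynomial.eval_prod, Polynomial.eval_C, sub_eq_zero]
      have h1 := (hcc t ht.1).1
      have h2 := nm_eq_prod hF z hinj hz (emb 2 a0 t)
      rw [h1, ht.2] at h2
      push_cast at h2
      rw [h2]
      refine Finset.prod_congr rfl fun i _ => ?_
      have h3 : ((t 0 : ℚ) : ℂ) = ((t0 0 + ss t * v 0 : ℚ) : ℂ) := by rw [hss t ht.1 0]
      have h4 : ((t 1 : ℚ) : ℂ) = ((t0 1 + ss t * v 1 : ℚ) : ℂ) := by rw [hss t ht.1 1]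
      push_cast at h3 h4
      rw [cj_emb z hd, cj_emb z hd, h3, h4]
      simp only [Polynomial.eval_add, Polynomial.eval_C, Polynomial.eval_mul, Polynomial.eval_X]
      ring
    have hinj2 : Set.InjOn (fun t => ((ss t : ℚ) : ℂ)) (T.filter (fun t => cc t = c) : Set _) := by
      intro t ht t' ht' h
      rw [Finset.mem_coe, Finset.mem_filter] at ht ht'
      have h' : ss t = ss t' := Rat.cast_injective (α := ℂ) h
      funext l
      have h1 := hss t ht.1 l
      have h2 := hss t' ht'.1 l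
      rw [h', ← h2] at h1
      exact_mod_cast h1
    have h5 := Finset.card_le_card_of_injOn _ hroot hinj2
    refine h5.trans ((Multiset.toFinset_card_le _).trans ((Polynomial.card_roots' Q).trans ?_))
    rw [hQdeg]

/-- **Dichotomy for lines in a slice.** For a complex line `h0 + h1 t_0 + h2 t_1 = 0` containing the
points `T` of a slice: either no direction is degenerate and the zeros of the `α_i` on the line are
pairwise distinct, or there are boundedly many points. (`-(h0 - h1 cst_i) / (h2 - h1 z_i)` is the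
`t_1`-coordinate of the intersection with `α_i = 0`.) -/
theorem line_dichotomy (hF : F.Monic) (hirr : Irreducible (F.map (Int.castRingHom ℚ)))
    (hd : 2 ≤ F.natDegree) {z : Fin F.natDegree → ℂ} (hinj : Function.Injective z)
    (hz : ∀ i, F.eval₂ (Int.castRingHom ℂ) (z i) = 0) (a0 : Fin F.natDegree → ℤ) (C : ℕ)
    (T : Finset (Fin 2 → ℤ))
    (hT : ∀ t ∈ T, ∃ (p : ℕ) (c : ℤ), p.Prime ∧ C < p ∧ nm hF (el F (emb 2 a0 t)) = p * c ∧
      c ≠ 0 ∧ |c| ≤ C)
    (h0 h1 h2 : ℂ) (hh : h1 ≠ 0 ∨ h2 ≠ 0)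
    (hline : ∀ t ∈ T, h0 + h1 * t 0 + h2 * t 1 = 0) :
    ((∀ i, h2 - h1 * z i ≠ 0) ∧ ∀ i j, i ≠ j →
      (z j - z i) * (-(h0 - h1 * cst z a0 i) / (h2 - h1 * z i)) +
        (cst z a0 j - cst z a0 i) ≠ 0) ∨ T.card ≤ F.natDegree * (2 * C + 1) := by
  classical
  rcases Nat.lt_or_ge 1 T.card with hcard | hcard
  swap
  · right
    calc T.card ≤ 1 := hcard
      _ ≤ F.natDegree * (2 * C + 1) := Nat.one_le_iff_ne_zero.2 (by positivity)
  obtain ⟨t0, ht0, t1, ht1, hne⟩ := Finset.one_lt_card.1 hcard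
  set v : Fin 2 → ℤ := t1 - t0 with hvdef
  have hv : v 0 ≠ 0 ∨ v 1 ≠ 0 := by
    by_contra hcon
    push Not at hcon
    apply hne
    funext l
    have h3 : ∀ l, v l = 0 := by
      intro l
      fin_cases l
      · exact hcon.1
      · exact hcon.2
    have := h3 l
    rw [hvdef, Pi.sub_apply] at this
    omega
  have hl0 := hline t0 ht0
  have horth : ∀ t ∈ T, h1 * ((t 0 : ℂ) - t0 0) + h2 * ((t 1 : ℂ) - t0 1) = 0 := by
    intro t ht
    have := hline t ht
    linear_combination this - hl0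
  have hv0 : (v 0 : ℂ) = (t1 0 : ℂ) - t0 0 := by rw [hvdef]; push_cast [Pi.sub_apply]; ring
  have hv1 : (v 1 : ℂ) = (t1 1 : ℂ) - t0 1 := by rw [hvdef]; push_cast [Pi.sub_apply]; ring
  have horthv : h1 * (v 0 : ℂ) + h2 * (v 1 : ℂ) = 0 := by
    rw [hv0, hv1]
    exact horth t1 ht1
  have hvC : (v 0 : ℂ) ≠ 0 ∨ (v 1 : ℂ) ≠ 0 := by
    rcases hv with h | h
    · exact Or.inl (Int.cast_ne_zero.2 h)
    · exact Or.inr (Int.cast_ne_zero.2 h)
  -- `(h1, h2) = lam (v1, -v0)`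
  obtain ⟨lam, hlam0, hlam1, hlam2⟩ : ∃ lam : ℂ, lam ≠ 0 ∧ h1 = lam * v 1 ∧ h2 = -lam * v 0 := by
    rcases hvC with h | h
    · refine ⟨-h2 / v 0, ?_, ?_, ?_⟩
      · intro h3
        rw [div_eq_zero_iff] at h3
        rcases h3 with h3 | h3
        · have h4 : h2 = 0 := neg_eq_zero.1 h3
          rw [h4, zero_mul, add_zero] at horthv
          rcases hh with h5 | h5
          · exact h5 ((mul_eq_zero.1 horthv).resolve_right h)
          · exact h5 h4
        · exact h h3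
      · field_simp
        linear_combination horthv
      · field_simp
    · refine ⟨h1 / v 1, ?_, ?_, ?_⟩
      · intro h3
        rw [div_eq_zero_iff] at h3
        rcases h3 with h3 | h3
        · rw [h3, zero_mul, zero_add] at horthv
          rcases hh with h5 | h5
          · exact h5 h3
          · exact h5 ((mul_eq_zero.1 horthv).resolve_right h)
        · exact h h3
      · field_simp
      · field_simp
        linear_combination horthv
  have hν : ∀ i, (v 0 : ℂ) + z i * v 1 ≠ 0 := fun i => nu_ne_zero hirr hF hd (hz i) hv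
  have hden : ∀ i, h2 - h1 * z i = -lam * ((v 0 : ℂ) + z i * v 1) := by
    intro i
    rw [hlam1, hlam2]
    ring
  have hden0 : ∀ i, h2 - h1 * z i ≠ 0 := by
    intro i
    rw [hden]
    exact mul_ne_zero (neg_ne_zero.2 hlam0) (hν i)
  by_cases hgen : ∀ i j, i ≠ j →
      (z j - z i) * (-(h0 - h1 * cst z a0 i) / (h2 - h1 * z i)) +
        (cst z a0 j - cst z a0 i) ≠ 0
  · exact Or.inl ⟨hden0, hgen⟩
  right
  push Not at hgen
  obtain ⟨i, j, hij, hz0⟩ := hgen
  refine special_card hF hirr hd hinj hz a0 C T hT t0 v hv hij ?_ ?_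
  · rw [cj_emb z hd, cj_emb z hd]
    have h3 : (z j - z i) * (-(h0 - h1 * cst z a0 i)) +
        (cst z a0 j - cst z a0 i) * (h2 - h1 * z i) = 0 := by
      have h5 := div_mul_cancel₀ (-(h0 - h1 * cst z a0 i)) (hden0 i)
      linear_combination (h2 - h1 * z i) * hz0 - (z j - z i) * h5
    rw [hden, hlam1] at h3
    have h5 : h0 = -(lam * v 1) * t0 0 + lam * v 0 * t0 1 := by
      rw [hlam1, hlam2] at hl0
      linear_combination hl0
    rw [h5] at h3
    have h6 : lam * (((t0 0 : ℂ) + z i * t0 1 + cst z a0 i) * ((v 0 : ℂ) + z j * v 1) -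
        ((t0 0 : ℂ) + z j * t0 1 + cst z a0 j) * ((v 0 : ℂ) + z i * v 1)) = 0 := by
      linear_combination h3
    have h7 := (mul_eq_zero.1 h6).resolve_left hlam0
    exact sub_eq_zero.1 h7
  · intro t ht
    have h3 := horth t ht
    rw [hlam1, hlam2] at h3
    have h4 : ((t 0 : ℂ) - t0 0) * v 1 = ((t 1 : ℂ) - t0 1) * v 0 := by
      have : lam * (((t 0 : ℂ) - t0 0) * v 1 - ((t 1 : ℂ) - t0 1) * v 0) = 0 := by
        linear_combination h3
      exact sub_eq_zero.1 ((mul_eq_zero.1 this).resolve_left hlam0)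
    have h5 : ((t 0 : ℚ) - t0 0) * v 1 = ((t 1 : ℚ) - t0 1) * v 0 := by exact_mod_cast h4
    rcases hv with h | h
    · have h' : (v 0 : ℚ) ≠ 0 := Int.cast_ne_zero.2 h
      refine ⟨((t 0 : ℚ) - t0 0) / v 0, fun l => ?_⟩
      fin_cases l
      · show (t 0 : ℚ) = t0 0 + ((t 0 : ℚ) - t0 0) / v 0 * v 0
        field_simp
        ring
      · show (t 1 : ℚ) = t0 1 + ((t 0 : ℚ) - t0 0) / v 0 * v 1
        field_simp
        linear_combination -h5
    · have h' : (v 1 : ℚ) ≠ 0 := Int.cast_ne_zero.2 h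
      refine ⟨((t 1 : ℚ) - t0 1) / v 1, fun l => ?_⟩
      fin_cases l
      · show (t 0 : ℚ) = t0 0 + ((t 1 : ℚ) - t0 1) / v 1 * v 0
        field_simp
        linear_combination h5
      · show (t 1 : ℚ) = t0 1 + ((t 1 : ℚ) - t0 1) / v 1 * v 1
        field_simp
        ring

/-- `line_dichotomy` for the points of a slice -/
theorem line_dichotomy_SPt (hF : F.Monic) (hirr : Irreducible (F.map (Int.castRingHom ℚ)))
    (hd : 2 ≤ F.natDegree) {z : Fin F.natDegree → ℂ} (hinj : Function.Injective z)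
    (hz : ∀ i, F.eval₂ (Int.castRingHom ℂ) (z i) = 0) (a0 : Fin F.natDegree → ℤ) (k C M : ℕ)
    (A ρ : ℝ) (T : Finset (Fin 2 → ℤ)) (m : (Fin 2 → ℤ) → ℤ)
    (b : (Fin 2 → ℤ) → Fin F.natDegree → ℤ)
    (hT : ∀ t ∈ T, IsSPt hF k C M A ρ a0 t (m t) (b t))
    (h0 h1 h2 : ℂ) (hh : h1 ≠ 0 ∨ h2 ≠ 0)
    (hline : ∀ t ∈ T, h0 + h1 * t 0 + h2 * t 1 = 0) :
    ((∀ i, h2 - h1 * z i ≠ 0) ∧ ∀ i j, i ≠ j →
      (z j - z i) * (-(h0 - h1 * cst z a0 i) / (h2 - h1 * z i)) +
        (cst z a0 j - cst z a0 i) ≠ 0) ∨ T.card ≤ F.natDegree * (2 * C + 1) := by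
  refine line_dichotomy hF hirr hd hinj hz a0 C T (fun t ht => ?_) h0 h1 h2 hh hline
  obtain ⟨p, c, h1, h2, _, _, h3, h4, h5, _⟩ := (hT t ht).norm
  exact ⟨p, c, h1, h2, h3, h4, h5⟩

end main

end Crest.Agent.R022.Free776L
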