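import Mathlib
import Crest.Agent.R022.Free712G
import Crest.Agent.R022.Free776L
import Crest.Agent.R022.Ifaces250

/-!
# R022, stage 3 (helper712), part H

Level L2: `n` free over a plane curve. Determinant step and final statement `free_curve`.
-/

set_option autoImplicit false

namespace Crest.Agent.R022.Free712

open Crest.Agent.R022.Torsor Crest.Agent.R022.Expand Crest.Agent.R022.Stage107
open Polynomial (C X)

/-- functions with a one-parameter expansion are constant modulo `l` -/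
theorem const_mod {P : Type*} {r : ℕ} {S : Set P} {s : P → Fin r → ℤ} {n' : P → ℤ} {l : ℤ}
    {φ : P → ℤ} (hs : ∀ p ∈ S, ∀ i, l ∣ s p i) (h : HasExp S s n' l 1 0 φ) :
    ∀ p ∈ S, ∀ p' ∈ S, l ∣ φ p - φ p' := by
  obtain ⟨G, hG, h⟩ := h
  obtain ⟨Q, rfl⟩ : ∃ Q, G = C Q := ⟨G.coeff 0, Polynomial.eq_C_of_natDegree_le_zero hG⟩
  intro p hp p' hp'
  have h1 := h p hp
  have h2 := h p' hp'
  rw [Polynomial.eval₂_C, pow_one] at h1 h2
  have h3 : l ∣ MvPolynomial.eval (s p) Q - MvPolynomial.eval (s p') Q :=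
    HasExp.dvd_eval_sub Q fun i => dvd_sub (hs p hp i) (hs p' hp' i)
  have h4 := dvd_add (dvd_sub h1 h2) h3
  exact dvd_congr_right h4 (by ring)

theorem card_box {S : Set (Fin 2 → ℤ)} {B : ℕ} (h : ∀ t ∈ S, ∀ i, |t i| ≤ B) :
    S.ncard ≤ (2 * B + 1) ^ 2 := by
  classical
  have h1 : S ⊆ ((Fintype.piFinset fun _ : Fin 2 => Finset.Icc (-(B : ℤ)) B :
      Finset (Fin 2 → ℤ)) : Set (Fin 2 → ℤ)) := by
    intro t ht
    rw [Finset.mem_coe, Fintype.mem_piFinset]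
    intro i
    rw [Finset.mem_Icc]
    exact abs_le.1 (h t ht i)
  have h2 := Set.ncard_le_ncard h1 (Finset.finite_toSet _)
  rw [Set.ncard_coe_finset, Fintype.card_piFinset] at h2
  refine h2.trans ?_
  rw [Finset.prod_const, Finset.card_univ, Fintype.card_fin, Int.card_Icc]
  refine Nat.pow_le_pow_left ?_ 2
  omega

section
variable {F : Polynomial ℤ} (hF : F.Monic)

/-- expansion of the coordinates `b_l` of `n`-degree one -/
theorem hasExp_b {r : ℕ} {k Cc M : ℕ} {A ρ : ℝ} {a0 : Fin F.natDegree → ℤ}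
    {S : Set (Fin 2 → ℤ)} {n : (Fin 2 → ℤ) → ℤ} {b : (Fin 2 → ℤ) → Fin F.natDegree → ℤ}
    (hpt : ∀ t ∈ S, IsSPt hF k Cc M A ρ a0 t (n t) (b t)) {l : ℤ}
    (hnm : ∀ t ∈ S, IsCoprime (nm hF (el F (emb 2 a0 t))) l)
    {s : (Fin 2 → ℤ) → Fin r → ℤ} (hs : ∀ t ∈ S, ∀ i, l ∣ s t i)
    (ht : ∀ (i : Fin 2) (n' : (Fin 2 → ℤ) → ℤ) (m : ℕ), HasExp S s n' l m 0 (fun t => t i))
    (hne : S.Nonempty) (m : ℕ) (j : Fin F.natDegree) :
    HasExp S s n l m 1 (fun t => b t j) := by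
  obtain ⟨t0, ht0⟩ := hne
  obtain ⟨u, v, huv⟩ := (hnm t0 ht0).pow_left (m := k)
  have hpoly : ∀ Q : MvPolynomial (Fin 2) ℤ, ∀ m, HasExp S s n l m 0
      (fun t => MvPolynomial.eval t Q) := fun Q m =>
    HasExp.mvPolynomial (fun t => t) (fun i => ht i n m) Q
  have h1 : HasExp S s n l m 1 (fun t => (M : ℤ) * (n t * MvPolynomial.eval t (Sf hF 2 a0 k 1 j) -
      MvPolynomial.eval t (Sf hF 2 a0 k (AdjoinRoot.root F) j))) := by
    refine HasExp.const_mul _ ?_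
    refine HasExp.sub ?_ ((hpoly _ m).mono (by omega))
    exact (HasExp.mul_zero_left (hpoly (Sf hF 2 a0 k 1 j) m) HasExp.var).congr
      fun t _ => by ring
  refine HasExp.div ((hpoly (Nf hF 2 a0) m).pow_zero k) u (fun t htS => ?_) h1 fun t htS => ?_
  · have h2 := const_mod hs (hpoly (Nf hF 2 a0) 1) t htS t0 ht0
    have h3 : l ∣ (MvPolynomial.eval t (Nf hF 2 a0)) ^ k - (MvPolynomial.eval t0 (Nf hF 2 a0)) ^ k :=
      h2.trans (sub_dvd_pow_sub_pow _ _ k)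
    rw [Nf_eval hF 2 a0 t0] at h3
    exact dvd_congr_right (dvd_sub (dvd_mul_left l v) (h3.mul_left u)) (by linear_combination -huv)
  · rw [mul_comm, coord_eq_slice hF 2 a0 t k M (n t) (b t) (hpt t htS).eqn j, sub_self]
    exact dvd_zero _

/-- **determinant step** -/
theorem step_of_fam (z : Fin F.natDegree → ℂ) (k : ℕ) {ρ κ : ℝ} (hρ : 0 < ρ)
    {P : (Fin F.natDegree → ℤ) → MvPolynomial (Fin 2) ℂ → Prop}
    (hfam : CurveFam hF k ρ κ P) (Cc M : ℕ) (hC : 0 < Cc) (hM : 0 < M) :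
    ∃ B D : ℕ, ∀ A : ℝ, 1 ≤ A → ∀ a0 S n b L, LevelData hF z k Cc M A ρ a0 S n b L κ →
      (∀ l ∈ L, Par 1 S (l : ℤ) {(fun t => t 0), (fun t => t 1)}) →
      ∀ h : MvPolynomial (Fin 2) ℂ, P a0 h → S.ncard ≤ B ∨
        ∃ g : Polynomial (MvPolynomial (Fin 2) ℤ), g.natDegree ≤ D ∧ CD g D ∧
          (∀ t ∈ S, ev3 g t (n t) = 0) ∧ Th h g ≠ 0 := by
  classical
  obtain ⟨Y, m, J, w, s, hw, W, hW, hfam⟩ := hfam
  set δ : ℝ := κ * w - W with hδ
  have hδ0 : 0 < δ := by rw [hδ]; linarith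
  set Q : ℝ := (s.factorial : ℝ) * (2 ^ Y * (Cc : ℝ) ^ J) ^ s with hQ
  have hC1 : (1 : ℝ) ≤ Cc := by exact_mod_cast hC
  have hQ1 : 1 ≤ Q := by
    rw [hQ]
    have h1 : (1 : ℝ) ≤ (s.factorial : ℝ) := by exact_mod_cast Nat.succ_le_of_lt s.factorial_pos
    have h2 : (1 : ℝ) ≤ (2 ^ Y * (Cc : ℝ) ^ J) ^ s :=
      one_le_pow₀ (one_le_mul_of_one_le_of_one_le (one_le_pow₀ (by norm_num)) (one_le_pow₀ hC1))
    exact one_le_mul_of_one_le_of_one_le h1 h2
  set A0 : ℝ := Q ^ (1 / δ) with hA0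
  set B0 : ℕ := ⌈2 * A0⌉₊ with hB0
  refine ⟨(2 * B0 + 1) ^ 2, J + Y + J * (k * F.natDegree), ?_⟩
  intro A hA a0 S n b L hLD hPar h hPh
  have hApos : 0 < A := by linarith
  rcases le_or_gt A A0 with hAs | hAl
  · left
    refine card_box fun t ht i => ?_
    have h1 := (hLD.pt t ht).t_le i
    have h2 : (2 * A0 : ℝ) ≤ B0 := Nat.le_ceil _
    have h3 : |(t i : ℝ)| ≤ (B0 : ℝ) := by linarith
    exact_mod_cast h3
  rcases S.eq_empty_or_nonempty with hemp | hne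
  · left
    rw [hemp, Set.ncard_empty]
    exact Nat.zero_le _
  right
  obtain ⟨T, hTc, hTw, hTi, hTW⟩ := hfam a0 h hPh (M : ℤ) (by exact_mod_cast hM.ne')
  obtain ⟨a, ha0, ha⟩ := relation_hasExp (ι := {ω // ω ∈ T}) (r := 1) (J := J) (m := m) (w := w)
    S (fun ω t => mval ω.1 t (b t)) L hLD.cop
    (by
      intro l hl
      obtain ⟨s, hs, hexp⟩ := hPar l hl
      have ht : ∀ (i : Fin 2) (n' : (Fin 2 → ℤ) → ℤ) (m : ℕ),
          HasExp S s n' (l : ℤ) m 0 (fun t => t i) := by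
        intro i n' m
        fin_cases i
        · exact hexp _ (Or.inl rfl) n' m
        · exact hexp _ (Or.inr rfl) n' m
      refine ⟨s, n, hs, fun ω => ?_⟩
      have hb : ∀ j, HasExp S s n (l : ℤ) m 1 (fun t => b t j) := fun j =>
        hasExp_b hF hLD.pt (hLD.nm l hl) hs ht hne m j
      have h1 : HasExp S s n (l : ℤ) m (∑ j, ω.1.2 j) (fun t => ∏ j, b t j ^ ω.1.2 j) := by
        refine HasExp.prod Finset.univ (fun j t => b t j ^ ω.1.2 j) (fun j => ω.1.2 j) ?_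
        intro j _
        have := (hb j).pow (ω.1.2 j)
        rwa [mul_one] at this
      have h2 : HasExp S s n (l : ℤ) m 0 (fun t => t 0 ^ ω.1.1.1 * t 1 ^ ω.1.1.2) :=
        HasExp.mul_zero_left ((ht 0 n m).pow_zero _) ((ht 1 n m).pow_zero _)
      exact (HasExp.mul_zero_left h2 h1).mono (hTw _ ω.2).2)
    (fun ω => 2 ^ Y * (Cc : ℝ) ^ J * A ^ Cnt.wt ρ ω.1)
    (by
      intro t ht ω
      exact abs_mval_le hρ hA Cc hC ω.1 Y J (hTw _ ω.2).1 (hTw _ ω.2).2 t (b t)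
        (hLD.pt t ht).t_le (hLD.pt t ht).b_le)
    (by rw [Fintype.card_coe, hTc]; exact hw)
    (by
      rw [Fintype.card_coe, hTc, Finset.prod_mul_distrib, Finset.prod_const, Finset.card_univ,
        Fintype.card_coe, hTc]
      have e1 : ∏ x : {ω // ω ∈ T}, A ^ Cnt.wt ρ x.1 = A ^ (∑ ω ∈ T, Cnt.wt ρ ω) := by
        rw [Finset.prod_coe_sort T (fun ω => A ^ Cnt.wt ρ ω)]
        rw [← Real.rpow_sum_of_pos hApos]
      rw [e1, ← mul_assoc, ← hQ]
      have e2 : A ^ (∑ ω ∈ T, Cnt.wt ρ ω) ≤ A ^ W := Real.rpow_le_rpow_of_exponent_le hA hTW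
      have e3 : (A ^ κ) ^ w ≤ ((∏ l ∈ L, l : ℕ) : ℝ) ^ w :=
        pow_le_pow_left₀ (Real.rpow_pos_of_pos hApos _).le hLD.big w
      refine lt_of_lt_of_le ?_ e3
      rw [← Real.rpow_natCast, ← Real.rpow_mul hApos.le]
      have e4 : κ * (w : ℝ) = δ + W := by rw [hδ]; ring
      rw [e4, Real.rpow_add hApos]
      have e5 : Q < A ^ δ := by
        have h1 : A0 ^ δ = Q := by
          rw [hA0, ← Real.rpow_mul (by linarith), one_div, inv_mul_cancel₀ hδ0.ne', Real.rpow_one]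
        rw [← h1]
        exact Real.rpow_lt_rpow (Real.rpow_nonneg (by linarith) _) hAl hδ0
      calc Q * A ^ (∑ ω ∈ T, Cnt.wt ρ ω) ≤ Q * A ^ W :=
            mul_le_mul_of_nonneg_left e2 (by linarith)
        _ < A ^ δ * A ^ W := mul_lt_mul_of_pos_right e5 (Real.rpow_pos_of_pos hApos _))
  -- the polynomial
  set a' : (ℕ × ℕ) × (Fin F.natDegree → ℕ) → ℤ := fun ω => if h : ω ∈ T then a ⟨ω, h⟩ else 0
    with ha'
  set G : Polynomial (MvPolynomial (Fin 2) ℤ) :=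
    ∑ ω ∈ T, C (MvPolynomial.C (a' ω)) * Imon hF k J M a0 ω with hG
  refine ⟨G, ?_, ?_, ?_, ?_⟩
  · rw [hG]
    refine (Polynomial.natDegree_sum_le_of_forall_le _ _ (n := J) fun ω hω => ?_).trans (by omega)
    exact (Polynomial.natDegree_C_mul_le _ _).trans
      ((natDegree_Imon hF k J M a0 ω).trans (hTw ω hω).2)
  · rw [hG]
    refine CD_sum _ _ _ fun ω hω => ?_
    have h1 := CD_mul (CD_C (x := MvPolynomial.C (a' ω)) (c := 0)
      (by rw [MvPolynomial.totalDegree_C])) (CD_Imon hF k J M a0 ω (hTw ω hω).2)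
    refine h1.mono ?_
    have he : ω.1.1 + ω.1.2 ≤ Y := by
      have h3 : ((ω.1.1 + ω.1.2 : ℕ) : ℝ) ≤ Y := by
        refine le_trans ?_ (hTw ω hω).1
        unfold Cnt.wt
        have : (0 : ℝ) ≤ ρ * ((∑ l, ω.2 l : ℕ) : ℝ) := by positivity
        linarith
      exact_mod_cast h3
    omega
  · intro t ht
    have h1 := ha t ht
    unfold ev3
    rw [hG, Polynomial.map_sum, Polynomial.eval_finsetSum]
    have h2 : ∀ ω ∈ T, ((C (MvPolynomial.C (a' ω)) * Imon hF k J M a0 ω).map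
        (MvPolynomial.eval t)).eval (n t) =
        (a' ω * mval ω t (b t)) * (MvPolynomial.eval t (Nf hF 2 a0)) ^ (k * J) := by
      intro ω hω
      have h3 := eval_Imon hF k J M a0 ω (hTw ω hω).2 t (n t) (b t) (hLD.pt t ht).eqn
      unfold ev3 at h3
      rw [Polynomial.map_mul, Polynomial.eval_mul, h3, Polynomial.map_C, Polynomial.eval_C,
        MvPolynomial.eval_C, mval]
      ring
    rw [Finset.sum_congr rfl h2, ← Finset.sum_mul]
    have h4 : ∑ ω ∈ T, a' ω * mval ω t (b t) = 0 := by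
      rw [← Finset.sum_coe_sort T (fun ω => a' ω * mval ω t (b t)), ← h1]
      refine Finset.sum_congr rfl fun ω _ => ?_
      simp only [ha', dif_pos ω.2]
    rw [h4, zero_mul]
  · intro hG0
    apply ha0
    funext ω
    have h6 : G = ∑ ω ∈ T, C (MvPolynomial.C (a' ω)) * Cnt.monZ hF k M J a0 ω := by
      rw [hG]
      refine Finset.sum_congr rfl fun ω _ => ?_
      rw [Stage107.Imon_eq_monZ hF k J (M : ℤ) a0 ω]
    rw [h6] at hG0
    have := hTi a' hG0 ω.1 ω.2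
    simp only [ha', dif_pos ω.2] at this
    exact this

theorem LevelData.mono {z : Fin F.natDegree → ℂ} {k Cc M : ℕ} {A ρ : ℝ}
    {a0 : Fin F.natDegree → ℤ} {S U : Set (Fin 2 → ℤ)} {n : (Fin 2 → ℤ) → ℤ}
    {b : (Fin 2 → ℤ) → Fin F.natDegree → ℤ} {L : Finset ℕ} {κ : ℝ}
    (h : LevelData hF z k Cc M A ρ a0 S n b L κ) (hU : U ⊆ S) :
    LevelData hF z k Cc M A ρ a0 U n b L κ :=
  ⟨h.a0_le, h.gp, h.fin.subset hU, fun t ht => h.pt t (hU ht), h.cop, h.big,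
    fun l hl t ht => h.nm l hl t (hU ht)⟩

theorem Par.mono {P : Type*} {r : ℕ} {S U : Set P} {l : ℤ} {φs : Set (P → ℤ)}
    (h : Par r S l φs) (hU : U ⊆ S) : Par r U l φs := by
  obtain ⟨s, hs, h⟩ := h
  exact ⟨s, fun p hp => hs p (hU hp), fun φ hφ n' m => (h φ hφ n' m).mono_set hU⟩

theorem C2_mul {ρ δ w' : ℝ} (hρ : 0 < ρ) : 505 / 1000 * ρ * (C2 ρ δ w' * ρ) =
    505 / 2000 * (δ * ρ + w') := by
  unfold C2
  field_simp
  ring

/-- **Level L2** over an irreducible plane curve. -/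
theorem free_curve (hirr : Irreducible (F.map (Int.castRingHom ℚ))) (z : Fin F.natDegree → ℂ)
    (hinj : Function.Injective z) (hz : ∀ i, F.eval₂ (Int.castRingHom ℂ) (z i) = 0) {k : ℕ}
    (hk : k + 2 = F.natDegree) (hk2 : 2 ≤ k) {ρ : ℝ} (hρ : (k : ℝ) / (k + 1) ≤ ρ) (Cc M : ℕ)
    (hC : 0 < Cc) (hM : 0 < M) (D1 : ℕ) :
    ∃ B D : ℕ, ∀ A : ℝ, 1 ≤ A → ∀ a0 S n b L,
      LevelData hF z k Cc M A ρ a0 S n b L (505 / 1000 * ρ) →
      (∀ l ∈ L, Par 1 S (l : ℤ) {(fun t => t 0), (fun t => t 1)}) →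
      ∀ h : MvPolynomial (Fin 2) ℂ, Irreducible h → h.totalDegree ≤ D1 →
      ∀ U ⊆ S, (∀ t ∈ U, MvPolynomial.eval (fun i => (t i : ℂ)) h = 0) → U.ncard ≤ B ∨
        ∃ g : Polynomial (MvPolynomial (Fin 2) ℤ), g.natDegree ≤ D ∧ CD g D ∧
          (∀ t ∈ U, ev3 g t (n t) = 0) ∧
          ¬ C h ∣ g.map (MvPolynomial.map (Int.castRingHom ℂ)) := by
  have hkR : (2 : ℝ) ≤ k := by exact_mod_cast hk2
  have hρ23 : (2 / 3 : ℝ) ≤ ρ := by
    refine le_trans ?_ hρ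
    rw [div_le_div_iff₀ (by norm_num) (by linarith)]
    linarith
  have hρ0 : 0 < ρ := by linarith
  have hκ0 : 0 < 505 / 1000 * ρ := by positivity
  -- lines
  obtain ⟨B1, E1, H1⟩ := step_of_fam hF z k hρ0 (curveFam_line hF z hinj hz hk hρ0 hκ0 (by
    rw [C2_mul hρ0]
    push_cast
    nlinarith)) Cc M hC hM
  -- conics
  obtain ⟨B2, E2, H2⟩ := step_of_fam hF z k hρ0 (curveFam_conic hF z hinj hz hk hk2 hρ0 hκ0 (by
    rw [C2_mul hρ0]
    push_cast
    linarith)) Cc M hC hM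
  -- higher degree
  have H3 : ∀ δ : ℕ, ∃ B D : ℕ, 3 ≤ δ → ∀ A : ℝ, 1 ≤ A → ∀ a0 S n b L,
      LevelData hF z k Cc M A ρ a0 S n b L (505 / 1000 * ρ) →
      (∀ l ∈ L, Par 1 S (l : ℤ) {(fun t => t 0), (fun t => t 1)}) →
      ∀ h : MvPolynomial (Fin 2) ℂ, Prime h ∧ h.totalDegree = δ → S.ncard ≤ B ∨
        ∃ g : Polynomial (MvPolynomial (Fin 2) ℤ), g.natDegree ≤ D ∧ CD g D ∧
          (∀ t ∈ S, ev3 g t (n t) = 0) ∧ Th h g ≠ 0 := by
    intro δ
    by_cases hδ : 3 ≤ δ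
    · have hδR : (3 : ℝ) ≤ δ := by exact_mod_cast hδ
      obtain ⟨B, D, H⟩ := step_of_fam hF z k hρ0 (curveFam_high hF z (by omega) hinj hz (k := k) δ
        (by omega) ρ hκ0 (by nlinarith)) Cc M hC hM
      exact ⟨B, D, fun _ => H⟩
    · exact ⟨0, 0, fun h => absurd h hδ⟩
  choose B3 E3 H3 using H3
  refine ⟨B1 + B2 + F.natDegree * (2 * Cc + 1) + (Finset.range (D1 + 1)).sup B3,
    E1 + E2 + (Finset.range (D1 + 1)).sup E3, ?_⟩
  intro A hA a0 S n b L hLD hPar h hirrh hhD U hU hUh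
  have hhp : Prime h := hirrh.prime
  have hLDU := LevelData.mono hF hLD hU
  have hParU : ∀ l ∈ L, Par 1 U (l : ℤ) {(fun t => t 0), (fun t => t 1)} :=
    fun l hl => Par.mono (hPar l hl) hU
  have hdeg0 : h.totalDegree ≠ 0 := by
    intro h0
    rw [MvPolynomial.totalDegree_eq_zero_iff_eq_C] at h0
    have hc : MvPolynomial.coeff 0 h ≠ 0 := by
      intro hc
      rw [hc, MvPolynomial.C_0] at h0
      exact hirrh.ne_zero h0
    apply hirrh.not_isUnit
    rw [h0]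
    exact (isUnit_iff_ne_zero.2 hc).map MvPolynomial.C
  have hconv : ∀ B D : ℕ, B ≤ B1 + B2 + F.natDegree * (2 * Cc + 1) +
      (Finset.range (D1 + 1)).sup B3 → D ≤ E1 + E2 + (Finset.range (D1 + 1)).sup E3 →
      (U.ncard ≤ B ∨ ∃ g : Polynomial (MvPolynomial (Fin 2) ℤ), g.natDegree ≤ D ∧ CD g D ∧
          (∀ t ∈ U, ev3 g t (n t) = 0) ∧ Th h g ≠ 0) →
      (U.ncard ≤ B1 + B2 + F.natDegree * (2 * Cc + 1) + (Finset.range (D1 + 1)).sup B3 ∨
        ∃ g : Polynomial (MvPolynomial (Fin 2) ℤ),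
          g.natDegree ≤ E1 + E2 + (Finset.range (D1 + 1)).sup E3 ∧
          CD g (E1 + E2 + (Finset.range (D1 + 1)).sup E3) ∧
          (∀ t ∈ U, ev3 g t (n t) = 0) ∧
          ¬ C h ∣ g.map (MvPolynomial.map (Int.castRingHom ℂ))) := by
    intro B D hB hD hor
    rcases hor with h1 | ⟨g, g1, g2, g3, g4⟩
    · exact Or.inl (h1.trans hB)
    · exact Or.inr ⟨g, g1.trans hD, g2.mono hD, g3, not_dvd_of_Th g4⟩
  have hcases : h.totalDegree = 1 ∨ h.totalDegree = 2 ∨ 3 ≤ h.totalDegree := by omega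
  rcases hcases with h1 | h2 | h3
  · -- lines
    set c0 := MvPolynomial.coeff 0 h with hc0
    set c1 := MvPolynomial.coeff (Finsupp.single 0 1) h with hc1
    set c2 := MvPolynomial.coeff (Finsupp.single 1 1) h with hc2
    have haff : h = MvPolynomial.C c0 + MvPolynomial.C c1 * MvPolynomial.X 0 +
        MvPolynomial.C c2 * MvPolynomial.X 1 := affine_eq h1.le
    have hne : c1 ≠ 0 ∨ c2 ≠ 0 := by
      by_contra hcon
      push Not at hcon
      rw [hcon.1, hcon.2, MvPolynomial.C_0, zero_mul, zero_mul, add_zero, add_zero] at haff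
      rw [haff, MvPolynomial.totalDegree_C] at hdeg0
      exact hdeg0 rfl
    rcases Free776L.line_dichotomy_SPt hF hirr (by omega) hinj hz a0 k Cc M A ρ
      hLDU.fin.toFinset n b (fun t ht => hLDU.pt t (by simpa using ht)) c0 c1 c2 hne
      (fun t ht => by
        have := hUh t (by simpa using ht)
        rw [haff] at this
        simpa using this) with ⟨g1, g2⟩ | hcard
    · obtain ⟨d1, d2⟩ := generic_line (a := cst z a0) hinj g1 g2 haff
      exact hconv B1 E1 (by omega) (by omega)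
        (H1 A hA a0 U n b L hLDU hParU h ⟨hhp, h1, d1, d2⟩)
    · left
      rw [← Set.ncard_eq_toFinset_card U hLDU.fin] at hcard
      omega
  · exact hconv B2 E2 (by omega) (by omega)
      (H2 A hA a0 U n b L hLDU hParU h ⟨hhp, h2, hLD.gp⟩)
  · have hmem : h.totalDegree ∈ Finset.range (D1 + 1) := Finset.mem_range.2 (by omega)
    have hb := Finset.le_sup (f := B3) hmem
    have he := Finset.le_sup (f := E3) hmem
    exact hconv (B3 h.totalDegree) (E3 h.totalDegree) (by omega) (by omega)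
      (H3 h.totalDegree h3 A hA a0 U n b L hLDU hParU h ⟨hhp, rfl⟩)

end

end Crest.Agent.R022.Free712
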