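import Crest.Agent.R022.Free712H
import Crest.Agent.R022.L2Glue776

/-! R022, stage 3 (helper712), part I: `FreeCurveAt` and `L2At`. -/

set_option autoImplicit false

namespace Crest.Agent.R022.Free712

theorem freeCurveAt {F : Polynomial ℤ} (hF : F.Monic)
    (hirr : Irreducible (F.map (Int.castRingHom ℚ))) (z : Fin F.natDegree → ℂ)
    (hinj : Function.Injective z) (hz : ∀ i, F.eval₂ (Int.castRingHom ℂ) (z i) = 0) {k : ℕ}
    (hk : k + 2 = F.natDegree) (hk2 : 2 ≤ k) {ρ : ℝ} (hρ : (k : ℝ) / (k + 1) ≤ ρ) :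
    Glue776.FreeCurveAt hF z k ρ (505 / 1000 * ρ) :=
  fun Cc M hC hM D1 => free_curve hF hirr z hinj hz hk hk2 hρ Cc M hC hM D1

/-- **Level L2** in the form of `Ifaces250`. -/
theorem l2At {F : Polynomial ℤ} (hF : F.Monic)
    (hirr : Irreducible (F.map (Int.castRingHom ℚ))) (z : Fin F.natDegree → ℂ)
    (hinj : Function.Injective z) (hz : ∀ i, F.eval₂ (Int.castRingHom ℂ) (z i) = 0) {k : ℕ}
    (hk : k + 2 = F.natDegree) (hk2 : 2 ≤ k) {ρ : ℝ} (hρ : (k : ℝ) / (k + 1) ≤ ρ) :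
    L2At hF z k ρ (505 / 1000 * ρ) :=
  Glue776.l2At_of_freeCurveAt hF z k ρ _ (freeCurveAt hF hirr z hinj hz hk hk2 hρ)

end Crest.Agent.R022.Free712
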