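import Crest.Agent.R022.SliceDefs

/-! Row 22 (helper250): slices which are not in general position have codimension `≥ 2`. -/

set_option autoImplicit false

open Polynomial

namespace Crest.Agent.R022.GenPosCount

open Crest.Agent.R022.Torsor

/-- If a rational polynomial vanishes at one root of the irreducible `F` it vanishes at all roots. -/
theorem vanish_all {F : ℤ[X]} (hF : F.Monic) (hirr : Irreducible F) (Γ : ℚ[X]) (x y : ℂ)
    (hx : F.eval₂ (Int.castRingHom ℂ) x = 0) (hy : F.eval₂ (Int.castRingHom ℂ) y = 0)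
    (h : aeval x Γ = 0) : aeval y Γ = 0 := by
  have hQ : Irreducible (F.map (Int.castRingHom ℚ)) :=
    (Polynomial.IsPrimitive.Int.irreducible_iff_irreducible_map_cast hF.isPrimitive).mp hirr
  have hmap : ∀ w : ℂ, aeval w (F.map (Int.castRingHom ℚ)) = F.eval₂ (Int.castRingHom ℂ) w := by
    intro w
    rw [Polynomial.aeval_def, Polynomial.eval₂_map]
    congr 1
  have hmin : F.map (Int.castRingHom ℚ) = minpoly ℚ x :=
    minpoly.eq_of_irreducible_of_monic hQ (by rw [hmap]; exact hx) (hF.map _)
  have hdvd : F.map (Int.castRingHom ℚ) ∣ Γ := by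
    rw [hmin]; exact minpoly.dvd ℚ x h
  obtain ⟨G, rfl⟩ := hdvd
  rw [map_mul, hmap, hy, zero_mul]

/-- The coefficients of `F / (X - y)` are integer polynomials in the root `y`. -/
theorem exists_coeff_polys (F : ℤ[X]) : ∃ q : ℕ → ℤ[X], ∀ (y : ℂ) (Q : ℂ[X]),
    F.map (Int.castRingHom ℂ) = (X - C y) * Q →
    ∀ m, Q.coeff m = (q m).eval₂ (Int.castRingHom ℂ) y := by
  -- downward recursion: `Q_m = f_{m+1} + y Q_{m+1}`
  have key : ∀ (y : ℂ) (Q : ℂ[X]), F.map (Int.castRingHom ℂ) = (X - C y) * Q →
      ∀ m, Q.coeff m = (F.coeff (m + 1) : ℂ) + y * Q.coeff (m + 1) := by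
    intro y Q h m
    have h1 := congrArg (fun P => P.coeff (m + 1)) h
    simp only [sub_mul, Polynomial.coeff_sub, Polynomial.coeff_X_mul, Polynomial.coeff_C_mul,
      Polynomial.coeff_map] at h1
    have h2 : (Int.castRingHom ℂ) (F.coeff (m + 1)) = (F.coeff (m + 1) : ℂ) := rfl
    rw [h2] at h1
    linear_combination -h1
  -- statement for indices above the degree
  have main : ∀ e : ℕ, ∀ m : ℕ, F.natDegree ≤ m + e → ∃ qm : ℤ[X], ∀ (y : ℂ) (Q : ℂ[X]),
      F.map (Int.castRingHom ℂ) = (X - C y) * Q → Q.coeff m = qm.eval₂ (Int.castRingHom ℂ) y := by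
    intro e
    induction e with
    | zero =>
      intro m hm
      refine ⟨0, ?_⟩
      intro y Q h
      rw [Polynomial.eval₂_zero]
      by_cases hQ : Q = 0
      · rw [hQ]; simp
      · have h1 : (F.map (Int.castRingHom ℂ)).natDegree = 1 + Q.natDegree := by
          rw [h, Polynomial.natDegree_mul (Polynomial.X_sub_C_ne_zero y) hQ,
            Polynomial.natDegree_X_sub_C]
        have h2 : (F.map (Int.castRingHom ℂ)).natDegree ≤ F.natDegree :=
          Polynomial.natDegree_map_le
        exact Polynomial.coeff_eq_zero_of_natDegree_lt (by omega)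
    | succ e ih =>
      intro m hm
      obtain ⟨qm, hqm⟩ := ih (m + 1) (by omega)
      refine ⟨C (F.coeff (m + 1)) + X * qm, ?_⟩
      intro y Q h
      rw [key y Q h m, hqm y Q h, Polynomial.eval₂_add, Polynomial.eval₂_mul, Polynomial.eval₂_C,
        Polynomial.eval₂_X]
      rfl
  choose q hq using fun m : ℕ => main F.natDegree m (by omega)
  exact ⟨q, fun y Q h m => hq m y Q h⟩

/-- the functional `φ(g)` -/
noncomputable def phi (x y w : ℂ) (g : ℂ[X]) : ℂ :=
  (g.eval x - g.eval w) * (y - w) - (g.eval y - g.eval w) * (x - w)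

theorem phi_eq (x y w : ℂ) (g : ℂ[X]) (n : ℕ) (hg : g.natDegree < n) :
    phi x y w g = ∑ m ∈ Finset.range n, g.coeff m * phi x y w (X ^ m) := by
  unfold phi
  rw [Polynomial.eval_eq_sum_range' hg x, Polynomial.eval_eq_sum_range' hg y,
    Polynomial.eval_eq_sum_range' hg w]
  simp only [Polynomial.eval_pow, Polynomial.eval_X]
  rw [← Finset.sum_sub_distrib, ← Finset.sum_sub_distrib, Finset.sum_mul, Finset.sum_mul,
    ← Finset.sum_sub_distrib]
  refine Finset.sum_congr rfl fun m _ => ?_
  ring

/-- `E_m = φ(X^m)` are not all rational multiples of `E_2`. -/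
theorem exists_irrational {F : ℤ[X]} (hF : F.Monic) (hirr : Irreducible F)
    (hd : 4 ≤ F.natDegree) (z : Fin F.natDegree → ℂ) (hinj : Function.Injective z)
    (hz : ∀ i, F.eval₂ (Int.castRingHom ℂ) (z i) = 0)
    (hprod : F.map (Int.castRingHom ℂ) = ∏ i, (X - C (z i)))
    (i j l : Fin F.natDegree) (hij : i ≠ j) (hil : i ≠ l) (hjl : j ≠ l) :
    ∃ m : ℕ, 3 ≤ m ∧ m < F.natDegree ∧
      ∀ r : ℚ, phi (z i) (z j) (z l) (X ^ m) ≠ r * phi (z i) (z j) (z l) (X ^ 2) := by
  classical
  by_contra hcon
  push Not at hcon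
  set φ := phi (z i) (z j) (z l) with hφ
  have hrat : ∀ m, ∃ r : ℚ, m < F.natDegree → φ (X ^ m) = r * φ (X ^ 2) := by
    intro m
    rcases Nat.lt_or_ge m 3 with hm | hm
    · interval_cases m
      · exact ⟨0, fun _ => by simp [hφ, phi]⟩
      · refine ⟨0, fun _ => ?_⟩
        simp only [hφ, phi, Polynomial.eval_pow, Polynomial.eval_X]
        push_cast
        ring
      · exact ⟨1, fun _ => by push_cast; ring⟩
    · by_cases hm2 : m < F.natDegree
      · obtain ⟨r, hr⟩ := hcon m hm hm2
        exact ⟨r, fun _ => hr⟩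
      · exact ⟨0, fun h => absurd h hm2⟩
  choose r hr using hrat
  obtain ⟨q, hq⟩ := exists_coeff_polys F
  set Γ : ℚ[X] := ∑ m ∈ Finset.range F.natDegree, C (r m) * (q m).map (Int.castRingHom ℚ) with hΓ
  have hΓeval : ∀ y : ℂ, aeval y Γ = ∑ m ∈ Finset.range F.natDegree,
      (r m : ℂ) * (q m).eval₂ (Int.castRingHom ℂ) y := by
    intro y
    rw [hΓ, map_sum]
    refine Finset.sum_congr rfl fun m _ => ?_
    rw [map_mul, Polynomial.aeval_C, Polynomial.aeval_def, Polynomial.eval₂_map]
    rfl
  -- quotient polynomials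
  have hQ : ∀ s, F.map (Int.castRingHom ℂ) = (X - C (z s)) * ∏ u ∈ Finset.univ.erase s, (X - C (z u)) := by
    intro s
    rw [hprod, Finset.mul_prod_erase Finset.univ (fun u => (X - C (z u))) (Finset.mem_univ s)]
  have hQdeg : ∀ s, (∏ u ∈ Finset.univ.erase s, (X - C (z u))).natDegree < F.natDegree := by
    intro s
    rw [Polynomial.natDegree_prod_of_monic _ _ (fun u _ => Polynomial.monic_X_sub_C _)]
    simp only [Polynomial.natDegree_X_sub_C, Finset.sum_const, smul_eq_mul, mul_one]
    rw [Finset.card_erase_of_mem (Finset.mem_univ s), Finset.card_univ, Fintype.card_fin]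
    omega
  have hφQ : ∀ s, φ (∏ u ∈ Finset.univ.erase s, (X - C (z u))) = φ (X ^ 2) * aeval (z s) Γ := by
    intro s
    rw [hφ, phi_eq _ _ _ _ _ (hQdeg s), hΓeval, Finset.mul_sum]
    refine Finset.sum_congr rfl fun m hm => ?_
    rw [hq (z s) _ (hQ s) m]
    have := hr m (Finset.mem_range.mp hm)
    rw [← hφ, this]
    ring
  have hev : ∀ s u, u ≠ s → (∏ u ∈ Finset.univ.erase s, (X - C (z u))).eval (z u) = 0 := by
    intro s u hus
    rw [Polynomial.eval_prod]
    refine Finset.prod_eq_zero (Finset.mem_erase.mpr ⟨hus, Finset.mem_univ u⟩) ?_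
    simp
  have hφ2 : φ (X ^ 2) ≠ 0 := by
    have : φ (X ^ 2) = (z i - z l) * (z j - z l) * (z i - z j) := by
      simp only [hφ, phi, Polynomial.eval_pow, Polynomial.eval_X]
      ring
    rw [this]
    exact mul_ne_zero (mul_ne_zero (sub_ne_zero.mpr (hinj.ne hil)) (sub_ne_zero.mpr (hinj.ne hjl)))
      (sub_ne_zero.mpr (hinj.ne hij))
  -- a fourth root
  obtain ⟨s, hsi, hsj, hsl⟩ : ∃ s, s ≠ i ∧ s ≠ j ∧ s ≠ l := by
    by_contra hno
    push Not at hno
    have h1 : (Finset.univ : Finset (Fin F.natDegree)) ⊆ {i, j, l} := by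
      intro s _
      simp only [Finset.mem_insert, Finset.mem_singleton]
      by_cases h2 : s = i
      · exact Or.inl h2
      · by_cases h3 : s = j
        · exact Or.inr (Or.inl h3)
        · exact Or.inr (Or.inr (hno s h2 h3))
    have h2 := Finset.card_le_card h1
    rw [Finset.card_univ, Fintype.card_fin] at h2
    have h3 : ({i, j, l} : Finset (Fin F.natDegree)).card ≤ 3 := Finset.card_le_three
    omega
  have hΓs : aeval (z s) Γ = 0 := by
    have h1 := hφQ s
    have h2 : φ (∏ u ∈ Finset.univ.erase s, (X - C (z u))) = 0 := by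
      simp only [hφ, phi, hev s i hsi.symm, hev s j hsj.symm, hev s l hsl.symm]
      ring
    rw [h2] at h1
    exact (mul_eq_zero.mp h1.symm).resolve_left hφ2
  have hΓi : aeval (z i) Γ = 0 := vanish_all hF hirr Γ (z s) (z i) (hz s) (hz i) hΓs
  have h1 := hφQ i
  rw [hΓi, mul_zero] at h1
  simp only [hφ, phi, hev i j hij.symm, hev i l hil.symm, sub_zero, zero_mul] at h1
  have h2 : (∏ u ∈ Finset.univ.erase i, (X - C (z u))).eval (z i) ≠ 0 := by
    rw [Polynomial.eval_prod]
    refine Finset.prod_ne_zero_iff.mpr fun u hu => ?_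
    simp only [Polynomial.eval_sub, Polynomial.eval_X, Polynomial.eval_C]
    exact sub_ne_zero.mpr (hinj.ne (Finset.ne_of_mem_erase hu).symm)
  rcases mul_eq_zero.mp h1 with h3 | h3
  · exact h2 h3
  · exact (sub_ne_zero.mpr (hinj.ne hjl)) h3

theorem phi_cst {d : ℕ} (z : Fin d → ℂ) (a : Fin d → ℤ) (i j l : Fin d) :
    (cst z a i - cst z a l) * (z j - z l) - (cst z a j - cst z a l) * (z i - z l) =
      ∑ m : Fin d, if (m : ℕ) < 2 then 0 else (a m : ℂ) * phi (z i) (z j) (z l) (X ^ (m : ℕ)) := by
  unfold cst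
  rw [← Finset.sum_sub_distrib, ← Finset.sum_sub_distrib, Finset.sum_mul, Finset.sum_mul,
    ← Finset.sum_sub_distrib]
  refine Finset.sum_congr rfl fun m _ => ?_
  split_ifs
  · simp
  · simp only [phi, Polynomial.eval_pow, Polynomial.eval_X]
    ring

/-- The number of slices not in general position. -/
theorem card_not_genPos {F : ℤ[X]} (hF : F.Monic) (hirr : Irreducible F)
    (hd : 4 ≤ F.natDegree) (z : Fin F.natDegree → ℂ) (hinj : Function.Injective z)
    (hz : ∀ i, F.eval₂ (Int.castRingHom ℂ) (z i) = 0)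
    (hprod : F.map (Int.castRingHom ℂ) = ∏ i, (X - C (z i))) (B : ℕ)
    (T : Finset (Fin F.natDegree → ℤ)) (hT : ∀ a ∈ T, ∀ i, |a i| ≤ (B : ℤ))
    (hT0 : ∀ a ∈ T, ∀ i : Fin F.natDegree, (i : ℕ) < 2 → a i = 0)
    (hbad : ∀ a ∈ T, ¬ GenPos z a) :
    T.card ≤ F.natDegree ^ 3 * (2 * B + 1) ^ (F.natDegree - 4) := by
  classical
  -- for a triple
  have htriple : ∀ q : Fin F.natDegree × Fin F.natDegree × Fin F.natDegree,
      (T.filter fun a => q.1 ≠ q.2.1 ∧ q.1 ≠ q.2.2 ∧ q.2.1 ≠ q.2.2 ∧
        (cst z a q.1 - cst z a q.2.2) * (z q.2.1 - z q.2.2) =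
          (cst z a q.2.1 - cst z a q.2.2) * (z q.1 - z q.2.2)).card ≤
      (2 * B + 1) ^ (F.natDegree - 4) := by
    rintro ⟨i, j, l⟩
    simp only
    by_cases hdist : i ≠ j ∧ i ≠ l ∧ j ≠ l
    · obtain ⟨hij, hil, hjl⟩ := hdist
      obtain ⟨m0, hm3, hmd, hirrat⟩ := exists_irrational hF hirr hd z hinj hz hprod i j l hij hil hjl
      set E : Finset (Fin F.natDegree) := {⟨0, by omega⟩, ⟨1, by omega⟩, ⟨2, by omega⟩, ⟨m0, hmd⟩} with hE
      have hEcard : E.card = 4 := by
        rw [hE]
        rw [Finset.card_insert_of_notMem, Finset.card_insert_of_notMem,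
          Finset.card_insert_of_notMem, Finset.card_singleton]
        · simp only [Finset.mem_singleton, Fin.mk.injEq]; omega
        · simp only [Finset.mem_insert, Finset.mem_singleton, Fin.mk.injEq]; omega
        · simp only [Finset.mem_insert, Finset.mem_singleton, Fin.mk.injEq]; omega
      set R := (Finset.univ \ E) with hR
      have hRcard : R.card = F.natDegree - 4 := by
        rw [hR, Finset.card_sdiff_of_subset (Finset.subset_univ _), hEcard, Finset.card_univ,
          Fintype.card_fin]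
      have hbox : (Fintype.piFinset fun _ : R => Finset.Icc (-(B : ℤ)) B).card =
          (2 * B + 1) ^ (F.natDegree - 4) := by
        rw [Fintype.card_piFinset, Finset.prod_const, Finset.card_univ, Fintype.card_coe, hRcard,
          Int.card_Icc]
        congr 1
        omega
      rw [← hbox]
      refine Finset.card_le_card_of_injOn (fun a => fun x : R => a x) ?_ ?_
      · intro a ha
        have ha' := Finset.mem_filter.mp ha
        refine Fintype.mem_piFinset.mpr fun x => Finset.mem_Icc.mpr ?_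
        exact abs_le.mp (hT a ha'.1 x)
      · intro a ha a' ha' haa
        have h1 := Finset.mem_filter.mp ha
        have h1' := Finset.mem_filter.mp ha'
        have hag : ∀ x ∈ R, a x = a' x := fun x hx => congrFun haa ⟨x, hx⟩
        have h2 : ∑ m : Fin F.natDegree, (if (m : ℕ) < 2 then 0 else
            (a m : ℂ) * phi (z i) (z j) (z l) (X ^ (m : ℕ))) = 0 := by
          rw [← phi_cst, h1.2.2.2.2, sub_self]
        have h2' : ∑ m : Fin F.natDegree, (if (m : ℕ) < 2 then 0 else
            (a' m : ℂ) * phi (z i) (z j) (z l) (X ^ (m : ℕ))) = 0 := by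
          rw [← phi_cst, h1'.2.2.2.2, sub_self]
        have h3 : ∑ m : Fin F.natDegree, (if (m : ℕ) < 2 then 0 else
            ((a m : ℂ) - a' m) * phi (z i) (z j) (z l) (X ^ (m : ℕ))) = 0 := by
          rw [← sub_self (0 : ℂ)]
          conv_rhs => rw [← h2]
          conv_rhs => arg 2; rw [h2, ← h2']
          rw [← Finset.sum_sub_distrib]
          refine Finset.sum_congr rfl fun m _ => ?_
          split_ifs
          · simp
          · ring
        have h4 : ((a ⟨2, by omega⟩ : ℂ) - a' ⟨2, by omega⟩) * phi (z i) (z j) (z l) (X ^ 2) +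
            ((a ⟨m0, hmd⟩ : ℂ) - a' ⟨m0, hmd⟩) * phi (z i) (z j) (z l) (X ^ m0) = 0 := by
          rw [← h3]
          symm
          rw [← Finset.sum_subset (Finset.subset_univ ({⟨2, by omega⟩, ⟨m0, hmd⟩} : Finset (Fin F.natDegree)))]
          · rw [Finset.sum_pair]
            · simp only [show ¬ (2 : ℕ) < 2 by omega, show ¬ m0 < 2 by omega, if_false]
            · simp only [ne_eq, Fin.mk.injEq]; omega
          · intro m _ hm
            split_ifs with hm2
            · rfl
            · have : m ∈ R := by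
                rw [hR, Finset.mem_sdiff]
                refine ⟨Finset.mem_univ _, ?_⟩
                rw [hE]
                simp only [Finset.mem_insert, Finset.mem_singleton] at hm ⊢
                push Not at hm ⊢
                refine ⟨?_, ?_, hm.1, hm.2⟩
                · intro h; rw [h] at hm2; simp at hm2
                · intro h; rw [h] at hm2; simp at hm2
              rw [hag m this, sub_self, zero_mul]
        have hφ2 : phi (z i) (z j) (z l) (X ^ 2) ≠ 0 := by
          have : phi (z i) (z j) (z l) (X ^ 2) = (z i - z l) * (z j - z l) * (z i - z j) := by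
            simp only [phi, Polynomial.eval_pow, Polynomial.eval_X]
            ring
          rw [this]
          exact mul_ne_zero (mul_ne_zero (sub_ne_zero.mpr (hinj.ne hil))
            (sub_ne_zero.mpr (hinj.ne hjl))) (sub_ne_zero.mpr (hinj.ne hij))
        have h5 : a ⟨m0, hmd⟩ = a' ⟨m0, hmd⟩ := by
          by_contra hne
          have hne' : ((a ⟨m0, hmd⟩ : ℂ) - a' ⟨m0, hmd⟩) ≠ 0 := by
            rw [sub_ne_zero]; exact_mod_cast hne
          apply hirrat (-((a ⟨2, by omega⟩ : ℚ) - a' ⟨2, by omega⟩) / ((a ⟨m0, hmd⟩ : ℚ) - a' ⟨m0, hmd⟩))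
          push_cast
          field_simp
          linear_combination h4
        have h6 : a ⟨2, by omega⟩ = a' ⟨2, by omega⟩ := by
          rw [h5, sub_self, zero_mul, add_zero] at h4
          have := (mul_eq_zero.mp h4).resolve_right hφ2
          have := sub_eq_zero.mp this
          exact_mod_cast this
        funext x
        by_cases hx : x ∈ R
        · exact hag x hx
        · rw [hR, Finset.mem_sdiff, not_and_not_right] at hx
          have := hx (Finset.mem_univ _)
          rw [hE] at this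
          simp only [Finset.mem_insert, Finset.mem_singleton] at this
          rcases this with h | h | h | h
          · rw [hT0 a h1.1 x (by rw [h]; simp), hT0 a' h1'.1 x (by rw [h]; simp)]
          · rw [hT0 a h1.1 x (by rw [h]; simp), hT0 a' h1'.1 x (by rw [h]; simp)]
          · rw [h]; exact h6
          · rw [h]; exact h5
    · have : (T.filter fun a => i ≠ j ∧ i ≠ l ∧ j ≠ l ∧
        (cst z a i - cst z a l) * (z j - z l) =
          (cst z a j - cst z a l) * (z i - z l)) = ∅ := by
        refine Finset.filter_eq_empty_iff.mpr ?_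
        intro a _ h
        exact hdist ⟨h.1, h.2.1, h.2.2.1⟩
      rw [this]; simp
  have hcover : T ⊆ (Finset.univ : Finset (Fin F.natDegree × Fin F.natDegree × Fin F.natDegree)).biUnion
      (fun q => T.filter fun a => q.1 ≠ q.2.1 ∧ q.1 ≠ q.2.2 ∧ q.2.1 ≠ q.2.2 ∧
        (cst z a q.1 - cst z a q.2.2) * (z q.2.1 - z q.2.2) =
          (cst z a q.2.1 - cst z a q.2.2) * (z q.1 - z q.2.2)) := by
    intro a ha
    have h1 := hbad a ha
    unfold GenPos at h1
    push Not at h1
    obtain ⟨i, j, l, h2, h3, h4, h5⟩ := h1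
    rw [Finset.mem_biUnion]
    exact ⟨(i, j, l), Finset.mem_univ _, Finset.mem_filter.mpr ⟨ha, h2, h3, h4, h5⟩⟩
  calc T.card ≤ _ := Finset.card_le_card hcover
    _ ≤ ∑ q : Fin F.natDegree × Fin F.natDegree × Fin F.natDegree, (2 * B + 1) ^ (F.natDegree - 4) :=
        Finset.card_biUnion_le.trans (Finset.sum_le_sum fun q _ => htriple q)
    _ = F.natDegree ^ 3 * (2 * B + 1) ^ (F.natDegree - 4) := by
        rw [Finset.sum_const, Finset.card_univ, Fintype.card_prod, Fintype.card_prod,
          Fintype.card_fin, smul_eq_mul]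
        ring

end Crest.Agent.R022.GenPosCount
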