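import Crest.Agent.R022.Ifaces250

/-! Row 22 (helper250): auxiliary lemmas for the instantiation: pool of primes, sizes. -/

set_option autoImplicit false

namespace Crest.Agent.R022.Inst

open Crest.Agent.R022.Torsor Crest.Agent.R022.Expand

/-- A pool of `K` primes in `(X, 2 ^ K X]`. -/
theorem exists_pool (K X : ℕ) (hX : 1 ≤ X) : ∃ PP : Finset ℕ, PP.card = K ∧
    ∀ r ∈ PP, r.Prime ∧ X < r ∧ r ≤ 2 ^ K * X := by
  classical
  induction K with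
  | zero => exact ⟨∅, rfl, by simp⟩
  | succ K ih =>
    obtain ⟨PP, hcard, hPP⟩ := ih
    have hne : 2 ^ K * X ≠ 0 := by positivity
    obtain ⟨p, hp, h1, h2⟩ := Nat.exists_prime_lt_and_le_two_mul (2 ^ K * X) hne
    have hpn : p ∉ PP := fun h => by
      have := (hPP p h).2.2
      omega
    refine ⟨insert p PP, by rw [Finset.card_insert_of_notMem hpn, hcard], ?_⟩
    intro r hr
    rcases Finset.mem_insert.mp hr with rfl | hr
    · refine ⟨hp, lt_of_le_of_lt ?_ h1, by rw [pow_succ]; linarith⟩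
      calc X = 1 * X := (one_mul X).symm
        _ ≤ 2 ^ K * X := Nat.mul_le_mul_right _ Nat.one_le_two_pow
    · obtain ⟨g1, g2, g3⟩ := hPP r hr
      refine ⟨g1, g2, g3.trans ?_⟩
      rw [pow_succ]
      nlinarith [Nat.zero_le (2 ^ K * X)]

/-- the moduli `r ^ a` -/
def mods (a : ℕ) (Q : Finset ℕ) : Finset ℕ := Q.image (fun r => r ^ a)

theorem mem_mods {a : ℕ} {Q : Finset ℕ} {l : ℕ} : l ∈ mods a Q ↔ ∃ r ∈ Q, r ^ a = l := by
  unfold mods; simp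

theorem mods_coprime {a : ℕ} {Q : Finset ℕ} (hQ : ∀ r ∈ Q, r.Prime) :
    ((mods a Q : Finset ℕ) : Set ℕ).Pairwise Nat.Coprime := by
  intro x hx y hy hxy
  obtain ⟨r, hr, rfl⟩ := mem_mods.mp hx
  obtain ⟨s, hs, rfl⟩ := mem_mods.mp hy
  have hrs : r ≠ s := fun h => hxy (by rw [h])
  exact Nat.Coprime.pow _ _ ((Nat.coprime_primes (hQ r hr) (hQ s hs)).mpr hrs)

theorem prod_mods {a : ℕ} (ha : 1 ≤ a) {Q : Finset ℕ} :
    ∏ l ∈ mods a Q, l = ∏ r ∈ Q, r ^ a := by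
  unfold mods
  rw [Finset.prod_image]
  intro x _ y _ h
  exact Nat.pow_left_injective (by omega) h

/-- lower bound of the product of the moduli -/
theorem le_prod_mods {a h : ℕ} (ha : 1 ≤ a) {Q : Finset ℕ} {X : ℕ} (hX : 1 ≤ X)
    (hQ : ∀ r ∈ Q, X < r) (hcard : h ≤ Q.card) {A ε κ : ℝ} (hA : 1 ≤ A) (hXA : A ^ ε ≤ X)
    (hκ : κ ≤ ε * (a * h)) (hε : 0 ≤ ε) :
    A ^ κ ≤ ((∏ l ∈ mods a Q, l : ℕ) : ℝ) := by
  have hA0 : 0 < A := by linarith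
  rw [prod_mods ha]
  have h1 : X ^ (a * h) ≤ ∏ r ∈ Q, r ^ a := by
    calc X ^ (a * h) ≤ X ^ (a * Q.card) :=
          Nat.pow_le_pow_right hX (Nat.mul_le_mul_left _ hcard)
      _ = ∏ _r ∈ Q, X ^ a := by rw [Finset.prod_const, ← pow_mul]
      _ ≤ ∏ r ∈ Q, r ^ a :=
          Finset.prod_le_prod' fun r hr => Nat.pow_le_pow_left (hQ r hr).le _
  calc A ^ κ ≤ A ^ (ε * (a * h)) := Real.rpow_le_rpow_of_exponent_le hA hκ
    _ = (A ^ ε) ^ (a * h : ℕ) := by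
        rw [Real.rpow_mul hA0.le, ← Nat.cast_mul, Real.rpow_natCast]
    _ ≤ (X : ℝ) ^ (a * h : ℕ) := pow_le_pow_left₀ (Real.rpow_nonneg hA0.le _) hXA _
    _ = ((X ^ (a * h) : ℕ) : ℝ) := by push_cast; rfl
    _ ≤ _ := by exact_mod_cast h1

/-- For constants `c0, c1, E` there are `B, A1` with `c0 * H ^ c1 < X ^ (B+1)` for `A ≥ A1`, where
`H ≤ c2 * A ^ E`, `A ^ ε ≤ X`. -/
theorem exists_B (c0 c1 E : ℕ) (c2 : ℝ) (hc2 : 0 ≤ c2) (ε : ℝ) (hε : 0 < ε) :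
    ∃ (B : ℕ) (A1 : ℝ), ∀ A : ℝ, A1 ≤ A → 1 ≤ A → ∀ H X : ℕ, (H : ℝ) ≤ c2 * A ^ E →
      A ^ ε ≤ X → c0 * H ^ c1 < X ^ (B + 1) := by
  obtain ⟨B, hB⟩ := exists_nat_ge (((E * c1 : ℕ) + 1 : ℝ) / ε)
  have hB' : ((E * c1 : ℕ) : ℝ) + 1 ≤ ε * (B + 1) := by
    rw [div_le_iff₀ hε] at hB
    nlinarith
  refine ⟨B, c0 * c2 ^ c1 + 1, ?_⟩
  intro A hA1 hA H X hH hX
  have hA0 : 0 < A := by linarith
  have h1 : ((c0 * H ^ c1 : ℕ) : ℝ) < ((X ^ (B + 1) : ℕ) : ℝ) := by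
    push_cast
    calc (c0 : ℝ) * (H : ℝ) ^ c1 ≤ c0 * (c2 * A ^ E) ^ c1 := by gcongr
      _ = (c0 * c2 ^ c1) * A ^ (E * c1) := by rw [mul_pow, pow_mul]; ring
      _ < A * A ^ (E * c1) := by
          apply mul_lt_mul_of_pos_right _ (by positivity)
          linarith
      _ = A ^ (((E * c1 : ℕ) : ℝ) + 1) := by
          rw [Real.rpow_add hA0, Real.rpow_natCast, Real.rpow_one, mul_comm]
      _ ≤ A ^ (ε * (B + 1)) := Real.rpow_le_rpow_of_exponent_le hA hB'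
      _ = (A ^ ε) ^ (B + 1) := by
          rw [Real.rpow_mul hA0.le, ← Nat.cast_add_one, Real.rpow_natCast]
      _ ≤ (X : ℝ) ^ (B + 1) := by gcongr
  exact_mod_cast h1

end Crest.Agent.R022.Inst
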