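import Crest.Agent.R022.InstA250

/-! Row 22 (helper250): instantiation: `SliceBoundAt` from the abstract level bookkeeping and the
four level theorems. -/

set_option autoImplicit false

namespace Crest.Agent.R022.Inst

open Crest.Agent.R022.Torsor Crest.Agent.R022.Expand

/-- shape of the abstract level theorem (helper859) used here -/
def LevelsStmt : Prop :=
  ∀ h a b D0 D1 D2 C3 : ℕ, 1 ≤ a → a ≤ b → ∃ c0 c1 : ℕ, ∀ B : ℕ, ∃ K Const : ℕ,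
    ∀ (H X X' : ℕ) (T : Finset (Fin 2 → ℤ)) (n : (Fin 2 → ℤ) → ℤ) (PP : Finset ℕ),
    PP.card = K → (∀ r ∈ PP, r.Prime ∧ X < r ∧ r ≤ X') → 1 ≤ H →
    (∀ t ∈ T, (∀ i, (t i).natAbs ≤ H) ∧ (n t).natAbs ≤ H) → c0 * H ^ c1 < X ^ (B + 1) →
    (∀ U ⊆ T, ∀ Q ⊆ PP, Q.card = h →
      (∀ r ∈ Q, ∀ t ∈ U, ∀ t' ∈ U, ∀ i, (r : ℤ) ^ a ∣ t i - t' i) →
      ∃ G : MvPolynomial (Fin 3) ℤ, G ≠ 0 ∧ G.totalDegree ≤ D0 ∧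
        ∀ t ∈ U, MvPolynomial.eval ![n t, t 0, t 1] G = 0) →
    (∀ U ⊆ T, ∀ Q ⊆ PP, Q.card = h + 1 →
      (∃ G : MvPolynomial (Fin 3) ℤ, G ≠ 0 ∧ G.totalDegree ≤ D0 ∧
        ∀ t ∈ U, MvPolynomial.eval ![n t, t 0, t 1] G = 0) →
      (∀ r ∈ Q, Par 2 (U : Set (Fin 2 → ℤ)) ((r : ℤ) ^ a) {(fun t => t 0), (fun t => t 1), n}) →
      ∃ R : MvPolynomial (Fin 2) ℤ, R ≠ 0 ∧ R.totalDegree ≤ D1 ∧
        ∀ t ∈ U, MvPolynomial.eval t R = 0) →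
    (∀ U ⊆ T, ∀ Q ⊆ PP, Q.card = h + 2 →
      (∃ R : MvPolynomial (Fin 2) ℤ, R ≠ 0 ∧ R.totalDegree ≤ D1 ∧
        ∀ t ∈ U, MvPolynomial.eval t R = 0) →
      (∀ r ∈ Q, Par 1 (U : Set (Fin 2 → ℤ)) ((r : ℤ) ^ b) {(fun t => t 0), (fun t => t 1)}) →
      ∀ j : Fin 2, ∃ E : MvPolynomial (Fin 2) ℤ, E ≠ 0 ∧ E.totalDegree ≤ D2 ∧
        ∀ t ∈ U, MvPolynomial.eval ![n t, t j] E = 0) →
    (∀ U ⊆ T, ∀ Q ⊆ PP, Q.card = h + 3 →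
      (∀ r ∈ Q, Par 1 (U : Set (Fin 2 → ℤ)) ((r : ℤ) ^ b) {(fun t => t 0), (fun t => t 1), n}) →
      U.card ≤ C3) →
    T.card ≤ Const * X' ^ ((a + b) * (h + 3))

/-- L0 in the shape of the interfaces -/
theorem l0At {F : Polynomial ℤ} (hF : F.Monic) (z : Fin F.natDegree → ℂ)
    (hinj : Function.Injective z) (hz : ∀ i, F.eval₂ (Int.castRingHom ℂ) (z i) = 0) {k : ℕ}
    (hk : k + 2 = F.natDegree) (hk2 : 2 ≤ k) {ρ : ℝ} (hρ : 3 / 5 ≤ ρ) (Cc M : ℕ) (hC : 0 < Cc)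
    (hM : 0 < M) : ∃ D0 : ℕ, ∀ A : ℝ, 1 ≤ A → ∀ a0 S n b L,
      LevelData hF z k Cc M A ρ a0 S n b L (49 / 100 * ρ) →
      (∀ l ∈ L, ∀ t ∈ S, ∀ t' ∈ S, ∀ i, (l : ℤ) ∣ t i - t' i) →
      ∃ G : MvPolynomial (Fin 3) ℤ, G ≠ 0 ∧ G.totalDegree ≤ D0 ∧
        ∀ t ∈ S, MvPolynomial.eval ![n t, t 0, t 1] G = 0 := by
  obtain ⟨D0, h⟩ := Stage107.level0 hF z hinj hz hk hk2 hρ Cc M hC hM
  refine ⟨2 * D0, ?_⟩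
  intro A hA a0 S n b L hL hcong
  obtain ⟨G, hG0, hGd, hGc, hG⟩ := h A hA a0 hL.gp (Fin 2 → ℤ) S (fun t => t) n b hL.pt L hL.cop
    hL.big hL.nm hcong
  obtain ⟨H, hH0, hHd, hH⟩ := Stage107.exists_mv G hG0 hGd hGc
  refine ⟨H, hH0, hHd, ?_⟩
  intro t ht
  have h1 := hH t (n t)
  have h2 : (![n t, t 0, t 1] : Fin 3 → ℤ) = Fin.cons (n t) t := by
    funext i
    refine Fin.cases rfl (fun i => ?_) i
    fin_cases i <;> rfl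
  rw [h2, h1]
  exact hG t ht

/-- `LevelData` for the moduli `r ^ a`, `r ∈ Q`. -/
theorem levelData_mods {F : Polynomial ℤ} (hF : F.Monic) (z : Fin F.natDegree → ℂ) {k Cc M : ℕ}
    {A ρ : ℝ} {a0 : Fin F.natDegree → ℤ} (ha0 : ∀ i, |(a0 i : ℝ)| ≤ 2 * A) (hgp : GenPos z a0)
    {T : Finset (Fin 2 → ℤ)} {n : (Fin 2 → ℤ) → ℤ} {b : (Fin 2 → ℤ) → Fin F.natDegree → ℤ}
    (hT : ∀ t ∈ T, IsSPt hF k Cc M A ρ a0 t (n t) (b t)) {a h : ℕ} (ha : 1 ≤ a) {Q : Finset ℕ}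
    {X : ℕ} (hX : 1 ≤ X) (hQp : ∀ r ∈ Q, r.Prime) (hQ : ∀ r ∈ Q, X < r) (hcard : h ≤ Q.card)
    (hA : 1 ≤ A) {ε κ : ℝ} (hε : 0 ≤ ε) (hXA : A ^ ε ≤ X) (hκ : κ ≤ ε * (a * h))
    (hXC : Cc < X) (hQd : ∀ r ∈ Q, (r : ℝ) < A ^ F.natDegree)
    {U : Finset (Fin 2 → ℤ)} (hU : U ⊆ T) :
    LevelData hF z k Cc M A ρ a0 (U : Set (Fin 2 → ℤ)) n b (mods a Q) κ where
  a0_le := ha0
  gp := hgp
  fin := U.finite_toSet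
  pt := fun t ht => hT t (hU ht)
  cop := mods_coprime hQp
  big := le_prod_mods ha hX hQ hcard hA hXA hκ hε
  nm := by
    intro l hl t ht
    obtain ⟨r, hr, rfl⟩ := mem_mods.mp hl
    have h1 := Stage107.coprime_of_prime hF (hT t (hU ht)) (hQp r hr) (hXC.trans (hQ r hr))
      (hQd r hr)
    push_cast
    exact h1.pow_right

end Crest.Agent.R022.Inst
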