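import Mathlib

/-! Row 22 (helper586): numerical parts of the curve steps (one local parameter), in the shape
needed by `Cnt.exists_greedy` and `Expand.relation_hasExp` with `r = 1`. -/

set_option autoImplicit false

open Finset

namespace Crest.Agent.R022.NumCurve

theorem choose_two_real (m : ℕ) : ((m + 1).choose 2 : ℝ) = (m : ℝ) * (m + 1) / 2 := by
  rw [Nat.cast_choose_two]
  push_cast
  ring

theorem floor_max_le (x : ℝ) : (⌊x⌋₊ : ℝ) ≤ max 0 x := by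
  rcases le_or_gt 0 x with h | h
  · exact (Nat.floor_le h).trans (le_max_right _ _)
  · rw [Nat.floor_of_nonpos h.le]
    simp

theorem sub_one_le_floor (x : ℝ) : x - 1 ≤ (⌊x⌋₊ : ℝ) := (Nat.sub_one_lt_floor x).le

theorem free_ineq (ρ κ c C x δ E Y h S W : ℝ) (hρ : 0 < ρ) (hκ : 0 < κ) (hc : 0 < c)
    (hC : 0 ≤ C) (hx : x = ρ * c) (hδ : δ = κ * x - 4 / 3) (hx0 : 0 < x)
    (hE : E = κ * c + (2 * C + 1) * (κ * x - 1) + c / 2 + C + 1 + κ / 2 * (x / ρ + x ^ 2 + x))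
    (hY1 : 1 ≤ Y) (hY2 : κ ≤ (κ * x - 1) * Y) (hY3 : E + 1 ≤ c / 2 * δ * Y)
    (hHY : c * Y ^ 2 - (2 * C + 1) * Y ≤ h)
    (hS : c * ((2 * Y ^ 3 - 3 * Y ^ 2 + Y) / 6) - C * (Y * (Y + 1) / 2) - Y ≤ S)
    (hW : κ * ((x * Y - 1) * h - (Y / ρ + 1) * ((x * Y) * (x * Y + 1) / 2)) ≤ W) :
    Y * h - S + 1 ≤ W := by
  have hY0 : (0 : ℝ) < Y := by linarith
  have h2 : (c * Y ^ 2 - (2 * C + 1) * Y) * ((κ * x - 1) * Y - κ) ≤
      h * ((κ * x - 1) * Y - κ) := mul_le_mul_of_nonneg_right hHY (by linarith)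
  have h3 : (E + 1) * Y ^ 2 ≤ c / 2 * δ * Y * Y ^ 2 :=
    mul_le_mul_of_nonneg_right hY3 (by positivity)
  have h4 : (1 : ℝ) ≤ Y ^ 2 := one_le_pow₀ hY1
  have hYY : Y ≤ Y ^ 2 := le_self_pow₀ hY1 (by norm_num)
  have e1 : κ * ((x * Y - 1) * h - (Y / ρ + 1) * ((x * Y) * (x * Y + 1) / 2)) -
      (Y * h) = h * ((κ * x - 1) * Y - κ) -
        κ * (x ^ 2 / ρ * Y ^ 3 + x / ρ * Y ^ 2 + x ^ 2 * Y ^ 2 + x * Y) / 2 := by
    field_simp
    ring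
  have hxρ : x ^ 2 / ρ = x * c := by
    rw [hx]; field_simp
  have e2 : (c * Y ^ 2 - (2 * C + 1) * Y) * ((κ * x - 1) * Y - κ) =
      c * (κ * x - 1) * Y * Y ^ 2 - (κ * c + (2 * C + 1) * (κ * x - 1)) * Y ^ 2 +
        (2 * C + 1) * κ * Y := by ring
  have e3 : c * (κ * x - 1) * Y * Y ^ 2 + c / 3 * Y * Y ^ 2 - κ * (x * c) / 2 * Y * Y ^ 2 =
      c / 2 * δ * Y * Y ^ 2 := by rw [hδ]; ring
  have a1 : 0 ≤ (2 * C + 1) * κ * Y := by positivity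
  have a2 : C * (Y * (Y + 1) / 2) ≤ C * Y ^ 2 := by
    apply mul_le_mul_of_nonneg_left _ hC
    have : Y * (Y + 1) / 2 = (Y ^ 2 + Y) / 2 := by ring
    linarith
  have a3 : 0 ≤ c * Y / 6 := by positivity
  have a4 : κ * x / 2 * Y ≤ κ * x / 2 * Y ^ 2 :=
    mul_le_mul_of_nonneg_left hYY (by positivity)
  have a5 : E * Y ^ 2 = (κ * c + (2 * C + 1) * (κ * x - 1)) * Y ^ 2 + c / 2 * Y ^ 2 +
      C * Y ^ 2 + Y ^ 2 + κ / 2 * (x / ρ) * Y ^ 2 + κ / 2 * x ^ 2 * Y ^ 2 +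
      κ * x / 2 * Y ^ 2 := by rw [hE]; ring
  have a6 : κ * (x ^ 2 / ρ * Y ^ 3 + x / ρ * Y ^ 2 + x ^ 2 * Y ^ 2 + x * Y) / 2 =
      κ * (x * c) / 2 * Y * Y ^ 2 + κ / 2 * (x / ρ) * Y ^ 2 + κ / 2 * x ^ 2 * Y ^ 2 +
        κ * x / 2 * Y := by rw [hxρ]; ring
  have a7 : c * ((2 * Y ^ 3 - 3 * Y ^ 2 + Y) / 6) =
      c / 3 * Y * Y ^ 2 - c / 2 * Y ^ 2 + c * Y / 6 := by ring
  have a8 : (E + 1) * Y ^ 2 = E * Y ^ 2 + Y ^ 2 := by ring
  linarith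

theorem mono_quad (c C y y' : ℝ) (hc : 0 < c) (hC : 0 ≤ C) (h0 : 0 ≤ y) (h1 : y ≤ y')
    (h : 0 < c * y ^ 2 - C * (y + 1)) :
    c * y ^ 2 - C * (y + 1) ≤ c * y' ^ 2 - C * (y' + 1) := by
  have hy0 : (0 : ℝ) < y := by
    rcases h0.lt_or_eq with h2 | h2
    · exact h2
    · exfalso
      rw [← h2] at h
      nlinarith
  have h3 : C < c * y := by
    by_contra hcon
    push Not at hcon
    have : c * y ^ 2 ≤ C * y := by nlinarith
    nlinarith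
  have h4 : 0 ≤ (c * y - C) * (y' - y) := mul_nonneg (by linarith) (by linarith)
  have h5 : 0 ≤ c * y' * (y' - y) := by
    apply mul_nonneg (mul_nonneg hc.le (by linarith)) (by linarith)
  nlinarith

theorem alg_ineq (κ c C δ E Y h S W : ℝ) (hκ : 0 < κ) (hC : 0 ≤ C)
    (hδ : δ = κ * c - 1)
    (hE : E = κ * c + (C + 1) * δ + c / 2 + C + 1 + κ * c / 2)
    (hY1 : 1 ≤ Y) (hY2 : κ ≤ δ * Y) (hY3 : E + 1 ≤ c / 2 * δ * Y)
    (hHY : c * Y - (C + 1) ≤ h)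
    (hS : c * (Y * (Y - 1) / 2) - (C + 1) * Y ≤ S)
    (hW : κ * ((c * Y - 1) * h - (c * Y) * (c * Y + 1) / 2) ≤ W) :
    Y * h - S + 1 ≤ W := by
  have hY0 : (0 : ℝ) < Y := by linarith
  have h2 : (c * Y - (C + 1)) * (δ * Y - κ) ≤ h * (δ * Y - κ) :=
    mul_le_mul_of_nonneg_right hHY (by linarith)
  have h3 : (E + 1) * Y ≤ c / 2 * δ * Y * Y := mul_le_mul_of_nonneg_right hY3 hY0.le
  have e1 : κ * ((c * Y - 1) * h - (c * Y) * (c * Y + 1) / 2) - (Y * h) =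
      h * (δ * Y - κ) - κ * (c ^ 2 * Y * Y + c * Y) / 2 := by rw [hδ]; ring
  have e2 : (c * Y - (C + 1)) * (δ * Y - κ) =
      c * δ * Y * Y - (κ * c + (C + 1) * δ) * Y + (C + 1) * κ := by ring
  have a1 : 0 ≤ (C + 1) * κ := by positivity
  have e3 : c * δ * Y * Y + c / 2 * Y * Y - κ * c ^ 2 / 2 * Y * Y =
      c / 2 * δ * Y * Y := by rw [hδ]; ring
  have a5 : E * Y = (κ * c + (C + 1) * δ) * Y + c / 2 * Y + (C + 1) * Y +
      κ * c / 2 * Y := by rw [hE]; ring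
  have a6 : κ * (c ^ 2 * Y * Y + c * Y) / 2 = κ * c ^ 2 / 2 * Y * Y + κ * c / 2 * Y := by ring
  have a7 : c * (Y * (Y - 1) / 2) = c / 2 * Y * Y - c / 2 * Y := by ring
  have a8 : (E + 1) * Y = E * Y + Y := by ring
  linarith

/-- **Numerics of the step `r = 1`, `n` free**: `≥ c y² - C (y+1)` functions of weight `≤ y`. -/
theorem num_free (ρ κ c C : ℝ) (hρ : 0 < ρ) (hκ : 0 < κ) (hc : 0 < c) (hC : 0 ≤ C)
    (hthr : 4 / 3 < κ * ρ * c) :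
    ∃ (H : ℕ → ℕ) (Y m J w : ℕ), Monotone H ∧
      (∀ y : ℕ, (H y : ℝ) ≤ max 0 (c * (y : ℝ) ^ 2 - C * (y + 1))) ∧
      (Y : ℝ) < ρ * (J + 1) ∧ (J : ℝ) * ρ ≤ Y ∧ w + (J + 1) * (m + 1).choose 2 ≤ m * H Y ∧
      (Y : ℝ) * H Y - ∑ y ∈ range Y, (H y : ℝ) + 1 ≤ κ * w := by
  obtain ⟨x, hx⟩ : ∃ x, x = ρ * c := ⟨_, rfl⟩
  have hx0 : 0 < x := by rw [hx]; positivity
  obtain ⟨δ, hδ⟩ : ∃ δ, δ = κ * x - 4 / 3 := ⟨_, rfl⟩
  have hδ0 : 0 < δ := by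
    have : κ * x = κ * ρ * c := by rw [hx]; ring
    linarith
  obtain ⟨E, hE⟩ : ∃ E, E = κ * c + (2 * C + 1) * (κ * x - 1) + c / 2 + C + 1 +
    κ / 2 * (x / ρ + x ^ 2 + x) := ⟨_, rfl⟩
  have hκx : 0 < κ * x - 1 := by linarith
  have hE0 : 0 ≤ E := by rw [hE]; positivity
  obtain ⟨Y, hY⟩ : ∃ Y : ℕ, 1 + κ / (κ * x - 1) + (2 * C + 1) / c + (E + 1) / (c / 2 * δ) ≤ Y :=
    exists_nat_ge _
  have q1 : 0 ≤ κ / (κ * x - 1) := by positivity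
  have q2 : 0 ≤ (2 * C + 1) / c := by positivity
  have q3 : 0 ≤ (E + 1) / (c / 2 * δ) := by positivity
  have hY1 : (1 : ℝ) ≤ Y := by linarith
  have hY0 : (0 : ℝ) < Y := by linarith
  have hY2 : κ ≤ (κ * x - 1) * Y := by
    have : κ / (κ * x - 1) ≤ Y := by linarith
    rw [div_le_iff₀ hκx] at this
    linarith
  have hY3 : E + 1 ≤ c / 2 * δ * Y := by
    have : (E + 1) / (c / 2 * δ) ≤ Y := by linarith
    rw [div_le_iff₀ (by positivity)] at this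
    linarith
  obtain ⟨f, hf⟩ : ∃ f : ℕ → ℝ, f = fun y : ℕ => c * (y : ℝ) ^ 2 - C * (y + 1) := ⟨_, rfl⟩
  have hfy : ∀ y, f y = c * (y : ℝ) ^ 2 - C * (y + 1) := fun y => by rw [hf]
  obtain ⟨H, hH⟩ : ∃ H : ℕ → ℕ, H = fun y => ⌊f y⌋₊ := ⟨_, rfl⟩
  have hHy : ∀ y, H y = ⌊f y⌋₊ := fun y => by rw [hH]
  have hmono : Monotone H := by
    intro y y' hyy
    rw [hHy, hHy]
    rcases le_or_gt (f y) 0 with h | h
    · rw [Nat.floor_of_nonpos h]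
      exact Nat.zero_le _
    · apply Nat.floor_mono
      rw [hfy] at h ⊢
      rw [hfy]
      exact mono_quad c C y y' hc hC (Nat.cast_nonneg y) (by exact_mod_cast hyy) h
  obtain ⟨m, hm⟩ : ∃ m : ℕ, m = ⌊x * Y⌋₊ := ⟨_, rfl⟩
  have hm1 : (m : ℝ) ≤ x * Y := by rw [hm]; exact Nat.floor_le (by positivity)
  have hm2 : x * Y < m + 1 := by rw [hm]; exact Nat.lt_floor_add_one _
  have hm0 : (0 : ℝ) ≤ m := Nat.cast_nonneg m
  obtain ⟨J, hJ⟩ : ∃ J : ℕ, J = ⌊(Y : ℝ) / ρ⌋₊ := ⟨_, rfl⟩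
  have hJ1 : (J : ℝ) * ρ ≤ Y := by
    rw [← le_div_iff₀ hρ, hJ]
    exact Nat.floor_le (by positivity)
  have hJ2 : (Y : ℝ) < ρ * (J + 1) := by
    have : (Y : ℝ) / ρ < J + 1 := by rw [hJ]; exact Nat.lt_floor_add_one _
    rw [div_lt_iff₀ hρ] at this
    linarith
  have hJ3 : (J : ℝ) ≤ Y / ρ := by
    rw [le_div_iff₀ hρ]; exact hJ1
  have hJ0 : (0 : ℝ) ≤ J := Nat.cast_nonneg J
  -- lower bound for `H Y`
  have hHY : c * (Y : ℝ) ^ 2 - (2 * C + 1) * Y ≤ (H Y : ℝ) := by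
    have h1 := sub_one_le_floor (f Y)
    rw [← hHy, hfy] at h1
    have h2 : C * ((Y : ℝ) + 1) + 1 ≤ (2 * C + 1) * Y := by
      have := mul_nonneg hC (sub_nonneg.mpr hY1)
      linarith
    linarith
  have hHY0 : (0 : ℝ) ≤ H Y := Nat.cast_nonneg _
  have hHsum : c * ((2 * (Y : ℝ) ^ 3 - 3 * Y ^ 2 + Y) / 6) - C * (Y * (Y + 1) / 2) - Y ≤
      ∑ y ∈ range Y, (H y : ℝ) := by
    have h1 : ∑ y ∈ range Y, (c * (y : ℝ) ^ 2 - C * (y + 1) - 1) ≤ ∑ y ∈ range Y, (H y : ℝ) :=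
      Finset.sum_le_sum fun y _ => by
        have := sub_one_le_floor (f y)
        rw [← hHy, hfy] at this
        exact this
    have h2 : ∀ Y : ℕ, ∑ y ∈ range Y, (c * (y : ℝ) ^ 2 - C * (y + 1) - 1) =
        c * ((2 * (Y : ℝ) ^ 3 - 3 * Y ^ 2 + Y) / 6) - C * (Y * (Y + 1) / 2) - Y := by
      intro Y
      induction Y with
      | zero => simp
      | succ Y ih =>
        rw [Finset.sum_range_succ, ih]
        push_cast
        ring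
    rw [h2 Y] at h1
    exact h1
  have hch : (((J + 1) * (m + 1).choose 2 : ℕ) : ℝ) ≤
      (Y / ρ + 1) * ((x * Y) * (x * Y + 1) / 2) := by
    push_cast
    rw [choose_two_real]
    have h1 : (m : ℝ) * (m + 1) ≤ (x * Y) * (x * Y + 1) :=
      mul_le_mul hm1 (by linarith) (by positivity) (by positivity)
    exact mul_le_mul (by linarith) (by linarith) (by positivity) (by positivity)
  -- key inequality
  have key : (Y : ℝ) * H Y - ∑ y ∈ range Y, (H y : ℝ) + 1 ≤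
      κ * ((m : ℝ) * H Y - (((J + 1) * (m + 1).choose 2 : ℕ) : ℝ)) := by
    have h1 : κ * ((x * Y - 1) * H Y - (Y / ρ + 1) * ((x * Y) * (x * Y + 1) / 2)) ≤
        κ * ((m : ℝ) * H Y - (((J + 1) * (m + 1).choose 2 : ℕ) : ℝ)) := by
      apply mul_le_mul_of_nonneg_left _ hκ.le
      have : (x * Y - 1) * (H Y : ℝ) ≤ m * H Y := mul_le_mul_of_nonneg_right (by linarith) hHY0
      linarith
    exact free_ineq ρ κ c C x δ E Y (H Y) _ _ hρ hκ hc hC hx hδ hx0 hE hY1 hY2 hY3 hHY hHsum h1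
  -- conclusion
  have hpos : 0 < (m : ℝ) * H Y - (((J + 1) * (m + 1).choose 2 : ℕ) : ℝ) := by
    have h1 : ∑ y ∈ range Y, (H y : ℝ) ≤ (Y : ℝ) * H Y := by
      have : ∑ y ∈ range Y, (H y : ℝ) ≤ ∑ _y ∈ range Y, (H Y : ℝ) :=
        Finset.sum_le_sum fun y hy => by
          exact_mod_cast hmono (mem_range.mp hy).le
      simpa [Finset.sum_const, nsmul_eq_mul] using this
    by_contra hcon
    push Not at hcon
    have := mul_nonneg hκ.le (neg_nonneg.mpr hcon)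
    linarith
  have hle : (J + 1) * (m + 1).choose 2 ≤ m * H Y := by
    have : (((J + 1) * (m + 1).choose 2 : ℕ) : ℝ) ≤ ((m * H Y : ℕ) : ℝ) := by
      push_cast at hpos ⊢
      linarith
    exact_mod_cast this
  refine ⟨H, Y, m, J, m * H Y - (J + 1) * (m + 1).choose 2, hmono, fun y => ?_, hJ2, hJ1, ?_, ?_⟩
  · rw [hHy, ← hfy]
    exact floor_max_le _
  · omega
  · rw [Nat.cast_sub hle]
    push_cast at key ⊢
    linarith

/-- **Numerics of the step `r = 1`, functions of `t` only**: `≥ c y - C` functions of weight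
`≤ y`. -/
theorem num_alg (κ c C : ℝ) (hκ : 0 < κ) (hc : 0 < c) (hC : 0 ≤ C) (hthr : 1 < κ * c) :
    ∃ (H : ℕ → ℕ) (Y m w : ℕ), Monotone H ∧
      (∀ y : ℕ, (H y : ℝ) ≤ max 0 (c * (y : ℝ) - C)) ∧
      w + (m + 1).choose 2 ≤ m * H Y ∧
      (Y : ℝ) * H Y - ∑ y ∈ range Y, (H y : ℝ) + 1 ≤ κ * w := by
  obtain ⟨δ, hδ⟩ : ∃ δ, δ = κ * c - 1 := ⟨_, rfl⟩
  have hδ0 : 0 < δ := by linarith
  obtain ⟨E, hE⟩ : ∃ E, E = κ * c + (C + 1) * δ + c / 2 + C + 1 + κ * c / 2 := ⟨_, rfl⟩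
  have hE0 : 0 ≤ E := by rw [hE]; positivity
  obtain ⟨Y, hY⟩ : ∃ Y : ℕ, 1 + κ / δ + (E + 1) / (c / 2 * δ) ≤ Y := exists_nat_ge _
  have q1 : 0 ≤ κ / δ := by positivity
  have q3 : 0 ≤ (E + 1) / (c / 2 * δ) := by positivity
  have hY1 : (1 : ℝ) ≤ Y := by linarith
  have hY0 : (0 : ℝ) < Y := by linarith
  have hY2 : κ ≤ δ * Y := by
    have : κ / δ ≤ Y := by linarith
    rw [div_le_iff₀ hδ0] at this
    linarith
  have hY3 : E + 1 ≤ c / 2 * δ * Y := by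
    have : (E + 1) / (c / 2 * δ) ≤ Y := by linarith
    rw [div_le_iff₀ (by positivity)] at this
    linarith
  obtain ⟨H, hH⟩ : ∃ H : ℕ → ℕ, H = fun y : ℕ => ⌊c * (y : ℝ) - C⌋₊ := ⟨_, rfl⟩
  have hHy : ∀ y : ℕ, H y = ⌊c * (y : ℝ) - C⌋₊ := fun y => by rw [hH]
  have hmono : Monotone H := by
    intro y y' hyy
    rw [hHy, hHy]
    apply Nat.floor_mono
    have h1 : (y : ℝ) ≤ y' := by exact_mod_cast hyy
    nlinarith
  obtain ⟨m, hm⟩ : ∃ m : ℕ, m = ⌊c * Y⌋₊ := ⟨_, rfl⟩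
  have hm1 : (m : ℝ) ≤ c * Y := by rw [hm]; exact Nat.floor_le (by positivity)
  have hm2 : c * Y < m + 1 := by rw [hm]; exact Nat.lt_floor_add_one _
  have hm0 : (0 : ℝ) ≤ m := Nat.cast_nonneg m
  have hHY : c * (Y : ℝ) - (C + 1) ≤ (H Y : ℝ) := by
    have h1 := sub_one_le_floor (c * (Y : ℝ) - C)
    rw [← hHy] at h1
    linarith
  have hHY0 : (0 : ℝ) ≤ H Y := Nat.cast_nonneg _
  have hHsum : c * (Y * (Y - 1) / 2) - (C + 1) * Y ≤ ∑ y ∈ range Y, (H y : ℝ) := by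
    have h1 : ∑ y ∈ range Y, (c * (y : ℝ) - C - 1) ≤ ∑ y ∈ range Y, (H y : ℝ) :=
      Finset.sum_le_sum fun y _ => by
        have := sub_one_le_floor (c * (y : ℝ) - C)
        rw [← hHy] at this
        exact this
    have h2 : ∀ Y : ℕ, ∑ y ∈ range Y, (c * (y : ℝ) - C - 1) =
        c * ((Y : ℝ) * (Y - 1) / 2) - (C + 1) * Y := by
      intro Y
      induction Y with
      | zero => simp
      | succ Y ih =>
        rw [Finset.sum_range_succ, ih]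
        push_cast
        ring
    rw [h2 Y] at h1
    exact h1
  have hch : ((m + 1).choose 2 : ℝ) ≤ (c * Y) * (c * Y + 1) / 2 := by
    rw [choose_two_real]
    have h1 : (m : ℝ) * (m + 1) ≤ (c * Y) * (c * Y + 1) :=
      mul_le_mul hm1 (by linarith) (by positivity) (by positivity)
    linarith
  have key : (Y : ℝ) * H Y - ∑ y ∈ range Y, (H y : ℝ) + 1 ≤
      κ * ((m : ℝ) * H Y - ((m + 1).choose 2 : ℝ)) := by
    have h1 : κ * ((c * Y - 1) * H Y - (c * Y) * (c * Y + 1) / 2) ≤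
        κ * ((m : ℝ) * H Y - ((m + 1).choose 2 : ℝ)) := by
      apply mul_le_mul_of_nonneg_left _ hκ.le
      have : (c * Y - 1) * (H Y : ℝ) ≤ m * H Y := mul_le_mul_of_nonneg_right (by linarith) hHY0
      linarith
    exact alg_ineq κ c C δ E Y (H Y) _ _ hκ hC hδ hE hY1 hY2 hY3 hHY hHsum h1
  have hpos : 0 < (m : ℝ) * H Y - ((m + 1).choose 2 : ℝ) := by
    have h1 : ∑ y ∈ range Y, (H y : ℝ) ≤ (Y : ℝ) * H Y := by
      have : ∑ y ∈ range Y, (H y : ℝ) ≤ ∑ _y ∈ range Y, (H Y : ℝ) :=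
        Finset.sum_le_sum fun y hy => by
          exact_mod_cast hmono (mem_range.mp hy).le
      simpa [Finset.sum_const, nsmul_eq_mul] using this
    by_contra hcon
    push Not at hcon
    have := mul_nonneg hκ.le (neg_nonneg.mpr hcon)
    linarith
  have hle : (m + 1).choose 2 ≤ m * H Y := by
    have : (((m + 1).choose 2 : ℕ) : ℝ) ≤ ((m * H Y : ℕ) : ℝ) := by
      push_cast
      linarith
    exact_mod_cast this
  refine ⟨H, Y, m, m * H Y - (m + 1).choose 2, hmono, fun y => ?_, ?_, ?_⟩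
  · rw [hHy]
    exact floor_max_le _
  · omega
  · rw [Nat.cast_sub hle]
    push_cast at key ⊢
    linarith

end Crest.Agent.R022.NumCurve
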