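import Crest.Agent.R022.GenPos250
import Crest.Agent.R022.Dyadic712

/-! Row 22 (helper250): outer assembly. The statement S0029 follows from `SliceBoundAt`. -/

set_option autoImplicit false

open Polynomial Filter Topology

namespace Crest.Agent.R022.Outer

open Crest.Agent.R022.Torsor Crest.Agent.R022.GenPosCount Crest.Agent.R022.Dyadic712

/-- tail of a vector -/
def tl {d : ℕ} (a : Fin d → ℤ) : Fin d → ℤ := fun i => if (i : ℕ) < 2 then 0 else a i

/-- head of a vector -/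
def hd2 {d : ℕ} (h2 : 2 ≤ d) (a : Fin d → ℤ) : Fin 2 → ℤ :=
  fun i => a ⟨i, lt_of_lt_of_le i.2 h2⟩

theorem emb_tl {d : ℕ} (h2 : 2 ≤ d) (a : Fin d → ℤ) : emb 2 (tl a) (hd2 h2 a) = a := by
  funext i
  unfold emb tl hd2
  split_ifs <;> rfl

/-- Counting the vectors slice by slice. -/
theorem count_vectors {F : ℤ[X]} (hF : F.Monic) (hirr : Irreducible F)
    (hd : 4 ≤ F.natDegree) (z : Fin F.natDegree → ℂ) (hinj : Function.Injective z)
    (hz : ∀ i, F.eval₂ (Int.castRingHom ℂ) (z i) = 0)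
    (hprod : F.map (Int.castRingHom ℂ) = ∏ i, (X - C (z i)))
    (k : ℕ) (hk : k + 2 = F.natDegree) (Cc M : ℕ) (A ρ K : ℝ) (hA : 1 ≤ A)
    (hslice : ∀ a0 : Fin F.natDegree → ℤ,
      (∀ i, |(a0 i : ℝ)| ≤ 2 * A) → GenPos z a0 →
      ∀ (T : Finset (Fin 2 → ℤ)) (m : (Fin 2 → ℤ) → ℤ) (b : (Fin 2 → ℤ) → Fin F.natDegree → ℤ),
      (∀ t ∈ T, IsSPt hF k Cc M A ρ a0 t (m t) (b t)) →
      (T.card : ℝ) ≤ K * A ^ (999 / 1000 * ρ)) (hK : 0 ≤ K) (hρ : 0 ≤ ρ)
    (V : Finset (Fin F.natDegree → ℤ)) (hV : ∀ a ∈ V, ∀ i, |(a i : ℝ)| ≤ 2 * A)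
    (hpt : ∀ a ∈ V, ∃ (m : ℤ) (b : Fin F.natDegree → ℤ),
      IsSPt hF k Cc M A ρ (tl a) (hd2 (by omega) a) m b) :
    (V.card : ℝ) ≤ 5 ^ k * (K + F.natDegree ^ 3) * A ^ ((k : ℝ) + 999 / 1000 * ρ) := by
  classical
  set B : ℕ := ⌊2 * A⌋₊ with hB
  have hA0 : 0 < A := by linarith
  have hBle : ∀ a ∈ V, ∀ i, |a i| ≤ (B : ℤ) := by
    intro a ha i
    have h1 := hV a ha i
    have h2 : ((|a i|.toNat : ℕ) : ℝ) ≤ 2 * A := by
      have : ((|a i|.toNat : ℕ) : ℝ) = |(a i : ℝ)| := by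
        have h3 : ((|a i|.toNat : ℕ) : ℤ) = |a i| := Int.toNat_of_nonneg (abs_nonneg _)
        have h4 : (((|a i|.toNat : ℕ) : ℤ) : ℝ) = ((|a i| : ℤ) : ℝ) := by rw [h3]
        push_cast at h4
        exact h4
      rw [this]; exact h1
    have h3 : |a i|.toNat ≤ B := Nat.le_floor h2
    have h4 : ((|a i|.toNat : ℕ) : ℤ) = |a i| := Int.toNat_of_nonneg (abs_nonneg _)
    omega
  have hB5 : ((2 * B + 1 : ℕ) : ℝ) ≤ 5 * A := by
    have h1 : (B : ℝ) ≤ 2 * A := Nat.floor_le (by positivity)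
    push_cast
    linarith
  -- the tails
  set W := V.image tl with hW
  have hWle : ∀ w ∈ W, ∀ i, |w i| ≤ (B : ℤ) := by
    intro w hw i
    obtain ⟨a, ha, rfl⟩ := Finset.mem_image.mp hw
    unfold tl
    split_ifs
    · simp
    · exact hBle a ha i
  have hW0 : ∀ w ∈ W, ∀ i : Fin F.natDegree, (i : ℕ) < 2 → w i = 0 := by
    intro w hw i hi
    obtain ⟨a, ha, rfl⟩ := Finset.mem_image.mp hw
    unfold tl
    rw [if_pos hi]
  have hWcard : W.card ≤ (2 * B + 1) ^ k := by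
    set E : Finset (Fin F.natDegree) := {⟨0, by omega⟩, ⟨1, by omega⟩} with hE
    have hEcard : E.card = 2 := by
      rw [hE, Finset.card_insert_of_notMem, Finset.card_singleton]
      simp only [Finset.mem_singleton, Fin.mk.injEq]; omega
    set R := (Finset.univ \ E) with hR
    have hRcard : R.card = k := by
      rw [hR, Finset.card_sdiff_of_subset (Finset.subset_univ _), hEcard, Finset.card_univ,
        Fintype.card_fin]
      omega
    have hbox : (Fintype.piFinset fun _ : R => Finset.Icc (-(B : ℤ)) B).card = (2 * B + 1) ^ k := by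
      rw [Fintype.card_piFinset, Finset.prod_const, Finset.card_univ, Fintype.card_coe, hRcard,
        Int.card_Icc]
      congr 1
      omega
    rw [← hbox]
    refine Finset.card_le_card_of_injOn (fun a => fun x : R => a x) ?_ ?_
    · intro a ha
      refine Fintype.mem_piFinset.mpr fun x => Finset.mem_Icc.mpr ?_
      exact abs_le.mp (hWle a ha x)
    · intro a ha a' ha' haa
      funext x
      by_cases hx : x ∈ R
      · exact congrFun haa ⟨x, hx⟩
      · rw [hR, Finset.mem_sdiff, not_and_not_right] at hx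
        have := hx (Finset.mem_univ _)
        rw [hE] at this
        simp only [Finset.mem_insert, Finset.mem_singleton] at this
        rcases this with h | h
        · rw [hW0 a ha x (by rw [h]; simp), hW0 a' ha' x (by rw [h]; simp)]
        · rw [hW0 a ha x (by rw [h]; simp), hW0 a' ha' x (by rw [h]; simp)]
  -- fibres
  have hfib : ∀ w ∈ W, ((V.filter fun a => tl a = w).card) ≤ (2 * B + 1) ^ 2 := by
    intro w hw
    have hbox : (Fintype.piFinset fun _ : Fin 2 => Finset.Icc (-(B : ℤ)) B).card = (2 * B + 1) ^ 2 := by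
      rw [Fintype.card_piFinset, Finset.prod_const, Finset.card_univ, Fintype.card_fin,
        Int.card_Icc]
      congr 1
      omega
    rw [← hbox]
    refine Finset.card_le_card_of_injOn (hd2 (by omega)) ?_ ?_
    · intro a ha
      have ha' := Finset.mem_filter.mp ha
      refine Fintype.mem_piFinset.mpr fun x => Finset.mem_Icc.mpr ?_
      exact abs_le.mp (hBle a ha'.1 _)
    · intro a ha a' ha' haa
      have h1 := Finset.mem_filter.mp ha
      have h1' := Finset.mem_filter.mp ha'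
      rw [← emb_tl (by omega) a, ← emb_tl (by omega) a', h1.2, h1'.2, haa]
  have hgood : ∀ w ∈ W, GenPos z w →
      (((V.filter fun a => tl a = w).card : ℕ) : ℝ) ≤ K * A ^ (999 / 1000 * ρ) := by
    intro w hw hgp
    have hcard : (V.filter fun a => tl a = w).card =
        ((V.filter fun a => tl a = w).image (hd2 (by omega))).card := by
      symm
      refine Finset.card_image_of_injOn ?_
      intro a ha a' ha' haa
      have h1 := Finset.mem_filter.mp ha
      have h1' := Finset.mem_filter.mp ha'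
      rw [← emb_tl (by omega) a, ← emb_tl (by omega) a', h1.2, h1'.2, haa]
    rw [hcard]
    have hex : ∀ t : Fin 2 → ℤ, ∃ (m : ℤ) (b : Fin F.natDegree → ℤ),
        t ∈ (V.filter fun a => tl a = w).image (hd2 (by omega)) → IsSPt hF k Cc M A ρ w t m b := by
      intro t
      by_cases ht : t ∈ (V.filter fun a => tl a = w).image (hd2 (by omega))
      · obtain ⟨a, ha, rfl⟩ := Finset.mem_image.mp ht
        have h1 := Finset.mem_filter.mp ha
        obtain ⟨m, b, h2⟩ := hpt a h1.1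
        rw [h1.2] at h2
        exact ⟨m, b, fun _ => h2⟩
      · exact ⟨0, 0, fun h => absurd h ht⟩
    choose m b hmb using hex
    refine hslice w ?_ hgp _ m b (fun t ht => hmb t ht)
    intro i
    obtain ⟨a, ha, rfl⟩ := Finset.mem_image.mp hw
    unfold tl
    split_ifs
    · simp; linarith
    · exact hV a ha i
  -- sum up
  have hsum : (V.card : ℝ) = ∑ w ∈ W, (((V.filter fun a => tl a = w).card : ℕ) : ℝ) := by
    rw [← Nat.cast_sum, ← Finset.card_eq_sum_card_image]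
  have hbad : ((W.filter fun w => ¬ GenPos z w).card : ℝ) ≤
      F.natDegree ^ 3 * (5 * A) ^ (F.natDegree - 4) := by
    have h1 := card_not_genPos hF hirr hd z hinj hz hprod B (W.filter fun w => ¬ GenPos z w)
      (fun a ha => hWle a (Finset.mem_filter.mp ha).1)
      (fun a ha => hW0 a (Finset.mem_filter.mp ha).1) (fun a ha => (Finset.mem_filter.mp ha).2)
    have h2 : ((W.filter fun w => ¬ GenPos z w).card : ℝ) ≤
        ((F.natDegree ^ 3 * (2 * B + 1) ^ (F.natDegree - 4) : ℕ) : ℝ) := by exact_mod_cast h1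
    refine h2.trans ?_
    rw [Nat.cast_mul, Nat.cast_pow, Nat.cast_pow]
    gcongr
  have hAk : 0 < A ^ k := by positivity
  have hAρ : 1 ≤ A ^ (999 / 1000 * ρ) := Real.one_le_rpow hA (by positivity)
  calc (V.card : ℝ) = ∑ w ∈ W, (((V.filter fun a => tl a = w).card : ℕ) : ℝ) := hsum
    _ = ∑ w ∈ W.filter (fun w => GenPos z w), (((V.filter fun a => tl a = w).card : ℕ) : ℝ) +
        ∑ w ∈ W.filter (fun w => ¬ GenPos z w), (((V.filter fun a => tl a = w).card : ℕ) : ℝ) :=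
        (Finset.sum_filter_add_sum_filter_not _ _ _).symm
    _ ≤ ∑ w ∈ W.filter (fun w => GenPos z w), K * A ^ (999 / 1000 * ρ) +
        ∑ w ∈ W.filter (fun w => ¬ GenPos z w), (5 * A) ^ 2 := by
        refine add_le_add (Finset.sum_le_sum fun w hw => ?_) (Finset.sum_le_sum fun w hw => ?_)
        · exact hgood w (Finset.mem_filter.mp hw).1 (Finset.mem_filter.mp hw).2
        · have h1 := hfib w (Finset.mem_filter.mp hw).1
          have h2 : (((V.filter fun a => tl a = w).card : ℕ) : ℝ) ≤ (((2 * B + 1) ^ 2 : ℕ) : ℝ) := by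
            exact_mod_cast h1
          refine h2.trans ?_
          rw [Nat.cast_pow]
          gcongr
    _ = (W.filter (fun w => GenPos z w)).card * (K * A ^ (999 / 1000 * ρ)) +
        (W.filter (fun w => ¬ GenPos z w)).card * (5 * A) ^ 2 := by
        rw [Finset.sum_const, Finset.sum_const, nsmul_eq_mul, nsmul_eq_mul]
    _ ≤ (5 * A) ^ k * (K * A ^ (999 / 1000 * ρ)) +
        (F.natDegree ^ 3 * (5 * A) ^ (F.natDegree - 4)) * (5 * A) ^ 2 := by
        refine add_le_add (mul_le_mul_of_nonneg_right ?_ (by positivity))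
          (mul_le_mul_of_nonneg_right hbad (by positivity))
        have h1 : (W.filter (fun w => GenPos z w)).card ≤ (2 * B + 1) ^ k :=
          (Finset.card_filter_le _ _).trans hWcard
        have h2 : ((W.filter (fun w => GenPos z w)).card : ℝ) ≤ (((2 * B + 1) ^ k : ℕ) : ℝ) := by
          exact_mod_cast h1
        refine h2.trans ?_
        rw [Nat.cast_pow]
        gcongr
    _ = 5 ^ k * (K * (A ^ k * A ^ (999 / 1000 * ρ)) + F.natDegree ^ 3 * A ^ k) := by
        have h1 : (5 * A) ^ (F.natDegree - 4) * (5 * A) ^ 2 = (5 * A) ^ k := by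
          rw [← pow_add]; congr 1; omega
        rw [mul_assoc ((F.natDegree : ℝ) ^ 3), h1, mul_pow]
        ring
    _ ≤ 5 ^ k * (K * (A ^ k * A ^ (999 / 1000 * ρ)) +
        F.natDegree ^ 3 * (A ^ k * A ^ (999 / 1000 * ρ))) := by
        gcongr
        nlinarith
    _ = 5 ^ k * (K + F.natDegree ^ 3) * A ^ ((k : ℝ) + 999 / 1000 * ρ) := by
        rw [Real.rpow_add hA0, Real.rpow_natCast]
        ring

/-- The exponents. -/
theorem exists_grid (k : ℕ) (hk : 2 ≤ k) (ρ : ℝ) (hρ2 : ρ ≤ 2)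
    (hρ : ((k : ℝ) + 2) * k ≤ (k + ρ) * ((k : ℝ) + 1 + 1 / 10000)) :
    ∃ j : ℕ, j < 20001 ∧ ρ ≤ min 2 ((k : ℝ) / (k + 1) + j / 10000) ∧
      (k : ℝ) + 999 / 1000 * min 2 ((k : ℝ) / (k + 1) + j / 10000) ≤
        (k + ρ) * (1 - 1 / (2000 * (k + 2))) := by
  have hk0 : (2 : ℝ) ≤ k := by exact_mod_cast hk
  set x : ℝ := (k : ℝ) / (k + 1) with hx
  have hx1 : x * (k + 1) = k := by rw [hx]; field_simp
  have hx2 : x ≤ 1 := by rw [hx, div_le_one (by linarith)]; linarith
  have hx3 : 2 / 3 ≤ x := by rw [hx, le_div_iff₀ (by linarith)]; linarith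
  -- `ρ ≥ x - 1/10000`
  have hρx : x - 1 / 10000 ≤ ρ := by
    -- `(k + x)(k+1) = k (k + 2)`
    have h1 : ((k : ℝ) + x) * (k + 1) = (k + 2) * k := by
      have : ((k : ℝ) + x) * (k + 1) = k * (k + 1) + x * (k + 1) := by ring
      rw [this, hx1]; ring
    have h2 : ((k : ℝ) + x) * (k + 1) ≤ (k + ρ) * ((k : ℝ) + 1 + 1 / 10000) := by
      rw [h1]; exact hρ
    by_contra h3
    push Not at h3
    have h4 : (k + ρ) * ((k : ℝ) + 1 + 1 / 10000) ≤ (k + x - 1 / 10000) * ((k : ℝ) + 1 + 1 / 10000) := by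
      apply mul_le_mul_of_nonneg_right _ (by linarith)
      linarith
    nlinarith
  set y : ℝ := (ρ - x) * 10000 with hy
  set j : ℕ := ⌈y⌉₊ with hj
  have hjy : y ≤ j := Nat.le_ceil y
  have hy2 : y ≤ 20000 := by
    rw [hy]
    have : ρ - x ≤ 2 := by linarith
    linarith
  have hj20 : j ≤ 20000 := by
    rw [hj]
    exact Nat.ceil_le.mpr (by exact_mod_cast hy2)
  refine ⟨j, by omega, ?_, ?_⟩
  · refine le_min hρ2 ?_
    have : ρ - x ≤ j / 10000 := by
      rw [le_div_iff₀ (by norm_num)]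
      exact hjy
    linarith
  · have hup : x + (j : ℝ) / 10000 ≤ ρ + 1 / 10000 := by
      rcases le_or_gt y 0 with h0 | h0
      · have hj0 : j = 0 := by rw [hj]; exact Nat.ceil_eq_zero.mpr h0
        rw [hj0]
        push_cast
        linarith
      · have h1 : (j : ℝ) < y + 1 := Nat.ceil_lt_add_one h0.le
        have h2 : (j : ℝ) / 10000 < (y + 1) / 10000 := by
          apply div_lt_div_of_pos_right h1 (by norm_num)
        rw [hy] at h2
        linarith
    have h1 : min 2 (x + (j : ℝ) / 10000) ≤ ρ + 1 / 10000 := (min_le_right _ _).trans hup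
    have h2 : (k + ρ) * (1 - 1 / (2000 * ((k : ℝ) + 2))) = k + ρ - (k + ρ) / (2000 * ((k : ℝ) + 2)) := by
      ring
    have h3 : (k + ρ) / (2000 * ((k : ℝ) + 2)) ≤ 1 / 2000 := by
      rw [div_le_div_iff₀ (by positivity) (by norm_num)]
      nlinarith
    rw [h2]
    linarith

/-- **Outer assembly**: S0029 follows from the slice bound. -/
theorem outer (f : ℤ[X]) (k : ℕ) (hirr : Irreducible (f.map (Int.castRingHom ℚ)))
    (hdeg : 4 ≤ f.natDegree) (hk : k + 2 = f.natDegree)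
    (hloc : ∀ p : ℕ, p.Prime → Crest.NumberTheoryR.polyRootCountMod f (p ^ k) < p ^ k)
    (hslice : ∀ (hF : (mon f).Monic) (z : Fin (mon f).natDegree → ℂ), Irreducible (mon f) →
      Function.Injective z → (∀ i, (mon f).eval₂ (Int.castRingHom ℂ) (z i) = 0) →
      (mon f).map (Int.castRingHom ℂ) = ∏ i, (X - C (z i)) →
      ∀ ρ : ℝ, (k : ℝ) / (k + 1) ≤ ρ → ρ ≤ 2 → SliceBoundAt hF z k ρ) :
    ∃ c : ℝ, 0 < c ∧
      HasProd (fun p : Nat.Primes => 1 - (Crest.NumberTheoryR.polyRootCountMod f ((p : ℕ) ^ k) : ℝ) /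
        ((p : ℕ) : ℝ) ^ k) c ∧
      Tendsto (fun N : ℕ => (Crest.NumberTheoryR.powerFreeValueCount f k N : ℝ) / (N : ℝ)) atTop (𝓝 c) := by
  classical
  have hk2 : 2 ≤ k := by omega
  have hf0 : f ≠ 0 := by
    rintro rfl
    simp at hdeg
  have hF : (mon f).Monic := mon_monic hf0
  have hirrF : Irreducible (mon f) := mon_irreducible hirr
  have hdF : (mon f).natDegree = f.natDegree := mon_natDegree f
  obtain ⟨z, hinj, hz, hprod⟩ := exists_roots hF hirrF
  obtain ⟨C0, M, hC0, hM, htor⟩ := torsor hF hirrF (by omega) z hinj hz k (by omega)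
  obtain ⟨C1, hfibre⟩ := card_le_mul_card_image f hirr
  set L : ℤ := f.leadingCoeff with hL
  set Cc : ℕ := C0 * (2 * L.natAbs + 1) with hCc
  have hCc0 : 0 < Cc := Nat.mul_pos hC0 (by omega)
  have hC0Cc : C0 ≤ Cc := Nat.le_mul_of_pos_right _ (by omega)
  have hk0 : (2 : ℝ) ≤ k := by exact_mod_cast hk2
  -- the grid constants
  have hgrid : ∀ j : ℕ, ∃ K : ℝ, 0 < K ∧ ∀ A : ℝ, 1 ≤ A →
      ∀ a0 : Fin (mon f).natDegree → ℤ, (∀ i, |(a0 i : ℝ)| ≤ 2 * A) → GenPos z a0 →
      ∀ (T : Finset (Fin 2 → ℤ)) (m : (Fin 2 → ℤ) → ℤ) (b : (Fin 2 → ℤ) → Fin (mon f).natDegree → ℤ),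
      (∀ t ∈ T, IsSPt hF k Cc M A (min 2 ((k : ℝ) / (k + 1) + j / 10000)) a0 t (m t) (b t)) →
      (T.card : ℝ) ≤ K * A ^ (999 / 1000 * min 2 ((k : ℝ) / (k + 1) + j / 10000)) := by
    intro j
    have h1 : (k : ℝ) / (k + 1) ≤ min 2 ((k : ℝ) / (k + 1) + j / 10000) := by
      refine le_min ?_ ?_
      · rw [div_le_iff₀ (by linarith)]; linarith
      · have : (0 : ℝ) ≤ j / 10000 := by positivity
        linarith
    exact hslice hF z hirrF hinj hz hprod _ h1 (min_le_left _ _) Cc M hCc0 hM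
  choose K hK0 hKs using hgrid
  obtain ⟨J, hJ⟩ : ∃ J : ℕ, J = 20001 := ⟨_, rfl⟩
  set KK : ℝ := ∑ j ∈ Finset.range J, K j with hKK
  have hKle : ∀ j, j < J → K j ≤ KK := by
    intro j hj
    exact Finset.single_le_sum (f := K) (fun i _ => (hK0 i).le) (Finset.mem_range.mpr hj)
  have hKK0 : 0 ≤ KK := Finset.sum_nonneg fun i _ => (hK0 i).le
  refine Dyadic712.reduction_dyadic f k hirr hk2 hloc (1 / 10000) (by norm_num) ?_
  set c : ℝ := 1 / (2000 * ((k : ℝ) + 2)) with hc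
  refine ⟨c, by positivity, f.natDegree * (5 ^ k * (KK + f.natDegree ^ 3)), Cc + C1 + 2, ?_⟩
  intro N hN P hNP hPk
  have hN2 : (2 : ℝ) ≤ N := by
    have : 2 ≤ N := by omega
    exact_mod_cast this
  have hN0 : (0 : ℝ) < N := by linarith
  have hP0 : 0 < P := by linarith
  set d : ℕ := f.natDegree with hd
  have hd0 : (d : ℝ) = k + 2 := by rw [← hk]; push_cast; ring
  have hdne : d ≠ 0 := by omega
  set A : ℝ := P ^ ((d : ℝ)⁻¹) with hA
  have hA0 : 0 < A := Real.rpow_pos_of_pos hP0 _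
  have hAd : A ^ d = P := Real.rpow_inv_natCast_pow hP0.le hdne
  have hA1 : 1 < A := by
    by_contra h
    push Not at h
    have := pow_le_one₀ (n := d) hA0.le h
    rw [hAd] at this
    linarith
  set ρ : ℝ := Real.logb A N - k with hρ
  have hNA : (N : ℝ) = A ^ ((k : ℝ) + ρ) := by
    rw [hρ, add_sub_cancel, Real.rpow_logb hA0 hA1.ne' hN0]
  have hρ2 : ρ ≤ 2 := by
    have h1 : A ^ ((k : ℝ) + ρ) ≤ A ^ (d : ℝ) := by
      rw [← hNA, Real.rpow_natCast, hAd]; exact hNP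
    have h2 := (Real.rpow_le_rpow_left_iff hA1).mp h1
    rw [hd0] at h2
    linarith
  have hρk : ((k : ℝ) + 2) * k ≤ (k + ρ) * ((k : ℝ) + 1 + 1 / 10000) := by
    have h1 : A ^ (((d : ℝ)) * k) ≤ A ^ ((k + ρ) * ((d : ℝ) - 1 + 1 / 10000)) := by
      rw [Real.rpow_mul hA0.le, Real.rpow_natCast, Real.rpow_natCast, hAd, Real.rpow_mul hA0.le,
        ← hNA]
      exact hPk
    have h2 := (Real.rpow_le_rpow_left_iff hA1).mp h1
    rw [hd0] at h2
    have h3 : (k + ρ) * ((k : ℝ) + 2 - 1 + 1 / 10000) = (k + ρ) * ((k : ℝ) + 1 + 1 / 10000) := by ring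
    linarith
  obtain ⟨j, hj, hρj, hexp⟩ := exists_grid k hk2 ρ hρ2 hρk
  set ρ1 : ℝ := min 2 ((k : ℝ) / (k + 1) + j / 10000) with hρ1
  have hρ10 : 0 ≤ ρ1 := le_min (by norm_num) (by positivity)
  -- the points
  set s : Finset ℕ := (Finset.Icc 1 N).filter fun n : ℕ =>
    ∃ p : ℕ, p.Prime ∧ P < p ∧ (p : ℝ) ≤ 2 * P ∧ (p : ℤ) ^ k ∣ f.eval (n : ℤ) with hs
  have hdata : ∀ n : ℕ, ∃ (p : ℕ) (a b : Fin (mon f).natDegree → ℤ) (cc : ℤ), n ∈ s →
      p.Prime ∧ P < p ∧ (p : ℝ) ≤ 2 * P ∧ (p : ℤ) ^ k ∣ f.eval (n : ℤ) ∧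
      (∀ i, |(a i : ℝ)| ≤ 2 * A) ∧ cc ≠ 0 ∧ |cc| ≤ C0 ∧ nm hF (el (mon f) a) = p * cc ∧
      (M : AdjoinRoot (mon f)) * (((L * n : ℤ) : AdjoinRoot (mon f)) - AdjoinRoot.root (mon f)) =
        el (mon f) a ^ k * el (mon f) b ∧
      (∀ i, |(b i : ℝ)| ≤ C0 * (|((L * n : ℤ) : ℝ)| + 1) / A ^ k) := by
    intro n
    by_cases hn : n ∈ s
    · obtain ⟨hn1, p, hp, hPp, hp2, hdvd⟩ := Finset.mem_filter.mp hn
      have hC0p : C0 < p := by
        have h1 : (N : ℝ) < p := lt_of_le_of_lt hNP hPp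
        have h2 : N < p := by exact_mod_cast h1
        omega
      obtain ⟨a, b, cc, _, h1, _, h2, h3, h4, h5, _, _, _, h6⟩ := htor A hA1.le p hp hC0p
        (by rw [hdF, hAd]; exact hPp.le) (by rw [hdF, hAd]; exact hp2) (L * n)
        (mon_dvd f (by omega) n _ hdvd)
      exact ⟨p, a, b, cc, fun _ => ⟨hp, hPp, hp2, hdvd, h1, h2, h3, h4, h5, h6⟩⟩
    · exact ⟨0, 0, 0, 0, fun h => absurd h hn⟩
  choose p a b cc hdat using hdata
  have hsN : ∀ n ∈ s, 1 ≤ n ∧ n ≤ N := fun n hn => Finset.mem_Icc.mp (Finset.mem_filter.mp hn).1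
  have hNp : ∀ n ∈ s, N < p n := by
    intro n hn
    have h1 : (N : ℝ) < p n := lt_of_le_of_lt hNP (hdat n hn).2.1
    exact_mod_cast h1
  have hcard1 : s.card ≤ d * (s.image a).card := by
    refine hfibre N k C0 s a (fun v => nm hF (el (mon f) v)) p cc (by omega) ?_
    intro n hn
    obtain ⟨h1, h2, h3, h4, h5, h6, h7, h8, h9, h10⟩ := hdat n hn
    have h11 := hNp n hn
    refine ⟨(hsN n hn).1, (hsN n hn).2, h1, by omega, ?_, h11, h4, h8, h6, h7⟩
    have : C0 < p n := by omega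
    exact_mod_cast this
  -- the vectors
  have hcard2 : ((s.image a).card : ℝ) ≤
      5 ^ k * (KK + (mon f).natDegree ^ 3) * A ^ ((k : ℝ) + 999 / 1000 * ρ1) := by
    refine count_vectors hF hirrF (by omega) z hinj hz hprod k (by omega) Cc M A ρ1 KK hA1.le
      ?_ hKK0 hρ10 _ ?_ ?_
    · intro a0 ha0 hgp T m b hT
      refine (hKs j A hA1.le a0 ha0 hgp T m b hT).trans ?_
      exact mul_le_mul_of_nonneg_right (hKle j (by rw [hJ]; exact hj)) (Real.rpow_nonneg hA0.le _)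
    · intro v hv
      obtain ⟨n, hn, rfl⟩ := Finset.mem_image.mp hv
      exact (hdat n hn).2.2.2.2.1
    · intro v hv
      obtain ⟨n, hn, rfl⟩ := Finset.mem_image.mp hv
      obtain ⟨h1, h2, h3, h4, h5, h6, h7, h8, h9, h10⟩ := hdat n hn
      have hnN : (n : ℝ) ≤ N := by exact_mod_cast (hsN n hn).2
      have hLn : |((L * n : ℤ) : ℝ)| ≤ L.natAbs * N := by
        push_cast
        rw [abs_mul, Nat.abs_cast]
        have : |(L : ℝ)| = (L.natAbs : ℝ) := by
          rw [Nat.cast_natAbs]; push_cast; rfl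
        rw [this]
        gcongr
      have hNA1 : (N : ℝ) ≤ A ^ ((k : ℝ) + ρ1) := by
        rw [hNA]
        exact Real.rpow_le_rpow_of_exponent_le hA1.le (by linarith)
      have hNA1' : (1 : ℝ) ≤ A ^ ((k : ℝ) + ρ1) := by linarith
      have hNA1'' : A ^ ((k : ℝ) + ρ1) / A ^ k = A ^ ρ1 := by
        rw [Real.rpow_add hA0, Real.rpow_natCast]
        field_simp
      have hemb : emb 2 (tl (a n)) (hd2 (by omega) (a n)) = a n := emb_tl _ _
      have hLle : (L.natAbs : ℝ) ≤ Cc := by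
        have : L.natAbs ≤ Cc := by
          rw [hCc]
          calc L.natAbs = 1 * L.natAbs := (one_mul _).symm
            _ ≤ C0 * (2 * L.natAbs + 1) := Nat.mul_le_mul hC0 (by omega)
        exact_mod_cast this
      have hC0L : (C0 : ℝ) * (L.natAbs + 1) ≤ Cc := by
        have : C0 * (L.natAbs + 1) ≤ Cc := by
          rw [hCc]; exact Nat.mul_le_mul_left _ (by omega)
        exact_mod_cast this
      refine ⟨L * n, b n, ?_⟩
      refine { t_le := fun i => h5 _, m_le := ?_, b_le := ?_, eqn := ?_, norm := ?_ }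
      · refine hLn.trans ?_
        exact mul_le_mul hLle hNA1 hN0.le (by positivity)
      · intro l
        refine (h10 l).trans ?_
        calc (C0 : ℝ) * (|((L * n : ℤ) : ℝ)| + 1) / A ^ k
            ≤ C0 * (L.natAbs * A ^ ((k : ℝ) + ρ1) + A ^ ((k : ℝ) + ρ1)) / A ^ k := by
              gcongr
              exact hLn.trans (by gcongr)
          _ = C0 * (L.natAbs + 1) * (A ^ ((k : ℝ) + ρ1) / A ^ k) := by ring
          _ = C0 * (L.natAbs + 1) * A ^ ρ1 := by rw [hNA1'']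
          _ ≤ Cc * A ^ ρ1 := by gcongr
      · rw [hemb]; exact h9
      · refine ⟨p n, cc n, h1, ?_, ?_, ?_, ?_, h6, ?_, mon_dvd f (by omega) n _ h4⟩
        · have := hNp n hn
          omega
        · rw [hdF, hAd]; exact h2.le
        · rw [hdF, hAd]; exact h3
        · rw [hemb]; exact h8
        · have : (C0 : ℤ) ≤ Cc := by exact_mod_cast hC0Cc
          linarith
  have hdy : dyCount f k N P = s.card := by
    unfold dyCount
    rw [hs]
  rw [hdy]
  have hcard1' : (s.card : ℝ) ≤ d * ((s.image a).card : ℝ) := by exact_mod_cast hcard1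
  have hdFr : (((mon f).natDegree : ℕ) : ℝ) = d := by rw [hdF]
  have hcard2' : ((s.image a).card : ℝ) ≤
      5 ^ k * (KK + (d : ℝ) ^ 3) * A ^ ((k : ℝ) + 999 / 1000 * ρ1) := by
    rw [← hdFr]; exact hcard2
  calc (s.card : ℝ) ≤ d * ((s.image a).card : ℝ) := hcard1'
    _ ≤ d * (5 ^ k * (KK + (d : ℝ) ^ 3) * A ^ ((k : ℝ) + 999 / 1000 * ρ1)) := by gcongr
    _ ≤ d * (5 ^ k * (KK + (d : ℝ) ^ 3) * A ^ ((k + ρ) * (1 - c))) := by
        gcongr
        exact hA1.le
    _ = d * (5 ^ k * (KK + (d : ℝ) ^ 3)) * (N : ℝ) ^ (1 - c) := by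
        rw [hNA, ← Real.rpow_mul hA0.le]
        ring

end Crest.Agent.R022.Outer
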