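import Mathlib

set_option autoImplicit false

namespace Crest.Agent.R022.Small

open Polynomial

/-! ### Rolle chain and integer points on a smooth curve -/

/-- If `y j` has derivative `y (j+1)` on `[a,b]` for all `j`, and `y 0` has `s + 1` zeros in `[a,b]`,
then `y s` has a zero in `[a,b]`. -/
theorem rolle_chain (s : ℕ) : ∀ (y : ℕ → ℝ → ℝ) (a b : ℝ)
    (_ : ∀ j, ∀ x ∈ Set.Icc a b, HasDerivAt (y j) (y (j + 1) x) x)
    (Z : Finset ℝ) (_ : Z.card = s + 1) (_ : ∀ z ∈ Z, z ∈ Set.Icc a b ∧ y 0 z = 0),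
    ∃ x ∈ Set.Icc a b, y s x = 0 := by
  induction s with
  | zero =>
    intro y a b _ Z hZ hz
    obtain ⟨z, hz1⟩ := Finset.card_pos.mp (by omega : 0 < Z.card)
    exact ⟨z, (hz z hz1).1, (hz z hz1).2⟩
  | succ s ih =>
    intro y a b hy Z hZ hz
    set e := Z.orderEmbOfFin hZ with he
    have hmem : ∀ i, e i ∈ Z := fun i => Finset.orderEmbOfFin_mem Z hZ i
    have hlt : ∀ i : Fin (s + 1), e i.castSucc < e i.succ := fun i =>
      e.strictMono Fin.castSucc_lt_succ
    have hex : ∀ i : Fin (s + 1), ∃ c ∈ Set.Ioo (e i.castSucc) (e i.succ), y 1 c = 0 := by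
      intro i
      apply exists_hasDerivAt_eq_zero (hlt i)
      · intro x hx
        apply HasDerivAt.continuousAt (hy 0 x ?_) |>.continuousWithinAt
        exact ⟨(hz _ (hmem _)).1.1.trans hx.1, hx.2.trans (hz _ (hmem _)).1.2⟩
      · rw [(hz _ (hmem _)).2, (hz _ (hmem _)).2]
      · intro x hx
        apply hy 0 x
        exact ⟨(hz _ (hmem _)).1.1.trans hx.1.le, hx.2.le.trans (hz _ (hmem _)).1.2⟩
    choose c hc1 hc2 using hex
    have hcmono : StrictMono c := by
      rw [Fin.strictMono_iff_lt_succ]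
      intro i
      have h1 := (hc1 i.castSucc).2
      have h2 := (hc1 i.succ).1
      have h3 : i.castSucc.succ = i.succ.castSucc := by
        rw [Fin.succ_castSucc]
      rw [h3] at h1
      exact h1.trans h2
    refine ih (fun j => y (j + 1)) a b (fun j x hx => hy (j + 1) x hx)
      (Finset.univ.image c) ?_ ?_
    · rw [Finset.card_image_of_injective _ hcmono.injective]
      simp
    · intro z hz'
      obtain ⟨i, _, rfl⟩ := Finset.mem_image.mp hz'
      refine ⟨⟨(hz _ (hmem _)).1.1.trans (hc1 i).1.le, (hc1 i).2.le.trans (hz _ (hmem _)).1.2⟩, hc2 i⟩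

/-- Integer points test: on an interval of length `≤ H` where `y s` is nonzero and
`|y s| * H ^ (s (s + 1)) < 1`, fewer than `s + 1` integers `l` have `y 0 l` an integer. -/
theorem integer_points (s : ℕ) (y : ℕ → ℝ → ℝ) (a b H : ℝ) (hH : 1 ≤ H) (hab : b - a ≤ H)
    (hy : ∀ j, ∀ x ∈ Set.Icc a b, HasDerivAt (y j) (y (j + 1) x) x)
    (hne : ∀ x ∈ Set.Icc a b, y s x ≠ 0)
    (hsmall : ∀ x ∈ Set.Icc a b, |y s x| * H ^ ((s + 1) * s) < 1)
    (S : Finset ℤ) (hS : ∀ l ∈ S, (l : ℝ) ∈ Set.Icc a b ∧ ∃ p : ℤ, y 0 l = p) : S.card ≤ s := by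
  classical
  by_contra hcon
  push Not at hcon
  obtain ⟨T, hTS, hTc⟩ := Finset.exists_subset_card_eq (by omega : s + 1 ≤ S.card)
  have hT : ∀ l ∈ T, (l : ℝ) ∈ Set.Icc a b ∧ ∃ p : ℤ, y 0 l = p := fun l hl => hS l (hTS hl)
  choose! p hp using fun l hl => (hT l hl).2
  set v : ℤ → ℝ := fun l => (l : ℝ) with hv
  have hvs : Set.InjOn v (T : Set ℤ) := fun a _ b _ h => by
    simpa [hv] using h
  set P : ℝ[X] := Lagrange.interpolate T v (fun l => (p l : ℝ)) with hP
  have hPdeg : P.degree < T.card := Lagrange.degree_interpolate_lt _ hvs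
  have hPdeg' : P.natDegree ≤ s := by
    rw [hTc] at hPdeg
    by_cases h0 : P = 0
    · simp [h0]
    · have := (Polynomial.natDegree_lt_iff_degree_lt h0).mpr hPdeg
      omega
  have hPeval : ∀ l ∈ T, P.eval (l : ℝ) = p l := fun l hl =>
    Lagrange.eval_interpolate_at_node _ hvs hl
  -- chain of differences
  obtain ⟨ξ, hξ, hξ0⟩ := rolle_chain s
    (fun j x => y j x - (derivative^[j] P).eval x) a b (by
      intro j x hx
      refine (hy j x hx).sub ?_
      rw [Function.iterate_succ_apply']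
      exact Polynomial.hasDerivAt _ _)
    (T.image v) (by rw [Finset.card_image_of_injOn hvs, hTc]) (by
      intro z hz
      obtain ⟨l, hl, rfl⟩ := Finset.mem_image.mp hz
      refine ⟨(hT l hl).1, ?_⟩
      simp only [Function.iterate_zero, id, hv]
      rw [hPeval l hl, hp l hl, sub_self])
  have hder : (derivative^[s] P).eval ξ = s.factorial * P.coeff s := by
    have h1 : derivative^[s] P = C ((s.factorial : ℝ) * P.coeff s) := by
      ext m
      rw [Polynomial.coeff_iterate_derivative, Polynomial.coeff_C]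
      split_ifs with hm
      · subst hm
        simp [Nat.descFactorial_self]
      · rw [Polynomial.coeff_eq_zero_of_natDegree_lt (by omega), smul_zero]
    rw [h1, eval_C]
  have hys : y s ξ = s.factorial * P.coeff s := by
    rw [← hder]; linarith [hξ0]
  have hcoeff : P.coeff s = ∑ i ∈ T, (p i : ℝ) / ∏ j ∈ T.erase i, ((i : ℝ) - j) := by
    have h1 := Lagrange.coeff_eq_sum (v := v) hvs hPdeg
    rw [hTc, Nat.add_sub_cancel] at h1
    rw [h1]
    apply Finset.sum_congr rfl
    intro i hi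
    rw [hPeval i hi]
  -- common denominator
  set W : ℤ := ∏ i ∈ T, ∏ j ∈ T.erase i, (i - j) with hW
  have hWfac : ∀ i ∈ T, ∏ j ∈ T.erase i, (i - j) ≠ 0 := by
    intro i _
    apply Finset.prod_ne_zero_iff.mpr
    intro j hj
    have := (Finset.mem_erase.mp hj).1
    intro h
    exact this (by omega)
  set M : ℤ := ∑ i ∈ T, p i * ∏ i' ∈ T.erase i, ∏ j ∈ T.erase i', (i' - j) with hM
  have hWM : (W : ℝ) * P.coeff s = M := by
    rw [hcoeff, hM, hW, Finset.mul_sum]
    push_cast
    apply Finset.sum_congr rfl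
    intro i hi
    have h0 : (∏ j ∈ T.erase i, ((i : ℝ) - j)) ≠ 0 := by
      have := hWfac i hi
      intro h
      apply this
      exact_mod_cast h
    rw [← Finset.mul_prod_erase T _ hi]
    field_simp
  have hWabs : |(W : ℝ)| ≤ H ^ ((s + 1) * s) := by
    rw [hW]
    push_cast
    rw [Finset.abs_prod]
    have h1 : ∀ i ∈ T, |∏ j ∈ T.erase i, ((i : ℝ) - j)| ≤ H ^ s := by
      intro i hi
      rw [Finset.abs_prod]
      calc ∏ j ∈ T.erase i, |(i : ℝ) - j| ≤ ∏ j ∈ T.erase i, H := by
            apply Finset.prod_le_prod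
            · intro j _; exact abs_nonneg _
            · intro j hj
              have h2 := (hT i hi).1
              have h3 := (hT j (Finset.mem_of_mem_erase hj)).1
              rw [abs_le]
              constructor <;> linarith [h2.1, h2.2, h3.1, h3.2]
        _ = H ^ s := by
            rw [Finset.prod_const, Finset.card_erase_of_mem hi, hTc, Nat.add_sub_cancel]
    calc ∏ i ∈ T, |∏ j ∈ T.erase i, ((i : ℝ) - j)| ≤ ∏ i ∈ T, H ^ s :=
          Finset.prod_le_prod (fun i _ => abs_nonneg _) h1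
      _ = H ^ ((s + 1) * s) := by
          rw [Finset.prod_const, hTc, ← pow_mul, mul_comm]
  have hM0 : M ≠ 0 := by
    intro h0
    apply hne ξ hξ
    rw [hys]
    have hW0 : (W : ℝ) ≠ 0 := by
      have : W ≠ 0 := Finset.prod_ne_zero_iff.mpr hWfac
      exact_mod_cast this
    rw [h0, Int.cast_zero, mul_eq_zero] at hWM
    rw [hWM.resolve_left hW0, mul_zero]
  have hM1 : (1 : ℝ) ≤ |(M : ℝ)| := by
    rw [← Int.cast_abs]
    exact_mod_cast Int.one_le_abs hM0
  have hfac : (1 : ℝ) ≤ s.factorial := by exact_mod_cast Nat.succ_le_of_lt (Nat.factorial_pos s)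
  have h1 : (1 : ℝ) ≤ |y s ξ| * H ^ ((s + 1) * s) := by
    calc (1 : ℝ) ≤ |(M : ℝ)| := hM1
      _ = |(W : ℝ)| * |P.coeff s| := by rw [← hWM, abs_mul]
      _ ≤ H ^ ((s + 1) * s) * |P.coeff s| := by
          apply mul_le_mul_of_nonneg_right hWabs (abs_nonneg _)
      _ ≤ H ^ ((s + 1) * s) * (s.factorial * |P.coeff s|) := by
          apply mul_le_mul_of_nonneg_left _ (by positivity)
          exact le_mul_of_one_le_left (abs_nonneg _) hfac
      _ = |y s ξ| * H ^ ((s + 1) * s) := by
          rw [hys, abs_mul, Nat.abs_cast]; ring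
  exact absurd (hsmall ξ hξ) (not_lt.mpr h1)

end Crest.Agent.R022.Small
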