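import Mathlib

set_option autoImplicit false

namespace Crest.Agent.R022.Small

open Polynomial

/-! ### The derivatives of `f ^ κ` -/

/-- numerator polynomials: the `j`-th derivative of `f ^ κ` is `f ^ (κ - j) * G j`. -/
noncomputable def G (f : ℚ[X]) (κ : ℚ) : ℕ → ℚ[X]
  | 0 => 1
  | j + 1 => C (κ - j) * derivative f * G f κ j + f * derivative (G f κ j)

theorem G_ne_zero (f : ℚ[X]) (hf : Irreducible f) (κ : ℚ) (hκ : ∀ z : ℤ, κ ≠ z) (j : ℕ) :
    G f κ j ≠ 0 := by
  induction j with
  | zero => simp [G]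
  | succ j ih =>
    intro h0
    have hfin : FiniteMultiplicity f (G f κ j) :=
      FiniteMultiplicity.of_not_isUnit hf.not_isUnit ih
    obtain ⟨H, hH, hnd⟩ := hfin.exists_eq_pow_mul_and_not_dvd
    set e := multiplicity f (G f κ j)
    have hprime : Prime f := hf.prime
    have hder0 : derivative f ≠ 0 := by
      intro h
      exact hf.natDegree_pos.ne' (Polynomial.derivative_eq_zero.mp h)
    have h1 : G f κ (j + 1) = f ^ e * (C (κ - j + e) * derivative f * H + f * derivative H) := by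
      change C (κ - j) * derivative f * G f κ j + f * derivative (G f κ j) = _
      rw [hH, derivative_mul]
      rcases Nat.eq_zero_or_pos e with he | he
      · rw [he]; simp
      · rw [derivative_pow]
        have h2 : f * f ^ (e - 1) = f ^ e := by
          rw [← pow_succ']; congr 1; omega
        have h3 : (C (κ - j + e) : ℚ[X]) = C (κ - j) + (e : ℚ[X]) := by
          rw [C_add]; simp
        rw [h3]
        simp only [map_natCast]
        linear_combination ((e : ℚ[X]) * derivative f * H) * h2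
    rw [h1] at h0
    have h2 := (mul_eq_zero.mp h0).resolve_left (pow_ne_zero _ hf.ne_zero)
    have h3 : f ∣ C (κ - j + e) * derivative f * H := by
      have : C (κ - j + e) * derivative f * H = f * (- derivative H) := by
        linear_combination h2
      rw [this]; exact dvd_mul_right _ _
    have hc : (κ - j + e) ≠ 0 := by
      intro h
      apply hκ ((j : ℤ) - e)
      push_cast
      linarith
    rcases hprime.dvd_or_dvd h3 with h4 | h4
    · rcases hprime.dvd_or_dvd h4 with h5 | h5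
      · apply hf.not_isUnit
        exact isUnit_of_dvd_unit h5 (Polynomial.isUnit_C.mpr (isUnit_iff_ne_zero.mpr hc))
      · have h6 := Polynomial.natDegree_le_of_dvd h5 hder0
        have h7 := Polynomial.natDegree_derivative_lt hf.natDegree_pos.ne'
        omega
    · exact hnd h4

theorem natDegree_G (f : ℚ[X]) (hf : 1 ≤ f.natDegree) (κ : ℚ) (j : ℕ) :
    (G f κ j).natDegree ≤ j * (f.natDegree - 1) := by
  induction j with
  | zero => simp [G]
  | succ j ih =>
    change (C (κ - j) * derivative f * G f κ j + f * derivative (G f κ j)).natDegree ≤ _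
    refine (Polynomial.natDegree_add_le _ _).trans (max_le ?_ ?_)
    · refine Polynomial.natDegree_mul_le.trans ?_
      have h1 : (C (κ - j) * derivative f).natDegree ≤ f.natDegree - 1 :=
        (Polynomial.natDegree_C_mul_le _ _).trans (Polynomial.natDegree_derivative_le _)
      calc _ ≤ (f.natDegree - 1) + j * (f.natDegree - 1) := add_le_add h1 ih
        _ = (j + 1) * (f.natDegree - 1) := by ring
    · by_cases h0 : (G f κ j).natDegree = 0
      · rw [Polynomial.eq_C_of_natDegree_eq_zero h0]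
        simp
      · refine Polynomial.natDegree_mul_le.trans ?_
        have h1 := Polynomial.natDegree_derivative_le (G f κ j)
        calc f.natDegree + (derivative (G f κ j)).natDegree
            ≤ f.natDegree + ((G f κ j).natDegree - 1) := by omega
          _ = (f.natDegree - 1) + (G f κ j).natDegree := by omega
          _ ≤ (f.natDegree - 1) + j * (f.natDegree - 1) := by omega
          _ = (j + 1) * (f.natDegree - 1) := by ring

/-- real evaluation -/
noncomputable def ev (p : ℚ[X]) (x : ℝ) : ℝ := (p.map (algebraMap ℚ ℝ)).eval x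

theorem hasDerivAt_ev (p : ℚ[X]) (x : ℝ) : HasDerivAt (ev p) (ev (derivative p) x) x := by
  unfold ev
  rw [← derivative_map]
  exact Polynomial.hasDerivAt _ _

theorem hasDerivAt_G (f : ℚ[X]) (κ : ℚ) (j : ℕ) (x : ℝ) (hx : 0 < ev f x) :
    HasDerivAt (fun t => (ev f t) ^ ((κ : ℝ) - j) * ev (G f κ j) t)
      ((ev f x) ^ ((κ : ℝ) - (j + 1 : ℕ)) * ev (G f κ (j + 1)) x) x := by
  have h1 := (hasDerivAt_ev f x).rpow_const (p := (κ : ℝ) - j) (Or.inl hx.ne')
  have h2 := h1.mul (hasDerivAt_ev (G f κ j) x)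
  have h3 : ev f x ^ ((κ : ℝ) - j) = ev f x ^ ((κ : ℝ) - (j + 1 : ℕ)) * ev f x := by
    rw [← Real.rpow_add_one hx.ne']
    congr 1
    push_cast
    ring
  have h4 : ev f x ^ ((κ : ℝ) - j - 1) = ev f x ^ ((κ : ℝ) - (j + 1 : ℕ)) := by
    congr 1
    push_cast
    ring
  have h5 : ev (G f κ (j + 1)) x = ((κ : ℝ) - j) * ev (derivative f) x * ev (G f κ j) x +
      ev f x * ev (derivative (G f κ j)) x := by
    change ev (C (κ - j) * derivative f * G f κ j + f * derivative (G f κ j)) x = _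
    unfold ev
    simp
  have h6 : (ev f x) ^ ((κ : ℝ) - (j + 1 : ℕ)) * ev (G f κ (j + 1)) x =
      ev (derivative f) x * (↑κ - ↑j) * ev f x ^ ((κ : ℝ) - ↑j - 1) * ev (G f κ j) x +
      ev f x ^ ((κ : ℝ) - ↑j) * ev (derivative (G f κ j)) x := by
    rw [h5, h4, h3]
    ring
  rw [h6]
  exact h2

/-! ### growth of polynomials -/

theorem ev_upper (p : ℚ[X]) (D : ℕ) (hD : p.natDegree ≤ D) :
    ∃ C : ℝ, 0 < C ∧ ∀ x : ℝ, 1 ≤ x → |ev p x| ≤ C * x ^ D := by
  refine ⟨1 + ∑ i ∈ Finset.range (D + 1), |((p.coeff i : ℚ) : ℝ)|, by positivity, ?_⟩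
  intro x hx
  have h1 : ev p x = ∑ i ∈ Finset.range (D + 1), ((p.coeff i : ℚ) : ℝ) * x ^ i := by
    unfold ev
    rw [Polynomial.eval_eq_sum_range' (n := D + 1)]
    · simp
    · exact lt_of_le_of_lt (Polynomial.natDegree_map_le) (by omega)
  rw [h1]
  calc |∑ i ∈ Finset.range (D + 1), ((p.coeff i : ℚ) : ℝ) * x ^ i|
      ≤ ∑ i ∈ Finset.range (D + 1), |((p.coeff i : ℚ) : ℝ) * x ^ i| := Finset.abs_sum_le_sum_abs _ _
    _ ≤ ∑ i ∈ Finset.range (D + 1), |((p.coeff i : ℚ) : ℝ)| * x ^ D := by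
        apply Finset.sum_le_sum
        intro i hi
        rw [abs_mul]
        apply mul_le_mul_of_nonneg_left _ (abs_nonneg _)
        rw [abs_pow, abs_of_nonneg (by linarith)]
        exact pow_le_pow_right₀ hx (by simp at hi; omega)
    _ = (∑ i ∈ Finset.range (D + 1), |((p.coeff i : ℚ) : ℝ)|) * x ^ D := by
        rw [Finset.sum_mul]
    _ ≤ _ := by
        apply mul_le_mul_of_nonneg_right _ (by positivity)
        linarith

theorem ev_lower (p : ℚ[X]) (hp : 0 < p.leadingCoeff) :
    ∃ c x0 : ℝ, 0 < c ∧ 1 ≤ x0 ∧ ∀ x : ℝ, x0 ≤ x → c * x ^ p.natDegree ≤ ev p x := by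
  have hlc : (0 : ℝ) < ((p.leadingCoeff : ℚ) : ℝ) := by exact_mod_cast hp
  have hlin : (p.map (algebraMap ℚ ℝ)).leadingCoeff = ((p.leadingCoeff : ℚ) : ℝ) := by
    rw [Polynomial.leadingCoeff_map]; rfl
  have hnd : (p.map (algebraMap ℚ ℝ)).natDegree = p.natDegree :=
    Polynomial.natDegree_map _
  have h1 := Polynomial.isEquivalent_atTop_lead (p.map (algebraMap ℚ ℝ))
  rw [hlin, hnd] at h1
  -- eventually ev p x ≥ (lc/2) x^d
  have h2 := (h1.isLittleO).def (show (0 : ℝ) < 1 / 2 by norm_num)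
  obtain ⟨x1, hx1⟩ := Filter.eventually_atTop.mp h2
  refine ⟨((p.leadingCoeff : ℚ) : ℝ) / 2, max 1 x1, by positivity, le_max_left _ _, ?_⟩
  intro x hx
  have hx0 : (1 : ℝ) ≤ x := (le_max_left _ _).trans hx
  have h3 := hx1 x ((le_max_right _ _).trans hx)
  simp only [Pi.sub_apply, Real.norm_eq_abs] at h3
  have h4 : (0 : ℝ) < ((p.leadingCoeff : ℚ) : ℝ) * x ^ p.natDegree := by positivity
  rw [abs_of_pos h4] at h3
  have h5 := (abs_le.mp h3).1
  unfold ev
  nlinarith

theorem ev_ne_zero_large (p : ℚ[X]) (hp : p ≠ 0) : ∃ x0 : ℝ, 1 ≤ x0 ∧ ∀ x, x0 ≤ x → ev p x ≠ 0 := by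
  classical
  have h0 : p.map (algebraMap ℚ ℝ) ≠ 0 := (Polynomial.map_ne_zero_iff (algebraMap ℚ ℝ).injective).mpr hp
  obtain ⟨B, hB⟩ := ((p.map (algebraMap ℚ ℝ)).roots.toFinset : Set ℝ).toFinite.bddAbove
  refine ⟨max 1 (B + 1), le_max_left _ _, ?_⟩
  intro x hx h
  have h1 : x ∈ ((p.map (algebraMap ℚ ℝ)).roots.toFinset : Set ℝ) := by
    simp only [Finset.mem_coe, Multiset.mem_toFinset]
    exact (Polynomial.mem_roots h0).mpr h
  have h2 := hB h1
  have h3 := (le_max_right 1 (B + 1)).trans hx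
  linarith

end Crest.Agent.R022.Small
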