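import Crest.Agent.R022.Small997A
import Crest.Agent.R022.Small997B

set_option autoImplicit false

namespace Crest.Agent.R022.Small

open Polynomial Filter Topology

/-- Few integers `l` in a short window have `f (ν + m l) = p ^ k * m`. -/
theorem window (f : ℚ[X]) (hf : Irreducible f) (hlc : 0 < f.leadingCoeff) (k : ℕ) (hk : 2 ≤ k)
    (c : ℝ) (hc : 0 < c) (hc1 : c ≤ 1) :
    ∃ (s : ℕ) (N0 : ℕ), 0 < s ∧ 1 ≤ N0 ∧ ∀ N : ℕ, N0 ≤ N → ∀ m : ℕ, 1 ≤ m →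
      (m : ℝ) ≤ (N : ℝ) ^ (1 - c) → ∀ (ν : ℤ) (S : Finset ℤ),
      (∀ l ∈ S, (N : ℝ) ^ (1 - c / 2) ≤ (ν : ℝ) + m * l ∧
        ∃ p : ℕ, ev f ((ν : ℝ) + m * l) = (p : ℝ) ^ k * m) →
      (∀ l ∈ S, ∀ l' ∈ S, (l : ℝ) - l' ≤ (N : ℝ) ^ (c / (8 * (s + 1)))) → S.card ≤ s := by
  classical
  set d := f.natDegree with hd
  have hd1 : 1 ≤ d := hf.natDegree_pos
  set κ : ℚ := 1 / (k : ℚ) with hκ
  have hkq : (2 : ℚ) ≤ k := by exact_mod_cast hk
  have hkr : (2 : ℝ) ≤ k := by exact_mod_cast hk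
  have hκr : (κ : ℝ) = 1 / (k : ℝ) := by rw [hκ]; push_cast; rfl
  have hκ0 : (0 : ℝ) < κ := by rw [hκr]; positivity
  have hκ1 : (κ : ℝ) ≤ 1 := by rw [hκr, div_le_one (by linarith)]; linarith
  have hκint : ∀ z : ℤ, κ ≠ z := by
    intro z h
    have h1 : (1 : ℚ) = z * k := by
      rw [← h, hκ]; field_simp
    have h2 : (1 : ℤ) = z * k := by exact_mod_cast h1
    have h3 : (k : ℤ) ∣ 1 := ⟨z, by rw [h2]; ring⟩
    have h4 := Int.le_of_dvd one_pos h3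
    omega
  obtain ⟨s, hs⟩ := exists_nat_ge (4 * (d : ℝ) / c + 1)
  have hs0 : 0 < s := by
    rw [Nat.pos_iff_ne_zero]
    rintro rfl
    have : 0 ≤ 4 * (d : ℝ) / c := by positivity
    norm_num at hs
    linarith
  have hsd : 4 * (d : ℝ) ≤ c * s := by
    have h1 : 4 * (d : ℝ) / c ≤ s := by linarith
    rw [div_le_iff₀ hc] at h1
    linarith
  obtain ⟨c1, x1, hc10, hx11, hlow⟩ := ev_lower f hlc
  obtain ⟨C2, hC20, hup⟩ := ev_upper (G f κ s) (s * (d - 1)) (natDegree_G f hd1 κ s)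
  obtain ⟨x2, hx21, hne⟩ := ev_ne_zero_large (G f κ s) (G_ne_zero f hf κ hκint s)
  set C3 : ℝ := c1 ^ ((κ : ℝ) - s) * C2 with hC3
  have hC30 : 0 < C3 := by rw [hC3]; positivity
  -- choice of N0
  have hexp : 0 < c * s / 8 := by
    have : (0 : ℝ) < s := by exact_mod_cast hs0
    positivity
  have ht1 : Tendsto (fun N : ℕ => C3 * (N : ℝ) ^ (-(c * s / 8))) atTop (𝓝 0) := by
    have h1 := (tendsto_rpow_neg_atTop hexp).comp tendsto_natCast_atTop_atTop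
    have h2 := h1.const_mul C3
    rw [mul_zero] at h2
    exact h2
  have ht2 : Tendsto (fun N : ℕ => (N : ℝ) ^ (1 - c / 2)) atTop atTop :=
    (tendsto_rpow_atTop (by linarith)).comp tendsto_natCast_atTop_atTop
  obtain ⟨N1, hN1⟩ := eventually_atTop.mp (ht1.eventually (gt_mem_nhds (show (0 : ℝ) < 1 by norm_num)))
  obtain ⟨N2, hN2⟩ := eventually_atTop.mp (ht2.eventually_ge_atTop (max x1 x2))
  refine ⟨s, max 1 (max N1 N2), hs0, le_max_left _ _, ?_⟩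
  intro N hN m hm hmN ν S hS hdiff
  have hNge1 : 1 ≤ N := (le_max_left _ _).trans hN
  have hNR : (1 : ℝ) ≤ N := by exact_mod_cast hNge1
  have hN1' := hN1 N (((le_max_left _ _).trans (le_max_right _ _)).trans hN)
  have hN2' := hN2 N (((le_max_right _ _).trans (le_max_right _ _)).trans hN)
  have hmR : (1 : ℝ) ≤ m := by exact_mod_cast hm
  set H : ℝ := (N : ℝ) ^ (c / (8 * (s + 1))) with hH
  have hH1 : 1 ≤ H := Real.one_le_rpow hNR (by positivity)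
  rcases S.eq_empty_or_nonempty with rfl | hSne
  · simp
  set a : ℝ := ((S.min' hSne : ℤ) : ℝ) with ha
  set b : ℝ := ((S.max' hSne : ℤ) : ℝ) with hb
  have hlab : ∀ l ∈ S, (l : ℝ) ∈ Set.Icc a b := by
    intro l hl
    refine ⟨?_, ?_⟩
    · rw [ha]; exact_mod_cast S.min'_le l hl
    · rw [hb]; exact_mod_cast S.le_max' l hl
  have hbaH : b - a ≤ H := hdiff _ (S.max'_mem hSne) _ (S.min'_mem hSne)
  have hX : ∀ x ∈ Set.Icc a b, (N : ℝ) ^ (1 - c / 2) ≤ (ν : ℝ) + m * x := by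
    intro x hx
    have h1 := (hS _ (S.min'_mem hSne)).1
    have h2 : (m : ℝ) * a ≤ m * x := mul_le_mul_of_nonneg_left hx.1 (by linarith)
    linarith
  have hX1 : ∀ x ∈ Set.Icc a b, x1 ≤ (ν : ℝ) + m * x := fun x hx =>
    ((le_max_left _ _).trans hN2').trans (hX x hx)
  have hX2 : ∀ x ∈ Set.Icc a b, x2 ≤ (ν : ℝ) + m * x := fun x hx =>
    ((le_max_right _ _).trans hN2').trans (hX x hx)
  have hXpos : ∀ x ∈ Set.Icc a b, 0 < (ν : ℝ) + m * x := fun x hx => by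
    linarith [hX1 x hx]
  have hfpos : ∀ x ∈ Set.Icc a b, 0 < ev f ((ν : ℝ) + m * x) := by
    intro x hx
    have h1 := hlow _ (hX1 x hx)
    have h2 := hXpos x hx
    have : 0 < c1 * ((ν : ℝ) + m * x) ^ f.natDegree := by positivity
    linarith
  have hNpos : (0 : ℝ) < N := by linarith
  have hmpos : (0 : ℝ) < m := by linarith
  -- the chain
  refine integer_points s
    (fun j x => (m : ℝ) ^ j * (m : ℝ) ^ (-(κ : ℝ)) *
      ((ev f ((ν : ℝ) + m * x)) ^ ((κ : ℝ) - j) * ev (G f κ j) ((ν : ℝ) + m * x)))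
    a b H hH1 hbaH ?_ ?_ ?_ S ?_
  · intro j x hx
    have h1 := hasDerivAt_G f κ j _ (hfpos x hx)
    have h2 : HasDerivAt (fun x : ℝ => (ν : ℝ) + m * x) m x := by
      simpa using ((hasDerivAt_id x).const_mul (m : ℝ)).const_add (ν : ℝ)
    have h3 := (h1.comp x h2).const_mul ((m : ℝ) ^ j * (m : ℝ) ^ (-(κ : ℝ)))
    have h4 : (m : ℝ) ^ j * (m : ℝ) ^ (-(κ : ℝ)) *
        (ev f ((ν : ℝ) + m * x) ^ ((κ : ℝ) - ((j + 1 : ℕ) : ℝ)) * ev (G f κ (j + 1)) ((ν : ℝ) + m * x) * m) =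
        (m : ℝ) ^ (j + 1) * (m : ℝ) ^ (-(κ : ℝ)) *
        (ev f ((ν : ℝ) + m * x) ^ ((κ : ℝ) - ((j + 1 : ℕ) : ℝ)) * ev (G f κ (j + 1)) ((ν : ℝ) + m * x)) := by
      rw [pow_succ]
      ring
    rw [h4] at h3
    exact h3
  · intro x hx
    have h1 : 0 < (ev f ((ν : ℝ) + m * x)) ^ ((κ : ℝ) - s) := Real.rpow_pos_of_pos (hfpos x hx) _
    have h2 := hne _ (hX2 x hx)
    have h3 : (0 : ℝ) < (m : ℝ) ^ (-(κ : ℝ)) := Real.rpow_pos_of_pos hmpos _
    exact mul_ne_zero (mul_ne_zero (pow_ne_zero _ hmpos.ne') h3.ne') (mul_ne_zero h1.ne' h2)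
  · intro x hx
    set X := (ν : ℝ) + m * x with hXdef
    have hXp : 0 < X := hXpos x hx
    have hXge1 : 1 ≤ X := hx11.trans (hX1 x hx)
    have e1 : (m : ℝ) ^ (-(κ : ℝ)) ≤ 1 := by
      apply Real.rpow_le_one_of_one_le_of_nonpos hmR; linarith
    have e1' : 0 ≤ (m : ℝ) ^ (-(κ : ℝ)) := (Real.rpow_pos_of_pos hmpos _).le
    have hks : (κ : ℝ) - s ≤ 0 := by
      have : (1 : ℝ) ≤ s := by exact_mod_cast hs0
      linarith
    have e2 : (ev f X) ^ ((κ : ℝ) - s) ≤ (c1 * X ^ d) ^ ((κ : ℝ) - s) :=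
      Real.rpow_le_rpow_of_nonpos (by positivity) (hlow X (hX1 x hx)) hks
    have e2' : 0 ≤ (ev f X) ^ ((κ : ℝ) - s) := (Real.rpow_pos_of_pos (hfpos x hx) _).le
    have e3 : |ev (G f κ s) X| ≤ C2 * X ^ (s * (d - 1)) := hup X hXge1
    have e4 : (c1 * X ^ d) ^ ((κ : ℝ) - s) * (C2 * X ^ (s * (d - 1))) =
        C3 * X ^ ((d : ℝ) * κ - s) := by
      rw [Real.mul_rpow hc10.le (by positivity), ← Real.rpow_natCast X d, ← Real.rpow_mul hXp.le,
        ← Real.rpow_natCast X (s * (d - 1)), hC3]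
      have : X ^ ((d : ℝ) * κ - s) = X ^ ((d : ℝ) * ((κ : ℝ) - s)) * X ^ (((s * (d - 1) : ℕ)) : ℝ) := by
        rw [← Real.rpow_add hXp]
        congr 1
        push_cast [Nat.cast_sub hd1]
        ring
      rw [this]
      ring
    have hdk : (d : ℝ) * κ - s ≤ 0 := by
      have h1 : (d : ℝ) * κ ≤ d := by
        have : (0 : ℝ) ≤ d := by positivity
        nlinarith
      have h2 : c * s ≤ s := by
        have : (0 : ℝ) ≤ s := by positivity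
        nlinarith
      have h3 : (0 : ℝ) ≤ d := by positivity
      linarith
    have e5 : X ^ ((d : ℝ) * κ - s) ≤ ((N : ℝ) ^ (1 - c / 2)) ^ ((d : ℝ) * κ - s) :=
      Real.rpow_le_rpow_of_nonpos (by positivity) (hX x hx) hdk
    have e6 : (m : ℝ) ^ s ≤ ((N : ℝ) ^ (1 - c)) ^ s := pow_le_pow_left₀ hmpos.le hmN s
    have e7 : ((N : ℝ) ^ (1 - c)) ^ s * ((N : ℝ) ^ (1 - c / 2)) ^ ((d : ℝ) * κ - s) *
        H ^ ((s + 1) * s) ≤ (N : ℝ) ^ (-(c * s / 8)) := by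
      rw [hH, ← Real.rpow_natCast _ s, ← Real.rpow_natCast _ ((s + 1) * s), ← Real.rpow_mul hNpos.le,
        ← Real.rpow_mul hNpos.le, ← Real.rpow_mul hNpos.le, ← Real.rpow_add hNpos,
        ← Real.rpow_add hNpos]
      apply Real.rpow_le_rpow_of_exponent_le hNR
      have h1 : c / (8 * ((s : ℝ) + 1)) * (((s + 1) * s : ℕ) : ℝ) = c * s / 8 := by
        push_cast
        field_simp
      rw [h1]
      have h2 : (1 - c / 2) * ((d : ℝ) * κ) ≤ d := by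
        have h3 : (0 : ℝ) ≤ d := by positivity
        have h4 : (d : ℝ) * κ ≤ d := by nlinarith
        have h5 : 0 ≤ (d : ℝ) * κ := by positivity
        nlinarith
      nlinarith
    rw [abs_mul, abs_mul, abs_mul, abs_of_nonneg (pow_nonneg hmpos.le s), abs_of_nonneg e1',
      abs_of_nonneg e2']
    calc (m : ℝ) ^ s * (m : ℝ) ^ (-(κ : ℝ)) * (ev f X ^ ((κ : ℝ) - s) * |ev (G f κ s) X|) *
          H ^ ((s + 1) * s)
        ≤ ((N : ℝ) ^ (1 - c)) ^ s * 1 * ((c1 * X ^ d) ^ ((κ : ℝ) - s) * (C2 * X ^ (s * (d - 1)))) *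
          H ^ ((s + 1) * s) := by
          gcongr
      _ = C3 * X ^ ((d : ℝ) * κ - s) * ((N : ℝ) ^ (1 - c)) ^ s * H ^ ((s + 1) * s) := by
          rw [e4]; ring
      _ ≤ C3 * ((N : ℝ) ^ (1 - c / 2)) ^ ((d : ℝ) * κ - s) * ((N : ℝ) ^ (1 - c)) ^ s *
          H ^ ((s + 1) * s) := by
          gcongr
      _ = C3 * (((N : ℝ) ^ (1 - c)) ^ s * ((N : ℝ) ^ (1 - c / 2)) ^ ((d : ℝ) * κ - s) *
        H ^ ((s + 1) * s)) := by ring
      _ ≤ C3 * (N : ℝ) ^ (-(c * s / 8)) := by gcongr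
      _ < 1 := hN1'
  · intro l hl
    refine ⟨hlab l hl, ?_⟩
    obtain ⟨p, hp⟩ := (hS l hl).2
    refine ⟨(p : ℤ), ?_⟩
    have hG0 : ev (G f κ 0) ((ν : ℝ) + m * l) = 1 := by
      simp [G, ev]
    simp only [pow_zero, one_mul, Nat.cast_zero, sub_zero]
    rw [hG0, mul_one, hp, Real.mul_rpow (by positivity) hmpos.le, ← Real.rpow_natCast,
      ← Real.rpow_mul (by positivity)]
    have h1 : (k : ℝ) * κ = 1 := by rw [hκr]; field_simp
    rw [h1, Real.rpow_one, Real.rpow_neg hmpos.le]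
    have h2 : (m : ℝ) ^ (κ : ℝ) ≠ 0 := (Real.rpow_pos_of_pos hmpos _).ne'
    push_cast
    field_simp

end Crest.Agent.R022.Small
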