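import Crest.Agent.R022.TorsorForm
import Crest.Agent.R22.PolyKit859

/-! Row 22, block T1 (helper250): heights (`len`) and degrees of the slice polynomials. -/

set_option autoImplicit false

open Matrix

namespace Crest.Agent.R022.Torsor

open Polynomial (Monic)
open R22.PolyKit

variable {F : Polynomial ℤ} (hF : F.Monic)

theorem len_embP {d : ℕ} (r : ℕ) (a0 : Fin d → ℤ) (B : ℕ) (hB : 1 ≤ B)
    (ha : ∀ i, (a0 i).natAbs ≤ B) (i) : len (embP r a0 i) ≤ B := by
  unfold embP
  split_ifs
  · rw [len_X]; exact hB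
  · rw [len_C]; exact ha i

theorem totalDegree_embP {d : ℕ} (r : ℕ) (a0 : Fin d → ℤ) (i) : (embP r a0 i).totalDegree ≤ 1 := by
  unfold embP
  split_ifs
  · rw [MvPolynomial.totalDegree_X]
  · rw [MvPolynomial.totalDegree_C]; omega

/-- constant: sum of all structure constants plus one -/
noncomputable def Hc : ℕ := 1 + ∑ l, ∑ i, ∑ j, (lm hF (bas hF l) i j).natAbs

theorem len_Lgen (r : ℕ) (a0 : Fin F.natDegree → ℤ) (B : ℕ) (hB : 1 ≤ B)
    (ha : ∀ i, (a0 i).natAbs ≤ B) (i j) : len (Lgen hF r a0 i j) ≤ Hc hF * B := by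
  unfold Lgen
  rw [Matrix.sum_apply]
  refine (len_sum _ _).trans ?_
  calc ∑ l, len ((embP r a0 l • (lm hF (bas hF l)).map MvPolynomial.C) i j)
      ≤ ∑ l, (lm hF (bas hF l) i j).natAbs * B := by
        refine Finset.sum_le_sum fun l _ => ?_
        rw [Matrix.smul_apply, smul_eq_mul, Matrix.map_apply]
        refine (len_mul _ _).trans ?_
        rw [len_C, mul_comm]
        exact Nat.mul_le_mul_left _ (len_embP r a0 B hB ha l)
    _ = (∑ l, (lm hF (bas hF l) i j).natAbs) * B := by rw [Finset.sum_mul]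
    _ ≤ Hc hF * B := by
        refine Nat.mul_le_mul_right _ ?_
        unfold Hc
        have h1 : ∑ l, (lm hF (bas hF l) i j).natAbs ≤ ∑ l, ∑ i, ∑ j, (lm hF (bas hF l) i j).natAbs := by
          refine Finset.sum_le_sum fun l _ => ?_
          calc (lm hF (bas hF l) i j).natAbs ≤ ∑ j, (lm hF (bas hF l) i j).natAbs :=
                Finset.single_le_sum (f := fun j => (lm hF (bas hF l) i j).natAbs)
                  (fun _ _ => Nat.zero_le _) (Finset.mem_univ j)
            _ ≤ ∑ i, ∑ j, (lm hF (bas hF l) i j).natAbs :=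
                Finset.single_le_sum (f := fun i => ∑ j, (lm hF (bas hF l) i j).natAbs)
                  (fun _ _ => Nat.zero_le _) (Finset.mem_univ i)
        omega

theorem totalDegree_Lgen (r : ℕ) (a0 : Fin F.natDegree → ℤ) (i j) :
    (Lgen hF r a0 i j).totalDegree ≤ 1 := by
  unfold Lgen
  rw [Matrix.sum_apply]
  refine MvPolynomial.totalDegree_finsetSum_le fun l _ => ?_
  rw [Matrix.smul_apply, smul_eq_mul, Matrix.map_apply]
  refine (MvPolynomial.totalDegree_mul _ _).trans ?_
  rw [MvPolynomial.totalDegree_C, add_zero]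
  exact totalDegree_embP r a0 l

theorem one_le_Hc : 1 ≤ Hc hF := by unfold Hc; omega

theorem len_adj (r : ℕ) (a0 : Fin F.natDegree → ℤ) (B : ℕ) (hB : 1 ≤ B)
    (ha : ∀ i, (a0 i).natAbs ≤ B) (i j) : len ((Lgen hF r a0).adjugate i j) ≤
      F.natDegree.factorial * (Hc hF * B) ^ F.natDegree := by
  rw [Matrix.adjugate_apply]
  have := len_det ((Lgen hF r a0).updateRow j (Pi.single i 1)) (Hc hF * B) ?_
  · simpa using this
  · intro a b
    by_cases h : a = j
    · subst h
      rw [Matrix.updateRow_self]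
      by_cases h' : b = i
      · subst h'
        rw [Pi.single_eq_same, len_one]
        exact Nat.mul_pos (one_le_Hc hF) hB
      · rw [Pi.single_eq_of_ne h', len_zero]; omega
    · rw [Matrix.updateRow_ne h]
      exact len_Lgen hF r a0 B hB ha a b

theorem totalDegree_adj (r : ℕ) (a0 : Fin F.natDegree → ℤ) (i j) :
    ((Lgen hF r a0).adjugate i j).totalDegree ≤ F.natDegree := by
  rw [Matrix.adjugate_apply]
  have := totalDegree_det ((Lgen hF r a0).updateRow j (Pi.single i 1)) 1 ?_
  · simpa using this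
  · intro a b
    by_cases h : a = j
    · subst h
      rw [Matrix.updateRow_self]
      by_cases h' : b = i
      · subst h'
        rw [Pi.single_eq_same, MvPolynomial.totalDegree_one]; omega
      · rw [Pi.single_eq_of_ne h', MvPolynomial.totalDegree_zero]; omega
    · rw [Matrix.updateRow_ne h]
      exact totalDegree_Lgen hF r a0 a b

theorem len_adj_pow (r : ℕ) (a0 : Fin F.natDegree → ℤ) (B : ℕ) (hB : 1 ≤ B)
    (ha : ∀ i, (a0 i).natAbs ≤ B) (k : ℕ) (i j) : len (((Lgen hF r a0).adjugate ^ k) i j) ≤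
      (F.natDegree * (F.natDegree.factorial * (Hc hF * B) ^ F.natDegree)) ^ k := by
  induction k generalizing i j with
  | zero =>
    rw [pow_zero, pow_zero, Matrix.one_apply]
    split_ifs <;> simp
  | succ k ih =>
    rw [pow_succ, Matrix.mul_apply]
    refine (len_sum _ _).trans ?_
    calc ∑ x, len (((Lgen hF r a0).adjugate ^ k) i x * (Lgen hF r a0).adjugate x j)
        ≤ ∑ _x : Fin F.natDegree, (F.natDegree * (F.natDegree.factorial * (Hc hF * B) ^ F.natDegree)) ^ k *
            (F.natDegree.factorial * (Hc hF * B) ^ F.natDegree) := by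
          refine Finset.sum_le_sum fun x _ => (len_mul _ _).trans ?_
          exact Nat.mul_le_mul (ih i x) (len_adj hF r a0 B hB ha x j)
      _ = (F.natDegree * (F.natDegree.factorial * (Hc hF * B) ^ F.natDegree)) ^ (k + 1) := by
          rw [Finset.sum_const, Finset.card_univ, Fintype.card_fin, smul_eq_mul, pow_succ]
          ring

theorem totalDegree_adj_pow (r : ℕ) (a0 : Fin F.natDegree → ℤ) (k : ℕ) (i j) :
    (((Lgen hF r a0).adjugate ^ k) i j).totalDegree ≤ k * F.natDegree := by
  induction k generalizing i j with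
  | zero =>
    rw [pow_zero, Matrix.one_apply]
    split_ifs <;> simp
  | succ k ih =>
    rw [pow_succ, Matrix.mul_apply]
    refine MvPolynomial.totalDegree_finsetSum_le fun x _ => ?_
    refine (MvPolynomial.totalDegree_mul _ _).trans ?_
    have h1 := ih i x
    have h2 := totalDegree_adj hF r a0 x j
    calc _ ≤ k * F.natDegree + F.natDegree := Nat.add_le_add h1 h2
      _ = (k + 1) * F.natDegree := by ring

/-- **Heights and degrees** of all the slice polynomials. -/
theorem exists_height_bound (k : ℕ) (y : AdjoinRoot F) : ∃ C : ℕ, ∀ (r : ℕ)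
    (a0 : Fin F.natDegree → ℤ) (B : ℕ), 1 ≤ B → (∀ i, (a0 i).natAbs ≤ B) →
    len (Nf hF r a0) ≤ C * B ^ C ∧ (Nf hF r a0).totalDegree ≤ F.natDegree ∧
    (∀ l, len (Sf hF r a0 k y l) ≤ C * B ^ C) ∧
    (∀ l, (Sf hF r a0 k y l).totalDegree ≤ k * F.natDegree) := by
  set d := F.natDegree with hd
  set Y : ℕ := ∑ i, ((bas hF).repr y i).natAbs with hY
  set C : ℕ := d.factorial * Hc hF ^ d + d + (d * (d.factorial * Hc hF ^ d)) ^ k * (d * Y) + d * k with hC
  refine ⟨C, ?_⟩
  intro r a0 B hB ha
  refine ⟨?_, ?_, ?_, ?_⟩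
  · have h1 : len (Nf hF r a0) ≤ d.factorial * (Hc hF * B) ^ d := by
      have := len_det (Lgen hF r a0) (Hc hF * B) (fun i j => len_Lgen hF r a0 B hB ha i j)
      rw [Fintype.card_fin] at this
      exact this
    refine h1.trans ?_
    calc d.factorial * (Hc hF * B) ^ d = d.factorial * Hc hF ^ d * B ^ d := by rw [mul_pow]; ring
      _ ≤ C * B ^ C := Nat.mul_le_mul (by omega) (Nat.pow_le_pow_right hB (by omega))
  · have := totalDegree_det (Lgen hF r a0) 1 (fun i j => totalDegree_Lgen hF r a0 i j)
    rw [Fintype.card_fin, mul_one] at this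
    exact this
  · intro l
    unfold Sf
    simp only [Matrix.mulVec, dotProduct]
    refine (len_sum _ _).trans ?_
    calc ∑ i, len (((Lgen hF r a0).adjugate ^ k) l i * MvPolynomial.C ((bas hF).repr y i))
        ≤ ∑ _i : Fin d, (d * (d.factorial * (Hc hF * B) ^ d)) ^ k * Y := by
          refine Finset.sum_le_sum fun i _ => (len_mul _ _).trans ?_
          refine Nat.mul_le_mul (len_adj_pow hF r a0 B hB ha k l i) ?_
          rw [len_C]
          exact Finset.single_le_sum (f := fun i => ((bas hF).repr y i).natAbs)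
            (fun _ _ => Nat.zero_le _) (Finset.mem_univ i)
      _ = (d * (d.factorial * Hc hF ^ d)) ^ k * (d * Y) * B ^ (d * k) := by
          rw [Finset.sum_const, Finset.card_univ, Fintype.card_fin, smul_eq_mul, mul_pow (Hc hF) B,
            pow_mul]
          rw [show d * (d.factorial * (Hc hF ^ d * B ^ d)) = (d * (d.factorial * Hc hF ^ d)) * B ^ d by ring,
            mul_pow _ (B ^ d)]
          ring
      _ ≤ C * B ^ C := Nat.mul_le_mul (by omega) (Nat.pow_le_pow_right hB (by omega))
  · intro l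
    unfold Sf
    simp only [Matrix.mulVec, dotProduct]
    refine MvPolynomial.totalDegree_finsetSum_le fun i _ => ?_
    refine (MvPolynomial.totalDegree_mul _ _).trans ?_
    rw [MvPolynomial.totalDegree_C, add_zero]
    exact totalDegree_adj_pow hF r a0 k l i

end Crest.Agent.R022.Torsor
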