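import Crest.Agent.R022.SliceDefs
import Crest.Agent.R022.TorsorHeight
import Crest.Agent.R022.Defs
import Crest.Agent.R22.TypeCount107
import Crest.Agent.R022.CntMain

/-! Row 22, level L0 (helper107): the cleared integer monomials `t^e b^f N^(k (J - |f|))` as
polynomials in `n` over `ℤ[t]`, their values and degrees. -/

set_option autoImplicit false

namespace Crest.Agent.R022.Stage107

open Torsor
open Polynomial (C X)

/-- degree bound in the coefficients -/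
def CD {σ : Type*} (p : Polynomial (MvPolynomial σ ℤ)) (c : ℕ) : Prop :=
  ∀ i, (p.coeff i).totalDegree ≤ c

theorem CD.mono {σ : Type*} {p : Polynomial (MvPolynomial σ ℤ)} {c c' : ℕ} (h : CD p c)
    (hc : c ≤ c') : CD p c' := fun i => (h i).trans hc

theorem CD_C {σ : Type*} {x : MvPolynomial σ ℤ} {c : ℕ} (h : x.totalDegree ≤ c) : CD (C x) c := by
  intro i
  rw [Polynomial.coeff_C]
  split_ifs
  · exact h
  · simp

theorem CD_mul {σ : Type*} {p q : Polynomial (MvPolynomial σ ℤ)} {c c' : ℕ} (hp : CD p c)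
    (hq : CD q c') : CD (p * q) (c + c') := by
  intro i
  rw [Polynomial.coeff_mul]
  refine MvPolynomial.totalDegree_finsetSum_le fun x _ => ?_
  exact (MvPolynomial.totalDegree_mul _ _).trans (Nat.add_le_add (hp _) (hq _))

theorem CD_add {σ : Type*} {p q : Polynomial (MvPolynomial σ ℤ)} {c : ℕ} (hp : CD p c)
    (hq : CD q c) : CD (p + q) c := by
  intro i
  rw [Polynomial.coeff_add]
  exact (MvPolynomial.totalDegree_add _ _).trans (max_le (hp i) (hq i))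

theorem CD_sub {σ : Type*} {p q : Polynomial (MvPolynomial σ ℤ)} {c : ℕ} (hp : CD p c)
    (hq : CD q c) : CD (p - q) c := by
  intro i
  rw [Polynomial.coeff_sub]
  exact (MvPolynomial.totalDegree_sub _ _).trans (max_le (hp i) (hq i))

theorem CD_pow {σ : Type*} {p : Polynomial (MvPolynomial σ ℤ)} {c : ℕ} (hp : CD p c) (n : ℕ) :
    CD (p ^ n) (n * c) := by
  induction n with
  | zero =>
    rw [pow_zero]
    intro i
    rw [Polynomial.coeff_one]
    split_ifs <;> simp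
  | succ n ih =>
    rw [pow_succ]
    exact (CD_mul ih hp).mono (by ring_nf; omega)

theorem CD_prod {σ ι : Type*} (s : Finset ι) (p : ι → Polynomial (MvPolynomial σ ℤ)) (c : ι → ℕ)
    (hp : ∀ i ∈ s, CD (p i) (c i)) : CD (∏ i ∈ s, p i) (∑ i ∈ s, c i) := by
  classical
  induction s using Finset.induction_on with
  | empty =>
    intro i
    rw [Finset.prod_empty, Polynomial.coeff_one]
    split_ifs <;> simp
  | insert a s ha ih =>
    rw [Finset.prod_insert ha, Finset.sum_insert ha]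
    exact CD_mul (hp a (Finset.mem_insert_self _ _))
      (ih fun i hi => hp i (Finset.mem_insert_of_mem hi))

theorem CD_sum {σ ι : Type*} (s : Finset ι) (p : ι → Polynomial (MvPolynomial σ ℤ)) (c : ℕ)
    (hp : ∀ i ∈ s, CD (p i) c) : CD (∑ i ∈ s, p i) c := by
  intro i
  rw [Polynomial.finsetSum_coeff]
  exact MvPolynomial.totalDegree_finsetSum_le fun x hx => hp x hx i

theorem CD_X {σ : Type*} : CD (X : Polynomial (MvPolynomial σ ℤ)) 0 := by
  intro i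
  rw [Polynomial.coeff_X]
  split_ifs <;> simp

variable {F : Polynomial ℤ} (hF : F.Monic)

/-- `N^k b_l = M (n A_l - B_l)` as a polynomial in `n` -/
noncomputable def Bi (k : ℕ) (M : ℤ) (a0 : Fin F.natDegree → ℤ) (l : Fin F.natDegree) :
    Polynomial (MvPolynomial (Fin 2) ℤ) :=
  C (MvPolynomial.C M * Sf hF 2 a0 k 1 l) * X -
    C (MvPolynomial.C M * Sf hF 2 a0 k (AdjoinRoot.root F) l)

/-- the uncleared monomial `t^e ∏ (N^k b_l)^{f_l}` -/
noncomputable def Pmon (k : ℕ) (M : ℤ) (a0 : Fin F.natDegree → ℤ)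
    (ω : (ℕ × ℕ) × (Fin F.natDegree → ℕ)) : Polynomial (MvPolynomial (Fin 2) ℤ) :=
  C (MvPolynomial.X 0 ^ ω.1.1 * MvPolynomial.X 1 ^ ω.1.2) * (∏ l, Bi hF k M a0 l ^ ω.2 l)

/-- the cleared monomial -/
noncomputable def Imon (k J : ℕ) (M : ℤ) (a0 : Fin F.natDegree → ℤ)
    (ω : (ℕ × ℕ) × (Fin F.natDegree → ℕ)) : Polynomial (MvPolynomial (Fin 2) ℤ) :=
  C (MvPolynomial.X 0 ^ ω.1.1 * MvPolynomial.X 1 ^ ω.1.2) * (∏ l, Bi hF k M a0 l ^ ω.2 l) *
    C (Nf hF 2 a0 ^ (k * (J - ∑ l, ω.2 l)))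

theorem natDegree_Bi (k : ℕ) (M : ℤ) (a0 : Fin F.natDegree → ℤ) (l : Fin F.natDegree) :
    (Bi hF k M a0 l).natDegree ≤ 1 := by
  unfold Bi
  refine (Polynomial.natDegree_sub_le _ _).trans (max_le ?_ ?_)
  · refine (Polynomial.natDegree_C_mul_le _ _).trans ?_
    exact Polynomial.natDegree_X_le
  · rw [Polynomial.natDegree_C]; omega

theorem natDegree_Pmon (k : ℕ) (M : ℤ) (a0 : Fin F.natDegree → ℤ)
    (ω : (ℕ × ℕ) × (Fin F.natDegree → ℕ)) : (Pmon hF k M a0 ω).natDegree ≤ ∑ l, ω.2 l := by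
  unfold Pmon
  refine (Polynomial.natDegree_C_mul_le _ _).trans ?_
  refine (Polynomial.natDegree_prod_le _ _).trans ?_
  refine Finset.sum_le_sum fun l _ => ?_
  refine Polynomial.natDegree_pow_le.trans ?_
  calc ω.2 l * (Bi hF k M a0 l).natDegree ≤ ω.2 l * 1 :=
        Nat.mul_le_mul_left _ (natDegree_Bi hF k M a0 l)
    _ = ω.2 l := mul_one _

theorem Imon_eq (k J : ℕ) (M : ℤ) (a0 : Fin F.natDegree → ℤ)
    (ω : (ℕ × ℕ) × (Fin F.natDegree → ℕ)) :
    Imon hF k J M a0 ω = Pmon hF k M a0 ω * C (Nf hF 2 a0 ^ (k * (J - ∑ l, ω.2 l))) := rfl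

theorem natDegree_Imon (k J : ℕ) (M : ℤ) (a0 : Fin F.natDegree → ℤ)
    (ω : (ℕ × ℕ) × (Fin F.natDegree → ℕ)) : (Imon hF k J M a0 ω).natDegree ≤ ∑ l, ω.2 l := by
  rw [Imon_eq]
  exact (Polynomial.natDegree_mul_C_le _ _).trans (natDegree_Pmon hF k M a0 ω)

theorem totalDegree_Sf_le (k : ℕ) (y : AdjoinRoot F) (a0 : Fin F.natDegree → ℤ) (l) :
    (Sf hF 2 a0 k y l).totalDegree ≤ k * F.natDegree := by
  unfold Sf
  simp only [Matrix.mulVec, dotProduct]
  refine MvPolynomial.totalDegree_finsetSum_le fun i _ => ?_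
  refine (MvPolynomial.totalDegree_mul _ _).trans ?_
  rw [MvPolynomial.totalDegree_C, add_zero]
  exact totalDegree_adj_pow hF 2 a0 k l i

theorem totalDegree_Nf_le (a0 : Fin F.natDegree → ℤ) :
    (Nf hF 2 a0).totalDegree ≤ F.natDegree := by
  have := R22.PolyKit.totalDegree_det (Lgen hF 2 a0) 1 (fun i j => totalDegree_Lgen hF 2 a0 i j)
  rw [Fintype.card_fin, mul_one] at this
  exact this

theorem CD_Bi (k : ℕ) (M : ℤ) (a0 : Fin F.natDegree → ℤ) (l : Fin F.natDegree) :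
    CD (Bi hF k M a0 l) (k * F.natDegree) := by
  have h : ∀ y, (MvPolynomial.C M * Sf hF 2 a0 k y l).totalDegree ≤ k * F.natDegree := by
    intro y
    refine (MvPolynomial.totalDegree_mul _ _).trans ?_
    rw [MvPolynomial.totalDegree_C, zero_add]
    exact totalDegree_Sf_le hF k y a0 l
  unfold Bi
  refine CD_sub ?_ (CD_C (h _))
  have := CD_mul (CD_C (h 1)) (CD_X (σ := Fin 2))
  simpa using this

theorem CD_Imon (k J : ℕ) (M : ℤ) (a0 : Fin F.natDegree → ℤ)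
    (ω : (ℕ × ℕ) × (Fin F.natDegree → ℕ)) (hJ : ∑ l, ω.2 l ≤ J) :
    CD (Imon hF k J M a0 ω) (ω.1.1 + ω.1.2 + J * (k * F.natDegree)) := by
  unfold Imon
  have h1 : (MvPolynomial.X 0 ^ ω.1.1 * MvPolynomial.X 1 ^ ω.1.2 :
      MvPolynomial (Fin 2) ℤ).totalDegree ≤ ω.1.1 + ω.1.2 := by
    refine (MvPolynomial.totalDegree_mul _ _).trans ?_
    rw [MvPolynomial.totalDegree_X_pow, MvPolynomial.totalDegree_X_pow]
  have h2 : CD (∏ l, Bi hF k M a0 l ^ ω.2 l) (∑ l, ω.2 l * (k * F.natDegree)) :=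
    CD_prod _ _ _ fun l _ => CD_pow (CD_Bi hF k M a0 l) _
  have h3 : (Nf hF 2 a0 ^ (k * (J - ∑ l, ω.2 l))).totalDegree ≤
      (k * (J - ∑ l, ω.2 l)) * F.natDegree :=
    (MvPolynomial.totalDegree_pow _ _).trans (Nat.mul_le_mul_left _ (totalDegree_Nf_le hF a0))
  have h4 := CD_mul (CD_mul (CD_C h1) h2) (CD_C h3)
  refine h4.mono ?_
  rw [← Finset.sum_mul, add_assoc]
  refine Nat.add_le_add_left ?_ _
  rw [show k * (J - ∑ l, ω.2 l) * F.natDegree = (J - ∑ l, ω.2 l) * (k * F.natDegree) by ring,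
    ← Nat.add_mul]
  refine Nat.mul_le_mul_right _ ?_
  omega

/-- value of the polynomials at a point -/
theorem eval_Bi (k : ℕ) (M : ℤ) (a0 : Fin F.natDegree → ℤ) (l : Fin F.natDegree)
    (t : Fin 2 → ℤ) (n : ℤ) (b : Fin F.natDegree → ℤ)
    (h : (M : AdjoinRoot F) * ((n : AdjoinRoot F) - AdjoinRoot.root F) =
      el F (emb 2 a0 t) ^ k * el F b) :
    ev3 (Bi hF k M a0 l) t n = b l * (MvPolynomial.eval t (Nf hF 2 a0)) ^ k := by
  rw [coord_eq_slice hF 2 a0 t k M n b h l]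
  unfold ev3 Bi
  simp only [Polynomial.map_sub, Polynomial.map_mul, Polynomial.map_C, Polynomial.map_X,
    Polynomial.eval_sub, Polynomial.eval_mul, Polynomial.eval_C, Polynomial.eval_X, map_mul,
    MvPolynomial.eval_C]
  ring

theorem eval_Pmon (k : ℕ) (M : ℤ) (a0 : Fin F.natDegree → ℤ)
    (ω : (ℕ × ℕ) × (Fin F.natDegree → ℕ)) (t : Fin 2 → ℤ) (n : ℤ) (b : Fin F.natDegree → ℤ)
    (h : (M : AdjoinRoot F) * ((n : AdjoinRoot F) - AdjoinRoot.root F) =
      el F (emb 2 a0 t) ^ k * el F b) :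
    ev3 (Pmon hF k M a0 ω) t n = (t 0 ^ ω.1.1 * t 1 ^ ω.1.2 * ∏ l, b l ^ ω.2 l) *
      (MvPolynomial.eval t (Nf hF 2 a0)) ^ (k * ∑ l, ω.2 l) := by
  have h1 : ∀ l, ev3 (Bi hF k M a0 l) t n = b l * (MvPolynomial.eval t (Nf hF 2 a0)) ^ k :=
    fun l => eval_Bi hF k M a0 l t n b h
  unfold ev3 at h1
  unfold ev3 Pmon
  rw [Polynomial.map_mul, Polynomial.eval_mul, Polynomial.map_C, Polynomial.eval_C,
    Polynomial.map_prod, Polynomial.eval_prod]
  simp only [Polynomial.map_pow, Polynomial.eval_pow, h1, map_mul, map_pow, MvPolynomial.eval_X,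
    mul_pow, Finset.prod_mul_distrib]
  rw [pow_mul, ← Finset.prod_pow_eq_pow_sum]
  ring

theorem eval_Imon (k J : ℕ) (M : ℤ) (a0 : Fin F.natDegree → ℤ)
    (ω : (ℕ × ℕ) × (Fin F.natDegree → ℕ)) (hJ : ∑ l, ω.2 l ≤ J) (t : Fin 2 → ℤ) (n : ℤ)
    (b : Fin F.natDegree → ℤ)
    (h : (M : AdjoinRoot F) * ((n : AdjoinRoot F) - AdjoinRoot.root F) =
      el F (emb 2 a0 t) ^ k * el F b) :
    ev3 (Imon hF k J M a0 ω) t n = (t 0 ^ ω.1.1 * t 1 ^ ω.1.2 * ∏ l, b l ^ ω.2 l) *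
      (MvPolynomial.eval t (Nf hF 2 a0)) ^ (k * J) := by
  have h1 := eval_Pmon hF k M a0 ω t n b h
  unfold ev3 at h1
  unfold ev3
  rw [Imon_eq, Polynomial.map_mul, Polynomial.eval_mul, h1, Polynomial.map_C, Polynomial.eval_C,
    map_pow, mul_assoc, ← pow_add, ← Nat.mul_add, Nat.add_sub_cancel' hJ]

/-- the form needed by `relation_slice` -/
theorem eval_Pmon_sum (k J : ℕ) (M : ℤ) (a0 : Fin F.natDegree → ℤ)
    (ω : (ℕ × ℕ) × (Fin F.natDegree → ℕ)) (hJ : ∑ l, ω.2 l ≤ J) (t : Fin 2 → ℤ) (n : ℤ)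
    (b : Fin F.natDegree → ℤ)
    (h : (M : AdjoinRoot F) * ((n : AdjoinRoot F) - AdjoinRoot.root F) =
      el F (emb 2 a0 t) ^ k * el F b) :
    (t 0 ^ ω.1.1 * t 1 ^ ω.1.2 * ∏ l, b l ^ ω.2 l) *
      (MvPolynomial.eval t (Nf hF 2 a0)) ^ (k * ∑ l, ω.2 l) =
    ∑ j : Fin (J + 1), MvPolynomial.eval t ((Pmon hF k M a0 ω).coeff j) * n ^ (j : ℕ) := by
  rw [← eval_Pmon hF k M a0 ω t n b h]
  unfold ev3
  have h1 : ((Pmon hF k M a0 ω).map (MvPolynomial.eval t)).natDegree < J + 1 := by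
    have := (Polynomial.natDegree_map_le (f := MvPolynomial.eval t) (p := Pmon hF k M a0 ω)).trans
      ((natDegree_Pmon hF k M a0 ω).trans hJ)
    omega
  rw [Polynomial.eval_eq_sum_range' h1, ← Fin.sum_univ_eq_sum_range
    (fun j => ((Pmon hF k M a0 ω).map (MvPolynomial.eval t)).coeff j * n ^ j) (J + 1)]
  refine Finset.sum_congr rfl fun j _ => ?_
  rw [Polynomial.coeff_map]

end Crest.Agent.R022.Stage107
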