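import Crest.Agent.R022.Stage107A

/-! Row 22, level L0 (helper107): the determinant step with the free variable `n`. -/

set_option autoImplicit false

namespace Crest.Agent.R022.Stage107

open Crest.Agent.R022.Torsor Cnt
open Polynomial (C X)

variable {F : Polynomial ℤ} (hF : F.Monic)

/-- the output of the count: a good family of monomials on every slice in general position -/
def HasFamily (z : Fin F.natDegree → ℂ) (k : ℕ) (ρ κ : ℝ) : Prop :=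
  ∃ Y m J w s : ℕ, (Y : ℝ) < ρ * (J + 1) ∧ w + (J + 1) * (m + 2).choose 3 ≤ m * s ∧
    ∃ W : ℝ, W < κ * w ∧ ∀ (a0 : Fin F.natDegree → ℤ), GenPos z a0 → ∀ M : ℤ, M ≠ 0 →
      ∃ T : Finset ((ℕ × ℕ) × (Fin F.natDegree → ℕ)), T.card = s ∧
        (∀ ω ∈ T, wt ρ ω ≤ Y ∧ ∑ l, ω.2 l ≤ J) ∧
        (∀ a : (ℕ × ℕ) × (Fin F.natDegree → ℕ) → ℤ,
          ∑ ω ∈ T, C (MvPolynomial.C (a ω)) * Imon hF k J M a0 ω = 0 → ∀ ω ∈ T, a ω = 0) ∧
        ∑ ω ∈ T, wt ρ ω ≤ W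

/-- value of an integer monomial -/
def mval {d : ℕ} (ω : (ℕ × ℕ) × (Fin d → ℕ)) (t : Fin 2 → ℤ) (b : Fin d → ℤ) : ℤ :=
  t 0 ^ ω.1.1 * t 1 ^ ω.1.2 * ∏ l, b l ^ ω.2 l

theorem abs_mval_le {d : ℕ} {ρ A : ℝ} (hρ : 0 < ρ) (hA : 1 ≤ A) (Cc : ℕ) (hC : 0 < Cc)
    (ω : (ℕ × ℕ) × (Fin d → ℕ)) (Y J : ℕ) (h1 : wt ρ ω ≤ Y) (h2 : ∑ l, ω.2 l ≤ J)
    (t : Fin 2 → ℤ) (b : Fin d → ℤ) (ht : ∀ i, |(t i : ℝ)| ≤ 2 * A)
    (hb : ∀ l, |(b l : ℝ)| ≤ Cc * A ^ ρ) :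
    |(mval ω t b : ℝ)| ≤ 2 ^ Y * (Cc : ℝ) ^ J * A ^ wt ρ ω := by
  have hA0 : 0 < A := by linarith
  have hC1 : (1 : ℝ) ≤ Cc := by exact_mod_cast hC
  have hAρ : 0 < A ^ ρ := Real.rpow_pos_of_pos hA0 ρ
  have he : ω.1.1 + ω.1.2 ≤ Y := by
    have h3 : ((ω.1.1 + ω.1.2 : ℕ) : ℝ) ≤ Y := by
      refine le_trans ?_ h1
      unfold wt
      have : (0 : ℝ) ≤ ρ * ((∑ l, ω.2 l : ℕ) : ℝ) := by positivity
      linarith
    exact_mod_cast h3
  unfold mval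
  push_cast
  rw [abs_mul, abs_mul, abs_pow, abs_pow, Finset.abs_prod]
  have e1 : |(t 0 : ℝ)| ^ ω.1.1 * |(t 1 : ℝ)| ^ ω.1.2 ≤ (2 * A) ^ (ω.1.1 + ω.1.2) := by
    rw [pow_add]
    exact mul_le_mul (pow_le_pow_left₀ (abs_nonneg _) (ht 0) _)
      (pow_le_pow_left₀ (abs_nonneg _) (ht 1) _) (by positivity) (by positivity)
  have e2 : ∏ l, |((b l : ℝ)) ^ ω.2 l| ≤ ((Cc : ℝ) * A ^ ρ) ^ (∑ l, ω.2 l) := by
    rw [← Finset.prod_pow_eq_pow_sum]
    refine Finset.prod_le_prod (fun _ _ => abs_nonneg _) fun l _ => ?_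
    rw [abs_pow]
    exact pow_le_pow_left₀ (abs_nonneg _) (hb l) _
  have e3 : A ^ wt ρ ω = A ^ (ω.1.1 + ω.1.2) * (A ^ ρ) ^ (∑ l, ω.2 l) := by
    unfold wt
    rw [Real.rpow_add hA0, Real.rpow_natCast, Real.rpow_mul hA0.le, Real.rpow_natCast]
  calc |(t 0 : ℝ)| ^ ω.1.1 * |(t 1 : ℝ)| ^ ω.1.2 * ∏ l, |((b l : ℝ)) ^ ω.2 l|
      ≤ (2 * A) ^ (ω.1.1 + ω.1.2) * ((Cc : ℝ) * A ^ ρ) ^ (∑ l, ω.2 l) :=
        mul_le_mul e1 e2 (Finset.prod_nonneg fun _ _ => abs_nonneg _) (by positivity)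
    _ = 2 ^ (ω.1.1 + ω.1.2) * (Cc : ℝ) ^ (∑ l, ω.2 l) * A ^ wt ρ ω := by
        rw [e3, mul_pow, mul_pow]; ring
    _ ≤ 2 ^ Y * (Cc : ℝ) ^ J * A ^ wt ρ ω := by
        have g1 : (2 : ℝ) ^ (ω.1.1 + ω.1.2) ≤ 2 ^ Y := pow_le_pow_right₀ (by norm_num) he
        have g2 : (Cc : ℝ) ^ (∑ l, ω.2 l) ≤ (Cc : ℝ) ^ J := pow_le_pow_right₀ hC1 h2
        have g3 : 0 < A ^ wt ρ ω := Real.rpow_pos_of_pos hA0 _
        exact mul_le_mul_of_nonneg_right
          (mul_le_mul g1 g2 (by positivity) (by positivity)) g3.le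

/-- a trivial relation for small `A` -/
theorem trivial_relation (B : ℕ) : ∃ G : Polynomial (MvPolynomial (Fin 2) ℤ), G ≠ 0 ∧
    G.natDegree ≤ 2 * B + 1 ∧ CD G (2 * B + 1) ∧
    ∀ (t : Fin 2 → ℤ) (n : ℤ), |t 0| ≤ B → ev3 G t n = 0 := by
  classical
  set H : MvPolynomial (Fin 2) ℤ := ∏ u ∈ Finset.Icc (-(B : ℤ)) B,
    (MvPolynomial.X 0 - MvPolynomial.C u) with hH
  have hcard : (Finset.Icc (-(B : ℤ)) B).card = 2 * B + 1 := by
    rw [Int.card_Icc]; omega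
  refine ⟨C H, ?_, ?_, ?_, ?_⟩
  · rw [Ne, Polynomial.C_eq_zero, hH, Finset.prod_eq_zero_iff]
    rintro ⟨u, -, hu⟩
    have := congrArg (MvPolynomial.eval (fun _ => u + 1)) hu
    simp at this
  · rw [Polynomial.natDegree_C]; omega
  · refine CD_C ?_
    rw [hH]
    refine (MvPolynomial.totalDegree_finset_prod _ _).trans ?_
    calc _ ≤ ∑ _u ∈ Finset.Icc (-(B : ℤ)) B, 1 := by
          refine Finset.sum_le_sum fun u _ => ?_
          refine (MvPolynomial.totalDegree_sub_C_le _ _).trans ?_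
          rw [MvPolynomial.totalDegree_X]
      _ = 2 * B + 1 := by rw [Finset.sum_const, hcard, smul_eq_mul, mul_one]
  · intro t n ht
    unfold ev3
    rw [Polynomial.map_C, Polynomial.eval_C, hH, map_prod]
    refine Finset.prod_eq_zero (i := t 0) ?_ ?_
    · rw [Finset.mem_Icc]
      exact abs_le.mp ht
    · simp

/-- **Level L0.** All points of a class modulo a modulus `∏ l ≥ A ^ κ` satisfy a nonzero integer
relation `G(t, n) = 0` of bounded degree. -/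
theorem level0_of_family (z : Fin F.natDegree → ℂ) (k : ℕ) (ρ κ : ℝ) (hρ : 0 < ρ) (hκ : 0 < κ)
    (hfam : HasFamily hF z k ρ κ) (Cc M : ℕ) (hC : 0 < Cc) (hM : 0 < M) :
    ∃ D0 : ℕ, ∀ A : ℝ, 1 ≤ A → ∀ a0 : Fin F.natDegree → ℤ, GenPos z a0 →
      ∀ (P : Type) (S : Set P) (t : P → Fin 2 → ℤ) (n : P → ℤ) (b : P → Fin F.natDegree → ℤ),
      (∀ p ∈ S, (∀ i, |(t p i : ℝ)| ≤ 2 * A) ∧ (∀ l, |(b p l : ℝ)| ≤ Cc * A ^ ρ) ∧
        (M : AdjoinRoot F) * ((n p : AdjoinRoot F) - AdjoinRoot.root F) =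
          el F (emb 2 a0 (t p)) ^ k * el F (b p)) →
      ∀ L : Finset ℕ, (L : Set ℕ).Pairwise Nat.Coprime → A ^ κ ≤ ((∏ l ∈ L, l : ℕ) : ℝ) →
      (∀ l ∈ L, ∀ p ∈ S, IsCoprime (nm hF (el F (emb 2 a0 (t p)))) (l : ℤ)) →
      (∀ l ∈ L, ∀ p ∈ S, ∀ p' ∈ S, ∀ i, (l : ℤ) ∣ t p i - t p' i) →
      ∃ G : Polynomial (MvPolynomial (Fin 2) ℤ), G ≠ 0 ∧ G.natDegree ≤ D0 ∧ CD G D0 ∧
        ∀ p ∈ S, ev3 G (t p) (n p) = 0 := by
  classical
  obtain ⟨Y, m, J, w, s, hYJ, hw, W, hW, hfam⟩ := hfam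
  set δ : ℝ := κ * w - W with hδ
  have hδ0 : 0 < δ := by rw [hδ]; linarith
  set Q : ℝ := (s.factorial : ℝ) * (2 ^ Y * (Cc : ℝ) ^ J) ^ s with hQ
  have hC1 : (1 : ℝ) ≤ Cc := by exact_mod_cast hC
  have hQ1 : 1 ≤ Q := by
    rw [hQ]
    have h1 : (1 : ℝ) ≤ (s.factorial : ℝ) := by exact_mod_cast Nat.succ_le_of_lt s.factorial_pos
    have h2 : (1 : ℝ) ≤ (2 ^ Y * (Cc : ℝ) ^ J) ^ s :=
      one_le_pow₀ (one_le_mul_of_one_le_of_one_le (one_le_pow₀ (by norm_num)) (one_le_pow₀ hC1))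
    exact one_le_mul_of_one_le_of_one_le h1 h2
  set A0 : ℝ := Q ^ (1 / δ) with hA0
  set B0 : ℕ := ⌈2 * A0⌉₊ with hB0
  refine ⟨2 * B0 + 1 + (J + Y + J * (k * F.natDegree)), ?_⟩
  intro A hA a0 hgp P S t n b hS L hL hLA hcop hcong
  have hApos : 0 < A := by linarith
  rcases le_or_gt A A0 with hAs | hAl
  · -- small `A`
    obtain ⟨G, hG0, hG1, hG2, hG3⟩ := trivial_relation B0
    refine ⟨G, hG0, by omega, hG2.mono (by omega), fun p hp => hG3 _ _ ?_⟩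
    have h1 := (hS p hp).1 0
    have h2 : (2 * A0 : ℝ) ≤ B0 := Nat.le_ceil _
    have h3 : |(t p 0 : ℝ)| ≤ (B0 : ℝ) := by linarith
    exact_mod_cast h3
  rcases S.eq_empty_or_nonempty with hemp | ⟨p0, hp0⟩
  · refine ⟨1, one_ne_zero, by simp, ?_, ?_⟩
    · intro i
      rw [Polynomial.coeff_one]
      split_ifs <;> simp
    · intro p hp
      rw [hemp] at hp
      exact absurd hp (Set.notMem_empty _)
  obtain ⟨T, hTc, hTw, hTi, hTW⟩ := hfam a0 hgp (M : ℤ) (by exact_mod_cast hM.ne')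
  -- the determinant step
  obtain ⟨a, ha0, ha⟩ := R22.TypeCount.relation_slice (ι := {ω // ω ∈ T}) (r := 2) (J := J) (m := m)
    (w := w) S t n (fun ω p => mval ω.1 (t p) (b p)) (Nf hF 2 a0)
    (fun ω => k * ∑ l, ω.1.2 l)
    (fun ω j => (Pmon hF k M a0 ω.1).coeff j)
    (by
      intro ω p hp
      exact eval_Pmon_sum hF k J M a0 ω.1 (hTw _ ω.2).2 (t p) (n p) (b p) (hS p hp).2.2)
    L hL (fun _ => t p0) (fun l hl p hp i => hcong l hl p hp p0 hp0 i)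
    (by
      intro l hl
      rw [Nf_eval]
      exact hcop l hl p0 hp0)
    (fun ω => 2 ^ Y * (Cc : ℝ) ^ J * A ^ wt ρ ω.1)
    (by
      intro p hp ω
      exact abs_mval_le hρ hA Cc hC ω.1 Y J (hTw _ ω.2).1 (hTw _ ω.2).2 (t p) (b p)
        (hS p hp).1 (hS p hp).2.1)
    (by rw [Fintype.card_coe, hTc]; exact hw)
    (by
      rw [Fintype.card_coe, hTc, Finset.prod_mul_distrib, Finset.prod_const, Finset.card_univ,
        Fintype.card_coe, hTc]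
      have e1 : ∏ x : {ω // ω ∈ T}, A ^ wt ρ x.1 = A ^ (∑ ω ∈ T, wt ρ ω) := by
        rw [Finset.prod_coe_sort T (fun ω => A ^ wt ρ ω)]
        rw [← Real.rpow_sum_of_pos hApos]
      rw [e1, ← mul_assoc, ← hQ]
      have e2 : A ^ (∑ ω ∈ T, wt ρ ω) ≤ A ^ W := Real.rpow_le_rpow_of_exponent_le hA hTW
      have e3 : (A ^ κ) ^ w ≤ ((∏ l ∈ L, l : ℕ) : ℝ) ^ w :=
        pow_le_pow_left₀ (Real.rpow_pos_of_pos hApos _).le hLA w
      refine lt_of_lt_of_le ?_ e3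
      rw [← Real.rpow_natCast, ← Real.rpow_mul hApos.le]
      have e4 : κ * (w : ℝ) = δ + W := by rw [hδ]; ring
      rw [e4, Real.rpow_add hApos]
      have e5 : Q < A ^ δ := by
        have h1 : A0 ^ δ = Q := by
          rw [hA0, ← Real.rpow_mul (by linarith), one_div, inv_mul_cancel₀ hδ0.ne', Real.rpow_one]
        rw [← h1]
        exact Real.rpow_lt_rpow (Real.rpow_nonneg (by linarith) _) hAl hδ0
      calc Q * A ^ (∑ ω ∈ T, wt ρ ω) ≤ Q * A ^ W :=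
            mul_le_mul_of_nonneg_left e2 (by linarith)
        _ < A ^ δ * A ^ W := mul_lt_mul_of_pos_right e5 (Real.rpow_pos_of_pos hApos _))
  -- the polynomial
  set a' : (ℕ × ℕ) × (Fin F.natDegree → ℕ) → ℤ := fun ω => if h : ω ∈ T then a ⟨ω, h⟩ else 0
    with ha'
  set G : Polynomial (MvPolynomial (Fin 2) ℤ) :=
    ∑ ω ∈ T, C (MvPolynomial.C (a' ω)) * Imon hF k J M a0 ω with hG
  refine ⟨G, ?_, ?_, ?_, ?_⟩
  · intro hG0
    apply ha0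
    funext ω
    have := hTi a' hG0 ω.1 ω.2
    simp only [ha', dif_pos ω.2] at this
    exact this
  · rw [hG]
    refine (Polynomial.natDegree_sum_le_of_forall_le _ _ (n := J) fun ω hω => ?_).trans (by omega)
    exact (Polynomial.natDegree_C_mul_le _ _).trans
      ((natDegree_Imon hF k J M a0 ω).trans (hTw ω hω).2)
  · rw [hG]
    refine CD_sum _ _ _ fun ω hω => ?_
    have h1 := CD_mul (CD_C (x := MvPolynomial.C (a' ω)) (c := 0)
      (by rw [MvPolynomial.totalDegree_C])) (CD_Imon hF k J M a0 ω (hTw ω hω).2)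
    refine h1.mono ?_
    have he : ω.1.1 + ω.1.2 ≤ Y := by
      have h3 : ((ω.1.1 + ω.1.2 : ℕ) : ℝ) ≤ Y := by
        refine le_trans ?_ (hTw ω hω).1
        unfold wt
        have : (0 : ℝ) ≤ ρ * ((∑ l, ω.2 l : ℕ) : ℝ) := by positivity
        linarith
      exact_mod_cast h3
    omega
  · intro p hp
    have h1 := ha p hp
    unfold ev3
    rw [hG, Polynomial.map_sum, Polynomial.eval_finset_sum]
    have h2 : ∀ ω ∈ T, ((C (MvPolynomial.C (a' ω)) * Imon hF k J M a0 ω).map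
        (MvPolynomial.eval (t p))).eval (n p) =
        (a' ω * mval ω (t p) (b p)) * (MvPolynomial.eval (t p) (Nf hF 2 a0)) ^ (k * J) := by
      intro ω hω
      have h3 := eval_Imon hF k J M a0 ω (hTw ω hω).2 (t p) (n p) (b p) (hS p hp).2.2
      unfold ev3 at h3
      rw [Polynomial.map_mul, Polynomial.eval_mul, h3, Polynomial.map_C, Polynomial.eval_C,
        MvPolynomial.eval_C, mval]
      ring
    rw [Finset.sum_congr rfl h2, ← Finset.sum_mul]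
    have h4 : ∑ ω ∈ T, a' ω * mval ω (t p) (b p) = 0 := by
      rw [← Finset.sum_coe_sort T (fun ω => a' ω * mval ω (t p) (b p)), ← h1]
      refine Finset.sum_congr rfl fun ω _ => ?_
      simp only [ha', dif_pos ω.2]
    rw [h4, zero_mul]

end Crest.Agent.R022.Stage107
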