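import Crest.Agent.R022.TorsorArch
import Crest.Agent.R22.SieveRed

/-! Row 22, block T1 (helper250): the torsor step, final form. -/

set_option autoImplicit false

open Polynomial Matrix

namespace Crest.Agent.R022.Torsor

/-- Pigeonhole in the index `p` lattice. -/
theorem pigeonhole (d : ℕ) (hd : 0 < d) (p : ℕ) (hp : 0 < p) (m : ℤ) :
    ∃ a : Fin d → ℤ, a ≠ 0 ∧ (∀ i, |a i| ^ d ≤ (p : ℤ)) ∧ (p : ℤ) ∣ ∑ i, a i * m ^ (i : ℕ) := by
  classical
  obtain ⟨B, hB1, hB2⟩ : ∃ B : ℕ, B ^ d ≤ p ∧ p < (B + 1) ^ d := by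
    have h1 : ∃ n : ℕ, p < (n + 1) ^ d := ⟨p, by
      calc p < p + 1 := Nat.lt_succ_self p
        _ ≤ (p + 1) ^ d := Nat.le_self_pow (by omega) _⟩
    refine ⟨Nat.find h1, ?_, Nat.find_spec h1⟩
    by_contra h2
    rw [not_le] at h2
    rcases Nat.eq_zero_or_pos (Nat.find h1) with h0 | h0
    · rw [h0, zero_pow (by omega)] at h2
      omega
    · obtain ⟨n, hn⟩ : ∃ n, Nat.find h1 = n + 1 := ⟨Nat.find h1 - 1, by omega⟩
      exact Nat.find_min h1 (m := n) (by omega) (by rwa [hn] at h2)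
  have : NeZero p := ⟨hp.ne'⟩
  let φ : (Fin d → Fin (B + 1)) → ZMod p := fun x => ∑ i, ((x i : ℕ) : ZMod p) * (m : ZMod p) ^ (i : ℕ)
  have hcard : Fintype.card (ZMod p) < Fintype.card (Fin d → Fin (B + 1)) := by
    rw [ZMod.card, Fintype.card_fun, Fintype.card_fin, Fintype.card_fin]
    exact hB2
  obtain ⟨x, y, hxy, h⟩ := Fintype.exists_ne_map_eq_of_card_lt φ hcard
  refine ⟨fun i => ((x i : ℕ) : ℤ) - ((y i : ℕ) : ℤ), ?_, ?_, ?_⟩
  · intro h0
    apply hxy
    funext i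
    have h1 := congrFun h0 i
    simp only [Pi.zero_apply] at h1
    apply Fin.ext
    have : ((x i : ℕ) : ℤ) = ((y i : ℕ) : ℤ) := by linarith
    exact_mod_cast this
  · intro i
    have h1 : |((x i : ℕ) : ℤ) - ((y i : ℕ) : ℤ)| ≤ (B : ℤ) := by
      have hx := (x i).2
      have hy := (y i).2
      rw [abs_le]
      constructor <;> omega
    calc |((x i : ℕ) : ℤ) - ((y i : ℕ) : ℤ)| ^ d ≤ (B : ℤ) ^ d :=
          pow_le_pow_left₀ (abs_nonneg _) h1 d
      _ ≤ (p : ℤ) := by exact_mod_cast hB1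
  · rw [← CharP.intCast_eq_zero_iff (ZMod p) p]
    push_cast
    have h1 : φ x - φ y = 0 := sub_eq_zero.mpr h
    simp only [φ] at h1
    rw [← Finset.sum_sub_distrib] at h1
    rw [← h1]
    refine Finset.sum_congr rfl fun i _ => ?_
    ring

/-- `p` divides the norm of the pigeonhole element. -/
theorem dvd_nm {F : ℤ[X]} (hF : F.Monic) (p : ℕ) (m : ℤ) (hm : (p : ℤ) ∣ F.eval m)
    (a : Fin F.natDegree → ℤ) (ha : (p : ℤ) ∣ ∑ i, a i * m ^ (i : ℕ)) :
    (p : ℤ) ∣ nm hF (el F a) := by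
  obtain ⟨ψ, hψ⟩ := exists_hom p m hm
  have hα : ψ (el F a) = 0 := by
    rw [hom_el, hψ]
    have := (CharP.intCast_eq_zero_iff (ZMod p) p _).mpr ha
    push_cast at this
    exact this
  have h1 : ψ (el F a * star hF (el F a)) = 0 := by rw [map_mul, hα, zero_mul]
  rw [mul_star, map_intCast] at h1
  exact (CharP.intCast_eq_zero_iff (ZMod p) p _).mp h1

theorem nm_ne_zero {F : ℤ[X]} (hF : F.Monic) (hirr : Irreducible F)
    {a : Fin F.natDegree → ℤ} (ha : a ≠ 0) : nm hF (el F a) ≠ 0 := by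
  have := isDomain_of_irr hirr
  rw [nm_eq]
  have h := (Algebra.norm_ne_zero_iff_of_basis (bas hF) (x := el F a)).mpr (el_ne_zero hF ha)
  exact h

/-- **Torsor step.** `z` are the complex roots of the monic irreducible polynomial `F`; the
element with coordinates `a` is `el F a = ∑ a_i θ^i`, its conjugates are `cj z a i`. -/
theorem torsor {F : ℤ[X]} (hF : F.Monic) (hirr : Irreducible F) (hd : 2 ≤ F.natDegree)
    (z : Fin F.natDegree → ℂ) (hinj : Function.Injective z)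
    (hz : ∀ i, F.eval₂ (Int.castRingHom ℂ) (z i) = 0) (k : ℕ) (hk : 1 ≤ k) :
    ∃ C M : ℕ, 0 < C ∧ 0 < M ∧ ∀ A : ℝ, 1 ≤ A → ∀ p : ℕ, p.Prime → C < p →
      A ^ F.natDegree ≤ p → (p : ℝ) ≤ 2 * A ^ F.natDegree → ∀ m : ℤ, (p : ℤ) ^ k ∣ F.eval m →
      ∃ (a b : Fin F.natDegree → ℤ) (c : ℤ), a ≠ 0 ∧ (∀ i, |(a i : ℝ)| ≤ 2 * A) ∧
        (p : ℤ) ∣ ∑ i, a i * m ^ (i : ℕ) ∧
        c ≠ 0 ∧ |c| ≤ C ∧ nm hF (el F a) = p * c ∧
        (M : AdjoinRoot F) * ((m : AdjoinRoot F) - AdjoinRoot.root F) = el F a ^ k * el F b ∧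
        (∀ i, A / C ≤ ‖cj z a i‖) ∧ (∀ i, ‖cj z a i‖ ≤ C * A) ∧
        (∀ i, ‖cj z b i‖ ≤ C * (|(m : ℝ)| + 1) / A ^ k) ∧
        (∀ i, |(b i : ℝ)| ≤ C * (|(m : ℝ)| + 1) / A ^ k) := by
  classical
  have hdom := isDomain_of_irr hirr
  have hd0 : 0 < F.natDegree := by omega
  have hQ : Irreducible (F.map (Int.castRingHom ℚ)) :=
    (Polynomial.IsPrimitive.Int.irreducible_iff_irreducible_map_cast hF.isPrimitive).mp hirr
  obtain ⟨u, v, r, hr0, huv⟩ := R22.SieveRed.exists_bezout F hQ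
  obtain ⟨C1, hC1, hcj⟩ := norm_cj_le z
  obtain ⟨C2, hC2, hco⟩ := coord_le z hinj
  set K : ℝ := 2 * C1 with hK
  have hK1 : 1 ≤ K := by linarith
  have hK0 : 0 < K := by linarith
  obtain ⟨Q, hQd⟩ := exists_nat_ge (K ^ F.natDegree)
  set M : ℕ := Q.factorial ^ k with hM
  have hM0 : 0 < M := pow_pos (Nat.factorial_pos _) _
  set Z : ℝ := ∑ i, ‖z i‖ with hZ
  have hZ0 : 0 ≤ Z := by positivity
  set T : ℝ := M * (1 + Z) * (K ^ (F.natDegree - 1)) ^ k with hT
  have hT0 : 0 ≤ T := by positivity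
  obtain ⟨C, hC⟩ := exists_nat_ge (|(r : ℝ)| + K ^ F.natDegree + K + K ^ (F.natDegree - 1) + T + C2 * T + Q)
  have hq1 : 0 ≤ |(r : ℝ)| := abs_nonneg _
  have hq2 : 0 ≤ K ^ F.natDegree := by positivity
  have hq3 : 0 ≤ K ^ (F.natDegree - 1) := by positivity
  have hq4 : 0 ≤ C2 * T := by positivity
  have hq5 : (0 : ℝ) ≤ Q := by positivity
  have hCr : |(r : ℝ)| ≤ C := by linarith
  have hCd : K ^ F.natDegree ≤ C := by linarith
  have hCK : K ≤ C := by linarith
  have hCd1 : K ^ (F.natDegree - 1) ≤ C := by linarith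
  have hCT : T ≤ C := by linarith
  have hCT2 : C2 * T ≤ C := by linarith
  have hCpos : (0 : ℝ) < C := by linarith
  refine ⟨C, M, by exact_mod_cast hCpos, hM0, ?_⟩
  intro A hA p hp hCp hAp hpA m hm
  have hA0 : 0 < A := by linarith
  obtain ⟨a, ha0, hab, hadv⟩ := pigeonhole F.natDegree hd0 p hp.pos m
  have hm1 : (p : ℤ) ∣ F.eval m := dvd_trans (dvd_pow_self _ (by omega)) hm
  -- sizes of `a`
  have haA : ∀ i, |(a i : ℝ)| ≤ 2 * A := by
    intro i
    have h1 : |(a i : ℝ)| ^ F.natDegree ≤ (2 * A) ^ F.natDegree := by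
      have h2 : |(a i : ℝ)| ^ F.natDegree ≤ (p : ℝ) := by
        have := hab i
        exact_mod_cast this
      calc |(a i : ℝ)| ^ F.natDegree ≤ (p : ℝ) := h2
        _ ≤ 2 * A ^ F.natDegree := hpA
        _ ≤ 2 ^ F.natDegree * A ^ F.natDegree := by
            refine mul_le_mul_of_nonneg_right ?_ (by positivity)
            calc (2 : ℝ) = 2 ^ 1 := by norm_num
              _ ≤ 2 ^ F.natDegree := pow_le_pow_right₀ (by norm_num) (by omega)
        _ = (2 * A) ^ F.natDegree := by rw [mul_pow]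
    exact le_of_pow_le_pow_left₀ (by omega) (by positivity) h1
  have hup : ∀ i, ‖cj z a i‖ ≤ K * A := by
    intro i
    have := hcj a (2 * A) haA i
    rw [hK]; linarith
  -- the norm
  obtain ⟨c, hc⟩ := dvd_nm hF p m hm1 a hadv
  have hnm0 := nm_ne_zero hF hirr ha0
  have hc0 : c ≠ 0 := by
    rintro rfl
    rw [mul_zero] at hc
    exact hnm0 hc
  have hp0 : (0 : ℝ) < p := by exact_mod_cast hp.pos
  have hprod := nm_eq_prod hF z hinj hz a
  have hnorm : (p : ℝ) * |(c : ℝ)| = ∏ i, ‖cj z a i‖ := by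
    have h1 : ‖((nm hF (el F a) : ℤ) : ℂ)‖ = ∏ i, ‖cj z a i‖ := by
      rw [hprod, norm_prod]
    rw [← h1, hc, Complex.norm_intCast]
    push_cast
    rw [abs_mul, abs_of_pos hp0]
  have hcC : |(c : ℝ)| ≤ K ^ F.natDegree := by
    have h1 : ∏ i, ‖cj z a i‖ ≤ (K * A) ^ F.natDegree := by
      calc ∏ i, ‖cj z a i‖ ≤ ∏ _i : Fin F.natDegree, (K * A) :=
            Finset.prod_le_prod (fun i _ => norm_nonneg _) fun i _ => hup i
        _ = (K * A) ^ F.natDegree := by simp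
    have h2 : (p : ℝ) * |(c : ℝ)| ≤ p * K ^ F.natDegree := by
      rw [hnorm]
      calc ∏ i, ‖cj z a i‖ ≤ (K * A) ^ F.natDegree := h1
        _ = A ^ F.natDegree * K ^ F.natDegree := by rw [mul_pow]; ring
        _ ≤ p * K ^ F.natDegree := mul_le_mul_of_nonneg_right hAp (by positivity)
    exact le_of_mul_le_mul_left h2 hp0
  have hc1 : (1 : ℝ) ≤ |(c : ℝ)| := by
    have : (1 : ℤ) ≤ |c| := Int.one_le_abs hc0
    exact_mod_cast this
  have hlow : ∀ i, A / K ^ (F.natDegree - 1) ≤ ‖cj z a i‖ := by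
    intro i
    have h1 : (p : ℝ) ≤ ‖cj z a i‖ * (K * A) ^ (F.natDegree - 1) := by
      calc (p : ℝ) = p * 1 := by ring
        _ ≤ p * |(c : ℝ)| := mul_le_mul_of_nonneg_left hc1 hp0.le
        _ = ∏ j, ‖cj z a j‖ := hnorm
        _ = ‖cj z a i‖ * ∏ j ∈ Finset.univ.erase i, ‖cj z a j‖ :=
            (Finset.mul_prod_erase Finset.univ (fun j => ‖cj z a j‖) (Finset.mem_univ i)).symm
        _ ≤ ‖cj z a i‖ * (K * A) ^ (F.natDegree - 1) := by
            refine mul_le_mul_of_nonneg_left ?_ (norm_nonneg _)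
            calc ∏ j ∈ Finset.univ.erase i, ‖cj z a j‖ ≤ ∏ _j ∈ Finset.univ.erase i, (K * A) :=
                  Finset.prod_le_prod (fun i _ => norm_nonneg _) fun i _ => hup i
              _ = (K * A) ^ (F.natDegree - 1) := by
                  rw [Finset.prod_const, Finset.card_erase_of_mem (Finset.mem_univ i),
                    Finset.card_univ, Fintype.card_fin]
    have h2 : A * A ^ (F.natDegree - 1) = A ^ F.natDegree := by
      rw [← pow_succ']; congr 1; omega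
    have h3 : A * A ^ (F.natDegree - 1) ≤
        (‖cj z a i‖ * K ^ (F.natDegree - 1)) * A ^ (F.natDegree - 1) := by
      rw [h2]
      refine le_trans hAp (le_trans h1 (le_of_eq ?_))
      rw [mul_pow]; ring
    have h4 : A ≤ ‖cj z a i‖ * K ^ (F.natDegree - 1) :=
      le_of_mul_le_mul_right h3 (by positivity)
    rw [div_le_iff₀ (by positivity)]
    exact h4
  -- the derivative condition
  have hder : ¬ (p : ℤ) ∣ (derivative F).eval m := by
    intro h1
    have h2 : (p : ℤ) ∣ r := by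
      have h3 := congrArg (Polynomial.eval m) huv
      rw [Polynomial.eval_add, Polynomial.eval_mul, Polynomial.eval_mul, Polynomial.eval_C] at h3
      rw [← h3]
      exact dvd_add (Dvd.dvd.mul_left hm1 _) (Dvd.dvd.mul_left h1 _)
    have h3 := Int.le_of_dvd (abs_pos.mpr hr0) ((dvd_abs _ _).mpr h2)
    have h4 : (p : ℝ) ≤ |(r : ℝ)| := by exact_mod_cast h3
    have h5 : (C : ℝ) < p := by exact_mod_cast hCp
    linarith
  obtain ⟨b0, hb0⟩ := exists_beta hF hd0 p hp k hk m hm hder ha0 hadv c hc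
  -- multiply by `M / c ^ k`
  have hcM : c ^ k ∣ (M : ℤ) := by
    rw [hM]
    push_cast
    refine pow_dvd_pow_of_dvd ?_ k
    have h1 : c.natAbs ∣ Q.factorial := by
      refine Nat.dvd_factorial (Int.natAbs_pos.mpr hc0) ?_
      have h2 : ((c.natAbs : ℕ) : ℝ) ≤ Q := by
        have : ((c.natAbs : ℕ) : ℝ) = |(c : ℝ)| := by
          rw [Nat.cast_natAbs]; push_cast; rfl
        rw [this]; linarith
      exact_mod_cast h2
    have h2 := Int.natCast_dvd_natCast.mpr h1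
    exact (Int.natAbs_dvd.mp h2)
  obtain ⟨e, he⟩ := hcM
  have hbeta : (M : AdjoinRoot F) * ((m : AdjoinRoot F) - AdjoinRoot.root F) =
      el F a ^ k * el F (fun i => e * b0 i) := by
    have h1 : el F (fun i => e * b0 i) = (e : AdjoinRoot F) * el F b0 := by
      unfold el
      rw [Finset.mul_sum]
      refine Finset.sum_congr rfl fun i _ => ?_
      push_cast; ring
    have h2 : (M : AdjoinRoot F) = (c : AdjoinRoot F) ^ k * (e : AdjoinRoot F) := by
      have h3 : (((M : ℤ) : ℤ) : AdjoinRoot F) = ((c ^ k * e : ℤ) : AdjoinRoot F) := by rw [he]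
      push_cast at h3
      exact h3
    rw [h1, h2]
    linear_combination (e : AdjoinRoot F) * hb0
  have hbup : ∀ i, ‖cj z (fun i => e * b0 i) i‖ ≤ T * (|(m : ℝ)| + 1) / A ^ k := by
    intro i
    have h1 := cj_mul_of_eq z hz (M : ℤ) m k a (fun i => e * b0 i)
      (by push_cast; exact hbeta) i
    have h2 : (M : ℝ) * ‖(m : ℂ) - z i‖ = ‖cj z a i‖ ^ k * ‖cj z (fun i => e * b0 i) i‖ := by
      have h3 := congrArg norm h1
      rw [norm_mul, norm_mul, norm_pow] at h3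
      rw [← h3]
      simp
    have h3 : ‖(m : ℂ) - z i‖ ≤ (1 + Z) * (|(m : ℝ)| + 1) := by
      have h4 : ‖z i‖ ≤ Z := Finset.single_le_sum (f := fun i => ‖z i‖)
        (fun i _ => norm_nonneg _) (Finset.mem_univ i)
      calc ‖(m : ℂ) - z i‖ ≤ ‖(m : ℂ)‖ + ‖z i‖ := norm_sub_le _ _
        _ ≤ |(m : ℝ)| + Z := by rw [Complex.norm_intCast]; linarith
        _ ≤ (1 + Z) * (|(m : ℝ)| + 1) := by
            have : 0 ≤ |(m : ℝ)| := abs_nonneg _
            nlinarith
    have h4 : A ^ k ≤ ‖cj z a i‖ ^ k * (K ^ (F.natDegree - 1)) ^ k := by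
      rw [← mul_pow]
      refine pow_le_pow_left₀ hA0.le ?_ k
      have := hlow i
      rw [div_le_iff₀ (by positivity)] at this
      exact this
    rw [le_div_iff₀ (by positivity)]
    calc ‖cj z (fun i => e * b0 i) i‖ * A ^ k
        ≤ ‖cj z (fun i => e * b0 i) i‖ * (‖cj z a i‖ ^ k * (K ^ (F.natDegree - 1)) ^ k) :=
          mul_le_mul_of_nonneg_left h4 (norm_nonneg _)
      _ = (‖cj z a i‖ ^ k * ‖cj z (fun i => e * b0 i) i‖) * (K ^ (F.natDegree - 1)) ^ k := by ring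
      _ = (M : ℝ) * ‖(m : ℂ) - z i‖ * (K ^ (F.natDegree - 1)) ^ k := by rw [← h2]
      _ ≤ (M : ℝ) * ((1 + Z) * (|(m : ℝ)| + 1)) * (K ^ (F.natDegree - 1)) ^ k := by gcongr
      _ = T * (|(m : ℝ)| + 1) := by rw [hT]; ring
  refine ⟨a, fun i => e * b0 i, c, ha0, haA, hadv, hc0, ?_, hc, hbeta, ?_, ?_, ?_, ?_⟩
  · have h1 : |(c : ℝ)| ≤ C := le_trans hcC hCd
    exact_mod_cast h1
  · intro i
    refine le_trans ?_ (hlow i)
    exact div_le_div_of_nonneg_left hA0.le (by positivity) hCd1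
  · intro i
    exact le_trans (hup i) (mul_le_mul_of_nonneg_right hCK hA0.le)
  · intro i
    refine le_trans (hbup i) ?_
    have : 0 ≤ |(m : ℝ)| := abs_nonneg _
    gcongr
  · intro i
    have h1 := hco (fun i => e * b0 i) _ hbup i
    refine le_trans h1 ?_
    have : 0 ≤ |(m : ℝ)| := abs_nonneg _
    calc C2 * (T * (|(m : ℝ)| + 1) / A ^ k) = C2 * T * (|(m : ℝ)| + 1) / A ^ k := by ring
      _ ≤ C * (|(m : ℝ)| + 1) / A ^ k := by gcongr

end Crest.Agent.R022.Torsor
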