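import Mathlib

/-! Row 22, block T1 (helper250): the torsor step, algebraic part.

`F` monic over `ℤ`; `AdjoinRoot F` is the order `ℤ[θ]`. For an element `α` we use the conjugate
complement `star α` (`α * star α = norm α`). If `p ∣ F(m)`, `p ∣ α(m)` and `p ∤ F'(m)`, `p ^ k ∣ F(m)`, then
`p ^ k ∣ (θ - m) * (star α) ^ k`.
-/

set_option autoImplicit false

open Polynomial Matrix

namespace Crest.Agent.R022.Torsor

/-! ### A matrix lemma -/

section mat
variable {R : Type*} [CommRing R] {n : Type*} [Fintype n] [DecidableEq n]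

/-- A matrix with a left null vector one of whose entries is `1` has determinant `0`. -/
theorem det_eq_zero_of_vecMul (A : Matrix n n R) (v : n → R) (i0 : n) (hv0 : v i0 = 1)
    (hvA : v ᵥ* A = 0) : A.det = 0 := by
  have h1 : v ᵥ* (A * A.adjugate) = 0 := by
    rw [← Matrix.vecMul_vecMul, hvA, Matrix.zero_vecMul]
  rw [Matrix.mul_adjugate, Matrix.vecMul_smul, Matrix.vecMul_one] at h1
  have := congrFun h1 i0
  simpa [hv0] using this

theorem adjugate_mulVec_eq_zero (A : Matrix n n R) (v : n → R) (i0 : n) (hv0 : v i0 = 1)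
    (hvA : v ᵥ* A = 0) (x : n → R) (hx : v ⬝ᵥ x = 0) : A.adjugate *ᵥ x = 0 := by
  rw [← Matrix.cramer_eq_adjugate_mulVec]
  funext i
  rw [Matrix.cramer_apply, Pi.zero_apply]
  refine det_eq_zero_of_vecMul _ v i0 hv0 ?_
  funext j
  by_cases hj : j = i
  · subst hj
    simpa [Matrix.vecMul, dotProduct, Matrix.updateCol_self] using hx
  · have := congrFun hvA j
    simpa [Matrix.vecMul, dotProduct, Matrix.updateCol_ne hj] using this

end mat

section alg
variable {F : ℤ[X]} (hF : F.Monic)

/-- The power basis `1, θ, …, θ ^ (d-1)`. -/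
noncomputable def bas : Module.Basis (Fin F.natDegree) ℤ (AdjoinRoot F) :=
  (AdjoinRoot.powerBasis' hF).basis

theorem bas_apply (i : Fin F.natDegree) : bas hF i = AdjoinRoot.root F ^ (i : ℕ) := by
  exact (AdjoinRoot.powerBasis' hF).basis_eq_pow i

/-- the element with coordinates `a` -/
noncomputable def el (F : ℤ[X]) (a : Fin F.natDegree → ℤ) : AdjoinRoot F :=
  ∑ i, (a i : AdjoinRoot F) * AdjoinRoot.root F ^ (i : ℕ)

theorem el_eq (a : Fin F.natDegree → ℤ) : el F a = ∑ i, a i • bas hF i := by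
  unfold el
  refine Finset.sum_congr rfl fun i _ => ?_
  rw [bas_apply, zsmul_eq_mul]

theorem el_repr (x : AdjoinRoot F) : el F (fun i => (bas hF).repr x i) = x := by
  rw [el_eq hF]
  exact (bas hF).sum_repr x

theorem repr_el (a : Fin F.natDegree → ℤ) (i) : (bas hF).repr (el F a) i = a i := by
  rw [el_eq hF]
  rw [Module.Basis.repr_sum_self]

include hF in
theorem el_surj (x : AdjoinRoot F) : ∃ a : Fin F.natDegree → ℤ, el F a = x :=
  ⟨_, el_repr hF x⟩

include hF in
theorem el_injective : Function.Injective (el F) := by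
  intro a b h
  funext i
  rw [← repr_el hF a i, ← repr_el hF b i, h]

include hF in
theorem el_ne_zero {a : Fin F.natDegree → ℤ} (ha : a ≠ 0) : el F a ≠ 0 := by
  intro h
  apply ha
  apply el_injective hF
  rw [h]
  simp [el]

/-- A ring hom out of `ℤ[θ]` in coordinates. -/
theorem hom_el {S : Type*} [CommRing S] (ψ : AdjoinRoot F →+* S) (a : Fin F.natDegree → ℤ) :
    ψ (el F a) = ∑ i, (a i : S) * ψ (AdjoinRoot.root F) ^ (i : ℕ) := by
  unfold el
  rw [map_sum]
  refine Finset.sum_congr rfl fun i _ => ?_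
  rw [map_mul, map_pow, map_intCast]

theorem hom_repr {S : Type*} [CommRing S] (ψ : AdjoinRoot F →+* S) (x : AdjoinRoot F) :
    ψ x = ∑ i, ((bas hF).repr x i : S) * ψ (AdjoinRoot.root F) ^ (i : ℕ) := by
  rw [← hom_el, el_repr]

/-- evaluation at a root -/
noncomputable def ev {S : Type*} [CommRing S] (F : ℤ[X]) (s : S) (hs : F.eval₂ (Int.castRingHom S) s = 0) :
    AdjoinRoot F →+* S := AdjoinRoot.lift (Int.castRingHom S) s hs

theorem ev_root {S : Type*} [CommRing S] (s : S) (hs : F.eval₂ (Int.castRingHom S) s = 0) :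
    ev F s hs (AdjoinRoot.root F) = s := by
  unfold ev; exact AdjoinRoot.lift_root hs

/-- The matrix of multiplication by `x`. -/
noncomputable def lm (x : AdjoinRoot F) : Matrix (Fin F.natDegree) (Fin F.natDegree) ℤ :=
  Algebra.leftMulMatrix (bas hF) x

theorem lm_mulVec (x y : AdjoinRoot F) :
    lm hF x *ᵥ (fun i => (bas hF).repr y i) = fun i => (bas hF).repr (x * y) i := by
  unfold lm
  exact Algebra.leftMulMatrix_mulVec_repr (bas hF) x y

/-- the norm -/
noncomputable def nm (x : AdjoinRoot F) : ℤ := (lm hF x).det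

theorem nm_eq (x : AdjoinRoot F) : nm hF x = Algebra.norm ℤ x :=
  (Algebra.norm_eq_matrix_det (bas hF) x).symm

/-- `star x = norm x / x` -/
noncomputable def star (x : AdjoinRoot F) : AdjoinRoot F :=
  el F ((lm hF x).adjugate *ᵥ (fun i => (bas hF).repr 1 i))

/-- coordinates of `el a` times `x`. -/
theorem repr_mul_el (x : AdjoinRoot F) (a : Fin F.natDegree → ℤ) :
    (fun i => (bas hF).repr (x * el F a) i) = lm hF x *ᵥ a := by
  rw [← lm_mulVec]
  congr 1
  funext i
  exact repr_el hF a i

theorem mul_el_adjugate (x : AdjoinRoot F) (a : Fin F.natDegree → ℤ) :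
    x * el F ((lm hF x).adjugate *ᵥ a) = (nm hF x : AdjoinRoot F) * el F a := by
  have h1 : (fun i => (bas hF).repr (x * el F ((lm hF x).adjugate *ᵥ a)) i) = nm hF x • a := by
    rw [repr_mul_el, Matrix.mulVec_mulVec, Matrix.mul_adjugate, Matrix.smul_mulVec,
      Matrix.one_mulVec]
    rfl
  rw [← el_repr hF (x * el F ((lm hF x).adjugate *ᵥ a)), h1]
  unfold el
  rw [Finset.mul_sum]
  refine Finset.sum_congr rfl fun i _ => ?_
  simp [mul_assoc]

theorem mul_star (x : AdjoinRoot F) : x * star hF x = (nm hF x : AdjoinRoot F) := by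
  unfold star
  rw [mul_el_adjugate, el_repr, mul_one]

theorem el_adjugate [IsDomain (AdjoinRoot F)] {x : AdjoinRoot F} (hx : x ≠ 0)
    (y : AdjoinRoot F) :
    el F ((lm hF x).adjugate *ᵥ (fun i => (bas hF).repr y i)) = star hF x * y := by
  apply mul_left_cancel₀ hx
  rw [mul_el_adjugate, el_repr, ← mul_assoc, mul_star]

/-- Divisibility by an integer can be read off the coordinates. -/
theorem dvd_of_repr (q : ℤ) (x : AdjoinRoot F) (h : ∀ i, q ∣ (bas hF).repr x i) :
    (q : AdjoinRoot F) ∣ x := by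
  choose c hc using h
  refine ⟨el F c, ?_⟩
  rw [← el_repr hF x]
  unfold el
  rw [Finset.mul_sum]
  refine Finset.sum_congr rfl fun i _ => ?_
  simp only [hc i]; push_cast; ring

/-- Key fact: if `ψ : ℤ[θ] → 𝔽_p` kills `α` and `x` then `p ∣ star α * x`. -/
theorem dvd_star_mul [IsDomain (AdjoinRoot F)] (hd : 0 < F.natDegree) (p : ℕ)
    (ψ : AdjoinRoot F →+* ZMod p) {α : AdjoinRoot F} (hα0 : α ≠ 0) (hα : ψ α = 0)
    {x : AdjoinRoot F} (hx : ψ x = 0) : ((p : ℤ) : AdjoinRoot F) ∣ star hF α * x := by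
  rw [← el_adjugate hF hα0 x]
  refine dvd_of_repr hF _ _ fun i => ?_
  rw [repr_el]
  rw [← CharP.intCast_eq_zero_iff (ZMod p) p]
  set s := ψ (AdjoinRoot.root F) with hs
  let v : Fin F.natDegree → ZMod p := fun i => s ^ (i : ℕ)
  have h1 := adjugate_mulVec_eq_zero ((lm hF α).map (Int.castRingHom (ZMod p))) v ⟨0, hd⟩
    (by simp [v]) ?_ (fun i => ((bas hF).repr x i : ZMod p)) ?_
  · have h2 := congrFun h1 i
    have h3 : ((lm hF α).map (Int.castRingHom (ZMod p))).adjugate =
        (lm hF α).adjugate.map (Int.castRingHom (ZMod p)) :=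
      ((Int.castRingHom (ZMod p)).map_adjugate (lm hF α)).symm
    rw [h3] at h2
    simpa [Matrix.mulVec, dotProduct] using h2
  · funext j
    have h2 : ψ (α * bas hF j) = 0 := by rw [map_mul, hα, zero_mul]
    rw [hom_repr hF ψ] at h2
    have h3 : (fun i => (bas hF).repr (α * bas hF j) i) = fun i => lm hF α i j := by
      have h4 := lm_mulVec hF α (bas hF j)
      rw [← h4]
      funext i
      simp [Matrix.mulVec, dotProduct, Finsupp.single_apply]
    rw [Pi.zero_apply, ← h2]
    simp only [Matrix.vecMul, dotProduct, Matrix.map_apply]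
    refine Finset.sum_congr rfl fun i _ => ?_
    have h5 : (bas hF).repr (α * bas hF j) i = lm hF α i j := congrFun h3 i
    rw [h5]
    simp [v, mul_comm, ← hs]
  · rw [← hx, hom_repr hF ψ x]
    simp only [dotProduct]
    refine Finset.sum_congr rfl fun i _ => ?_
    simp [v, mul_comm, ← hs]

end alg

end Crest.Agent.R022.Torsor
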