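import Crest.Agent.R022.TorsorDvd

/-! Row 22, block T1 (helper250): conjugates, norm = product of conjugates, size bounds. -/

set_option autoImplicit false

open Polynomial Matrix

namespace Crest.Agent.R022.Torsor

variable {F : ℤ[X]}

/-- `ℤ[θ]` is a domain. -/
theorem isDomain_of_irr (hirr : Irreducible F) : IsDomain (AdjoinRoot F) :=
  AdjoinRoot.isDomain_of_prime (UniqueFactorizationMonoid.irreducible_iff_prime.mp hirr)

/-- The complex roots of `F`. -/
theorem exists_roots (hF : F.Monic) (hirr : Irreducible F) :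
    ∃ z : Fin F.natDegree → ℂ, Function.Injective z ∧
    (∀ i, F.eval₂ (Int.castRingHom ℂ) (z i) = 0) ∧
    F.map (Int.castRingHom ℂ) = ∏ i, (X - C (z i)) := by
  classical
  have hQ : Irreducible (F.map (Int.castRingHom ℚ)) :=
    (Polynomial.IsPrimitive.Int.irreducible_iff_irreducible_map_cast hF.isPrimitive).mp hirr
  have hsep : (F.map (Int.castRingHom ℚ)).Separable := hQ.separable
  have hsepC : (F.map (Int.castRingHom ℂ)).Separable := by
    have := hsep.map (f := algebraMap ℚ ℂ)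
    rwa [Polynomial.map_map, show (algebraMap ℚ ℂ).comp (Int.castRingHom ℚ) = Int.castRingHom ℂ from
      RingHom.ext_int _ _] at this
  have hm : (F.map (Int.castRingHom ℂ)).Monic := hF.map _
  have hsplit : (F.map (Int.castRingHom ℂ)).Splits := IsAlgClosed.splits _
  have hnd := Polynomial.nodup_roots hsepC
  have hdeg : (F.map (Int.castRingHom ℂ)).natDegree = F.natDegree := hF.natDegree_map _
  have hcard : (F.map (Int.castRingHom ℂ)).roots.toFinset.card = F.natDegree := by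
    rw [Multiset.toFinset_card_of_nodup hnd, ← hsplit.natDegree_eq_card_roots, hdeg]
  let e := (F.map (Int.castRingHom ℂ)).roots.toFinset.equivFinOfCardEq hcard
  refine ⟨fun i => (e.symm i : ℂ), ?_, ?_, ?_⟩
  · intro i j h
    exact e.symm.injective (Subtype.ext h)
  · intro i
    have h1 : ((e.symm i : ℂ)) ∈ (F.map (Int.castRingHom ℂ)).roots :=
      Multiset.mem_toFinset.mp (e.symm i).2
    have h2 := (Polynomial.mem_roots hm.ne_zero).mp h1
    rw [Polynomial.IsRoot.def, Polynomial.eval_map] at h2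
    exact h2
  · have h1 := hsplit.eq_prod_roots_of_monic hm
    conv_lhs => rw [h1]
    have h2 : ∏ i, (X - C ((e.symm i : ℂ))) =
        ∏ x : (F.map (Int.castRingHom ℂ)).roots.toFinset, (X - C (x : ℂ)) :=
      Equiv.prod_comp e.symm (fun x : (F.map (Int.castRingHom ℂ)).roots.toFinset => (X - C (x : ℂ)))
    rw [h2, Finset.prod_coe_sort (F.map (Int.castRingHom ℂ)).roots.toFinset (fun x => X - C x)]
    unfold Finset.prod
    rw [Multiset.toFinset_val, Multiset.dedup_eq_self.mpr hnd]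

/-- conjugates of `el a` -/
noncomputable def cj {d : ℕ} (z : Fin d → ℂ) (a : Fin d → ℤ) (i : Fin d) : ℂ :=
  ∑ j, (a j : ℂ) * z i ^ (j : ℕ)

theorem ev_el (z : Fin F.natDegree → ℂ) (hz : ∀ i, F.eval₂ (Int.castRingHom ℂ) (z i) = 0)
    (a : Fin F.natDegree → ℤ) (i : Fin F.natDegree) : ev F (z i) (hz i) (el F a) = cj z a i := by
  rw [hom_el, ev_root]
  rfl

/-- Norm = product of the conjugates. -/
theorem nm_eq_prod (hF : F.Monic) (z : Fin F.natDegree → ℂ) (hinj : Function.Injective z)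
    (hz : ∀ i, F.eval₂ (Int.castRingHom ℂ) (z i) = 0) (a : Fin F.natDegree → ℤ) :
    ((nm hF (el F a) : ℤ) : ℂ) = ∏ i, cj z a i := by
  set V : Matrix (Fin F.natDegree) (Fin F.natDegree) ℂ := Matrix.vandermonde z with hV
  have hdet : V.det ≠ 0 := Matrix.det_vandermonde_ne_zero_iff.mpr hinj
  set L : Matrix (Fin F.natDegree) (Fin F.natDegree) ℂ :=
    (lm hF (el F a)).map (Int.castRingHom ℂ) with hL
  have h1 : V * L = Matrix.diagonal (cj z a) * V := by
    ext i j
    rw [Matrix.mul_apply, Matrix.diagonal_mul]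
    have h2 : ev F (z i) (hz i) (el F a * bas hF j) = cj z a i * z i ^ (j : ℕ) := by
      rw [map_mul, ev_el, bas_apply, map_pow, ev_root]
    have h3 : (fun i => (bas hF).repr (el F a * bas hF j) i) = fun i => lm hF (el F a) i j := by
      have h4 := lm_mulVec hF (el F a) (bas hF j)
      rw [← h4]
      funext i
      simp [Matrix.mulVec, dotProduct, Finsupp.single_apply]
    rw [hom_repr hF, ev_root] at h2
    rw [hV]
    simp only [Matrix.vandermonde_apply]
    rw [← h2]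
    refine Finset.sum_congr rfl fun l _ => ?_
    have h5 : (bas hF).repr (el F a * bas hF j) l = lm hF (el F a) l j := congrFun h3 l
    rw [h5, hL]
    simp [mul_comm]
  have h2 : V.det * L.det = (∏ i, cj z a i) * V.det := by
    rw [← Matrix.det_mul, h1, Matrix.det_mul, Matrix.det_diagonal]
  have h3 : L.det = ((nm hF (el F a) : ℤ) : ℂ) := by
    unfold nm
    rw [hL]
    exact ((Int.castRingHom ℂ).map_det (lm hF (el F a))).symm
  rw [← h3]
  have h4 : V.det * L.det = V.det * (∏ i, cj z a i) := by rw [h2, mul_comm]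
  exact mul_left_cancel₀ hdet h4

/-- conjugates of the product -/
theorem cj_mul_of_eq (z : Fin F.natDegree → ℂ)
    (hz : ∀ i, F.eval₂ (Int.castRingHom ℂ) (z i) = 0) (M m : ℤ) (k : ℕ)
    (a b : Fin F.natDegree → ℤ)
    (h : (M : AdjoinRoot F) * ((m : AdjoinRoot F) - AdjoinRoot.root F) = el F a ^ k * el F b) (i) :
    (M : ℂ) * ((m : ℂ) - z i) = cj z a i ^ k * cj z b i := by
  have := congrArg (ev F (z i) (hz i)) h
  simp only [map_mul, map_sub, map_pow, map_intCast, ev_root, ev_el] at this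
  exact this

/-- upper bound for the conjugates -/
theorem norm_cj_le {d : ℕ} (z : Fin d → ℂ) : ∃ C : ℝ, 1 ≤ C ∧ ∀ (a : Fin d → ℤ) (B : ℝ),
    (∀ i, |(a i : ℝ)| ≤ B) → ∀ i, ‖cj z a i‖ ≤ C * B := by
  refine ⟨1 + ∑ i, ∑ j : Fin d, ‖z i‖ ^ (j : ℕ), ?_, ?_⟩
  · have : 0 ≤ ∑ i, ∑ j : Fin d, ‖z i‖ ^ (j : ℕ) := by positivity
    linarith
  · intro a B hB i
    have hB0 : 0 ≤ B := le_trans (abs_nonneg _) (hB i)
    calc ‖cj z a i‖ ≤ ∑ j, ‖(a j : ℂ) * z i ^ (j : ℕ)‖ := norm_sum_le _ _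
      _ ≤ ∑ j : Fin d, ‖z i‖ ^ (j : ℕ) * B := by
          refine Finset.sum_le_sum fun j _ => ?_
          rw [norm_mul, norm_pow, mul_comm]
          refine mul_le_mul_of_nonneg_left ?_ (by positivity)
          rw [Complex.norm_intCast]
          exact hB j
      _ = (∑ j : Fin d, ‖z i‖ ^ (j : ℕ)) * B := by rw [Finset.sum_mul]
      _ ≤ (1 + ∑ i, ∑ j : Fin d, ‖z i‖ ^ (j : ℕ)) * B := by
          refine mul_le_mul_of_nonneg_right ?_ hB0
          have : (∑ j : Fin d, ‖z i‖ ^ (j : ℕ)) ≤ ∑ i, ∑ j : Fin d, ‖z i‖ ^ (j : ℕ) :=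
            Finset.single_le_sum (f := fun i => ∑ j : Fin d, ‖z i‖ ^ (j : ℕ))
              (fun i _ => by positivity) (Finset.mem_univ i)
          linarith

/-- coordinates are bounded by conjugates -/
theorem coord_le {d : ℕ} (z : Fin d → ℂ) (hinj : Function.Injective z) : ∃ C : ℝ, 1 ≤ C ∧
    ∀ (a : Fin d → ℤ) (B : ℝ), (∀ i, ‖cj z a i‖ ≤ B) → ∀ i, |(a i : ℝ)| ≤ C * B := by
  set V : Matrix (Fin d) (Fin d) ℂ := Matrix.vandermonde z with hV
  have hdet : V.det ≠ 0 := Matrix.det_vandermonde_ne_zero_iff.mpr hinj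
  have hunit : IsUnit V.det := isUnit_iff_ne_zero.mpr hdet
  refine ⟨1 + ∑ i, ∑ j, ‖V⁻¹ i j‖, ?_, ?_⟩
  · have : 0 ≤ ∑ i, ∑ j, ‖V⁻¹ i j‖ := by positivity
    linarith
  · intro a B hB i
    have hB0 : 0 ≤ B := le_trans (norm_nonneg _) (hB i)
    have h1 : V *ᵥ (fun j => (a j : ℂ)) = cj z a := by
      funext l
      simp [Matrix.mulVec, dotProduct, hV, Matrix.vandermonde_apply, cj, mul_comm]
    have h2 : (fun j => (a j : ℂ)) = V⁻¹ *ᵥ cj z a := by
      rw [← h1, Matrix.mulVec_mulVec, Matrix.nonsing_inv_mul _ hunit, Matrix.one_mulVec]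
    have h3 : (a i : ℂ) = ∑ j, V⁻¹ i j * cj z a j := congrFun h2 i
    rw [← Complex.norm_intCast, h3]
    calc ‖∑ j, V⁻¹ i j * cj z a j‖ ≤ ∑ j, ‖V⁻¹ i j * cj z a j‖ := norm_sum_le _ _
      _ ≤ ∑ j, ‖V⁻¹ i j‖ * B := by
          refine Finset.sum_le_sum fun j _ => ?_
          rw [norm_mul]
          exact mul_le_mul_of_nonneg_left (hB j) (norm_nonneg _)
      _ = (∑ j, ‖V⁻¹ i j‖) * B := by rw [Finset.sum_mul]
      _ ≤ (1 + ∑ i, ∑ j, ‖V⁻¹ i j‖) * B := by
          refine mul_le_mul_of_nonneg_right ?_ hB0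
          have : (∑ j, ‖V⁻¹ i j‖) ≤ ∑ i, ∑ j, ‖V⁻¹ i j‖ :=
            Finset.single_le_sum (f := fun i => ∑ j, ‖V⁻¹ i j‖)
              (fun i _ => by positivity) (Finset.mem_univ i)
          linarith

end Crest.Agent.R022.Torsor
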