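import Crest.Agent.R022.TorsorAlg

/-! Row 22, block T1 (helper250): the divisibility `p ^ k ∣ (θ - m) * (star α) ^ k`, hence
`c ^ k * (m - θ) = α ^ k * β` with `norm α = p * c`. -/

set_option autoImplicit false

open Polynomial Matrix

namespace Crest.Agent.R022.Torsor

variable {F : ℤ[X]} (hF : F.Monic)

/-- The ring hom `ℤ[θ] → ZMod p`, `θ ↦ m`, when `p ∣ F(m)`. -/
theorem exists_hom (p : ℕ) (m : ℤ) (hm : (p : ℤ) ∣ F.eval m) :
    ∃ ψ : AdjoinRoot F →+* ZMod p, ψ (AdjoinRoot.root F) = (m : ZMod p) := by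
  have h : F.eval₂ (Int.castRingHom (ZMod p)) (m : ZMod p) = 0 := by
    have h1 : F.eval₂ (Int.castRingHom (ZMod p)) ((Int.castRingHom (ZMod p)) m) = ((F.eval m : ℤ) : ZMod p) := by
      rw [Polynomial.eval₂_at_apply]; simp
    have h2 : ((F.eval m : ℤ) : ZMod p) = 0 := (CharP.intCast_eq_zero_iff (ZMod p) p _).mpr hm
    rw [h2] at h1
    simpa using h1
  exact ⟨ev F _ h, ev_root _ h⟩

/-- `(θ - m) * (g + (θ - m) H) = - F(m)` with `g = F'(m)`. -/
theorem exists_factor (F : ℤ[X]) (m : ℤ) : ∃ H : AdjoinRoot F,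
    (AdjoinRoot.root F - (m : AdjoinRoot F)) *
      (((derivative F).eval m : ℤ) + (AdjoinRoot.root F - (m : AdjoinRoot F)) * H) =
      - ((F.eval m : ℤ) : AdjoinRoot F) := by
  -- write `F = F(m) + F'(m) (X - m) + (X - m)^2 Q`
  have h0 : ∃ Q : ℤ[X], F = C (F.eval m) + C ((derivative F).eval m) * (X - C m) + (X - C m) ^ 2 * Q := by
    have h1 : ∀ P : ℤ[X], ∃ G : ℤ[X], P = (X - C m) * G + C (P.eval m) := by
      intro P
      have h2 : (X - C m) ∣ P - C (P.eval m) := by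
        rw [Polynomial.dvd_iff_isRoot]; simp
      obtain ⟨G, hG⟩ := h2
      exact ⟨G, by rw [← hG]; ring⟩
    obtain ⟨G, hG⟩ := h1 F
    obtain ⟨Q, hQ⟩ := h1 G
    have h3 : (derivative F).eval m = G.eval m := by
      conv_lhs => rw [hG]
      simp
    refine ⟨Q, ?_⟩
    conv_lhs => rw [hG]
    rw [h3]
    conv_lhs => rw [hQ]
    ring
  obtain ⟨Q, hQ⟩ := h0
  refine ⟨AdjoinRoot.mk F Q, ?_⟩
  have h4 : AdjoinRoot.mk F F = 0 := AdjoinRoot.mk_self
  have h5 := congrArg (AdjoinRoot.mk F) hQ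
  rw [h4] at h5
  have hC : ∀ z : ℤ, AdjoinRoot.mk F (C z) = (z : AdjoinRoot F) := by
    intro z
    rw [show (C z : ℤ[X]) = ((z : ℤ) : ℤ[X]) from (by simp), map_intCast]
  simp only [map_add, map_mul, map_sub, map_pow, hC, AdjoinRoot.mk_X] at h5
  linear_combination (-1 : AdjoinRoot F) * h5

/-- The heart of the torsor step. -/
theorem dvd_star_pow [IsDomain (AdjoinRoot F)] (hd : 0 < F.natDegree) (p : ℕ) (hp : p.Prime)
    (k : ℕ) (hk : 1 ≤ k) (m : ℤ) (hm : (p : ℤ) ^ k ∣ F.eval m)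
    (hder : ¬ (p : ℤ) ∣ (derivative F).eval m)
    {a : Fin F.natDegree → ℤ} (ha0 : a ≠ 0) (ha : (p : ℤ) ∣ ∑ i, a i * m ^ (i : ℕ)) :
    (((p : ℤ) : AdjoinRoot F)) ^ k ∣
      (AdjoinRoot.root F - (m : AdjoinRoot F)) * star hF (el F a) ^ k := by
  have hm1 : (p : ℤ) ∣ F.eval m := dvd_trans (dvd_pow_self _ (by omega)) hm
  obtain ⟨ψ, hψ⟩ := exists_hom p m hm1
  have hα0 : el F a ≠ 0 := el_ne_zero hF ha0
  have hα : ψ (el F a) = 0 := by
    rw [hom_el, hψ]
    have := (CharP.intCast_eq_zero_iff (ZMod p) p _).mpr ha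
    push_cast at this
    exact this
  have hx : ψ (AdjoinRoot.root F - (m : AdjoinRoot F)) = 0 := by
    rw [map_sub, hψ, map_intCast, sub_self]
  obtain ⟨w, hw⟩ := dvd_star_mul hF hd p ψ hα0 hα hx
  obtain ⟨H, hH⟩ := exists_factor F m
  obtain ⟨u, hu⟩ := hm
  set x := AdjoinRoot.root F - (m : AdjoinRoot F) with hxdef
  set y := star hF (el F a) with hy
  set g : ℤ := (derivative F).eval m with hg
  rw [hu] at hH
  push_cast at hH
  set P : AdjoinRoot F := ((p : ℤ) : AdjoinRoot F) with hP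
  have hPc : ((p : ℕ) : AdjoinRoot F) = P := by rw [hP]; push_cast; rfl
  rw [hPc] at hH
  -- `g^j x ≡ ± x^(j+1) H^j` mod `P^k`
  have h1 : ∀ j : ℕ, P ^ k ∣ (g : AdjoinRoot F) ^ j * x - (-1) ^ j * x ^ (j + 1) * H ^ j := by
    intro j
    induction j with
    | zero => simp
    | succ j ih =>
      obtain ⟨e, he⟩ := ih
      refine ⟨g * e - (-1) ^ j * x ^ j * H ^ j * u, ?_⟩
      have h2 : (g : AdjoinRoot F) * x = - (x * x * H) - P ^ k * u := by
        linear_combination hH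
      have h3 : (g : AdjoinRoot F) ^ j * x = (-1) ^ j * x ^ (j + 1) * H ^ j + P ^ k * e := by
        linear_combination he
      have h4 : (g : AdjoinRoot F) ^ (j + 1) * x = g * ((-1) ^ j * x ^ (j + 1) * H ^ j + P ^ k * e) := by
        rw [← h3]; ring
      rw [h4]
      have h5 : (g : AdjoinRoot F) * ((-1) ^ j * x ^ (j + 1) * H ^ j) =
          (-1) ^ j * x ^ j * H ^ j * (- (x * x * H) - P ^ k * u) := by
        rw [← h2]; ring
      rw [mul_add, h5]
      ring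
  have h2 : P ^ k ∣ (g : AdjoinRoot F) ^ (k - 1) * (x * y ^ k) := by
    have h3 : (g : AdjoinRoot F) ^ (k - 1) * (x * y ^ k) =
        ((g : AdjoinRoot F) ^ (k - 1) * x - (-1) ^ (k - 1) * x ^ (k - 1 + 1) * H ^ (k - 1)) * y ^ k
        + (-1) ^ (k - 1) * H ^ (k - 1) * (y * x) ^ k := by
      have : k - 1 + 1 = k := by omega
      rw [this, mul_pow]
      ring
    rw [h3]
    refine dvd_add (Dvd.dvd.mul_right (h1 _) _) (Dvd.dvd.mul_left ?_ _)
    rw [hw]
    rw [mul_pow]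
    exact dvd_mul_right _ _
  -- `g` is invertible modulo `p ^ k`
  have hcop : IsCoprime (g ^ (k - 1)) ((p : ℤ) ^ k) := by
    refine IsCoprime.pow ?_
    have := (Nat.prime_iff_prime_int.mp hp)
    exact ((Prime.coprime_iff_not_dvd this).mpr hder).symm
  obtain ⟨s, t, hst⟩ := hcop
  have hst' : (s : AdjoinRoot F) * (g : AdjoinRoot F) ^ (k - 1) + (t : AdjoinRoot F) * P ^ k = 1 := by
    have h : ((s * g ^ (k - 1) + t * (p : ℤ) ^ k : ℤ) : AdjoinRoot F) = ((1 : ℤ) : AdjoinRoot F) :=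
      congrArg (fun z : ℤ => (z : AdjoinRoot F)) hst
    push_cast at h
    rw [hPc] at h
    exact h
  have h4 : x * y ^ k = s * ((g : AdjoinRoot F) ^ (k - 1) * (x * y ^ k)) + P ^ k * (t * (x * y ^ k)) := by
    calc x * y ^ k = 1 * (x * y ^ k) := by ring
      _ = _ := by rw [← hst']; ring
  rw [h4]
  exact dvd_add (Dvd.dvd.mul_left h2 _) (dvd_mul_right _ _)

/-- Cancellation: with `norm α = p c` we get `c ^ k (m - θ) = α ^ k β`. -/
theorem exists_beta [IsDomain (AdjoinRoot F)] (hd : 0 < F.natDegree) (p : ℕ) (hp : p.Prime)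
    (k : ℕ) (hk : 1 ≤ k) (m : ℤ) (hm : (p : ℤ) ^ k ∣ F.eval m)
    (hder : ¬ (p : ℤ) ∣ (derivative F).eval m)
    {a : Fin F.natDegree → ℤ} (ha0 : a ≠ 0) (ha : (p : ℤ) ∣ ∑ i, a i * m ^ (i : ℕ))
    (c : ℤ) (hc : nm hF (el F a) = p * c) :
    ∃ b : Fin F.natDegree → ℤ, (c : AdjoinRoot F) ^ k * ((m : AdjoinRoot F) - AdjoinRoot.root F) =
      el F a ^ k * el F b := by
  obtain ⟨w, hw⟩ := dvd_star_pow hF hd p hp k hk m hm hder ha0 ha
  have hP : (((p : ℤ) : AdjoinRoot F)) ≠ 0 := by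
    intro h0
    -- `p = 0` in `ℤ[θ]` is impossible by coordinates
    have h1 : (bas hF).repr (((p : ℤ) : AdjoinRoot F) * bas hF ⟨0, hd⟩) ⟨0, hd⟩ = 0 := by
      rw [h0, zero_mul]; simp
    rw [← zsmul_eq_mul, map_zsmul] at h1
    simp at h1
    exact hp.ne_zero h1
  have h2 : (((p : ℤ) : AdjoinRoot F)) ^ k *
      ((c : AdjoinRoot F) ^ k * ((m : AdjoinRoot F) - AdjoinRoot.root F)) =
      (((p : ℤ) : AdjoinRoot F)) ^ k * (el F a ^ k * (-w)) := by
    have h3 : (el F a * star hF (el F a)) = ((p : ℤ) : AdjoinRoot F) * (c : AdjoinRoot F) := by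
      rw [mul_star, hc]; push_cast; ring
    calc (((p : ℤ) : AdjoinRoot F)) ^ k *
      ((c : AdjoinRoot F) ^ k * ((m : AdjoinRoot F) - AdjoinRoot.root F))
        = (((p : ℤ) : AdjoinRoot F) * (c : AdjoinRoot F)) ^ k *
          ((m : AdjoinRoot F) - AdjoinRoot.root F) := by ring
      _ = (el F a * star hF (el F a)) ^ k * ((m : AdjoinRoot F) - AdjoinRoot.root F) := by rw [h3]
      _ = - (el F a ^ k * ((AdjoinRoot.root F - (m : AdjoinRoot F)) * star hF (el F a) ^ k)) := by ring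
      _ = _ := by rw [hw]; ring
  obtain ⟨b, hb⟩ := el_surj hF (-w)
  refine ⟨b, ?_⟩
  rw [hb]
  exact mul_left_cancel₀ (pow_ne_zero _ hP) h2

end Crest.Agent.R022.Torsor
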