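import Crest.Agent.R022.TorsorSlice

/-! Row 22, block T1 (helper250): factorisation over `ℂ` of the slice polynomials into the linear
forms `α_i(t)`. -/

set_option autoImplicit false

open Matrix

namespace Crest.Agent.R022.Torsor

open Polynomial (Monic)

/-- the linear form `α_i` on a slice -/
noncomputable def aP {d : ℕ} (z : Fin d → ℂ) (r : ℕ) (a0 : Fin d → ℤ) (i : Fin d) :
    MvPolynomial (Fin r) ℂ :=
  ∑ j : Fin d, MvPolynomial.C (z i ^ (j : ℕ)) * MvPolynomial.map (Int.castRingHom ℂ) (embP r a0 j)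

theorem eval_map_int {r : ℕ} (P : MvPolynomial (Fin r) ℤ) (t : Fin r → ℤ) :
    MvPolynomial.eval (fun j => (t j : ℂ)) (MvPolynomial.map (Int.castRingHom ℂ) P) =
      ((MvPolynomial.eval t P : ℤ) : ℂ) := by
  rw [MvPolynomial.eval_map]
  exact (MvPolynomial.eval₂_comp (Int.castRingHom ℂ) t P).symm

theorem eval_aP {d : ℕ} (z : Fin d → ℂ) (r : ℕ) (a0 : Fin d → ℤ) (i : Fin d) (t : Fin r → ℤ) :
    MvPolynomial.eval (fun j => (t j : ℂ)) (aP z r a0 i) = cj z (emb r a0 t) i := by
  unfold aP cj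
  rw [map_sum]
  refine Finset.sum_congr rfl fun j _ => ?_
  rw [map_mul, MvPolynomial.eval_C, eval_map_int, eval_embP, mul_comm]

/-- explicit form of `α_i` : `∑_{j<r} z_i^j t_j + const`. -/
theorem aP_eq {d : ℕ} (z : Fin d → ℂ) (r : ℕ) (hr : r ≤ d) (a0 : Fin d → ℤ) (i : Fin d) :
    aP z r a0 i = (∑ j : Fin r, MvPolynomial.C (z i ^ (j : ℕ)) * MvPolynomial.X j) +
      MvPolynomial.C (∑ j : Fin d, if (j : ℕ) < r then 0 else (a0 j : ℂ) * z i ^ (j : ℕ)) := by
  classical
  unfold aP
  have h1 : ∀ j : Fin d, MvPolynomial.C (z i ^ (j : ℕ)) *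
      MvPolynomial.map (Int.castRingHom ℂ) (embP r a0 j) =
      (if h : (j : ℕ) < r then MvPolynomial.C (z i ^ (j : ℕ)) * MvPolynomial.X ⟨j, h⟩ else 0) +
      MvPolynomial.C (if (j : ℕ) < r then 0 else (a0 j : ℂ) * z i ^ (j : ℕ)) := by
    intro j
    unfold embP
    by_cases h : (j : ℕ) < r
    · simp [h]
    · simp [h, mul_comm]
  rw [Finset.sum_congr rfl fun j _ => h1 j, Finset.sum_add_distrib, ← map_sum]
  congr 1
  -- reindex
  let e : Fin r → Fin d := Fin.castLE hr
  have he : Function.Injective e := Fin.castLE_injective hr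
  have h2 : ∑ j : Fin r, MvPolynomial.C (z i ^ (j : ℕ)) * MvPolynomial.X j =
      ∑ j : Fin r, (fun j : Fin d => if h : (j : ℕ) < r then
        MvPolynomial.C (z i ^ (j : ℕ)) * (MvPolynomial.X ⟨j, h⟩ : MvPolynomial (Fin r) ℂ) else 0) (e j) := by
    refine Finset.sum_congr rfl fun j _ => ?_
    have : ((e j : Fin d) : ℕ) < r := j.2
    simp [this, e]
  rw [h2, ← Finset.sum_image (f := fun j : Fin d => if h : (j : ℕ) < r then
        MvPolynomial.C (z i ^ (j : ℕ)) * (MvPolynomial.X ⟨j, h⟩ : MvPolynomial (Fin r) ℂ) else 0)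
        (s := Finset.univ) (g := e) (fun a _ b _ h => he h)]
  symm
  refine Finset.sum_subset (Finset.subset_univ _) ?_
  intro j _ hj
  rw [dif_neg]
  intro h
  apply hj
  rw [Finset.mem_image]
  exact ⟨⟨j, h⟩, Finset.mem_univ _, by apply Fin.ext; simp [e]⟩

section alg
variable {F : Polynomial ℤ} (hF : F.Monic)

/-- the Vandermonde matrix over the polynomial ring -/
noncomputable def VP {d : ℕ} (z : Fin d → ℂ) (r : ℕ) : Matrix (Fin d) (Fin d) (MvPolynomial (Fin r) ℂ) :=
  (Matrix.vandermonde z).map MvPolynomial.C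

noncomputable def WP {d : ℕ} (z : Fin d → ℂ) (r : ℕ) : Matrix (Fin d) (Fin d) (MvPolynomial (Fin r) ℂ) :=
  ((Matrix.vandermonde z)⁻¹).map MvPolynomial.C

theorem VP_mul_WP {d : ℕ} (z : Fin d → ℂ) (hinj : Function.Injective z) (r : ℕ) :
    VP z r * WP z r = 1 := by
  have hdet : (Matrix.vandermonde z).det ≠ 0 := Matrix.det_vandermonde_ne_zero_iff.mpr hinj
  have hunit : IsUnit (Matrix.vandermonde z).det := isUnit_iff_ne_zero.mpr hdet
  unfold VP WP
  rw [← Matrix.map_mul, Matrix.mul_nonsing_inv _ hunit]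
  exact Matrix.map_one _ (map_zero _) (map_one _)

theorem WP_mul_VP {d : ℕ} (z : Fin d → ℂ) (hinj : Function.Injective z) (r : ℕ) :
    WP z r * VP z r = 1 := by
  have hdet : (Matrix.vandermonde z).det ≠ 0 := Matrix.det_vandermonde_ne_zero_iff.mpr hinj
  have hunit : IsUnit (Matrix.vandermonde z).det := isUnit_iff_ne_zero.mpr hdet
  unfold VP WP
  rw [← Matrix.map_mul, Matrix.nonsing_inv_mul _ hunit]
  exact Matrix.map_one _ (map_zero _) (map_one _)

/-- Vandermonde diagonalises multiplication matrices. -/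
theorem vander_mul_lm (z : Fin F.natDegree → ℂ) (hz : ∀ i, F.eval₂ (Int.castRingHom ℂ) (z i) = 0)
    (x : AdjoinRoot F) :
    Matrix.vandermonde z * (lm hF x).map (Int.castRingHom ℂ) =
      Matrix.diagonal (fun i => ev F (z i) (hz i) x) * Matrix.vandermonde z := by
  ext i j
  rw [Matrix.mul_apply, Matrix.diagonal_mul]
  have h2 : ev F (z i) (hz i) (x * bas hF j) = ev F (z i) (hz i) x * z i ^ (j : ℕ) := by
    rw [map_mul, bas_apply, map_pow, ev_root]
  have h3 : (fun i => (bas hF).repr (x * bas hF j) i) = fun i => lm hF x i j := by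
    have h4 := lm_mulVec hF x (bas hF j)
    rw [← h4]
    funext i
    simp [Matrix.mulVec, dotProduct, Finsupp.single_apply]
  rw [hom_repr hF, ev_root] at h2
  simp only [Matrix.vandermonde_apply]
  rw [← h2]
  refine Finset.sum_congr rfl fun l _ => ?_
  have h5 : (bas hF).repr (x * bas hF j) l = lm hF x l j := congrFun h3 l
  rw [h5]
  simp [mul_comm]

/-- over the polynomial ring -/
theorem VP_mul_Lgen (z : Fin F.natDegree → ℂ) (hz : ∀ i, F.eval₂ (Int.castRingHom ℂ) (z i) = 0)
    (r : ℕ) (a0 : Fin F.natDegree → ℤ) :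
    VP z r * (Lgen hF r a0).map (MvPolynomial.map (Int.castRingHom ℂ)) =
      Matrix.diagonal (aP z r a0) * VP z r := by
  have h1 : (Lgen hF r a0).map (MvPolynomial.map (Int.castRingHom ℂ)) =
      ∑ l, (MvPolynomial.map (Int.castRingHom ℂ) (embP r a0 l)) •
        ((lm hF (bas hF l)).map (Int.castRingHom ℂ)).map MvPolynomial.C := by
    unfold Lgen
    ext i j
    simp only [Matrix.map_apply, Matrix.sum_apply, Matrix.smul_apply, smul_eq_mul, map_sum, map_mul,
      MvPolynomial.map_C]
  rw [h1, Finset.mul_sum]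
  have h2 : ∀ l : Fin F.natDegree, VP z r * (MvPolynomial.map (Int.castRingHom ℂ) (embP r a0 l)) •
        ((lm hF (bas hF l)).map (Int.castRingHom ℂ)).map MvPolynomial.C =
      Matrix.diagonal (fun i => MvPolynomial.C (z i ^ (l : ℕ)) *
        MvPolynomial.map (Int.castRingHom ℂ) (embP r a0 l)) * VP z r := by
    intro l
    unfold VP
    rw [Matrix.mul_smul, ← Matrix.map_mul, vander_mul_lm hF z hz]
    ext i j
    rw [Matrix.smul_apply, Matrix.map_apply, Matrix.diagonal_mul, Matrix.diagonal_mul,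
      Matrix.map_apply, bas_apply, map_pow, ev_root, map_mul, smul_eq_mul]
    ring
  rw [Finset.sum_congr rfl fun l _ => h2 l, ← Finset.sum_mul]
  congr 1
  ext i j
  rw [Matrix.sum_apply]
  by_cases hij : i = j
  · subst hij
    simp [aP]
  · simp [Matrix.diagonal_apply_ne _ hij]

/-- The norm form is the product of the linear forms. -/
theorem map_Nf (z : Fin F.natDegree → ℂ) (hinj : Function.Injective z)
    (hz : ∀ i, F.eval₂ (Int.castRingHom ℂ) (z i) = 0) (r : ℕ) (a0 : Fin F.natDegree → ℤ) :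
    MvPolynomial.map (Int.castRingHom ℂ) (Nf hF r a0) = ∏ i, aP z r a0 i := by
  have h1 := congrArg Matrix.det (VP_mul_Lgen hF z hz r a0)
  rw [Matrix.det_mul, Matrix.det_mul, Matrix.det_diagonal, mul_comm] at h1
  have h2 : (VP z r).det * (WP z r).det = 1 := by
    rw [← Matrix.det_mul, VP_mul_WP z hinj, Matrix.det_one]
  have h3 := congrArg (· * (WP z r).det) h1
  simp only [mul_assoc, h2, mul_one] at h3
  rw [← h3]
  unfold Nf
  rw [RingHom.map_det]
  rfl

/-- The product of the other linear forms. -/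
noncomputable def coP {d : ℕ} (z : Fin d → ℂ) (r : ℕ) (a0 : Fin d → ℤ) (i : Fin d) :
    MvPolynomial (Fin r) ℂ := ∏ j ∈ Finset.univ.erase i, aP z r a0 j

theorem aP_mul_coP {d : ℕ} (z : Fin d → ℂ) (r : ℕ) (a0 : Fin d → ℤ) (i : Fin d) :
    aP z r a0 i * coP z r a0 i = ∏ j, aP z r a0 j :=
  Finset.mul_prod_erase Finset.univ (fun j => aP z r a0 j) (Finset.mem_univ i)

/-- The coordinates of `(star α)^k y` as combination of the `∏_{j≠i} α_j^k`. -/
theorem map_Sf (z : Fin F.natDegree → ℂ) (hinj : Function.Injective z)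
    (hz : ∀ i, F.eval₂ (Int.castRingHom ℂ) (z i) = 0) (r : ℕ) (a0 : Fin F.natDegree → ℤ) (k : ℕ)
    (y : AdjoinRoot F) (l) :
    MvPolynomial.map (Int.castRingHom ℂ) (Sf hF r a0 k y l) =
      ∑ i, MvPolynomial.C ((Matrix.vandermonde z)⁻¹ l i * ev F (z i) (hz i) y) *
        coP z r a0 i ^ k := by
  set φ := MvPolynomial.map (σ := Fin r) (Int.castRingHom ℂ) with hφ
  set L' := (Lgen hF r a0).map φ with hL'
  have hVL : VP z r * L' = Matrix.diagonal (aP z r a0) * VP z r := VP_mul_Lgen hF z hz r a0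
  have hL : L' = WP z r * (Matrix.diagonal (aP z r a0) * VP z r) := by
    rw [← hVL, ← Matrix.mul_assoc, WP_mul_VP z hinj, Matrix.one_mul]
  have hdetVW : (VP z r).det * (WP z r).det = 1 := by
    rw [← Matrix.det_mul, VP_mul_WP z hinj, Matrix.det_one]
  have hadjW : (WP z r).adjugate = (WP z r).det • VP z r := by
    have h := congrArg (fun Q => Q * VP z r) (Matrix.adjugate_mul (WP z r))
    simp only [Matrix.mul_assoc, WP_mul_VP z hinj, Matrix.mul_one, Matrix.smul_mul,
      Matrix.one_mul] at h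
    exact h
  have hadjV : (VP z r).adjugate = (VP z r).det • WP z r := by
    have h := congrArg (fun Q => Q * WP z r) (Matrix.adjugate_mul (VP z r))
    simp only [Matrix.mul_assoc, VP_mul_WP z hinj, Matrix.mul_one, Matrix.smul_mul,
      Matrix.one_mul] at h
    exact h
  have hadj : L'.adjugate = WP z r * (Matrix.diagonal (coP z r a0) * VP z r) := by
    rw [hL, Matrix.adjugate_mul_distrib, Matrix.adjugate_mul_distrib, hadjW, hadjV,
      Matrix.adjugate_diagonal, Matrix.smul_mul, Matrix.smul_mul, Matrix.mul_smul, smul_smul,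
      hdetVW, one_smul, Matrix.mul_assoc]
    rfl
  have hpow : ∀ k : ℕ, L'.adjugate ^ k =
      WP z r * (Matrix.diagonal (fun i => coP z r a0 i ^ k) * VP z r) := by
    intro k
    induction k with
    | zero => simp [WP_mul_VP z hinj]
    | succ k ih =>
      rw [pow_succ, ih, hadj]
      calc WP z r * (diagonal (fun i => coP z r a0 i ^ k) * VP z r) *
          (WP z r * (diagonal (coP z r a0) * VP z r))
          = WP z r * (diagonal (fun i => coP z r a0 i ^ k) * (VP z r * WP z r) *
            (diagonal (coP z r a0) * VP z r)) := by simp only [Matrix.mul_assoc]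
        _ = WP z r * (diagonal (fun i => coP z r a0 i ^ (k + 1)) * VP z r) := by
            rw [VP_mul_WP z hinj, Matrix.mul_one, ← Matrix.mul_assoc (diagonal _) (diagonal _),
              Matrix.diagonal_mul_diagonal]
            congr 3
  have hS : ∀ l, φ (Sf hF r a0 k y l) =
      (L'.adjugate ^ k *ᵥ (fun i => MvPolynomial.C (((bas hF).repr y i : ℤ) : ℂ))) l := by
    intro l
    unfold Sf
    have h1 : ((Lgen hF r a0).adjugate ^ k).map φ = L'.adjugate ^ k := by
      rw [hL', ← RingHom.mapMatrix_apply, map_pow, RingHom.map_adjugate]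
      rfl
    rw [← h1]
    simp [Matrix.mulVec, dotProduct, hφ]
  rw [hS, hpow, ← Matrix.mulVec_mulVec, ← Matrix.mulVec_mulVec]
  have hV : VP z r *ᵥ (fun i => MvPolynomial.C (((bas hF).repr y i : ℤ) : ℂ)) =
      fun i => MvPolynomial.C (ev F (z i) (hz i) y) := by
    funext i
    rw [hom_repr hF, ev_root, map_sum]
    simp only [Matrix.mulVec, dotProduct, VP, Matrix.map_apply, Matrix.vandermonde_apply]
    refine Finset.sum_congr rfl fun j _ => ?_
    rw [← map_mul, mul_comm]
  rw [hV]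
  have hD : Matrix.diagonal (fun i => coP z r a0 i ^ k) *ᵥ
      (fun i => (MvPolynomial.C (ev F (z i) (hz i) y) : MvPolynomial (Fin r) ℂ)) =
      fun i => coP z r a0 i ^ k * MvPolynomial.C (ev F (z i) (hz i) y) := by
    funext i
    rw [Matrix.mulVec_diagonal]
  rw [hD]
  unfold WP
  simp only [Matrix.mulVec, dotProduct, Matrix.map_apply]
  refine Finset.sum_congr rfl fun i _ => ?_
  rw [map_mul]
  ring

end alg

end Crest.Agent.R022.Torsor
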