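import Crest.Agent.R022.Torsor

/-! Row 22, block T1 (helper250): reduction to a monic polynomial, fibres of `n ↦ α`. -/

set_option autoImplicit false

open Polynomial

namespace Crest.Agent.R022.Torsor

/-- The monic polynomial `F(x) = a₀^(d-1) f(x / a₀)`. -/
noncomputable def mon (f : ℤ[X]) : ℤ[X] := integralNormalization f

theorem mon_natDegree (f : ℤ[X]) : (mon f).natDegree = f.natDegree :=
  natDegree_integralNormalization

theorem mon_monic {f : ℤ[X]} (hf : f ≠ 0) : (mon f).Monic := monic_integralNormalization hf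

theorem mon_eval (f : ℤ[X]) (h : 1 ≤ f.natDegree) (n : ℤ) :
    (mon f).eval (f.leadingCoeff * n) = f.leadingCoeff ^ (f.natDegree - 1) * f.eval n := by
  unfold mon
  have := integralNormalization_eval₂_leadingCoeff_mul h (RingHom.id ℤ) n
  simpa [Polynomial.eval₂_id] using this

theorem mon_irreducible {f : ℤ[X]} (hirr : Irreducible (f.map (Int.castRingHom ℚ))) :
    Irreducible (mon f) := by
  set g := f.map (Int.castRingHom ℚ) with hg
  have hf0 : f ≠ 0 := by
    rintro rfl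
    simp [hg] at hirr
  have hg0 : g ≠ 0 := hirr.ne_zero
  have hdeg : 1 ≤ g.natDegree := Nat.pos_of_ne_zero (by
    intro h0
    exact hirr.not_isUnit (Polynomial.isUnit_iff_degree_eq_zero.mpr (by
      rw [Polynomial.degree_eq_natDegree hg0, h0]; rfl)))
  have hlc : g.leadingCoeff ≠ 0 := Polynomial.leadingCoeff_ne_zero.mpr hg0
  have hlcf : (Int.castRingHom ℚ) f.leadingCoeff ≠ 0 := by
    simpa using hf0
  have hmap : (mon f).map (Int.castRingHom ℚ) = integralNormalization g :=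
    (integralNormalization_map (Int.castRingHom ℚ) f hlcf).symm
  have hmon : (mon f).Monic := mon_monic hf0
  rw [Polynomial.IsPrimitive.Int.irreducible_iff_irreducible_map_cast hmon.isPrimitive, hmap]
  -- `(int. norm. g)(lc x) = lc^(d-1) g(x)`
  have hinv : Invertible g.leadingCoeff := invertibleOfNonzero hlc
  have h1 : (integralNormalization g).comp (C g.leadingCoeff * X + C 0) =
      C (g.leadingCoeff ^ (g.natDegree - 1)) * g := by
    apply Polynomial.funext
    intro x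
    rw [Polynomial.eval_comp]
    simp only [eval_add, eval_mul, eval_C, eval_X, add_zero]
    have := integralNormalization_eval₂_leadingCoeff_mul hdeg (RingHom.id ℚ) x
    simpa [Polynomial.eval₂_id] using this
  have h2 : Irreducible (algEquivCMulXAddC g.leadingCoeff 0 (integralNormalization g)) := by
    rw [algEquivCMulXAddC_apply, ← Polynomial.comp_eq_aeval, h1]
    have hu : IsUnit (C (g.leadingCoeff ^ (g.natDegree - 1)) : ℚ[X]) :=
      Polynomial.isUnit_C.mpr (isUnit_iff_ne_zero.mpr (pow_ne_zero _ hlc))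
    exact (irreducible_isUnit_mul hu).mpr hirr
  exact (MulEquiv.irreducible_iff (algEquivCMulXAddC g.leadingCoeff 0)).mp h2

/-- If `p ^ k ∣ f(n)` then `p ^ k ∣ F(a₀ n)`. -/
theorem mon_dvd (f : ℤ[X]) (h : 1 ≤ f.natDegree) (n q : ℤ) (hq : q ∣ f.eval n) :
    q ∣ (mon f).eval (f.leadingCoeff * n) := by
  rw [mon_eval f h]
  exact Dvd.dvd.mul_left hq _

/-- The prime is determined by `α`. -/
theorem prime_unique {C : ℤ} {p p' : ℕ} (hp : p.Prime) (hp' : p'.Prime) (hC : C < p)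
    {c c' : ℤ} (hc0' : c' ≠ 0) (hcC' : |c'| ≤ C) (h : (p : ℤ) * c = p' * c') : p = p' := by
  have h1 : (p : ℤ) ∣ p' * c' := ⟨c, h.symm⟩
  have hpi : Prime (p : ℤ) := Nat.prime_iff_prime_int.mp hp
  rcases hpi.dvd_or_dvd h1 with h2 | h2
  · have h3 : p ∣ p' := by exact_mod_cast h2
    exact (Nat.prime_dvd_prime_iff_eq hp hp').mp h3
  · exfalso
    have := Int.le_of_dvd (abs_pos.mpr hc0') ((dvd_abs _ _).mpr h2)
    linarith

open Crest.NumberTheoryR in
/-- For a large prime `p > N` at most `d` integers `n ≤ N` satisfy `p ^ k ∣ f(n)`. -/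
theorem card_prime_le (f : ℤ[X]) (hirr : Irreducible (f.map (Int.castRingHom ℚ))) :
    ∃ C : ℕ, ∀ N p k : ℕ, 1 ≤ k → p.Prime → C < p → N < p →
      ((Finset.Icc 1 N).filter (fun n : ℕ => (p : ℤ) ^ k ∣ f.eval (n : ℤ))).card ≤ f.natDegree := by
  obtain ⟨u, v, r, hr0, h⟩ := R22.SieveRed.exists_bezout f hirr
  refine ⟨r.natAbs, ?_⟩
  intro N p k hk hp hC hN
  have hr : ¬ (p : ℤ) ∣ r := by
    intro h1
    have h2 := Nat.le_of_dvd (Int.natAbs_pos.mpr hr0) (Int.natCast_dvd.mp h1)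
    omega
  have h1 := R22.SieveRed.rootCount_le f u v r h p k hp hk hr
  have h2 := R22.SieveRed.card_dvd_le f (p ^ k) N (pow_pos hp.pos _)
  have h3 : N / p ^ k = 0 := by
    refine Nat.div_eq_of_lt (lt_of_lt_of_le hN ?_)
    exact Nat.le_self_pow (by omega) p
  rw [h3, zero_add, mul_one] at h2
  have h4 : ((p ^ k : ℕ) : ℤ) = (p : ℤ) ^ k := by push_cast; rfl
  rw [h4] at h2
  exact le_trans h2 h1

/-- **Fibres.** The map `n ↦ α(n)` is at most `d` to one. -/
theorem card_le_mul_card_image (f : ℤ[X]) (hirr : Irreducible (f.map (Int.castRingHom ℚ))) :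
    ∃ C : ℕ, ∀ (N k : ℕ) (C' : ℤ) (s : Finset ℕ) {β : Type} [DecidableEq β] (v : ℕ → β)
      (nrm : β → ℤ) (pr : ℕ → ℕ) (cc : ℕ → ℤ), 1 ≤ k →
      (∀ n ∈ s, 1 ≤ n ∧ n ≤ N ∧ (pr n).Prime ∧ C < pr n ∧ C' < pr n ∧ N < pr n ∧
        (pr n : ℤ) ^ k ∣ f.eval (n : ℤ) ∧ nrm (v n) = pr n * cc n ∧ cc n ≠ 0 ∧ |cc n| ≤ C') →
      s.card ≤ f.natDegree * (s.image v).card := by
  classical
  obtain ⟨C, hC⟩ := card_prime_le f hirr
  refine ⟨C, ?_⟩
  intro N k C' s β _ v nrm pr cc hk hs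
  refine Finset.card_le_mul_card_image s f.natDegree ?_
  intro b hb
  obtain ⟨n0, hn0, rfl⟩ := Finset.mem_image.mp hb
  obtain ⟨h1, h2, h3, h4, h5, h6, h7, h8, h9, h10⟩ := hs n0 hn0
  refine le_trans (Finset.card_le_card ?_) (hC N (pr n0) k hk h3 h4 h6)
  intro n hn
  rw [Finset.mem_filter] at hn
  obtain ⟨g1, g2, g3, g4, g5, g6, g7, g8, g9, g10⟩ := hs n hn.1
  have hpp : pr n0 = pr n := by
    refine prime_unique h3 g3 h5 g9 g10 ?_ (c := cc n0)
    rw [← h8, ← g8, hn.2]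
  rw [Finset.mem_filter, Finset.mem_Icc]
  exact ⟨⟨g1, g2⟩, by rw [hpp]; exact g7⟩

end Crest.Agent.R022.Torsor
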