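import Crest.Agent.R022.TorsorRed

/-! Row 22, block T1 (helper250): slices. The first `r` coordinates of `a` are free (`t : Fin r → ℤ`), the
others are fixed (`a0`). Norm and coordinates of `β` are given by explicit polynomials in `t`. -/

set_option autoImplicit false

open Matrix

namespace Crest.Agent.R022.Torsor

open Polynomial (Monic)

/-- vector with free first `r` coordinates -/
def emb {d : ℕ} (r : ℕ) (a0 : Fin d → ℤ) (t : Fin r → ℤ) : Fin d → ℤ :=
  fun i => if h : (i : ℕ) < r then t ⟨i, h⟩ else a0 i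

theorem emb_self {d r : ℕ} (hr : r ≤ d) (a : Fin d → ℤ) :
    emb r a (fun i => a ⟨i, lt_of_lt_of_le i.2 hr⟩) = a := by
  funext i
  unfold emb
  split_ifs <;> rfl

/-- the generic coordinate -/
noncomputable def embP {d : ℕ} (r : ℕ) (a0 : Fin d → ℤ) : Fin d → MvPolynomial (Fin r) ℤ :=
  fun i => if h : (i : ℕ) < r then MvPolynomial.X ⟨i, h⟩ else MvPolynomial.C (a0 i)

theorem eval_embP {d : ℕ} (r : ℕ) (a0 : Fin d → ℤ) (t : Fin r → ℤ) (i) :
    MvPolynomial.eval t (embP r a0 i) = emb r a0 t i := by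
  unfold embP emb
  split_ifs <;> simp

section alg
variable {F : Polynomial ℤ} (hF : F.Monic)

/-- the generic multiplication matrix on a slice -/
noncomputable def Lgen (r : ℕ) (a0 : Fin F.natDegree → ℤ) :
    Matrix (Fin F.natDegree) (Fin F.natDegree) (MvPolynomial (Fin r) ℤ) :=
  ∑ l, embP r a0 l • (lm hF (bas hF l)).map MvPolynomial.C

theorem lm_el (a : Fin F.natDegree → ℤ) : lm hF (el F a) = ∑ l, a l • lm hF (bas hF l) := by
  rw [el_eq hF]
  unfold lm
  rw [map_sum]
  refine Finset.sum_congr rfl fun l _ => ?_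
  rw [map_zsmul]

theorem Lgen_eval (r : ℕ) (a0 : Fin F.natDegree → ℤ) (t : Fin r → ℤ) :
    (Lgen hF r a0).map (MvPolynomial.eval t) = lm hF (el F (emb r a0 t)) := by
  rw [lm_el]
  unfold Lgen
  ext i j
  simp only [Matrix.map_apply, Matrix.sum_apply, Matrix.smul_apply, smul_eq_mul, map_sum, map_mul,
    eval_embP, MvPolynomial.eval_C]

/-- the norm form on a slice -/
noncomputable def Nf (r : ℕ) (a0 : Fin F.natDegree → ℤ) : MvPolynomial (Fin r) ℤ :=
  (Lgen hF r a0).det

theorem Nf_eval (r : ℕ) (a0 : Fin F.natDegree → ℤ) (t : Fin r → ℤ) :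
    MvPolynomial.eval t (Nf hF r a0) = nm hF (el F (emb r a0 t)) := by
  unfold Nf nm
  rw [RingHom.map_det, ← Lgen_eval]
  rfl

/-- coordinates of `(star α) ^ k * y` on a slice -/
noncomputable def Sf (r : ℕ) (a0 : Fin F.natDegree → ℤ) (k : ℕ) (y : AdjoinRoot F) :
    Fin F.natDegree → MvPolynomial (Fin r) ℤ :=
  (Lgen hF r a0).adjugate ^ k *ᵥ (fun i => MvPolynomial.C ((bas hF).repr y i))

theorem Sf_eval (r : ℕ) (a0 : Fin F.natDegree → ℤ) (k : ℕ) (y : AdjoinRoot F) (t : Fin r → ℤ) (l) :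
    MvPolynomial.eval t (Sf hF r a0 k y l) =
      ((lm hF (el F (emb r a0 t))).adjugate ^ k *ᵥ (fun i => (bas hF).repr y i)) l := by
  unfold Sf
  have h1 : ((Lgen hF r a0).adjugate ^ k).map (MvPolynomial.eval t) =
      (lm hF (el F (emb r a0 t))).adjugate ^ k := by
    rw [← Lgen_eval, ← RingHom.mapMatrix_apply, map_pow, RingHom.map_adjugate]
    rfl
  rw [← h1]
  simp [Matrix.mulVec, dotProduct]

/-- The coordinates of `β` on a slice: `b_l * N(t)^k = M (m A_l(t) - B_l(t))`. -/
theorem coord_eq (k : ℕ) (M m : ℤ) (a b : Fin F.natDegree → ℤ)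
    (h : (M : AdjoinRoot F) * ((m : AdjoinRoot F) - AdjoinRoot.root F) = el F a ^ k * el F b) (l) :
    b l * (nm hF (el F a)) ^ k = M * (m * ((lm hF (el F a)).adjugate ^ k *ᵥ
      (fun i => (bas hF).repr 1 i)) l - ((lm hF (el F a)).adjugate ^ k *ᵥ
      (fun i => (bas hF).repr (AdjoinRoot.root F) i)) l) := by
  -- coordinates of both sides
  have hpow : ∀ j : ℕ, ∀ y : AdjoinRoot F,
      (fun i => (bas hF).repr (el F a ^ j * y) i) = lm hF (el F a) ^ j *ᵥ (fun i => (bas hF).repr y i) := by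
    intro j
    induction j with
    | zero => intro y; simp
    | succ j ih =>
      intro y
      rw [pow_succ, mul_assoc, ih, pow_succ, ← Matrix.mulVec_mulVec, lm_mulVec]
  have h1 : (fun i => (bas hF).repr ((M : AdjoinRoot F) * ((m : AdjoinRoot F) - AdjoinRoot.root F)) i)
      = M • (m • (fun i => (bas hF).repr 1 i) - (fun i => (bas hF).repr (AdjoinRoot.root F) i)) := by
    have : (M : AdjoinRoot F) * ((m : AdjoinRoot F) - AdjoinRoot.root F) =
        M • (m • (1 : AdjoinRoot F) - AdjoinRoot.root F) := by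
      rw [zsmul_eq_mul, zsmul_eq_mul, mul_one]
    rw [this]
    funext i
    rw [map_zsmul, map_sub, map_zsmul]
    simp
  have h2 : M • (m • (fun i => (bas hF).repr 1 i) - (fun i => (bas hF).repr (AdjoinRoot.root F) i))
      = lm hF (el F a) ^ k *ᵥ b := by
    rw [← h1, h, hpow]
    congr 1
    funext i
    exact repr_el hF b i
  have h3 : (lm hF (el F a)).adjugate ^ k * lm hF (el F a) ^ k = (nm hF (el F a)) ^ k • (1 : Matrix _ _ ℤ) := by
    have hc : Commute (lm hF (el F a)).adjugate (lm hF (el F a)) := by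
      unfold Commute SemiconjBy
      rw [Matrix.adjugate_mul, Matrix.mul_adjugate]
    rw [← hc.mul_pow, Matrix.adjugate_mul, smul_pow, one_pow]
    rfl
  have h4 := congrArg (fun v => ((lm hF (el F a)).adjugate ^ k *ᵥ v) l) h2
  simp only [Matrix.mulVec_mulVec, h3, Matrix.smul_mulVec, Matrix.one_mulVec, Matrix.mulVec_smul,
    Matrix.mulVec_sub, Pi.smul_apply, Pi.sub_apply, smul_eq_mul] at h4
  rw [mul_comm]
  exact h4.symm

theorem coord_eq_slice (r : ℕ) (a0 : Fin F.natDegree → ℤ) (t : Fin r → ℤ) (k : ℕ) (M m : ℤ)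
    (b : Fin F.natDegree → ℤ)
    (h : (M : AdjoinRoot F) * ((m : AdjoinRoot F) - AdjoinRoot.root F) =
      el F (emb r a0 t) ^ k * el F b) (l) :
    b l * (MvPolynomial.eval t (Nf hF r a0)) ^ k = M * (m * MvPolynomial.eval t (Sf hF r a0 k 1 l) -
      MvPolynomial.eval t (Sf hF r a0 k (AdjoinRoot.root F) l)) := by
  rw [Nf_eval, Sf_eval, Sf_eval]
  exact coord_eq hF k M m _ b h l

end alg

end Crest.Agent.R022.Torsor
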